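import Crest.Agent.Lib.S0047.Helper85CertPL12F0
import Crest.Agent.Lib.S0047.Helper85CertPL12F1
set_option autoImplicit false
set_option linter.all false
set_option Elab.async false
namespace Crest.Agent.S0047.Helper85.Cert
open Crest.Agent.S0047.Helper85

noncomputable def rh679d16487bd7d14d : CRef := CRef.mk (Pat.mk 0x2000000000000000a000000000000000000000000000000000 0x800000118000001bf00000ffe00000fff00000fff00000eee000003fc000001fe000001d000000040 13 12) 0 0 (step_sound _ 165 [(rh0b4d5ca2b621a449.shift 0 1), (rh6dc6369470812c85.shift 1 1), (rh76bc3e01c6e83c24.shift 1 1), (rh9a103c10e817c2ce.shift 1 1), (rhae10c8847ebe2918.shift 1 1), (rhb70946e4922834d6.shift 2 1), rhf3185d28170b3ead, (rhfb40af538ce5bda9.shift 3 2)] (by decide +kernel))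
noncomputable def rhcce6d0545b3bfb32 : CRef := CRef.mk (Pat.mk 0x18000000100000005000000000000000000000000000000000 0x320000003a000000ff000000df000000ff000000fc00000774000003e0000007e0000000e000000020 13 11) 0 0 (step_sound _ 227 [rh762c05c9c590631e, (rha3df16ea9c8576c8.shift 3 4), (rhc89253ff58c66167.shift 3 4), (rhe072fffdd2fccf38.shift 3 4)] (by decide +kernel))
noncomputable def rhf067a6a7f36de420 : CRef := CRef.mk (Pat.mk 0x3000000020000000a000000000000000000000000000000000 0x6000000078000001fe000001be000001ff000001f700000eee000007ce00000fca000001c000000040 13 12) 0 0 (step_sound _ 228 [rh523087442f9fe479, (rha3df16ea9c8576c8.shift 4 4), (rhc89253ff58c66167.shift 4 4), (rhe072fffdd2fccf38.shift 4 4)] (by decide +kernel))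
noncomputable def rh0cd2fc5928b4c7ce : CRef := CRef.mk (Pat.mk 0x40000000d000000080000000800000000000000000 0x8000001b8000001b8000001b8000000f8000000dc000001ff000001be0000013f00000028 13 9) 0 0 (step_sound _ 167 [(rh1adc8391535f5fb2.shift 6 1), rh3444e63f6b9348c5, rhf2a0631f49fd00dc] (by decide +kernel))
noncomputable def rh09cad63ef595a2a0 : CRef := CRef.mk (Pat.mk 0x40000001c000000080000000000000000000000000 0x1f8000001f8000001b8000000fe000001fc000001ff0000003e0000003f00000028 13 9) 0 0 (step_sound _ 164 [(rh075211c3608a5a57.shift 3 4), rh109a0776e33ab25d, (rh4b858afe2cb38247.shift 4 4), (rh876086c78aa9d0e6.shift 3 3), (rh99b483060241dee5.shift 3 2)] (by decide +kernel))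
noncomputable def rhbb2ce83129eb7330 : CRef := CRef.mk (Pat.mk 0x4000000040000001400000004000000000 0x8000000080000073f000007fe00000fff000001de0000017c0000003e 13 12) 0 0 (step_sound _ 37 [(rh932754581e0f4330.shift 5 0), rhac3eb13cf7ef00c9] (by decide +kernel))
noncomputable def rh2c696265f7be2eea : CRef := CRef.mk (Pat.mk 0xe0000000800000020000000000000001000000000000000000000000000000000000000000000000000000000 0x50000000780000006e0000007c00000020000001f00000007800000078000000ff000000fe0000003f000000380000003800000028 13 9) 0 0 (step_sound _ 325 [rh22cb5a728842e44b, (rh68691964b29f233d.shift 1 10), rhc8a76fc705a0e104] (by decide +kernel))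
noncomputable def rh2ab66533f0551b9f : CRef := CRef.mk (Pat.mk 0x80000000800000028000000000000001000000000000000000000000000000000000000000 0x3cc000001f8000003ba000003eff00001ffe00003fff00000f7000000f7000000e2000000800 13 14) 0 0 (step_sound _ 167 [(rh17fc1408289b8479.shift 4 4), (rh58605c129974860c.shift 6 0), (rh6dfad99a853f0c59.shift 4 2), (rh9066c4001a6267ea.shift 0 1), (rha3711ed12866f068.shift 6 4)] (by decide +kernel))
noncomputable def rh34997f6f9de11620 : CRef := CRef.mk (Pat.mk 0x600000002000000000000000000000000000000000 0x6000000060000078f000003fe000007ff000001ce000001ce000001c600000100 13 11) 0 0 (step_sound _ 167 [(rh2820ca9a6c4f41b4.shift 2 4), (rh352b7f91eba0c81f.shift 4 4), rh54df8743f93056be, (rhf6730ecfcbd6f544.shift 4 4)] (by decide +kernel))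
noncomputable def rhfaee4c04fd30d153 : CRef := CRef.mk (Pat.mk 0x200000002000000020000000400000004000000040000000000000000000000000000000000000000000000000 0x40000001c0000001c0000001d0000007ff000007fe00000fee000000bc000000fc0000002000000040000000fc000003fc000003fc000000fc000000e0000000e0000000e0000000a0 13 12) 0 0 (step_sound _ 422 [(rh778247b0f47f9b13.shift 2 0), (rh929a9eb68ac80125.shift 0 9)] (by decide +kernel))
noncomputable def rh811a423828dde17c : CRef := CRef.mk (Pat.mk 0x4000000000000000e000000020000000000000000000000000 0x4600000046000001cf000000fe000001bf0000008e0000000e00000006 13 9) 0 0 (step_sound _ 166 [(rh5c5e593799055d58.shift 5 3), rh66787e485fa8f1a1] (by decide +kernel))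
noncomputable def rh26838897263a8a1c : CRef := CRef.mk (Pat.mk 0x200000002000000020000000a0000000000000000000000000 0x500000007000000078000001bc000001ff000001be000001ff000000ee000001ae0000018a00000180 13 9) 0 0 (step_sound _ 196 [(rh50fbb5868c909700.shift 4 3), rh775a1435b3d6bfce] (by decide +kernel))
noncomputable def rh9145601c59378789 : CRef := CRef.mk (Pat.mk 0x2000000034000000200000002000000000000000000000000000000000 0xa0000006e0000006e0000006e000000360000003e000000670000003e0000003f0000000e0000000a 13 7) 0 0 (step_sound _ 164 [(rh5fa50b509d4ce753.shift 4 4), rh9a46067a8478d22c] (by decide +kernel))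
noncomputable def rhbcbe4a7964ef146b : CRef := CRef.mk (Pat.mk 0x2000000020000000a0000000a00000000000000000000000000000000 0x28000000f8000000ff000001ff000000ff0000003e0000003b0000003a0000000a000000080000001c0000001c00000014 13 9) 0 0 (step_sound _ 228 [(rh11495b026e5f79b6.shift 0 4), (rh618eac22275a2a58.shift 2 0), rh6e3385719caa0e86, (rh816bf7ab7597137e.shift 0 4), (rhe8964f0a4e6e5167.shift 1 0), (rhf026def0cc87987d.shift 0 3), (rhfb3161bb19599d2b.shift 1 0)] (by decide +kernel))
noncomputable def rhbf4dddd8cfcc8da1 : CRef := CRef.mk (Pat.mk 0x80000000800000008000000280000000000000030000000100000000000000000 0xf40000017c000003e8000001f8000003b8000001f7000003fe0000007e0000002000000020 13 10) 0 0 (step_sound _ 135 [(rh0f81689a5db23152.shift 3 2), rh1303676eb0aac25c, (rh9b109fb9f11b6a84.shift 2 2), (rhc311820c698ef129.shift 2 2)] (by decide +kernel))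
noncomputable def rh0c9d061d41ef762d : CRef := CRef.mk (Pat.mk 0x8000000080000000800000028000000000000003000000010 0xf40000017c000003e8000001f8000003b8000001f7000003fe000003be 13 10) 0 0 (step_sound _ 71 [(rh0f81689a5db23152.shift 3 0), rh949854df036d7020, (rh9b109fb9f11b6a84.shift 2 0), (rhc311820c698ef129.shift 2 0)] (by decide +kernel))
noncomputable def rh544e8764af65a7f1 : CRef := CRef.mk (Pat.mk 0x3000000010000000100000005000000000000000200000000000000000000000000000000000000000 0x8000000f8000000d0000000d000000050000007de000003fe000007ff000001e0000001e0000001c000000100 13 11) 0 0 (step_sound _ 164 [(rh00cd22a051b99f5a.shift 0 1), (rh4785f873245ad84e.shift 3 0), (rh585856177ce4423b.shift 1 4), (rha3711ed12866f068.shift 3 4), (rha9b99e36c7eb142c.shift 1 4)] (by decide +kernel))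
noncomputable def rhcb923379c24f3b6e : CRef := CRef.mk (Pat.mk 0x600000000000000140000000000000000000000000 0x18000002380000023800000fff000007fe00000f7f000001dc000003f8000003fc00000280 13 12) 0 0 (step_sound _ 134 [rh48bc1b7e6d464c04, (rha24fb0d48ef58c8d.shift 1 0), (rha93e7f24c48cc3e2.shift 1 2), (rhb1a251d9bff81766.shift 5 2)] (by decide +kernel))
noncomputable def rh9997595498624880 : CRef := CRef.mk (Pat.mk 0x180000000000000050000000000000000000000000 0x28000000380000003c0000003c0000003e000003bf000001fe000003de000000770000007e0000003f00000028 13 10) 0 0 (step_sound _ 132 [(rh08a2a7b5b1c507e8.shift 0 2), rha321187b1b18b0a1, (rhb1a251d9bff81766.shift 3 2)] (by decide +kernel))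
noncomputable def rh5d73c82e07a6f038 : CRef := CRef.mk (Pat.mk 0xf0000000000000014000000000000000000000000000000000 0x200000002000000070000000f000000058000001de000001ff000001fe000001e0000000a0 13 9) 0 0 (step_sound _ 164 [rh7f8fcd63ffdfed95, (rheb0810cc63b001d8.shift 3 5)] (by decide +kernel))
noncomputable def rhd5a047d220532cce : CRef := CRef.mk (Pat.mk 0x70000000080000014000000000000000000000000000000000 0x200000002000000070000000f000000058000001de000001ff000001fe000001e0000000a0 13 9) 0 0 (step_sound _ 164 [(rh18965a982d73c794.shift 3 5), rh7f8fcd63ffdfed95] (by decide +kernel))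
noncomputable def rh44929148243f1043 : CRef := CRef.mk (Pat.mk 0x88000000f0000000000000014000000000000000000000000000000000 0x8c000000f800000058000001de000001ff000001fe000001e0000000a0 13 9) 0 0 (step_sound _ 102 [(rh04253f50b6dd0619.shift 6 3), rh05867a132e982f64] (by decide +kernel))
noncomputable def rh40f7ad64495475e5 : CRef := CRef.mk (Pat.mk 0x70000000000000014000000000000000000000000000000000 0x2000000038000007bc000003f00000037e000001de000001ff000001fe000001e0000000a0 13 11) 0 0 (step_sound _ 164 [(rh4f8e450efc5b9f0e.shift 3 5), rh72573f89d5d3cd67, (rhca29b7bd6b2a4d95.shift 2 3), (rhe6eba247eb01e4f0.shift 3 3), (rhf0f55c4504412200.shift 1 5)] (by decide +kernel))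
noncomputable def rhdeb5d823b6a1665e : CRef := CRef.mk (Pat.mk 0x78000000400000005000000000000000000000000000000000 0xc70000007e0000005e000000740000007e000000770000002000000020 13 8) 0 0 (step_sound _ 101 [(rh698361c8a3307363.shift 4 0), (rh9f800c1ac9d1e39e.shift 0 2), (rhcf9240a90a4519c3.shift 3 3)] (by decide +kernel))
noncomputable def rh820705da90a3b0a5 : CRef := CRef.mk (Pat.mk 0x600000000000000140000000000000000000000000 0xa0000000e0000000f8000000f8000003ff0000007e0000007f000001dc000000fc000000fc000000a0 13 10) 0 0 (step_sound _ 134 [(rh56259dd1390eee46.shift 5 0), (rh7b24c4ccc068b0b2.shift 5 2), (rha321187b1b18b0a1.shift 2 0), (rhc90acbfdb2d7fdf8.shift 0 2)] (by decide +kernel))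
noncomputable def rhd84c24e4064bd6da : CRef := CRef.mk (Pat.mk 0x7000000000000000000000002 0x140000001e0000001e0000007e000000fe0000007f000000fe0000000e0000000a 13 8) 0 0 (step_sound _ 99 [rh004505c6dfb401de, rh3bd5926ff800185e, (rh3fc3a7fb6866dcd4.shift 0 2), (rh568e38204266cde5.shift 0 1), rh95170e0f65ca0fd9, rhced19218c208a1e0] (by decide +kernel))
noncomputable def rh4153dd2efd0fcd4f : CRef := CRef.mk (Pat.mk 0x180000000c0000000000000010 0x50000000780000007f000000ff000000fe00000078000000fc000000f800000010 13 8) 0 0 (step_sound _ 101 [(rh18965a982d73c794.shift 2 2), rh740a7f68d12c8f9d] (by decide +kernel))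
noncomputable def rhb5fd7ff520471138 : CRef := CRef.mk (Pat.mk 0x60000000100000000000000050000000000000000000000000 0x28000000398000003b800000fb800000fff000007fe00000ff7000001f000000050000000380000003800000028 13 12) 0 0 (step_sound _ 229 [(rh62a6b12c43eae066.shift 2 3), (rhccb0eb046a7db929.shift 3 3), (rhcdfba260e5024b09.shift 3 0), (rhec43871de1216a7b.shift 2 3), (rheeb64bb0fbb5ad43.shift 0 3)] (by decide +kernel))
noncomputable def rh6fe370a543f370bb : CRef := CRef.mk (Pat.mk 0x30000000080000000000000028000000000000000000000000 0x7e000001ff000001f8000000fe000001f8000001f8000000280000001c0000001c00000014 13 9) 0 0 (step_sound _ 228 [(rh5314677624ba094d.shift 0 3), (rhccb0eb046a7db929.shift 2 3), (rhcdfba260e5024b09.shift 2 0), (rhd907ba83f67dbeb5.shift 3 3), (rhec43871de1216a7b.shift 1 3)] (by decide +kernel))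
noncomputable def rhc4095ebc22c99eb2 : CRef := CRef.mk (Pat.mk 0x18000000040000000000000014000000000000000000000000 0x620000007f000000ff000000ff0000007f0000001c0000001c000000140000000e0000000e0000000a 13 8) 0 0 (step_sound _ 227 [(rh21a8eeffebb580e4.shift 0 3), (rh32d5e450774e6499.shift 1 3), (rh369b46dbf20fdf3c.shift 0 3), (rh5bcb864630956b68.shift 0 3), (rhcdfba260e5024b09.shift 1 0)] (by decide +kernel))
noncomputable def rh38bed9da7425f3b6 : CRef := CRef.mk (Pat.mk 0x60000000100000000000000050 0x188000001a8000001fc000003fc000003fe000007d70000005000000050 13 11) 0 0 (step_sound _ 100 [(rh08d92d5722d65197.shift 2 0), (rh149833733f3d30f6.shift 2 0), (rh2453c5c0fd32822d.shift 2 0), (rh412f1f80a1be7ac3.shift 3 0), (rh5c4a3e6d1209d493.shift 2 0), rhb5327a868069ee07, (rhde8a0914f3a9d056.shift 3 0), (rhf02fe338b0949524.shift 3 0)] (by decide +kernel))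
noncomputable def rh5addfed2bb5d7e60 : CRef := CRef.mk (Pat.mk 0x4000000020000000000000008000000000000000000000000000000000 0x1f0000001f8000001f8000007fc00000fff000007fe000007df0000008800000080000001c0000001c000000140 13 12) 0 0 (step_sound _ 198 [(rh040ec35e4e6abb9c.shift 2 0), (rh1a95ae732a4fadc1.shift 3 0), (rh6c223df33e692b1c.shift 0 4), (rh6ec8cf01606a08ea.shift 1 3), (rh84c8d1770ca8bf92.shift 2 4), (rha520aa44ef536577.shift 1 3), (rhab6c7666dfa09004.shift 1 3), (rhd06c6f548c4cdcbb.shift 3 3)] (by decide +kernel))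
noncomputable def rh155a57e88c1d3a93 : CRef := CRef.mk (Pat.mk 0xc00000002000000000000000a0000000000000000000000000 0x1fc000001fc000001be000000fe000001ff000001f8000000a8000000f00000007000000050 13 9) 0 0 (step_sound _ 196 [(rh08cccd64415f3926.shift 3 3), (rh42b78a50078266ed.shift 3 2), rh64e44cc33db180f4, (rh8d9033118b6a6bf7.shift 2 4), (rhf41ca52fadae593c.shift 0 2), (rhf9fc5c36fe919ea1.shift 3 2)] (by decide +kernel))
noncomputable def rh9bae389b2618af25 : CRef := CRef.mk (Pat.mk 0x400000008000000000000002800000000000000000000000000000000 0x120000005a0000005f000003ff000003ff000007ff000000380000002c0000001c0000001c00000010 13 11) 0 0 (step_sound _ 163 [(rh041e4d25099758bc.shift 2 3), (rh3c05cf994512bd8a.shift 0 3), (rhbec796c3ea7a32e6.shift 1 3), (rhd1ae51dd049cce10.shift 2 2), (rhf267cafeab58b428.shift 2 0)] (by decide +kernel))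
noncomputable def rhce72aab1243c4247 : CRef := CRef.mk (Pat.mk 0x10000000100000003000000000 0x280000003e000001ff000000ff000001ff0000003e000000f8000000c8 13 9) 0 0 (step_sound _ 132 [(rh73f605273a09a9d0.shift 4 1), (rh8dc3840b1b211ab7.shift 1 1), (rhaf349dd7709502bf.shift 3 1), rhf05bc920d4f38d1c] (by decide +kernel))
noncomputable def rh01e7062cd565a4f1 : CRef := CRef.mk (Pat.mk 0x800000010000000000000005000000000 0x3e0000007e000001ff000001ff000001ff000000ff000000ff0000007600000040 13 9) 0 0 (step_sound _ 132 [(rh0e56675454d4f557.shift 0 1), (rh153582022cf29b9e.shift 0 1), rh4003b032f5b5e3a7, (rh7351e858a26a73d2.shift 0 1), (rh828c93e6b365b7d3.shift 0 1), (rh87724bcd580e758d.shift 0 1), (rh8a821bba272de551.shift 0 1), rh94926f21402ff548, rha0a60d253ab93f99] (by decide +kernel))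
noncomputable def rh237d537de06d7e1b : CRef := CRef.mk (Pat.mk 0x800000018000000000000005000000000000000000000000000000000 0x28000000b8000000f8000000f0000000f8000000de000000ff00000077000000d0000000e0000000e000000020 13 8) 0 0 (step_sound _ 164 [(rh7b1f1fb55310c477.shift 3 3), rhf0166afdce5ca691] (by decide +kernel))
noncomputable def rhfeebd2d7fa6633ec : CRef := CRef.mk (Pat.mk 0x2000000040000000000000014000000000 0xf8000001f8000007fc00000fff000007fe00000fdf000001d8000001d800000140 13 12) 0 0 (step_sound _ 134 [(rh3dba06a411954d11.shift 4 0), (rh3fd2d51467c42c9d.shift 2 1), (rh50e542894165c74f.shift 1 0), (rh5b8158ef4e59c8d7.shift 4 0), (rh828c93e6b365b7d3.shift 2 1), (rh8a821bba272de551.shift 2 1), (rhd47976dfded143c6.shift 0 1)] (by decide +kernel))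
noncomputable def rh767999a167435443 : CRef := CRef.mk (Pat.mk 0x100000002000000000000000a000000000 0x80000000f8000001fc000003fe000007fe000003ff000007de000000e0000000a0 13 11) 0 0 (step_sound _ 102 [(rh38f08f57ceb3f67e.shift 2 2), (rh66cb6d448fc48689.shift 1 0), (rh6814aacdcb476980.shift 1 0), (rh70650bf695bb2144.shift 2 0), (rh7f7021bf59afe605.shift 2 2), (rh86b5c0a2812410cc.shift 2 0), (rhb4a22e831ba846a7.shift 2 0), (rhb861f99b61cd5b5e.shift 2 0), rhd36fe51f48ccc1b9, (rhfcdcc9190569a22e.shift 3 0)] (by decide +kernel))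
noncomputable def rhd57cde82c7a6101b : CRef := CRef.mk (Pat.mk 0x140000000400000014000000000000000000000000000000000 0x29800001fb800000fbf00001dfe00000fff00001ddc0000039c000003800000038000000080 13 13) 0 0 (step_sound _ 168 [(rh3e95a6526849b81f.shift 3 2), (rh78bf6bc37ec794d0.shift 3 0), (rha32f38d62fab7886.shift 6 3), (rha448e4252868b3e6.shift 5 3), (rhf10cb9b1d3808e81.shift 0 3), (rhf938f68fcb666a39.shift 3 3)] (by decide +kernel))
noncomputable def rh304542f6e0502fc2 : CRef := CRef.mk (Pat.mk 0x7800000000 0x140000009c000000fc000000fe0000007f000000fc000000780000002c 13 8) 0 0 (step_sound _ 67 [(rh3244c3cc8379b070.shift 2 1), rh92c8a93d97165c40] (by decide +kernel))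
noncomputable def rhbae9b29932168f24 : CRef := CRef.mk (Pat.mk 0x800000000000000100000001e000000000 0xf0000000f000000ffc00000ffc00000f7c0000017f000001fe0000035f 13 12) 0 0 (step_sound _ 136 [(rh08483dfc96493c08.shift 3 1), (rh0c975b96b3bc57f9.shift 2 0), (rh24548ac6817b149f.shift 2 0), (rh325939e17746fd96.shift 2 0), rh5fe6bd97ec895e7c, (rh7e231784d6994939.shift 5 0)] (by decide +kernel))
noncomputable def rh6850f29699b0e3a4 : CRef := CRef.mk (Pat.mk 0x200000000000000000000000f000000000000000a00000000 0xa0000004e0000004e000000fc0000007f000000740000002e0000002a 13 8) 0 0 (step_sound _ 100 [(rh09fb535ca4a6bcb6.shift 1 0), (rh3fc3a7fb6866dcd4.shift 1 2), (rh9890f9d77740bbed.shift 0 3), rhb27ac1d984d11ca6] (by decide +kernel))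
noncomputable def rh8d0abd03389c87b3 : CRef := CRef.mk (Pat.mk 0x100000000000000000000000f8000000000000005000000000 0x1ff000000fe000001ef000000ec000003f8000003ac0000007000000050 13 10) 0 0 (step_sound _ 72 [rh0ad41b3ab49dda53, (rh96851dee118c1ba3.shift 4 2)] (by decide +kernel))
noncomputable def rhb543d29ae4ae438b : CRef := CRef.mk (Pat.mk 0x100000000000000000000000f8000000000000005000000000 0x40000001ff000000fe000001ef0000076c000003f8000003ac0000007000000050 13 11) 0 0 (step_sound _ 72 [rh94b635a9bf858f17, (rh96851dee118c1ba3.shift 4 2)] (by decide +kernel))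
noncomputable def rh3fa214a74edb4b6f : CRef := CRef.mk (Pat.mk 0x200000002000000000000000f000000000 0xa0000000e0000015e000001ff000001bf000001ff0000018e000000fe0000005f 13 9) 0 0 (step_sound _ 35 [(rh592c7139d2c44767.shift 1 0), rhca5743236340714b, rhcc8ea289b2eb5cda, (rheae1728ff4a56756.shift 2 0)] (by decide +kernel))
noncomputable def rh810acf63b2a3ec38 : CRef := CRef.mk (Pat.mk 0x200000002000000020000000e00000000 0x3d0000001f0000003e000000120000003a0000003f00000071 13 7) 0 0 (step_sound _ 32 [rh26071026ed7a5635, rh932754581e0f4330] (by decide +kernel))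
noncomputable def rh3163ce09563c79b5 : CRef := CRef.mk (Pat.mk 0x200000000000000000000000f000000008 0x28000000380000003e000000fe000000fe000003ff000003fe000003ff000003ae000003fc0000070c 13 11) 0 0 (step_sound _ 72 [(rh428265de8cd3cd2d.shift 4 1), rhe98af143e19584d6] (by decide +kernel))
noncomputable def rh00248e00edd7f4db : CRef := CRef.mk (Pat.mk 0x1800000000000000000000007800000000 0x80000000e0000000e0000000f0000003fc000001f8000003e0000001c7000001fe000003ae 13 10) 0 0 (step_sound _ 2 [rh3f63bafc4e997871, (rh80fcd6d0a18cb2dd.shift 2 0)] (by decide +kernel))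
noncomputable def rh0a3966656baac687 : CRef := CRef.mk (Pat.mk 0x200000002000000020000000e00000000 0x3d0000001f0000003b000000120000003a0000003f00000071 13 7) 0 0 (step_sound _ 32 [rh9223edbc0781aa37, rh932754581e0f4330] (by decide +kernel))
noncomputable def rh8a48ba4d586e8221 : CRef := CRef.mk (Pat.mk 0x1000000000000000000000007000000000 0x140000001c0000003c0000003c000000fc000003ff000001fe000003ff000001ce000000fc000001ae 13 10) 0 0 (step_sound _ 35 [rh180bb007e80fc49a, (rh592c7139d2c44767.shift 1 0), rhb9a6451dc6ade2c8] (by decide +kernel))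
noncomputable def rh8a9a6787bef64bad : CRef := CRef.mk (Pat.mk 0x1000000010000000000000007800000000 0x1c000000bc000003ff000001fe000003ff000000c0000000780000002c 13 10) 0 0 (step_sound _ 2 [rh4b36e868b7e4bff2, (rh80fcd6d0a18cb2dd.shift 2 0)] (by decide +kernel))
noncomputable def rhe101e934cfd10bcf : CRef := CRef.mk (Pat.mk 0x1e000000000000000a00000000 0xfe0000007f000000ff0000003e0000007f000000140000000e0000000a 13 8) 0 0 (step_sound _ 132 [(rh33e738c4ed385b9f.shift 1 3), rh33fa628f22fbd226] (by decide +kernel))
noncomputable def rhc2d32643e71b8709 : CRef := CRef.mk (Pat.mk 0x3800000000 0x52000003fe000001fe000003be0000007f0000003e00000017 13 10) 0 0 (step_sound _ 34 [(rh4c622fddc53a5f99.shift 0 1), rh592c7139d2c44767, rh9e97bba44c1b13e4, (rhb3ed8711220de541.shift 1 0)] (by decide +kernel))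
noncomputable def rhff67cec5819e2570 : CRef := CRef.mk (Pat.mk 0x100000001e000000000000000000000000 0x280000003d0000003f000000ff000000fe0000001f0000001e000000340000000400000004 13 8) 0 0 (step_sound _ 164 [(rh09f6529dec9cc907.shift 0 3), (rh346667edc7d69bf6.shift 0 2), (rh5363da795185672d.shift 1 2), (rh8b185f132db395bd.shift 1 2), (rh9b78d4173d9d709a.shift 1 2), (rhb77800470236b514.shift 0 2), rhfe4cfee4125bbec4] (by decide +kernel))
noncomputable def rhc08fee32a3b16ed1 : CRef := CRef.mk (Pat.mk 0x200000012000000020000000200000002000000000000000000000000 0x50000002f0000003f0000003b000000360000003e0000007b0000003f0000007e0000003800000028 13 7) 0 0 (step_sound _ 257 [rh0060309cb382f6cc, (rh3ca48e2a6d60153d.shift 0 4), (rhc85cc95794737cf7.shift 0 5)] (by decide +kernel))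
noncomputable def rhe8cd263375f8e1ae : CRef := CRef.mk (Pat.mk 0x8000000480000000800000008000000040000000000000000 0x80000000e0000007f4000003fc000007ff000007ec000003e8000000f8000000e8000000bc0000001c00000010 13 11) 0 0 (step_sound _ 230 [(rh208a4c077a50bdfe.shift 2 3), (rh3e1e91ac55a50490.shift 2 1), (rh5d5e17a25fe34856.shift 2 1), (rhce02adc732b2b6d2.shift 2 0), (rhe881a2948400ef77.shift 0 1), (rhed423986c2f53d73.shift 3 2)] (by decide +kernel))
noncomputable def rhde06d854b7ec3d7f : CRef := CRef.mk (Pat.mk 0x120000000200000002000000010000000000000000 0x28000001f8000000fc000001f8000003fe000001fe000001fa000001ff0000003f0000002c 13 10) 0 0 (step_sound _ 132 [rh0055e5bf52d0ee6a, rh0d40d43d4f455187, rh4d7c944ec3f9c72e, rh518960fcf3dbe6bb, (rh98d066b949f5ecde.shift 2 0), rhb4c82d8bd6f82432, rhceae80e86c500cde] (by decide +kernel))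
noncomputable def rh40144d5a87a66c2e : CRef := CRef.mk (Pat.mk 0x400000024000000040000000500000000000000000000000000000000 0x80000000c0000000c000000560000007c0000007e000003f7000001fe000003fc0000007000000050 13 10) 0 0 (step_sound _ 129 [rh9072c77a63d46ec9, (rh932754581e0f4330.shift 1 3)] (by decide +kernel))
noncomputable def rhfc1916acf14f621f : CRef := CRef.mk (Pat.mk 0x20000001200000002000000010000000000000000 0x20000000380000003d0000007f0000003e0000007b000000fe000000fb000000f90000003800000028 13 8) 0 0 (step_sound _ 131 [(rh01e48cd9f335aa73.shift 0 3), (rh92804a1c675173ab.shift 0 3), (rha1c7cefca69aa45b.shift 0 2), rhb8e18efd6a18e787] (by decide +kernel))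
noncomputable def rh95864bacc1a16d3a : CRef := CRef.mk (Pat.mk 0x200000012000000020000000200000000000000000000000000000000 0x2d0000003f0000007f0000003e0000007b000000360000003f0000003b0000003f0000003f0000003f0000002d 13 7) 0 0 (step_sound _ 128 [rh53e5c0f9074a77a0, (rh932754581e0f4330.shift 0 3)] (by decide +kernel))
noncomputable def rh2781bb1c49a3838b : CRef := CRef.mk (Pat.mk 0x4000000240000000400000005000000000000000000000000 0x500000007a000000fe0000007c000000f6000000f4000001fe000001f7000001f20000007000000050 13 9) 0 0 (step_sound _ 97 [rh02c8a45adc5fb5af, (rh932754581e0f4330.shift 1 2)] (by decide +kernel))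
noncomputable def rhf4eaa1ff1677f8eb : CRef := CRef.mk (Pat.mk 0x20000000200000012000000020000000000000000 0x2800000038000000380000007c0000003e0000007b000000fe000000fb000000f900000028 13 8) 0 0 (step_sound _ 99 [(rh5710f30ba40ee3ec.shift 0 1), (rh92804a1c675173ab.shift 0 2), rhe2f648f459684a60] (by decide +kernel))
noncomputable def rh11553c7a4de2bbbf : CRef := CRef.mk (Pat.mk 0x80000000800000048000000080000000800000000000000000000000000000000 0xa0000000f0000001f8000000fc000001ef000001e8000003fc000003ec000003e0000000e0000000e0000000a0 13 10) 0 0 (step_sound _ 165 [(rh09fcfcabafae732b.shift 2 3), (rh2b2cd9c904c96d60.shift 0 3), (rh3340573b24f6b729.shift 2 4), (rh4ff0a1ffe308a2a8.shift 2 3), (rha95e0fa82a1336a6.shift 2 3), (rhaebf895d3f07b42e.shift 2 0), (rhc4659ca4defee4bc.shift 2 0)] (by decide +kernel))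
noncomputable def rhbb470121d8ab4bdc : CRef := CRef.mk (Pat.mk 0x1000000002000000120000000200000002000000000000000000000000 0x28000000380000003d0000003f0000003f0000003a0000003e0000003b0000003a0000003f0000002700000005 13 6) 0 0 (step_sound _ 225 [rh305c9c720bdfa936, (rh84c658ebba2eb2d8.shift 0 2), (rhab31aafa4d07eaf7.shift 0 2), (rhb45d382401969cd5.shift 0 4), (rhc85cc95794737cf7.shift 0 4), (rhf9a561948d0ad639.shift 0 4)] (by decide +kernel))
noncomputable def rh5b3904feb9027b5d : CRef := CRef.mk (Pat.mk 0x10000000020000001200000002000000020000000000000000 0x28000000f8000000f9000000ff0000007b000000360000003e0000003a0000003800000020 13 8) 0 0 (step_sound _ 192 [rha51b92e7baa1a2e3, (rhffd04209dc8ea796.shift 0 2)] (by decide +kernel))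
noncomputable def rhf8d1ab82aa8621e5 : CRef := CRef.mk (Pat.mk 0x1000000000000000120000000200000002000000000000000000000000 0x28000000f8000000fc000000fc00000038000000360000003e0000003a0000003f0000002700000005 13 8) 0 0 (step_sound _ 65 [rh6eff4158bb400f47, (rh8a88f43c78865f21.shift 1 0), (rhe965886c937508b7.shift 0 1), rhf8c8fa8cf2a8ecf8] (by decide +kernel))
noncomputable def rhfd5b0182e82354fd : CRef := CRef.mk (Pat.mk 0x10000000020000001200000002000000020000000000000000 0x1000000038000001f8000000f9000001fb0000007b0000003a000001fe000000fa0000003800000020 13 9) 0 0 (step_sound _ 192 [rhb4d9b8784318731b, (rhffd04209dc8ea796.shift 0 2)] (by decide +kernel))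
noncomputable def rhcf20331ad8e56f35 : CRef := CRef.mk (Pat.mk 0x1000000002000000120000000200000002000000000000000000000000 0x1000000038000001f8000000ff000000fb0000003b0000003a000001fe000000fa0000003f0000002700000005 13 9) 0 0 (step_sound _ 224 [rh4dee656191afb73d, (rhffd04209dc8ea796.shift 0 3)] (by decide +kernel))
noncomputable def rh1c8b2a74e6937441 : CRef := CRef.mk (Pat.mk 0x400000004000000040000000500000000000000000000000000000000 0x700000007200000076000000fc0000007e000000f7000001fe000000fe000001fe0000002a 13 9) 0 0 (step_sound _ 98 [(rh24555c6ea7f25f6e.shift 0 1), rh5a9af2431b10f070, (rh7928877f9bf74a91.shift 1 2), (rh8cdd36b03d57a2f6.shift 1 1)] (by decide +kernel))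
noncomputable def rh38b02e47b1d9c41d : CRef := CRef.mk (Pat.mk 0x10000000100000001000000010 0x2800000038000000380000003800000018000001ff000000fe000001ff00000010 13 9) 0 0 (step_sound _ 132 [(rh25c51f2550397a72.shift 0 1), (rh3ca48e2a6d60153d.shift 3 0), (rhd36e00a2fcc9623f.shift 0 1), rhd80fea93a6d14fbb] (by decide +kernel))
noncomputable def rh7e9a0fcb26f40a27 : CRef := CRef.mk (Pat.mk 0x10000000100000001000000010 0x2800000038000000380000003800000030000001ff000000fe000001ff00000010 13 9) 0 0 (step_sound _ 132 [(rh198b4d03be6df374.shift 1 0), (rh44f453b84f013105.shift 4 0), (rhd36e00a2fcc9623f.shift 0 1), (rhe01cfd8f0577defd.shift 3 1)] (by decide +kernel))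
noncomputable def rh8895b335492ec0f7 : CRef := CRef.mk (Pat.mk 0x100000001400000000000000100000000000000000 0x78000000fc000007ef000003fe000007f6000001f0000001d8000000d800000008 13 11) 0 0 (step_sound _ 165 [rh4428ed8f465efe4f, (rh5fcb7b1958bdee2f.shift 0 1), (rh84a3846b362970e2.shift 1 2), (rh87ac23ce835a3079.shift 3 0)] (by decide +kernel))
noncomputable def rhd127e5d9e20586cb : CRef := CRef.mk (Pat.mk 0x80000002800000028000000000000000000000000 0x60000001f7000001ff00001ffc00000ffe00001fe8000003c00000038000000380 13 13) 0 0 (step_sound _ 132 [(rh1d631b1d669ee842.shift 2 0), (rh7f5f1aa63a9c0aa1.shift 0 3), (rh8ee80cc30e93a344.shift 2 3), (rhdecfea980d8dd8aa.shift 2 3)] (by decide +kernel))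
noncomputable def rhb1e8211da2ae79a2 : CRef := CRef.mk (Pat.mk 0x200000002000000180000000a00000000000000000 0x54000000fc000000fe000000be000000ff000001ff000001bf000001be0000011e0000000e 13 9) 0 0 (step_sound _ 68 [(rh46a853abec03b753.shift 4 1), rh4de988b695b85e0a, (rh64bee028a02ea910.shift 1 0), (rh6b9d977dbddb0fc6.shift 1 1), (rhcd216bd8d0f5a607.shift 0 1)] (by decide +kernel))
noncomputable def rhb20f0682718ae6be : CRef := CRef.mk (Pat.mk 0x10000000c00000005000000000 0x8000001f8000000f8000007ff000003fe000007ff000000f0000001d800000088 13 11) 0 0 (step_sound _ 68 [(rh01e48cd9f335aa73.shift 3 1), (rh78a12a05b3ca5b20.shift 3 0), (rhbfd290dbc65b6c31.shift 3 0), rhfb9a20685efeeb73] (by decide +kernel))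
noncomputable def rhd3982a47ce5d2a64 : CRef := CRef.mk (Pat.mk 0x4000000300000001400000000 0x280000007800000078000007f7000003fe000007fe000001f4000001f4000001e0 13 11) 0 0 (step_sound _ 100 [(rh4e6f88d76e1542f1.shift 1 0), (rh9e9652ccf8412afe.shift 1 0), (rh9ebd639649ea671c.shift 1 2), rhadbabf2a67df647a] (by decide +kernel))
noncomputable def rha6b6ff740dd9bc94 : CRef := CRef.mk (Pat.mk 0x80000003000000028000000000000000000000000 0x60000001f7000001ff00001ffc00000ffe00001fe8000003c00000038000000380 13 13) 0 0 (step_sound _ 131 [(rh1d631b1d669ee842.shift 2 0), (rh7f5f1aa63a9c0aa1.shift 0 3), (rh8ee80cc30e93a344.shift 2 3), (rhdecfea980d8dd8aa.shift 2 3)] (by decide +kernel))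
noncomputable def rh2478be642a639cfe : CRef := CRef.mk (Pat.mk 0x1000000060000000500000000000000000 0xf9000001ff000001ff000007f7000001ff000003d70000018700000005 13 11) 0 0 (step_sound _ 133 [(rh04d57a4b47ddcfef.shift 3 2), (rh52d9468ba1fd2695.shift 1 2), (rh719a8500b2914a78.shift 3 1), (rh984050ca1417316e.shift 3 2), (rhb2691d715683a4b5.shift 3 1), (rhe615ebeefbbb1f4c.shift 3 2), rhebd475eb34650d31] (by decide +kernel))
noncomputable def rh6217c87e50edb7af : CRef := CRef.mk (Pat.mk 0x1000000060000000500000000000000000 0x18000000f9000001ff000003ff000003ff0000007f000000d70000008700000005 13 10) 0 0 (step_sound _ 133 [(rh0c86bfa952ccac03.shift 2 1), (rh40e9152650ee259d.shift 2 2), (rh6a04b505c7e55bd3.shift 2 2), (rh6fccf4a9fb9fc4e2.shift 2 1), (rha57e4aef11cc7b75.shift 2 1), (rhae7aba5cd48174f9.shift 2 2), (rhaea158035eebf034.shift 2 2), (rhbc589f8107a30eff.shift 1 2), (rhbfb1fa7143f3393b.shift 2 1), rhebd475eb34650d31] (by decide +kernel))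
noncomputable def rhfe528564a1202201 : CRef := CRef.mk (Pat.mk 0x4000000300000001400000000000000000 0x280000007e8000003e800001f6f00001ffe00001fff000003f0000007600000062000000400 13 13) 0 0 (step_sound _ 102 [(rh01e48cd9f335aa73.shift 5 2), (rh5f6f4b204f5806fb.shift 5 2), rhd06935be922a2fcc, (rhe32601bd65ae7334.shift 5 2)] (by decide +kernel))
noncomputable def rh8c70f82fa43b3f1c : CRef := CRef.mk (Pat.mk 0x2000000180000000a0000000000000000000000000 0x140000001c0000001c0000061c000006ff00003ffe00001fdf00003fbe00000e1f00000e0e00000a00 13 14) 0 0 (step_sound _ 166 [(rh83ec37ff6e78b01f.shift 4 4), rh99b592d8c87c9a7e, (rhd4f2f9f1049fd380.shift 5 0), (rhf9fbd233c874179d.shift 0 1)] (by decide +kernel))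
noncomputable def rh0360105a5ebcdc55 : CRef := CRef.mk (Pat.mk 0x20000000e00000008000000000000000000000000 0x1000000070000000700000007400000076000000fe000000ff000000f8000001f00000006000000060 13 9) 0 0 (step_sound _ 100 [(rhb739f4f82bb681b4.shift 0 3), (rhbbc4df7e2fd2098a.shift 1 0)] (by decide +kernel))
noncomputable def rhcd8f54bc87346024 : CRef := CRef.mk (Pat.mk 0x10000000500000005000000000 0x2000000038000000fa000000ff000007ff000003fe000007f70000005e00000008 13 11) 0 0 (step_sound _ 132 [(rh1741680720c097b4.shift 3 1), (rh1e6b4cbeee7f35ff.shift 3 1), (rh43e36b0d382eb482.shift 1 0), rh4cd9f89a51c1f8d1, (rh7a38aa8d9605e9d8.shift 3 1), (rhc13fc2f8e7d078a2.shift 0 1)] (by decide +kernel))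
noncomputable def rhe0004462d29f9e13 : CRef := CRef.mk (Pat.mk 0x200000002000000020000000200000000 0x18000000fd0000007f000000fe0000003f0000003e00000074 13 8) 0 0 (step_sound _ 130 [rh0ae844714bd1ac37, (rh2f68792b6b779e96.shift 1 1)] (by decide +kernel))
noncomputable def rh357f2d46fa5d470b : CRef := CRef.mk (Pat.mk 0x1000000050000000500000000000000000 0x2800000038000003b8000001ff000007fe00000ff700000ff0000007d800000f8800000100 13 12) 0 0 (step_sound _ 164 [(rh1741680720c097b4.shift 3 2), (rh37ef2fb3c50bbb2b.shift 3 1), (rh442a928923572d90.shift 3 1), (rh88347663ed478970.shift 0 2), (rhb75afbad3a4451c1.shift 1 1), (rhcb32f3b2282fa04d.shift 3 0)] (by decide +kernel))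
noncomputable def rh25cb6b0eca1c59b8 : CRef := CRef.mk (Pat.mk 0x400000004000000100000001400000000 0x280000003a0000003e000001fe000000ff000001ff0000001e0000003700000002 13 9) 0 0 (step_sound _ 66 [(rh4f8dccb4319ca5c2.shift 1 1), (rh5566a532e71d371e.shift 1 1), rh6e182dad811ef741, rh9f0212359c7333ba, (rhc85cc95794737cf7.shift 1 1)] (by decide +kernel))
noncomputable def rh052ba842e7e6eb07 : CRef := CRef.mk (Pat.mk 0x200000002000000080000000a0000000000000000000000000 0x2000000060000001ff000001fe000001ff000000fe000001be0000001e0000000400000004 13 9) 0 0 (step_sound _ 133 [(rh4340e91599d73a17.shift 0 2), (rh54bb467a549d3c30.shift 1 0), (rh9f0212359c7333ba.shift 3 2), (rhcbde3f6b5aae5a95.shift 0 2), (rhed2e036209205dbe.shift 1 3)] (by decide +kernel))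
noncomputable def rh3843812d9536319a : CRef := CRef.mk (Pat.mk 0x40000000400000010000000140000000000000000000000000 0x140000003c000003fe000003ff000003fe000001ff0000037c0000003c0000000800000008 13 10) 0 0 (step_sound _ 134 [(rh54bb467a549d3c30.shift 2 0), (rh9f0212359c7333ba.shift 4 2), (rhaa077401de9fb841.shift 0 2), (rhcbde3f6b5aae5a95.shift 1 2)] (by decide +kernel))
noncomputable def rhdc95f74eaaca6ab4 : CRef := CRef.mk (Pat.mk 0x4000000040000001000000014000000000 0x280000003f4000003fc000007bc000007ff000007fe000001df0000015800000018 13 11) 0 0 (step_sound _ 135 [(rh0bb06d52d861cd81.shift 3 1), (rh7030f864d3191b45.shift 6 1), rh83ddd36dd76561dc, (rha586cec940d8a159.shift 3 1)] (by decide +kernel))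
noncomputable def rh2bf6af5ea8de6fe7 : CRef := CRef.mk (Pat.mk 0x1000000010000000400000005000000000 0x38000001fe000000fc000001de0000007e000000ff0000007e000000df00000008 13 9) 0 0 (step_sound _ 164 [(rh1c695ca2e0bb1035.shift 1 1), (rh576a263695f5bb82.shift 3 0), (rh8ffb52597a3d2f69.shift 1 2), (rhb7fa7f50744d4621.shift 0 1), (rhc3f24256494b42ed.shift 0 1)] (by decide +kernel))
noncomputable def rh1be52293a6df631f : CRef := CRef.mk (Pat.mk 0x1000000010000000100000004000000050000000000000000000000000 0x20000000300000003c0000001f000000ff0000007f000000df0000000f0000000200000002 13 8) 0 0 (step_sound _ 132 [rh54bb467a549d3c30, (rh7928877f9bf74a91.shift 3 2), (rhb255caa7439b7db0.shift 1 3), (rhf765dfa5923e588c.shift 3 3)] (by decide +kernel))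
noncomputable def rhc2067193da9ace7c : CRef := CRef.mk (Pat.mk 0x1000000010000000100000004000000050000000000000000000000000 0x80000001c0000001f0000007f0000007f000000df0000000f0000000200000002 13 8) 0 0 (step_sound _ 132 [(rh3ca48e2a6d60153d.shift 3 3), rh54bb467a549d3c30, (rh7928877f9bf74a91.shift 3 2)] (by decide +kernel))
noncomputable def rh9120b126335e2180 : CRef := CRef.mk (Pat.mk 0x2000000020000000800000008000000000 0x5000000074000000ff000003fe000007fe000003fe000007fc000000dc0000009800000018 13 11) 0 0 (step_sound _ 134 [(rh10044f02f9896361.shift 2 1), (rh51cd2981f2bece89.shift 1 1), (rh56e74f4b92f8b044.shift 1 0), (rh5825f0eede15229d.shift 1 1), (rha4d1a162d1dbafb5.shift 2 1), (rha586cec940d8a159.shift 2 1), (rhc35d5c21537963db.shift 1 0), rhd3ba7d7ad3ebdc7e] (by decide +kernel))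
noncomputable def rh80c3814115749272 : CRef := CRef.mk (Pat.mk 0x8000000020000000a00000002000000000 0x140000001f0000007f0000003fe000006fe000007bf000007e00000073000000010 13 11) 0 0 (step_sound _ 133 [(rh1741680720c097b4.shift 4 1), (rh1ae536616f1ff4b9.shift 4 0), (rh4e8f789bb0ee14c1.shift 0 1), (rh6ea5802055572886.shift 4 0), (rhcac6d3edc23318a1.shift 0 1), (rhdbce6cf12d514d49.shift 4 0)] (by decide +kernel))
noncomputable def rhf6e3e6364bfbb15d : CRef := CRef.mk (Pat.mk 0x8000000020000000a0000000a0000000000000000 0x2000000020000000ee000003ff000001fc000003fb000000fe000000fb0000007000000020 13 10) 0 0 (step_sound _ 164 [(rh124c79dd368bc9bc.shift 0 1), (rh26a034b85a3a5a5b.shift 0 1), (rh41469e92b6667460.shift 0 1), rh539e26da2dc90f2a, (rhc27c25306004b278.shift 0 2)] (by decide +kernel))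
noncomputable def rhe5c6d715d0c41791 : CRef := CRef.mk (Pat.mk 0x20000001800000008000000000000000000000000 0x5000000070000007fe000003fe000007ff000001ff0000003c000001f8000000700000006000000060 13 11) 0 0 (step_sound _ 133 [(rh3418bd09a2109774.shift 0 2), (rh869fef49a04ca90e.shift 1 0), (rhc4c7d63b0843ffdf.shift 0 2), (rhd0421c4690b8aace.shift 0 4), (rhfdd7deadf65189bd.shift 1 0)] (by decide +kernel))
noncomputable def rhe0333cc47ff181a2 : CRef := CRef.mk (Pat.mk 0x10000000c00000004000000000 0x50000000700000007c000007fc00000fff000007fe00000ee7000007c000000380 13 12) 0 0 (step_sound _ 135 [(rh04612df9e53636ea.shift 4 0), (rh091dbdc4bb287c04.shift 2 0), (rh6b6fbbe594355c65.shift 5 0), (rh9b28d424038a0919.shift 0 1), (rhc79b29f86218bef4.shift 3 0), (rhed0ac8cb83eeaea2.shift 3 0)] (by decide +kernel))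
noncomputable def rh8483626fb08f485b : CRef := CRef.mk (Pat.mk 0x40000000600000002000000000000000000000000 0x380000003a0000003b0000003e0000007f000000fe000000fc000000f800000028 13 8) 0 0 (step_sound _ 164 [(rh023b822999d62a59.shift 0 2), (rh1dbed1036dd1b793.shift 1 1), (rh45555fe5d2bac400.shift 0 1), (rh525b3157adce5c01.shift 0 1), (rhb40ea67d868c9330.shift 0 4), rhe6f342cbe6aa9cf3] (by decide +kernel))
noncomputable def rh62c43d457eefcf4e : CRef := CRef.mk (Pat.mk 0xc000000300000001000000000 0xa0000003e0000003e0000003f000000ff0000007e000000380000003000000020 13 8) 0 0 (step_sound _ 100 [rh6c8670676ab21905, (rhb739f4f82bb681b4.shift 1 2)] (by decide +kernel))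
noncomputable def rh154f7c264a61a691 : CRef := CRef.mk (Pat.mk 0x8000000200000002800000000 0x100000007e0000007e000003ff000007ff000003ff000007ef0000006c00000040 13 11) 0 0 (step_sound _ 101 [(rh0e106a437ea993ec.shift 0 1), (rh12590a4f5e701f3c.shift 0 1), (rh2cc777b527aebafc.shift 1 0), (rh32b30de8bbba4e94.shift 2 0), (rh6a5d885a67a8a668.shift 0 1), (rh7d5b300733936675.shift 3 0), rheb6317abdf1b222d, (rhf6e41a57c738b51c.shift 2 0)] (by decide +kernel))
noncomputable def rhee621d0122f83ec8 : CRef := CRef.mk (Pat.mk 0x180000004000000050000000000000000000000000 0x3c000000ff0000033c000003df00001ffe00000ff700001fd0000007000000070000000500 13 13) 0 0 (step_sound _ 165 [(rh88c620441a3a17ea.shift 0 4), (rhd6f8f421af168105.shift 0 3), (rhfdfd28c81f66f20d.shift 3 0)] (by decide +kernel))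
noncomputable def rh6ea87f41f6310170 : CRef := CRef.mk (Pat.mk 0x60000001400000014000000000000000000000000 0x20000000380000003f000001fe000001f7000001fe000003fc000001f4000003e0000000c0000000c0 13 10) 0 0 (step_sound _ 164 [rh7d9a45e3523c9fe6, (rha6816dee951f7ee6.shift 1 4), (rhb6a5426ec4efb2da.shift 0 3), (rhf8d674b865acf5f3.shift 0 3)] (by decide +kernel))
noncomputable def rhbbf2c950c9218a9b : CRef := CRef.mk (Pat.mk 0x700000008000000000 0x2800000178000001f8000001f0000001f8000001bf000001fe0000019f00000010 13 9) 0 0 (step_sound _ 71 [rh0972f54aa2f309d2, (rhe25b0a99195a5d59.shift 4 1)] (by decide +kernel))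
noncomputable def rhd6e6f470defcbf25 : CRef := CRef.mk (Pat.mk 0x800000018000000400000005000000000000000000000000000000000 0x50000000f0000001f0000001f0000001b000000ff000000df0000000f000000070000000400000004 13 8) 0 0 (step_sound _ 164 [rh4b3682f440d59b4a, (rha3df16ea9c8576c8.shift 3 4), (rhc89253ff58c66167.shift 3 4), (rhe072fffdd2fccf38.shift 3 4)] (by decide +kernel))
noncomputable def rh45103643d5dc54df : CRef := CRef.mk (Pat.mk 0x800000018000000400000001000000000000000000 0x150000003f8000007fc000007fc000001ff000001fe00000f7f000001f00000007000000050 13 12) 0 0 (step_sound _ 133 [rh49aef3c4f798a4bb, (rh82218c82100c2377.shift 2 0), (rhc0ac9049ec85fb93.shift 5 2), (rhd019c24ed7ebbc13.shift 1 0)] (by decide +kernel))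
noncomputable def rh3b077392659d74f4 : CRef := CRef.mk (Pat.mk 0x80000001800000040000000500000000000000000000000000 0x50000003f0000003f00000037c000001ff000001fe00000fff00000dfc000000fc0000007800000050 13 12) 0 0 (step_sound _ 165 [(rh19874ad97b903eb2.shift 3 1), (rh2312a7536bd6576c.shift 1 0), (rh2fc6751a6cc1fa89.shift 0 2), (rh50fe8a0497185ed4.shift 1 1), (rh74803ead6c3924f9.shift 2 2), (rh8299e498021c1e03.shift 1 1), rh8d19adb83cb0fd3a, (rh989a5ee6cc9e04e5.shift 2 1), (rh99a3e4a7c602d0aa.shift 0 2), (rh9e702cfa109ba6a7.shift 4 2), (rhc8863cadd8d7021f.shift 4 1)] (by decide +kernel))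
noncomputable def rh2de87c9ceda45cf9 : CRef := CRef.mk (Pat.mk 0x200000003000000014000000000000000000000000 0xe0000000e0000007f7000003fe000007d6000001c0000001c000000180 13 11) 0 0 (step_sound _ 131 [(rh2ee61895a6499355.shift 1 3), (rh79cf07f6fd757820.shift 3 0), (rhe391af62c2a85c90.shift 0 3)] (by decide +kernel))
noncomputable def rh14a39a10cf6abe4b : CRef := CRef.mk (Pat.mk 0x180000001a000000000000000800000000 0xa0000000fc000000fc000000e8000000ff000000fb000000cc0000008c0000000c 13 8) 0 0 (step_sound _ 166 [(rhb272b73ad09ef519.shift 2 0), rhc2cca545faad3422, (rhdc9474e7b6feb773.shift 0 3)] (by decide +kernel))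
noncomputable def rha8d308c9f9a99fa5 : CRef := CRef.mk (Pat.mk 0x3000000010000000000000005000000000 0xa0000000e0000000e0000000e0000002f0000003e0000007f0000003e0000007000000020 13 7) 0 0 (step_sound _ 68 [(rh2f68792b6b779e96.shift 4 1), rhee3df4d0ce9a67aa] (by decide +kernel))
noncomputable def rh1c669628f4a2f114 : CRef := CRef.mk (Pat.mk 0x300000001800000000 0x7c000000fe000000ff000000ff0000003800000028 13 8) 0 0 (step_sound _ 70 [(rh18965a982d73c794.shift 3 1), rhb6edffd8876431ba] (by decide +kernel))
noncomputable def rh2ed446fb048ac0d3 : CRef := CRef.mk (Pat.mk 0x6000000020000000000000008000000000 0xf8000001fc000001ff0000007e000003fe000003dc000000c8000000c8 13 10) 0 0 (step_sound _ 102 [(rh15115c16165f7f79.shift 5 0), (rh2d405b9988772a1f.shift 3 0), rh498fd74c02a2a5c6, (rhbc0d04e7358c8004.shift 2 0)] (by decide +kernel))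
noncomputable def rhd171648c08523529 : CRef := CRef.mk (Pat.mk 0x180000000000000050000000000000000000000000 0x14000000140000003e0000003e000000fe000000fe000000770000007e0000003f00000008 13 8) 0 0 (step_sound _ 132 [(rh05939d4606cba047.shift 1 2), rh4cf22c10e8d4b7e6, (rh9b323ef5a488003e.shift 3 0), rhc6d6bedd644547c5] (by decide +kernel))
noncomputable def rh4e1f264449482ab2 : CRef := CRef.mk (Pat.mk 0x180000000000000050000000000000000000000000 0x14000000140000003e000003bf000001fe000003ff000000770000007e0000003f00000008 13 10) 0 0 (step_sound _ 132 [(rh05939d4606cba047.shift 1 2), rh4cf22c10e8d4b7e6, (rh9b323ef5a488003e.shift 3 0), rhc18243d2643d900d, rhc6d6bedd644547c5, (rhdc59ba418ff98db2.shift 2 1)] (by decide +kernel))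
noncomputable def rh703132bdcc708ef6 : CRef := CRef.mk (Pat.mk 0x3800000000000000500000000000000000 0x37000000fe000000ff000000770000003e0000003f 13 8) 0 0 (step_sound _ 130 [(rh08d878f740f6890a.shift 1 0), rh3937ce022b565095, (rh592c7139d2c44767.shift 0 3)] (by decide +kernel))
noncomputable def rh055fc8234254f21a : CRef := CRef.mk (Pat.mk 0xc0000000000000028000000000000000000000000 0x140000001c0000001c000000380000007c0000007c0000007f000000380000007e0000007c00000064 13 7) 0 0 (step_sound _ 131 [(rh01483ff9cba2f6ac.shift 2 0), (rh94023c20494969ba.shift 1 0), rha3e58f5f7aaf8466, (rhdc59ba418ff98db2.shift 1 1)] (by decide +kernel))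
noncomputable def rh9b0785512d27cbbb : CRef := CRef.mk (Pat.mk 0x80000000c000000000000001400000000 0x40000000700000007000000030000001fc000000ff000000fc0000001c00000014 13 9) 0 0 (step_sound _ 2 [(rh04253f50b6dd0619.shift 2 0), rh61316c84337d33c6] (by decide +kernel))
noncomputable def rhff1bfc621764e9e9 : CRef := CRef.mk (Pat.mk 0x2000000030000000000000005000000000 0x100000001c0000001c0000000c0000007f7000003fe000003f70000007000000050 13 11) 0 0 (step_sound _ 4 [(rh04253f50b6dd0619.shift 4 0), rh3ad09de1ce0c59f8] (by decide +kernel))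
noncomputable def rh3b4d2ae3cf5d7c03 : CRef := CRef.mk (Pat.mk 0x400000006000000000000000a000000000 0x20000000380000003800000018000000fef000007fe000007ff000000e000000060 13 12) 0 0 (step_sound _ 5 [(rh04253f50b6dd0619.shift 5 0), rheba89c571d66b838] (by decide +kernel))
noncomputable def rhb1d61a8fadd0c5ea : CRef := CRef.mk (Pat.mk 0xe000000080000000200000004000000040 0xe000000fc000001bc0000002f0000007e000000e7 13 9) 0 0 (step_sound _ 132 [(rhe25b0a99195a5d59.shift 4 3), rhe8ad3120695b60e4] (by decide +kernel))
noncomputable def rh434a3db98db458e8 : CRef := CRef.mk (Pat.mk 0x6000000000000000a0000000000000000000000000 0x400000014c000007ef000003fe000007bf00000eee000007fc00000ffe00000050 13 12) 0 0 (step_sound _ 133 [(rh215e11e099257d75.shift 5 2), (rh4af6b1242ff98faf.shift 2 2), rhb3cf86ca97187f4a, (rhd19d31b13e48b44b.shift 1 1)] (by decide +kernel))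
noncomputable def rhb19e76444162420e : CRef := CRef.mk (Pat.mk 0x140000000400000014000000000000000000000000000000000000000000000000 0x140000001c0000001c000000fc0000007f000000ff0000001e0000001e0000001c000000140000001c0000001c00000008000000080000001c0000001c00000014 13 8) 0 0 (step_sound _ 163 [(rh1148744b53f3df58.shift 1 5), (rh12ab25c091e53222.shift 2 0), (rh33f5842b17e00b84.shift 2 3), (rhe967a65294d35471.shift 0 4)] (by decide +kernel))
noncomputable def rh0601c8d273c0d30e : CRef := CRef.mk (Pat.mk 0x1a000000020000000a0000000400000000 0xe30000007e0000007b0000002a0000007e000000ee 13 8) 0 0 (step_sound _ 130 [rh88b452e8b1843c1c, (rheb0810cc63b001d8.shift 0 3)] (by decide +kernel))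
noncomputable def rhf35d8fbc0994fecd : CRef := CRef.mk (Pat.mk 0x20000000000000005000000010000000500000000000000000000000000000000000000000000000000000000000000000 0x20000000f0000000d0000000d000000070000000f8000000fe000001fe000001fe0000007f000000700000007000000050 13 9) 0 0 (step_sound _ 229 [(rh102f5f0af19568a9.shift 3 4), (rh12ab25c091e53222.shift 4 2), (rh33f5842b17e00b84.shift 4 5), rh4f6e38d1560ce85c, (rh5e73ed27dca2bc2c.shift 4 7)] (by decide +kernel))
noncomputable def rhc009ab54214f1447 : CRef := CRef.mk (Pat.mk 0x20000000280000002800000000000000300000000000000000000000000000000000000000 0x1e00000007c000000280000002f0000003e000000ff0000000e0000000e0000000e00000002 13 9) 0 0 (step_sound _ 294 [(rh0b786d94a31538a6.shift 2 8), rh3f0e50fb6bf4c131, (rhf82798fa287a880f.shift 4 4)] (by decide +kernel))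
noncomputable def rh35acb3ac21f75723 : CRef := CRef.mk (Pat.mk 0x280000002800000028 0x3c0000007e0000007e000001ff000000fe000001ff000000280000002800000028 13 9) 0 0 (step_sound _ 132 [(rh0caf077b5a27aa2e.shift 3 0), rh304f630c8c67b226, (rh636d52ee546f6b47.shift 4 0), (rhe25716203317ed02.shift 2 0)] (by decide +kernel))
noncomputable def rhce29daf92e0aeb41 : CRef := CRef.mk (Pat.mk 0x20000000a0000000a000000000000000000000000 0x50000003f0000001f0000007a0000001f0000000e0000001f0000000f00000001 13 7) 0 0 (step_sound _ 193 [(rh1741680720c097b4.shift 0 3), (rh5abfc4c9d959be03.shift 0 2), rhaf2d31689f6c3ae9, (rhced6d86d2069808b.shift 1 2)] (by decide +kernel))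
noncomputable def rhaec7e4a21ba657b5 : CRef := CRef.mk (Pat.mk 0xa000000020000000a0000000a 0x28000001f8000001fd000001fb0000007f0000003a0000003a0000000a 13 9) 0 0 (step_sound _ 128 [rhd74349a1b98b47d0, rhffd04209dc8ea796] (by decide +kernel))
noncomputable def rh2ead8a0ef52f52ab : CRef := CRef.mk (Pat.mk 0x10000000a000000020000000a00000008 0x28000001f8000001fd000001fb0000007e0000003a0000003a00000008 13 9) 0 0 (step_sound _ 129 [(rh50fbb5868c909700.shift 0 1), rhc0b556922cc01ccb] (by decide +kernel))
noncomputable def rhd8486e66112ad5a4 : CRef := CRef.mk (Pat.mk 0x40000000400000002000000020000000000000000000000000000000000000000000000000 0x4400000144000007ee000003fe000007ff000003fe000003ff000003f00000017000000050 13 11) 0 0 (step_sound _ 165 [rh190d2be3e099fc6d, (rh488955a31400a0ac.shift 5 4), (rhadf8741a415d8aec.shift 0 1), (rhc94dfb5f501cb051.shift 4 2)] (by decide +kernel))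
noncomputable def rh02b29d775dd6a855 : CRef := CRef.mk (Pat.mk 0x800000028000000280000000000000000000000000000000000000000 0xa0000000e0000001e0000003f0000003ff000001fe000003ff000001e80000007c00000038000001f000000060000000700000007000000050 13 10) 0 0 (step_sound _ 292 [(rh78b59af955bc1b62.shift 2 4), (rha60a8d1bd00d600b.shift 0 4), (rhb5667cad809e41b1.shift 2 0), (rhe25716203317ed02.shift 2 5)] (by decide +kernel))
noncomputable def rh1e9fc9c7ba40b424 : CRef := CRef.mk (Pat.mk 0x8000000280000002800000000000000100000000000000000000000000000000000000000 0x40000000680000006800000028000001ef000000fe000001ff000000e0000000e0000000e000000080 13 9) 0 0 (step_sound _ 163 [(rh0c4ad358bbf70399.shift 2 0), (rh8a5cde5201252fcd.shift 2 4), (rh8faea1c85952b2b6.shift 0 4), (rha3711ed12866f068.shift 2 4), (rhed031fc432258bdf.shift 0 4)] (by decide +kernel))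
noncomputable def rhf296fe2e65550219 : CRef := CRef.mk (Pat.mk 0x8000000280000002800000000000000100000000000000000000000000000000000000000 0x400000006800000068000000a8000003ef000001fe000003ff000001e0000001e0000001e000000080 13 10) 0 0 (step_sound _ 163 [(rh49a597ba05422f36.shift 2 3), (rh690b80cc40be6c3c.shift 0 1), (rha3711ed12866f068.shift 2 4), (rhcb97540ea5863ded.shift 2 0), (rhd1b81f45d5409315.shift 0 4)] (by decide +kernel))
noncomputable def rhc7ab2d717ac03fb6 : CRef := CRef.mk (Pat.mk 0x100000000000000050000000000000000000000000 0x2800000078000000fe000000fe0000007c000000760000007e0000003f00000028 13 8) 0 0 (step_sound _ 132 [(rh1b6b46f2866dcae5.shift 3 0), (rh32bf1dcf781b6aec.shift 1 2), (rh82cf52f5e05e5ae0.shift 2 0), (rhb95a54ace36dc081.shift 3 0), rhdb1adb8d62dde559, (rhf0106fb1fa06c188.shift 2 0)] (by decide +kernel))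
noncomputable def rh9e095f9570707632 : CRef := CRef.mk (Pat.mk 0x100000000000000050000000000000000000000000 0x2800000078000000fe000000fe0000003e000000770000007e0000003e00000028 13 8) 0 0 (step_sound _ 132 [(rh1b6b46f2866dcae5.shift 3 0), (rh32bf1dcf781b6aec.shift 1 2), (rh82cf52f5e05e5ae0.shift 2 0), rh901abb8a10c1a458, (rhb95a54ace36dc081.shift 3 0), (rhf0106fb1fa06c188.shift 2 0)] (by decide +kernel))
noncomputable def rh80037920d41df9ba : CRef := CRef.mk (Pat.mk 0x1c00000000000000100000000000000000000000000000000000000000 0x280000003800000038000000f80000001c0000007f000000ff0000003e0000001c0000003c0000003800000020 13 8) 0 0 (step_sound _ 196 [(rh7b24c4ccc068b0b2.shift 3 4), (rh82064b552a8316fd.shift 2 4), (rhcf364076a74946f9.shift 0 3), (rhf74f6deebb838c8d.shift 3 0), (rhf8ffff819bbdc349.shift 1 2), (rhf9a6286f1d5377a2.shift 3 4)] (by decide +kernel))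
noncomputable def rhd518e3fcfad4919b : CRef := CRef.mk (Pat.mk 0x3800000000000000200000000000000000000000000000000000000000 0x90000000b8000003ff000003ff000003ff000003ff000003fc000001fc000000c0 13 10) 0 0 (step_sound _ 133 [(rh1a9dbfddecbe682e.shift 2 3), (rh37770f7dcc39cd32.shift 2 3), rh50f06a24105007ea, (rhab082d0eddee63da.shift 4 2), (rhcbbabd6e55c46fe9.shift 4 2), (rhda3462937bcc2ee5.shift 2 2), (rheb353260d3b80e8d.shift 4 1)] (by decide +kernel))
noncomputable def rh37a20af4744b8529 : CRef := CRef.mk (Pat.mk 0x70000000000000000000000000 0x80000000e0000000e000000ff8000007fc70000fffe00000fe700000e4000000a40 13 16) 0 0 (step_sound _ 135 [(rh5d6faa2816a200a4.shift 0 2), (rh834ef1c974e4840e.shift 3 0), (rhd82ce4b20c3100a8.shift 4 0)] (by decide +kernel))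
noncomputable def rhcc7da361c872dd5c : CRef := CRef.mk (Pat.mk 0x1000000000000000600000000000000000000000000000000000000000 0x31000000f9f000007fe00000fff000007fc000007fc000001fc00000100 13 12) 0 0 (step_sound _ 164 [(rh115b873ee6627241.shift 2 1), (rh3bd8f8dfd61d4ebe.shift 3 0), (rh4a3a563bcd399856.shift 0 1), (rh7aa05f38bbbf2516.shift 1 4), (rhc7b9f4a31a30c80b.shift 1 1), (rhc972b5d7f6849ff5.shift 2 1), (rhe81fde0df6c7bb31.shift 1 4), (rhf5f568227e38bbfa.shift 1 3)] (by decide +kernel))
noncomputable def rhd553a23802d2eb74 : CRef := CRef.mk (Pat.mk 0x1e000000000000000000000000000000000000000000000000 0x280000003c0000003e0000003c0000001e0000003f000000320000003f0000003b0000003900000028 13 6) 0 0 (step_sound _ 164 [rh9773ceaa5caaaa86, (rhe25b0a99195a5d59.shift 1 5)] (by decide +kernel))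
noncomputable def rh62e850c8d403340d : CRef := CRef.mk (Pat.mk 0x1e000000000000000000000000 0x28000001fe000000fc000001fc0000001e0000003f0000000a00000002 13 9) 0 0 (step_sound _ 132 [rh0bdc09e484247b6d, (rh33e738c4ed385b9f.shift 1 3)] (by decide +kernel))
noncomputable def rhbde86d5ab60b9336 : CRef := CRef.mk (Pat.mk 0xe000000000000000000000000000000000 0x140000001e0000001e0000001ee000000fe000001ff000000f80000001000000010 13 9) 0 0 (step_sound _ 132 [(rh17f08a0ad30ba6e8.shift 3 3), (rh3a67af294bae24af.shift 0 3), (rh9e97bba44c1b13e4.shift 2 3), (rhd00abbeb3aaa4999.shift 0 3), (rhecd70068bf37130b.shift 3 0)] (by decide +kernel))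
noncomputable def rh7b74847dfda78435 : CRef := CRef.mk (Pat.mk 0x3c0000002000000020000000000000000000000000 0x630000003e00000027000000370000007f0000007500000040 13 7) 0 0 (step_sound _ 197 [(rh33e738c4ed385b9f.shift 2 5), rhaa16378935092aeb] (by decide +kernel))
noncomputable def rh562f7c74a46e1cf7 : CRef := CRef.mk (Pat.mk 0x10000003c00000000000000000000000000000000000000000 0x28000000380000003f0000003e0000007f000006be000003f8000000dc000000f8000000f80000003800000028 13 11) 0 0 (step_sound _ 164 [(rh95b5d1b80c07191e.shift 3 5), rh9c112956baa1a440, (rh9d7b6939df559c5d.shift 3 0), (rhd920bd17fdd7afd7.shift 3 1)] (by decide +kernel))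
noncomputable def rh11ae45396a0e6936 : CRef := CRef.mk (Pat.mk 0x10000003c00000000000000000000000000000000000000000 0x28000000380000003f0000003e0000007f000000be000003f8000006dc000000f8000000f80000003800000008 13 11) 0 0 (step_sound _ 164 [(rh0e30de877e2bccce.shift 3 1), rh86b4b6fd36c9a7b9, (rh95b5d1b80c07191e.shift 3 5), (rhfd002248dccd6cf0.shift 3 1)] (by decide +kernel))
noncomputable def rhc735e1995987289e : CRef := CRef.mk (Pat.mk 0x42000000780000000000000000000000000000000000000000 0x28000000b8000000ff000000fe0000007700000078000000d8000000f8000000f8000000f8000000a8 13 8) 0 0 (step_sound _ 134 [rh81a463c851ed1147, (rhe25b0a99195a5d59.shift 3 4)] (by decide +kernel))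
noncomputable def rh8c29a3211f2de5f4 : CRef := CRef.mk (Pat.mk 0xe000000080000000000000000000000000000000000000000000000000 0x40000000600000026e000002fe000007bf00000ff800000ffc00000ff8000007d0000001c000000140 13 12) 0 0 (step_sound _ 167 [(rh04ff1769ac03b0cb.shift 4 0), (rh0a6888916bcef86b.shift 6 2), (rh134e75ac27905a16.shift 3 0), (rh63b704733a0c6b24.shift 4 0), (rh76046416c65b4f7b.shift 0 2), (rh830186db66e4330d.shift 4 2)] (by decide +kernel))
noncomputable def rh605e72e1466aaec5 : CRef := CRef.mk (Pat.mk 0x1c0000001800000000000000000000000000000000 0x400000004000000040000001f0000001f000001ff000000ff000001ff00000005 13 9) 0 0 (step_sound _ 161 [rh2c1829bca35e97a1, (rhb739f4f82bb681b4.shift 0 4)] (by decide +kernel))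
noncomputable def rh6f1537832a5d9a3c : CRef := CRef.mk (Pat.mk 0x380000000000000020000000000000000000000000000000000000000000000000 0x140000001c0000001c0000003c0000003f000000f8000000b800001fdf00000fff00001fff000003ff000000fe000000fe0000000e00000008 13 13) 0 0 (step_sound _ 196 [(rh48e08b8a229f669f.shift 0 2), (rh49fa6932037bd852.shift 3 3), (rh80ccb250768a2257.shift 1 3), rhb3642eb5d0894ad6, (rhc7d97633f3b4c108.shift 0 3), (rhea1ce5deb33be406.shift 0 2), (rhf0f617bf3c0ffdd9.shift 3 4)] (by decide +kernel))
noncomputable def rh8948e379be99e81f : CRef := CRef.mk (Pat.mk 0x100000004000000070000000000000000000000000 0x1c0000003c000007ff000003fe000007de0000007000000070000000200000002000000020 13 11) 0 0 (step_sound _ 69 [(rh1b918235275262d2.shift 0 2), (rh28afc5b167f84184.shift 4 0), (rhf9366b6a121593ef.shift 5 0)] (by decide +kernel))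
noncomputable def rh082fb348bfb9890c : CRef := CRef.mk (Pat.mk 0x10000000400000007000000020000000000000000000000000 0x1c0000003c000007ff000003fe000007de000003f0000000700000003c000000180000001800000010 13 11) 0 0 (step_sound _ 167 [(rh1b918235275262d2.shift 0 3), (rh80f90a60d87caa0d.shift 4 4), (rhfcd7236f0fb20b6c.shift 2 0)] (by decide +kernel))
noncomputable def rhc4ac9c60df770a45 : CRef := CRef.mk (Pat.mk 0x1c0000001000000010 0x3e0000003e0000003f000000ff0000007f0000001000000010 13 8) 0 0 (step_sound _ 100 [(rh009db477ebccb70b.shift 1 0), rh296612e4a033dba8, (rh684e729394fba19d.shift 2 0), (rhff7d63dcb3cf9f74.shift 1 2)] (by decide +kernel))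
noncomputable def rh475c613e85a76dc0 : CRef := CRef.mk (Pat.mk 0x200000003a00000000 0x80000009e000001de000001df000003ff000001fe000003ff000000b80000003e00000008 13 10) 0 0 (step_sound _ 68 [(rh24ae073cf30720c4.shift 1 1), rh5a3063a826afee5b] (by decide +kernel))
noncomputable def rhde88b40d0b5a1334 : CRef := CRef.mk (Pat.mk 0x100000001d0000000900000000000000000000000000000000000000000 0x28000000f8000000f8000000f8000001d8000001d8000000dc000001ff000001fe0000003f0000003800000028 13 9) 0 0 (step_sound _ 135 [rh0f0fbf77f8d4a167, (rh71222050f2c63a3a.shift 7 3)] (by decide +kernel))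
noncomputable def rh8aec248e25af352b : CRef := CRef.mk (Pat.mk 0x440000007400000024000000000000000000000000 0x20000000e0000007e000000fe0000007700000074000000360000001e0000000e0000000a 13 8) 0 0 (step_sound _ 198 [rh199fd3c4d3dd21da, (rh5c5e593799055d58.shift 5 3)] (by decide +kernel))
noncomputable def rh6252e6a8e2af9b9f : CRef := CRef.mk (Pat.mk 0x80000000e8000000480000004000000000000000000000000000000000 0x380000007c000007fe000003fc000007fe000000ac000000ec0000006c000000ff0000003f0000001f0000001c0000001c 13 11) 0 0 (step_sound _ 261 [rh5ba3a73e3b3d6030, rh6d19e407fc243c07, (rhc69f39fb8826daf7.shift 1 5), (rhdf6eda84f2eabc48.shift 5 4)] (by decide +kernel))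
noncomputable def rhaf3dc93409b31a78 : CRef := CRef.mk (Pat.mk 0x800000028000000000000001800000000000000000000000000000000 0x800000028000000e8000000fe000000ff000000ff0000001e0000000e 13 8) 0 0 (step_sound _ 100 [rh722eaf52e1b0386d, (rhff0f29cb645b05f7.shift 3 3)] (by decide +kernel))
noncomputable def rh33dd60889b8b3f57 : CRef := CRef.mk (Pat.mk 0x3800000028000000000000000000000000000000000000000000000000000000000000000000000000 0x44000000440000006c000001ef0000007c00000028000001f8000000fc000001ff000000ff000000ff0000003f000000380000003800000028 13 9) 0 0 (step_sound _ 228 [rh0eca961639eb0ef1, rh296bf29b4a9f0eaf, (rh2fa7f8c3494cff60.shift 1 5), (rh7ce41ffcd758e4f3.shift 0 6), rha41e290585b5a2e7, (rhcaaf9cf47aab4970.shift 0 6)] (by decide +kernel))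
noncomputable def rh64dabc84f549799c : CRef := CRef.mk (Pat.mk 0x280000000800000000000000000 0x5000000070000003f0000001f000001fff00000ffe000000ff0000008000000080 13 13) 0 0 (step_sound _ 104 [(rh2820ca9a6c4f41b4.shift 4 2), (rh8d73f3e92333ae51.shift 0 2), (rh8eea156ffecb6be4.shift 6 2), (rh93742b01e3b503a0.shift 3 0)] (by decide +kernel))
noncomputable def rh99661dfe6522eb7e : CRef := CRef.mk (Pat.mk 0x1400000014000000000000000000000000000000000 0x200000003b8000003b800000fff00000ffe00000fff0000015c000003dc000003f4000002e0000000a0 13 12) 0 0 (step_sound _ 198 [(rh2878064360317dd8.shift 4 0), (rh7de084dc55fe0768.shift 0 1), (rh9fb1a73623107807.shift 5 1), (rha03dfeb30d65a4ff.shift 2 3), (rhb4803f58a1b62a94.shift 5 1), (rhc3c5a9466d0b569d.shift 3 3), (rhd178c31af7ef4cfb.shift 3 0)] (by decide +kernel))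
noncomputable def rhb280dff10aca12f0 : CRef := CRef.mk (Pat.mk 0x1400000014000000000000000000000000000000000 0x20000000f8000000f8000003ff00000ffe000001ff00001d7c00000fde00001ffc000003fe000002a0 13 13) 0 0 (step_sound _ 102 [(rh24986085bdb80dc9.shift 1 0), (rh58efda3e13f9b908.shift 2 0), rh6410264c66f03153, (rh6cac1eaffb94bdd0.shift 1 0), (rhde56da86d59b3170.shift 5 0), (rhf6c84a21d373695a.shift 1 0), (rhfb39f57ae6073efa.shift 5 0)] (by decide +kernel))
noncomputable def rh5ebda63fc6d64737 : CRef := CRef.mk (Pat.mk 0x4000000080000000a0000000a00000000000000000 0x28000000380000003e0000017e000003ff000001fe000000bf000000b8000000b00000002000000020 13 10) 0 0 (step_sound _ 165 [(rh744d591fc2d74f4f.shift 5 2), (rh8a7159cc6254a4c8.shift 4 2), (rhe989a2a21ca72e40.shift 0 2), (rhfd5a0a4edb543b6b.shift 1 0)] (by decide +kernel))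
noncomputable def rh721ddcb0157f43a9 : CRef := CRef.mk (Pat.mk 0x4000000080000000a0000000a0000000800000000000000000 0x28000000380000003e0000017e000003ff000001fe000000bf000000b8000000b0000001a0000001a000000100 13 10) 0 0 (step_sound _ 197 [(rh3ee9a28f2f0a1917.shift 1 0), (rh744d591fc2d74f4f.shift 5 3), (rh8a7159cc6254a4c8.shift 4 3), (rhe989a2a21ca72e40.shift 0 3)] (by decide +kernel))
noncomputable def rhf426f646ee928233 : CRef := CRef.mk (Pat.mk 0x20000000a0000000a00000002000000000000000000000000 0x40000001f00000017000000330000001e0000000b0000000e0000001f0000000700000001 13 6) 0 0 (step_sound _ 164 [(rh01e48cd9f335aa73.shift 0 4), rh80933efecf65a8f2, rhe9871b1799b1280f] (by decide +kernel))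
noncomputable def rh2af99adc19106ce8 : CRef := CRef.mk (Pat.mk 0x20000000a0000000800000000000000000000000000000000000000000 0x30000000be000000be000000be000003ff000003fe0000017f000001780000007800000010 13 10) 0 0 (step_sound _ 165 [(rh38463a1ca9edee2c.shift 2 2), (rh50a3d730c3bea5b7.shift 3 2), (rh5522a3d30974c5e3.shift 4 1), rh62a405bb3d029f6d, (rh750e839ca6fcf545.shift 4 0), (rhfc369d9c042642bb.shift 2 2)] (by decide +kernel))
noncomputable def rh5bc5ef78c7447a70 : CRef := CRef.mk (Pat.mk 0x40000000000000002000000028000000280000002000000000 0x180000003c0000003c0000007ff000003fe000007ef000001ac0000002c0000002c0000007c00000058 13 11) 0 0 (step_sound _ 197 [(rh47cbca82c94c0c1a.shift 5 2), (rha6749e11165663c7.shift 1 0), (rhb4e23b2f3704a17f.shift 1 3), rhf30fa8c85ef8aa20] (by decide +kernel))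
noncomputable def rh1def81b060737c15 : CRef := CRef.mk (Pat.mk 0x10000000500000007000000000 0xa0000000e0000000e0000000e000000fe000000ff0000005f0000007000000070 13 8) 0 0 (step_sound _ 132 [(rh55afc6a59410cf00.shift 4 0), rhfbc18fc73a6e5aa6] (by decide +kernel))
noncomputable def rhc9b562155b2d7f36 : CRef := CRef.mk (Pat.mk 0x20000000a0000000a0000000a0000000000000000 0xc1000000d3000000ff000000fa000000ea0000003f0000001900000010 13 8) 0 0 (step_sound _ 192 [rh6b6bf2ae3f242158, (rhffd04209dc8ea796.shift 0 2)] (by decide +kernel))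
noncomputable def rhd5c7d822392a49ff : CRef := CRef.mk (Pat.mk 0x200000002000000030000000a00000000000000000 0x500000007a0000007e0000003f0000007e0000003e0000003e000001ee0000000e0000000a 13 9) 0 0 (step_sound _ 197 [(rh3ca48e2a6d60153d.shift 4 2), (rh9fb9dc683e09b5f3.shift 4 3), (rhe62cab2ff5ad6fe2.shift 4 3), rhf804f8a040d2160d] (by decide +kernel))
noncomputable def rhc82f273de14ac124 : CRef := CRef.mk (Pat.mk 0x200000002000000020000000a00000000000000000 0xa0000002e0000003f0000007e0000003e0000003e000001fe0000002e0000000e 13 9) 0 0 (step_sound _ 164 [(rh50fbb5868c909700.shift 4 2), rha6ccb844ae2b93bc] (by decide +kernel))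
noncomputable def rh20c68ac13517eb08 : CRef := CRef.mk (Pat.mk 0x40000001400000014000000000000000000000000000000000 0x180000023800001f7f00001ffe00003fff0000017c000001fc000003b4000003800000028000000280 13 14) 0 0 (step_sound _ 230 [(rh423d6d7253d9fa5c.shift 5 0), (rh73ba6c579e4b229a.shift 4 3), (rh771d065bdc85bf2d.shift 5 3), (rhd9b6e02745f39169.shift 0 1)] (by decide +kernel))
noncomputable def rh7ab5b9e0440324c5 : CRef := CRef.mk (Pat.mk 0x20000000a0000000a0000000200000000000000000000000000000000 0x100000001b0000001e0000000b000001fb000000fe000000ff0000001f0000001700000005 13 9) 0 0 (step_sound _ 131 [rh6e4cc3934242499b, (rh71e19df574a8cd77.shift 0 1), (rh96542b57e9ab27d3.shift 1 2), (rhc2d38a69b00a9b0b.shift 0 3)] (by decide +kernel))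
noncomputable def rh33fe6c9070ada414 : CRef := CRef.mk (Pat.mk 0x5000000050000000400000000000000000 0x1800000098000007ff000007fe0000075f000000ec000000ac0000000c 13 11) 0 0 (step_sound _ 133 [(rh09e3b3c49517183d.shift 3 3), (rh26e4b8188f39da75.shift 0 3), (rh2820ca9a6c4f41b4.shift 1 3), rhe5ebc7cc13246b6f] (by decide +kernel))
noncomputable def rh984750d98b5f6a73 : CRef := CRef.mk (Pat.mk 0x140000001400000010000000100000000000000000 0x20000000e0000000e0000000e000000270000003e0000003600000016000000370000001e0000000b00000002 13 6) 0 0 (step_sound _ 67 [(rh932754581e0f4330.shift 3 1), rhd07a4c7e1606d33e] (by decide +kernel))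
noncomputable def rhb239db6498f10a60 : CRef := CRef.mk (Pat.mk 0x5000000050000000100000000000000000 0x8000000080000001f0000007f000000df0000001f0000001f0000001f 13 8) 0 0 (step_sound _ 131 [(rh1a8a9207dc162d62.shift 2 2), rh5a77eb18aedd0841, (rhb1a251d9bff81766.shift 3 1), (rhd82abaa6e8ce82e9.shift 2 2)] (by decide +kernel))
noncomputable def rh5c64dca2f8eda19a : CRef := CRef.mk (Pat.mk 0x2000000020000000a0000001a000000100000000000000000 0x10000000700000003e000000ff000000ca000000fe000000fb000000ef00000025 13 8) 0 0 (step_sound _ 69 [rh5ae64d11d32b0da1, (rhab22b5b56e7b3243.shift 1 2)] (by decide +kernel))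
noncomputable def rh3eb3c55f100d2131 : CRef := CRef.mk (Pat.mk 0x4000000040000001400000014000000000000000000000000 0x20000001f000001be00000194000001fc000001f4000001e000000040 13 9) 0 0 (step_sound _ 193 [(rh50fbb5868c909700.shift 1 3), rh81e810d5d582acb3] (by decide +kernel))
noncomputable def rhf267b3bd021dbb40 : CRef := CRef.mk (Pat.mk 0x2000000020000000a0000000a0000000000000000000000000 0xa0000000e0000002e00000037000000be000000ff000000be000001fe000001ae0000010600000100 13 9) 0 0 (step_sound _ 196 [(rh50fbb5868c909700.shift 4 3), rh83baf16f55533ec2] (by decide +kernel))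
noncomputable def rh9f5f877a3198bfa4 : CRef := CRef.mk (Pat.mk 0x50000000400000004000000000000000000000000000000000000000000000000000000000 0x80000003e00000007800000040000007e7000003fe000007ff000000fe000000e0000000e0000000e0000000a0 13 11) 0 0 (step_sound _ 198 [rh3f298367fc0c8efb, (rh8cdd36b03d57a2f6.shift 5 4), (rhd7429d15a03f54e4.shift 3 5), (rhf4d32ceb02606f40.shift 3 5)] (by decide +kernel))
noncomputable def rhd363b6b315e96be1 : CRef := CRef.mk (Pat.mk 0x800000028000000200000002000000000000000000000000000000000 0x400000007e0000007c000000280000007f0000003e00000077000000700000007000000010 13 7) 0 0 (step_sound _ 229 [(rh2c718f29f451ad95.shift 2 4), (rh62ccaef4f7036292.shift 1 3), rh7b449cecbaffd269, (rhb7ee8905496f843d.shift 4 3)] (by decide +kernel))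
noncomputable def rh9cdc5be645e8d92d : CRef := CRef.mk (Pat.mk 0x1c000000000000000000000000000000000 0xe0000004e0000007f000000fe000003ef0000007e0000007f0000004e0000000e 13 10) 0 0 (step_sound _ 165 [rh54a6d12557663e99, (rh8bb330ee5aea9f6b.shift 4 1), (rh8c12fdbbddc1e7ab.shift 3 4), (rhc3274f47493954c4.shift 0 3)] (by decide +kernel))
noncomputable def rh9e91a7f91ffbbd30 : CRef := CRef.mk (Pat.mk 0xe000000280000000800000000000000000 0x10000000700000007400000074000000f6f000007fe000002ff000007f00000072000000400 13 12) 0 0 (step_sound _ 166 [rh031e00b5b546a5f4, (rh462b53f1a4fa550a.shift 2 1), (rhe072fffdd2fccf38.shift 6 2)] (by decide +kernel))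
noncomputable def rh3af97aaf7689b5e3 : CRef := CRef.mk (Pat.mk 0xe000000280000000800000000000000000 0x10000000700000007500000075000000f7f000007fe000002f7000007e00000072000000400 13 12) 0 0 (step_sound _ 136 [(rh216814f6ed835c1f.shift 4 0), (rh3b00e9e9432b8f40.shift 4 3), (rh698b470612b9741b.shift 0 1), (rh8fa629d0ae3d0ceb.shift 5 0), (rhc3bb0f1b2af200a9.shift 4 2)] (by decide +kernel))
noncomputable def rh901f575fc195db8a : CRef := CRef.mk (Pat.mk 0x1800000010000000100000000000000000000000000 0xc0000000f0000000f800000efe000007ff0000017e000003ff000003fe0000027e00000050 13 12) 0 0 (step_sound _ 166 [(rh13c8cb677084001a.shift 3 1), (rh1d65bb0a35b59d5d.shift 5 2), (rh684647bd66f98623.shift 3 2), rh7dc66afa41fd3741, (rha9927c6825142fe2.shift 1 1), (rhb1688bf6da1a7843.shift 4 2)] (by decide +kernel))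
noncomputable def rh33a89cd1ebc48a8c : CRef := CRef.mk (Pat.mk 0x20000000200000003000000080000000000000000000000000 0x20000002e0000003e0000007e0000003f0000003e000001ef0000007e0000007a00000050 13 9) 0 0 (step_sound _ 101 [(rh3ca5ce1f014bcd5e.shift 0 1), (rh6a56790be92093bf.shift 4 2), (rhc850b49d039efae1.shift 4 0)] (by decide +kernel))
noncomputable def rh9ef2dc6b4f3c1068 : CRef := CRef.mk (Pat.mk 0x80000000300000002000000020000000000000000000000000 0x500000007a0000007e000001ef0000003e0000003f0000007e0000003e0000002e00000002 13 9) 0 0 (step_sound _ 197 [(rh193da7fc9e1674f1.shift 4 2), (rh8797c67fe3ac847a.shift 4 3), rh9b524317debb4409] (by decide +kernel))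
noncomputable def rhf216d62b03e3a01f : CRef := CRef.mk (Pat.mk 0x40000002400000026000000200000000000000000000000000 0x38000000f8000001be000003bf000001fe000003ff0000037e0000022f0000003c0000001c00000014 13 10) 0 0 (step_sound _ 132 [(rh2b3584ef0f05e9c2.shift 3 4), rh38399f28867ff0a3, (rhd5963c52656806e2.shift 0 2)] (by decide +kernel))
noncomputable def rh48c23cc569692cc8 : CRef := CRef.mk (Pat.mk 0x120000005300000010000000000000000000000000000000000 0xa0000080e00000e8e00000fde00001ede00000fff000005be00000ff700000efe00000efe00000afe0000084a 13 13) 0 0 (step_sound _ 162 [rh3ff7afd14124f562, (rh7dae81e11a76de6b.shift 1 0), (rh90982cf581ae3e69.shift 2 5)] (by decide +kernel))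
noncomputable def rhb9865204d547392c : CRef := CRef.mk (Pat.mk 0x20000000260000002400000004000000000000000000000000000000000 0x140000001c0000003c0000022f0000037e000003ff000001fe000003bf000001be000000f800000038 13 10) 0 0 (step_sound _ 196 [(rh5bb78067c54b222b.shift 3 5), (rh6b7e24136e2509ce.shift 0 2), rheb2c61417110c332] (by decide +kernel))
noncomputable def rh12edd1bb414683aa : CRef := CRef.mk (Pat.mk 0x10000000530000001200000000000000000000000000000000000000000 0x84a00000afe00000efe00000efe00000ff7000005be00000fff00001ede00000fde00000e8e0000080e0000000a 13 13) 0 0 (step_sound _ 194 [(rh41955519f857d4d5.shift 2 5), rhd2da3a221a6cd03d, (rheff964f302e7acb7.shift 1 1)] (by decide +kernel))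
noncomputable def rh5b70cb9f59499b67 : CRef := CRef.mk (Pat.mk 0x1000000053000000120000000200000000000000000000000000000000000000000 0x20000000e0a00000e8e00000e9e00007edf00007fdf000075be0000ffff00007ef40000ffc000007e8000000e0000000e0000000a00 13 16) 0 0 (step_sound _ 227 [(rh7f28b2545cbf0018.shift 0 5), (rh9a8809016bc1e0e0.shift 4 0), (rhc92c11e8da6c894f.shift 0 6)] (by decide +kernel))
noncomputable def rhc4824cb784d5a337 : CRef := CRef.mk (Pat.mk 0x8000000298000002900000000000000000000000000000000000000000000000000 0x500000007c0000507e000070fe00007cff000029fe0007ff7c0003f7f00007fff00003f7f0000073f0000073f000005250 13 19) 0 0 (step_sound _ 229 [(rh41955519f857d4d5.shift 5 6), rh978620e205256184, (rhf61b8d86118a2591.shift 7 0)] (by decide +kernel))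
noncomputable def rhff66d7847df99465 : CRef := CRef.mk (Pat.mk 0x400000014c00000148000000000000000000000000000000000000000000000000000000000 0x8000000382800003a3e00003a3e0001fb7f0001ff7e0001d6ff000037be00003bfe00003ffe00003fff000021f8000001f8000001e800000140 13 17) 0 0 (step_sound _ 260 [(rh23ce07c3b26fa57e.shift 0 1), (rh41955519f857d4d5.shift 4 7), (rhfb095acc61be7bf0.shift 6 0)] (by decide +kernel))
noncomputable def rh30cce009a851b4d4 : CRef := CRef.mk (Pat.mk 0x100000005300000052000000000000000000000000000000000 0x20000000e0000000e8000000ebf00007efe00007fde000075b400000dfe00000ef800000ff800000eb000000800 13 15) 0 0 (step_sound _ 135 [(rh5419adcd928dba20.shift 4 4), rhba30eeebcf8f2b21] (by decide +kernel))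
noncomputable def rh3862a03b00fec8b3 : CRef := CRef.mk (Pat.mk 0x4000000400000000c000000480 0xa0000000f0000000f8000003fc000003ff000003fe0000077f000000f8000007bc 13 11) 0 0 (step_sound _ 134 [rhefa2f4277e6afa6d, (rhff0f29cb645b05f7.shift 6 0)] (by decide +kernel))
noncomputable def rhad37c1dbc8974dc1 : CRef := CRef.mk (Pat.mk 0x8000000800000001800000090000000000000000000000000000000000 0x5000000078000000f8000000fe000007fe000007ff00000e7e000001fc00000ff800000770000003f0000003f000000050 13 12) 0 0 (step_sound _ 137 [(rh2fe78cc5ca4405d8.shift 7 4), rha8adc20e416f6c81] (by decide +kernel))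
noncomputable def rh8b8d6069fa3a8116 : CRef := CRef.mk (Pat.mk 0x20000002000000006000000240000000000000000000000000 0x1de000001fe000003bf00000078000003fc000001dc000000f8000000f8 13 10) 0 0 (step_sound _ 103 [(rh2fe78cc5ca4405d8.shift 5 3), rh986a1cc9f2dc5088] (by decide +kernel))
noncomputable def rha777e7c53cfb2f96 : CRef := CRef.mk (Pat.mk 0x80000000980000003000000000000000000000000000000000000000000 0xe0000000f4000000fc00000ffc00000ffe000007ff00000efe000009ff000003fe000006fe000007f8000003f8000000f000000050 13 12) 0 0 (step_sound _ 262 [(rh0ff734a5ecd5427a.shift 1 5), (rh18a0601f2a87a91f.shift 2 1), (rh6c152b9e4727ae8c.shift 2 1), (rh841f9d8e974d115c.shift 1 2), (rh8a427499bb8e305f.shift 3 3), (rh9817f5dae4102cf7.shift 1 2), (rh99db9166e2744bad.shift 4 1), (rh9bf2bff6e5952f41.shift 3 1), (rha7387374cffa9e04.shift 3 2), (rha83ef410f709505b.shift 3 1), rha869927b490c73b2, (rhe3c1c3d9f27a9cfc.shift 2 1), (rhf0b7c1fd3be41acb.shift 2 1)] (by decide +kernel))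
noncomputable def rh7d8b2c31b83d18e2 : CRef := CRef.mk (Pat.mk 0x800000009800000090000000000000000000000000 0x1e0000007e0000008f000000df000000ff0000007f0000005f0000004c 13 8) 0 0 (step_sound _ 99 [(rh13412a77410a594c.shift 0 1), rh15dc36deb5997012, rh39dbcbb1f4b7b6c6, rh87f4c6de2895cb65, rh9fd63e60531cf0a9, rhbab50450307b0ccc, rhc1cbd28d5f80dc6c, rhd18db02feb94dc52, rhddf64fc248fc4dc2, rhf0146f287a4e891e] (by decide +kernel))
noncomputable def rh0d7f538c6f5e8afa : CRef := CRef.mk (Pat.mk 0x1000000013000000120000000000000000000000000000000000000000000000000 0x1e0000003e0000011f000001be000003ff000006fe000003fe000007ec000000700000007000000050 13 11) 0 0 (step_sound _ 227 [(rh5bb78067c54b222b.shift 2 6), (rha0ae8adeb1dbcf8d.shift 0 6), (rhb2afcb5db661472f.shift 0 6), (rhc92c11e8da6c894f.shift 0 6), rhda79f7f3df3ffdee, (rhf621c33c3fee57aa.shift 0 3)] (by decide +kernel))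
noncomputable def rh47751836506aa24a : CRef := CRef.mk (Pat.mk 0x1000000003000000120000000000000000000000000 0xa0000003e000000ff000001de0000003e000001fe000000fe0000005e0000005e 13 9) 0 0 (step_sound _ 102 [(rh2fe78cc5ca4405d8.shift 4 3), rh6d8d2265adfb974f] (by decide +kernel))
noncomputable def rhe586a9c68e4a52a6 : CRef := CRef.mk (Pat.mk 0x60000002400000000000000000000000000000000000000000 0x280000003800000078000000f80000003e0000007c000003ff0000007e000001ff000000fc000000b800000028 13 10) 0 0 (step_sound _ 196 [(rh02f6df7cf6374303.shift 1 2), (rh3918eeb6c53434d8.shift 1 5), (rh5bb78067c54b222b.shift 3 5), rh7f18554c4f3ee064] (by decide +kernel))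
noncomputable def rh4b7dffa48056d79e : CRef := CRef.mk (Pat.mk 0x2000000026000000240000000000000000000000000000000000000000000000000 0x1800000078000001f80000023e0000037c000007ff00000dfe000007df00000ffc000000f8000000e8000000a0 13 12) 0 0 (step_sound _ 166 [(rh2df3579b0972037c.shift 5 4), (rh374f969bc1712915.shift 5 1), (rh41ec28e15f794d20.shift 5 0), (rh717b5ffd69c1e5c9.shift 0 1), (rhd1779d7de7f8215b.shift 5 2)] (by decide +kernel))
noncomputable def rh021be2dbb88d2ecc : CRef := CRef.mk (Pat.mk 0x180000001800000000000000000000000000000000 0x50000000700000007000000070000001f0000001f0000007f000000ff0000003f00000005 13 8) 0 0 (step_sound _ 99 [(rh450c313fc14899ea.shift 0 1), rh58a7e0a62d05fa05, (rh5d128025ce3ec9b7.shift 0 1), (rh5d7e754330ccd2f8.shift 1 1), rh72489a0413cc0a98, (rhdc17d41c3cb86e14.shift 0 1)] (by decide +kernel))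
noncomputable def rh0c36b92a59a6a981 : CRef := CRef.mk (Pat.mk 0x2000000026000000260000000000000000000000000000000000000000000000000 0x70000000f00000023c0000037000000370000001ff000003fe000003ff0000003c0000001c00000004 13 10) 0 0 (step_sound _ 261 [(rh55a1f6c57a317ce6.shift 5 4), (rh57c2f33d7db628c6.shift 2 5), rh89d1f9816b430be6] (by decide +kernel))
noncomputable def rh5f2f04b808cb8a83 : CRef := CRef.mk (Pat.mk 0x2000000006000000260000000000000000000000000 0x14000001ff000001fe000003bf0000007c000003fc00000074000003f0000000f0 13 10) 0 0 (step_sound _ 103 [rh06ce565cd6818316, (rh2fe78cc5ca4405d8.shift 5 3)] (by decide +kernel))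
noncomputable def rh527e3db9b792c9fb : CRef := CRef.mk (Pat.mk 0x2000000006000000260000000000000000000000000 0x4000001ff000001fe000003bf0000007c000003fc000001b4000001f0000000f0 13 10) 0 0 (step_sound _ 69 [(rh9954101f0efffb9e.shift 4 0), (rhb677a7622583202e.shift 2 0), (rhc24ef288f4895ae7.shift 2 0), (rhc718e8623af45bc8.shift 0 2)] (by decide +kernel))
noncomputable def rh301a77da26dab9de : CRef := CRef.mk (Pat.mk 0x200000012000000530000001000000000000000000000000000000000000000000 0xa0000000e0000000e0000007e800000ffc000007ef40000ffff000075be00007fdf00007edf00000e9e00000e8e00000e0a00000200 13 16) 0 0 (step_sound _ 195 [(rh5d163e3fb98485eb.shift 4 0), (rhb12ffaec36122c99.shift 0 5), (rhef5b1eb572d59f49.shift 0 1)] (by decide +kernel))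
noncomputable def rhe3ea4c6b8d3b3b2a : CRef := CRef.mk (Pat.mk 0x2900000029800000080000000000000000000000000000000000 0x5250000073f0000073f00003f7f00007fff00003f7f00007ff7c000029fe00007cff000070fe0000507e0000007c00000050 13 19) 0 0 (step_sound _ 165 [rh4d10875e8d8d001d, (rh90982cf581ae3e69.shift 5 5), (rhfc16433629bdd3e1.shift 7 2)] (by decide +kernel))
noncomputable def rh4927961b97a06fbb : CRef := CRef.mk (Pat.mk 0x1480000014c0000004000000000000000000000000000000000000000000 0x140000001e8000001f8000021f800003fff00003ffe00003bfe000037be0001d6ff0001ff7e0001fb7f00003a3e00003a3e0000382800000800 13 17) 0 0 (step_sound _ 196 [(rh90982cf581ae3e69.shift 4 6), (rhb4cda3a1d7da5446.shift 6 0), (rhe59a56c945990a9f.shift 0 1)] (by decide +kernel))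
noncomputable def rhdf679ad4e73f9ae6 : CRef := CRef.mk (Pat.mk 0x52000000530000001000000000000000000000000000000000000000000 0x80000000eb000000ff800000ef800000dfe000075b400007fde00007efe00000ebf00000e8000000e0000000200 13 15) 0 0 (step_sound _ 231 [rh33ed337ea1672b75, (rhb2a0b9ccfb5cecd5.shift 4 6)] (by decide +kernel))
noncomputable def rh10f6f7290a84f7dc : CRef := CRef.mk (Pat.mk 0x480000000c000000400000000400000000000000000000000000000000000000000 0x7bc000000f80000077f000003fe000003ff000003fc000000f8000000f0000000a0 13 11) 0 0 (step_sound _ 134 [(rh04253f50b6dd0619.shift 6 4), rhf943c49f1be0bdc5] (by decide +kernel))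
noncomputable def rh7d2d0caf22f39d0f : CRef := CRef.mk (Pat.mk 0x9000000018000000800000000800000000000000000000000000000000000000000 0x50000003f0000003f00000077000000ff8000001fc00000e7e000007ff000007fe000000fe000000f80000007800000050 13 12) 0 0 (step_sound _ 265 [(rh361cc68994bd8a63.shift 7 7), rhe6c1dbb01c559981] (by decide +kernel))
noncomputable def rh7221ee311a031523 : CRef := CRef.mk (Pat.mk 0x24000000060000002000000002000000000 0xf8000000f8000001dc000003fc00000078000003bf000001fe000001de 13 10) 0 0 (step_sound _ 135 [(rh361cc68994bd8a63.shift 5 3), rh8b33761bc73a33e8] (by decide +kernel))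
noncomputable def rh30dc55e43d717d86 : CRef := CRef.mk (Pat.mk 0x3000000098000000800000000000000000000000000000000000000000000000000 0x50000000f0000003f8000007f8000006fe000003fe000009ff00000efe000007ff00000ffe00000ffc000000fc000000f4000000e0 13 12) 0 0 (step_sound _ 166 [(rh057d38e961ae2e88.shift 4 2), (rh14680044d1062391.shift 3 1), (rh15555293cbe7af03.shift 2 3), (rh455576cdad266006.shift 3 0), (rh4ff36874f13a7d34.shift 3 2), (rh63f41affe0c550f6.shift 1 0), (rh68c2d74652865ed7.shift 3 0), (rh82a76a6d2754879a.shift 2 0), (rh935422c3ff8a1aa5.shift 2 3), (rhcaa7f9216cb366bc.shift 2 0), (rhe83587758e930fb9.shift 1 0), (rhf56f93a825d95b4b.shift 1 1), (rhf7b76d83ce59c7a9.shift 0 1)] (by decide +kernel))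
noncomputable def rhb9f5c5d8d572cab3 : CRef := CRef.mk (Pat.mk 0x9000000098000000800000000000000000 0x4c0000005f0000007f000000ff000000df0000008f0000007e0000001e 13 8) 0 0 (step_sound _ 131 [rh054fd987d12321e1, rh11cc53519942b40b, rh15c1cacd9baaa5cf, (rh265f0a77e2dca644.shift 0 1), rh65d7ca34c36186de, rh6d253ac5143ae0c6, rha742118129b80cc4, rhac8449fb18bd7b5e, rhbe662e14f5aac2f7, (rhcd04d34f768a5155.shift 0 1)] (by decide +kernel))
noncomputable def rhb74a202f5f12837d : CRef := CRef.mk (Pat.mk 0x12000000130000001000000000000000000 0x500000007000000070000007ec000003fe000006fe000003ff000001be0000011f0000003e0000001e 13 11) 0 0 (step_sound _ 99 [(rh2b3584ef0f05e9c2.shift 2 3), (rh3e0b38310ac09007.shift 0 3), rh42cc91f2a529ee86, (rhb103f40a53fe1424.shift 0 2), (rhb12ffaec36122c99.shift 0 2), rhd873d0c2203f6eb7] (by decide +kernel))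
noncomputable def rh0eb587de0a12f339 : CRef := CRef.mk (Pat.mk 0x1200000003000000100000000000000000000000000 0x5e0000005e000000fe000001fe0000003e000001de000000ff0000003e0000000a 13 9) 0 0 (step_sound _ 166 [(rh361cc68994bd8a63.shift 4 4), rha05c161b5447da29] (by decide +kernel))
noncomputable def rhb182ce5471ec61fc : CRef := CRef.mk (Pat.mk 0x240000000600000000000000000000000000000000000000000 0x28000000b8000000fc000001ff0000007e000003ff0000007c0000003e000000f8000000780000003800000028 13 10) 0 0 (step_sound _ 164 [(rh2b3584ef0f05e9c2.shift 3 5), rh7525c561c4eb32e1, (rh931e099d36dc5a6d.shift 1 2), (rha4e887c2a2a0f60b.shift 1 4)] (by decide +kernel))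
noncomputable def rh07152451c4ee90e5 : CRef := CRef.mk (Pat.mk 0x2400000026000000200000000000000000000000000 0xa0000000e8000000f800000ffc000007df00000dfe000007ff0000037c0000023e000001f80000007800000018 13 12) 0 0 (step_sound _ 198 [(rh0e0b417350209c69.shift 5 3), (rh18e23c62acf1522d.shift 5 1), rh1fe5562bc4490f60, (rh2230d0adc6913184.shift 5 3), (rh7a7e08304268422e.shift 5 3)] (by decide +kernel))
noncomputable def rha7e5803853a77083 : CRef := CRef.mk (Pat.mk 0x180000001800000000000000000000000000000000 0x50000003f000000ff0000007f0000001f0000001f00000007000000070000000700000005 13 8) 0 0 (step_sound _ 195 [(rh6db551f9eb3fc3d1.shift 0 3), (rha6a27f667eb860a4.shift 0 3), rha7db8ae16f16e3f5, rhc2348842bb18b4f0, rhc87492829c448c9e, (rhd5461851e65b5783.shift 1 4)] (by decide +kernel))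
noncomputable def rhdb2633ab45f0e62d : CRef := CRef.mk (Pat.mk 0x26000000260000002000000000000000000 0x40000001c0000003c000003ff000003fe000001ff00000370000003700000023c000000f000000070 13 10) 0 0 (step_sound _ 69 [(rh10643d71d7742ac8.shift 0 1), (rh72b06522cc100222.shift 2 0), (rh84d1c02a8954c6a8.shift 5 1)] (by decide +kernel))
noncomputable def rha0aafd448b210b03 : CRef := CRef.mk (Pat.mk 0x2600000006000000200000000000000000000000000 0xf0000003f000000074000003fc0000007c000003bf000001fe000001ff00000014 13 10) 0 0 (step_sound _ 167 [rh29d87e41cde341f9, (rh361cc68994bd8a63.shift 5 4)] (by decide +kernel))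
noncomputable def rhbe15f929dd4c85b6 : CRef := CRef.mk (Pat.mk 0x2600000006000000200000000000000000000000000 0xf0000001f0000001b4000003fc0000007c000003bf000001fe000001ff00000004 13 10) 0 0 (step_sound _ 197 [rhab23e6c054a2db73, (rhb3e5613249985042.shift 4 1), (rhe04ef1ccb525e8a6.shift 2 2), (rhe2d7daae1577d340.shift 2 3)] (by decide +kernel))
noncomputable def rh2e131f4547aacf93 : CRef := CRef.mk (Pat.mk 0x400000004c00000048000000000000000000000000000000000 0x14000001fe800000ffe00001bff00000fbe000006f8000007fe000000ff000001fe000001f800000128 13 13) 0 0 (step_sound _ 199 [(rh263663422b3c03b0.shift 2 1), (rh82caa456695e7623.shift 6 0), (rhb0097c94de2e9b0e.shift 6 4), rhc24a3864267e90aa, (rhdbeb7e8cb2152913.shift 6 2)] (by decide +kernel))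
noncomputable def rh8ea3f3a7ab46535e : CRef := CRef.mk (Pat.mk 0x400000004c0000004800000000000000000000000000000000 0x14000001fc000000fc000001bc000000f80000006f0000007c000000180000001c0000001c00000004 13 9) 0 0 (step_sound _ 132 [(rh2fe78cc5ca4405d8.shift 2 4), rhe6caf707400c9991] (by decide +kernel))
noncomputable def rhca377049c105494e : CRef := CRef.mk (Pat.mk 0x1800000053000000120000000000000000000000000000000000000000 0x20000000e0000000e5000000ff000000ef000000fa0000005b000000ff000000ed000000fc000000e0000000e000000020 13 8) 0 0 (step_sound _ 257 [rh094bd54c16b15cb5, (rh423f813b3a8ace03.shift 0 4), (rhdc5a42119449cd2e.shift 0 4)] (by decide +kernel))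
noncomputable def rhfc925609f3bd59cc : CRef := CRef.mk (Pat.mk 0x480000004c00000040000000000000000000000000000000000 0x128000001f8000001fe000000ff000007fe000006f800000fbe00001bff00000ffe00001fe800000140 13 13) 0 0 (step_sound _ 135 [(rh087463af8fb1450f.shift 6 0), (rh0d506c12d6ca6fad.shift 2 2), rh62260deb9584a1a8, (rhb9fc4ad5d2e75c1c.shift 6 3), (rhe754dc2a454cf541.shift 6 0)] (by decide +kernel))
noncomputable def rhe19bab637fb27480 : CRef := CRef.mk (Pat.mk 0x480000004c0000004000000000000000000000000000000000 0x40000001c0000001c000000180000007c0000006f000000f8000001bc000000fc000001fc00000014 13 9) 0 0 (step_sound _ 196 [rh119699d577ed9e57, (rh361cc68994bd8a63.shift 2 5)] (by decide +kernel))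
noncomputable def rh700b10658a509aa6 : CRef := CRef.mk (Pat.mk 0x1200000053000000180000000000000000000000000000000000000000 0x20000000e0000000e0000000fc000000ed000000ff0000005b000000fa000000ef000000ff000000e5000000e000000020 13 8) 0 0 (step_sound _ 129 [rh0db7a48cef0ec01a, (rh2aa4895b439b62aa.shift 0 2), (rh88cf35fd3b453281.shift 0 3)] (by decide +kernel))
noncomputable def rh5afd0153e82d7335 : CRef := CRef.mk (Pat.mk 0x18000000030000000000000000000000000 0x7f000000fe000001fe0000003e0000003e0000003e00000038 13 9) 0 0 (step_sound _ 133 [rh4275ff46f5ee5b00, (rhb2a0b9ccfb5cecd5.shift 4 3)] (by decide +kernel))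
noncomputable def rheb9b2f3682c8a8d6 : CRef := CRef.mk (Pat.mk 0x800000009800000082000000000000000000000000000000000 0x10000000180000001d8000000ff000009fe00000dff00000ffe000007ff000005de000005de00000140 13 12) 0 0 (step_sound _ 132 [(rh1ce1159d9b391a03.shift 0 1), (rh3ddcd74eb48bb311.shift 1 1), (rh74300a63a274f3fb.shift 4 0), (rh83e4e934d9bc1798.shift 0 1), (rhaa26c83b691e7073.shift 1 3), (rhd06a3fb214439eaf.shift 3 4)] (by decide +kernel))
noncomputable def rha727f0bc1ec88f88 : CRef := CRef.mk (Pat.mk 0x80000000980000008300000000000000000000000000000000000000000 0x50000000fc000002fe00000ffe00000dff00000fbe000007ef00000ffc000007f8000003f000000050 13 12) 0 0 (step_sound _ 197 [rh927710fca53553d9, (rhb2a0b9ccfb5cecd5.shift 4 5)] (by decide +kernel))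
noncomputable def rhd5a89dea7d3d9311 : CRef := CRef.mk (Pat.mk 0x400000004c0000004180000000000000000000000000000000000000000 0x80000000f4000000fc0000007c000004ff000006de000007ff000003df000002ff000002fc000000f4000000a0 13 11) 0 0 (step_sound _ 166 [(rh1c62b6193297d9e3.shift 3 5), rh33c9d3a5e0b384ad] (by decide +kernel))
noncomputable def rh595f319d917ecacc : CRef := CRef.mk (Pat.mk 0x1800000002000000000000000000000000000000000 0x3f000001fe000001ff000001fe000001ff000001fe0000007e00000020 13 9) 0 0 (step_sound _ 132 [(rh1ce1159d9b391a03.shift 0 1), (rh3ddcd74eb48bb311.shift 1 1), rh63517d3e6b319dda, (rhd06a3fb214439eaf.shift 3 4)] (by decide +kernel))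
noncomputable def rhc98e9b3f3316eb4d : CRef := CRef.mk (Pat.mk 0x400000000c0000004180000000000000000000000000000000000000000 0x28000000380000007800000178000007f0000000f8000007df000003ff000001ff000001fc0000017c00000028 13 11) 0 0 (step_sound _ 196 [(rhb2a0b9ccfb5cecd5.shift 3 5), rhd23e49d3ebfda075] (by decide +kernel))
noncomputable def rh6fe448e407e2368a : CRef := CRef.mk (Pat.mk 0x1a00000002000000000000000000000000 0x40000000c0000003f0000001e0000003b0000003f0000003f00000028 13 6) 0 0 (step_sound _ 130 [rh8c6c9dff66693d48, (rheb0810cc63b001d8.shift 0 3)] (by decide +kernel))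
noncomputable def rh7518f3e739dceaf4 : CRef := CRef.mk (Pat.mk 0x3400000004000000000000000000000000 0x18000000180000007f0000003e000000740000007e0000007e00000050 13 7) 0 0 (step_sound _ 131 [(rh0d378fd9e8917c5a.shift 0 3), (rh3bc20d0d8c73da06.shift 1 2), (rh4c622fddc53a5f99.shift 0 4), (rh8c6c9dff66693d48.shift 1 0)] (by decide +kernel))
noncomputable def rhe0d9e24e5c02b1c2 : CRef := CRef.mk (Pat.mk 0x1000000013000000104000000000000000000000000000000000000000000000000 0xa0000001e0000005e000001ff000001be000001fc000000fe000000fe000000fe0000007e0000007800000050 13 9) 0 0 (step_sound _ 197 [(rh2d618a55a09d7e9f.shift 0 1), (rh6b2c1649c6fc8f4c.shift 3 1), (rh82fdfb986da5f0ac.shift 1 3), (rh9a10ae46f936984a.shift 1 2), (rhe1db58ba8141fc5f.shift 1 3), (rhec8e258b8e00c7b4.shift 4 2), (rhf2b9b79c30e7267c.shift 1 0)] (by decide +kernel))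
noncomputable def rhffc0b19cffe1f4d4 : CRef := CRef.mk (Pat.mk 0x400000004c00000045000000000000000000000000000000000 0xa0000000f4000000fc0000007c000004fc000006de000007ff000003df000002ff000002f4000000a0 13 11) 0 0 (step_sound _ 198 [(rh63e46162e7a068ed.shift 3 3), (rh66969a038b9db9ff.shift 3 0), (rh6d29d1b386289d6a.shift 3 0), (rh79ca08188692bb36.shift 3 1), (rh81299d1004fd0611.shift 3 2), rha3010baff5468384, (rhc1bde4cdc2ffef89.shift 5 0)] (by decide +kernel))
noncomputable def rh1b0dfb582b210625 : CRef := CRef.mk (Pat.mk 0x30000001800000000000000000 0x380000003e0000003e0000003e000001fe000000fe0000007f 13 9) 0 0 (step_sound _ 69 [rh131b8fa84435dfac, (rh5419adcd928dba20.shift 4 2)] (by decide +kernel))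
noncomputable def rhfb3140494bad058f : CRef := CRef.mk (Pat.mk 0x820000009800000080000000000000000000000000000000000 0x140000005de000005de000007ff00000ffe00000dff000009fe000000ff000001d80000018000000100 13 12) 0 0 (step_sound _ 196 [(rh9eee4c6bb46bd9bb.shift 1 5), (rha26e6c26aec63f60.shift 0 2), (rha7b253017a5af1e0.shift 3 5), (rhc135a6f699b09cdd.shift 4 0), (rhee0dd698f306bede.shift 1 4), (rhf211f32e160f9b6b.shift 0 4)] (by decide +kernel))
noncomputable def rhd8228a755bc99c98 : CRef := CRef.mk (Pat.mk 0x8300000098000000800000000000000000000000000 0x50000003f0000007f800000ffc000007ef00000fbe00000dff00000ffe000002fe000000fc00000050 13 12) 0 0 (step_sound _ 133 [rh3c94d8e9aa0b3900, (rh5419adcd928dba20.shift 4 4)] (by decide +kernel))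
noncomputable def rh0ea4216b5ffce22e : CRef := CRef.mk (Pat.mk 0x418000004c00000040000000000000000000000000000000000 0xa0000000f4000002fc000002ff000003df000007ff000006de000004ff0000007c000000fc000000f400000080 13 11) 0 0 (step_sound _ 198 [rh5e57bb742131ac70, (rhc10214bf3fe8094a.shift 3 5)] (by decide +kernel))
noncomputable def rhcee0be3181710a27 : CRef := CRef.mk (Pat.mk 0x20000001800000000000000000 0x200000007e000001fe000001ff000001fe000001ff000001fe0000003f 13 9) 0 0 (step_sound _ 100 [(rha7b253017a5af1e0.shift 3 2), rhcb8ff88b91a90567, (rhee0dd698f306bede.shift 1 1), (rhf211f32e160f9b6b.shift 0 1)] (by decide +kernel))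
noncomputable def rh05b730fabbb42378 : CRef := CRef.mk (Pat.mk 0x418000000c00000040000000000000000000000000000000000 0x280000017c000001fc000001ff000003ff000007df000000f8000007f000000178000000780000003800000028 13 11) 0 0 (step_sound _ 164 [(rh5419adcd928dba20.shift 3 5), rh9172f07710e76b8b] (by decide +kernel))
noncomputable def rh2c08e76e4d54697a : CRef := CRef.mk (Pat.mk 0x20000001a000000000000000000000000 0x280000003f0000003f0000003b0000001e0000003f0000000c00000004 13 6) 0 0 (step_sound _ 98 [(rh3244c3cc8379b070.shift 0 3), rh8e4fd05535fc18cf] (by decide +kernel))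
noncomputable def rh1842315e10b0debc : CRef := CRef.mk (Pat.mk 0x400000034000000000000000000000000 0x500000007e0000007e000000740000003e0000007f0000001800000018 13 7) 0 0 (step_sound _ 99 [(rh185f35b8bd8ec37f.shift 0 2), (rh8e4fd05535fc18cf.shift 1 0), (rh9e97bba44c1b13e4.shift 0 2), (rhc02275ce183c9512.shift 1 0)] (by decide +kernel))
noncomputable def rh4094d6ab60fd85cc : CRef := CRef.mk (Pat.mk 0x1040000013000000100000000000000000000000000 0x50000000780000007e000000fe000000fe000000fe000001fc000001be000001ff0000005e0000001e0000000a 13 9) 0 0 (step_sound _ 165 [(rh2686e8f9b97da527.shift 1 1), rh2873bff403e24bb5, (rh60ce6a5e494fd168.shift 1 1), (rh6e34b203f53cb637.shift 1 0), (rhbcde47e7dc71a931.shift 4 1), (rhc6c0ecd3ab69f345.shift 1 0), (rhe028dda05b456f2a.shift 3 2)] (by decide +kernel))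
noncomputable def rh20f6d96ad4951d7d : CRef := CRef.mk (Pat.mk 0x450000004c00000040000000000000000000000000000000000 0xa0000002f4000002ff000003df000007ff000006de000004fc0000007c000000fc000000f4000000a0 13 11) 0 0 (step_sound _ 134 [(rh0a4bd2056e862232.shift 5 0), (rh0c2066596fbe131f.shift 3 2), (rh589a2c522c8a1b94.shift 3 0), (rh7a64529f3b60060a.shift 3 2), (rhac4676b47cce0be1.shift 3 2), (rhc4a4373b71c24a50.shift 0 1), (rhfffe96e9da5f56fd.shift 3 3)] (by decide +kernel))
noncomputable def rhd49cddbc3454dce2 : CRef := CRef.mk (Pat.mk 0x880000001800000090000000000000000000000000 0xc0000002c0000007f000000ff0000001f000000fe0000002f0000000e0000000c 13 8) 0 0 (step_sound _ 101 [(rh2fe78cc5ca4405d8.shift 3 3), rh7ceda60711914ee3] (by decide +kernel))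
noncomputable def rh0792cea29c06a644 : CRef := CRef.mk (Pat.mk 0x8000000180000008000000000000000000000000000000000 0x140000001c0000001d0000000f0000001f0000001f000000fe0000001f0000001c0000001c00000014 13 8) 0 0 (step_sound _ 227 [rh047efc608479a630, (rh0fa4a62bba50784f.shift 2 4), (rh52d29ebd03e21878.shift 2 3), (rh70e33bfdf511e144.shift 3 2), (rhe380c42df720a63d.shift 2 4)] (by decide +kernel))
noncomputable def rha6a9858de99e8d7b : CRef := CRef.mk (Pat.mk 0x80000001800000080000000000000000000000000 0x40000001c0000001c0000003f0000000f0000001f000000fe0000001f0000001c00000004 13 8) 0 0 (step_sound _ 195 [(rh70e33bfdf511e144.shift 3 1), rhcde32c0676b7f0de, (rhe380c42df720a63d.shift 2 3), (rhf802231a6ce9cf4e.shift 0 1)] (by decide +kernel))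
noncomputable def rh385ee42a3210a22f : CRef := CRef.mk (Pat.mk 0x900000001800000088000000000000000000000000 0xc0000000e0000002f000000fe0000001f000000ff0000007f0000002c0000000c 13 8) 0 0 (step_sound _ 165 [(rh361cc68994bd8a63.shift 3 4), rhffadc24039f76a90] (by decide +kernel))
noncomputable def rhd52848790da5e93c : CRef := CRef.mk (Pat.mk 0x80000000180000000800000000000000000000000000000000 0x140000001c0000001c0000001f000000fe0000001f0000001f0000000f0000001d0000001c00000014 13 8) 0 0 (step_sound _ 99 [(rh215e11e099257d75.shift 3 2), (rh274a837cd7eaa569.shift 2 0), (rhade7a5aea09945f2.shift 0 2), (rhd8480aedf4075c15.shift 2 0), (rhf1892f40dde48c82.shift 2 0)] (by decide +kernel))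
noncomputable def rh2bf0c03950963994 : CRef := CRef.mk (Pat.mk 0x80000000180000000800000000000000000000000000000000 0x40000001c0000001f000000fe0000001f0000000f0000003f0000001c0000001c00000004 13 8) 0 0 (step_sound _ 99 [(rh215e11e099257d75.shift 3 2), (rh980a0f4b95aa17ea.shift 0 1), (rhb1852b41e5c96097.shift 0 2), (rhd8480aedf4075c15.shift 2 0)] (by decide +kernel))
noncomputable def rh02c7218cc810d1cb : CRef := CRef.mk (Pat.mk 0x800000001800000088000000000000000000000000 0x380000007c000000ff0000001f000000fc000000780000003e0000003c 13 8) 0 0 (step_sound _ 164 [(rh37235d0a647eab3b.shift 3 2), (rh6610a29b67230cd4.shift 1 2), (rh6da45e36b67121b0.shift 1 2), rhefd7d2ca7e0f57be, (rhf9366b6a121593ef.shift 3 1)] (by decide +kernel))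
noncomputable def rh8ae470e156072442 : CRef := CRef.mk (Pat.mk 0x800000001800000088000000000000000000000000 0x3000000030000000fc0000001f000000ff0000007f000000fe0000003e 13 8) 0 0 (step_sound _ 164 [(rh6610a29b67230cd4.shift 1 2), rh988def9633a48c4f, (rhf9366b6a121593ef.shift 3 1)] (by decide +kernel))
noncomputable def rh3d97dd7ec9c47be4 : CRef := CRef.mk (Pat.mk 0x8800000018000000800000000000000000 0x3c0000003e00000078000000fc0000001f000000ff0000007c00000038 13 8) 0 0 (step_sound _ 68 [(rh799475011525fde8.shift 0 1), (rh83aef45cdbd4f3ab.shift 1 0), (rh990fd10f5c71e5ea.shift 3 0), (rhc38f566cab2818e5.shift 3 0), (rhdb979701e2373415.shift 1 0)] (by decide +kernel))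
noncomputable def rh1d29adb9761a2700 : CRef := CRef.mk (Pat.mk 0x8800000018000000800000000000000000 0x3e000000fe0000007f000000ff0000001f000000fc0000003000000030 13 8) 0 0 (step_sound _ 68 [(rh621c6d690e7c6420.shift 0 1), (rh83aef45cdbd4f3ab.shift 1 0), (rhc38f566cab2818e5.shift 3 0)] (by decide +kernel))
noncomputable def rh4b9c0deaa5723d85 : CRef := CRef.mk (Pat.mk 0x880000001800000000000000000000000000000000 0x38000000380000007f000000ff0000001f0000003f0000007f0000003e00000002 13 8) 0 0 (step_sound _ 164 [(rh20277466cec22ba9.shift 1 1), (rh2a6f1d245b226674.shift 0 1), (rh36d9cf5aadd22583.shift 0 2), rhce0af1958e122be5, (rhd6462a555c5a1f5d.shift 1 1), (rhe055638bb88dfdce.shift 0 2), (rhe50916ebc372b94f.shift 0 1)] (by decide +kernel))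
noncomputable def rh429369098cf8045d : CRef := CRef.mk (Pat.mk 0x880000001800000000000000000000000000000000 0x40000000c0000002f000000ff0000001f0000003f0000007f0000003f0000000c 13 8) 0 0 (step_sound _ 100 [(rh33a56901ccff29d8.shift 0 1), (rhc2c7bae8f445c890.shift 3 1), rhc685013a81b381f9, (rhda1ad26c7481a7b4.shift 2 1)] (by decide +kernel))
noncomputable def rhd715f3d306171c18 : CRef := CRef.mk (Pat.mk 0x9800000018000000000000000000000000 0x1c0000003e0000000f000000fb0000001f0000003f0000001f0000001c 13 8) 0 0 (step_sound _ 134 [(rhb2a0b9ccfb5cecd5.shift 3 3), rhd2079ce7288450a6] (by decide +kernel))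
noncomputable def rh4677a02cd773238b : CRef := CRef.mk (Pat.mk 0x1800000088000000000000000000000000 0x20000003e0000007f0000003f0000001f000000ff0000007f0000003800000038 13 8) 0 0 (step_sound _ 100 [(rh3e0b5a22380f97db.shift 0 1), rh44b6593250f15014, (rh4e3d17ed4e0bd162.shift 1 0), rh695e4327c06d4c46, (rhc4ef6306db5f37fa.shift 1 0), rhd5e7e24ce050b165, rhfcd228b0bfc7d7e2] (by decide +kernel))
noncomputable def rhd5232a2c16a82c4a : CRef := CRef.mk (Pat.mk 0x1800000088000000000000000000000000 0xc0000003f0000007f0000003f0000001f000000ff0000002f0000000c00000004 13 8) 0 0 (step_sound _ 164 [(rhcc50f93bf3ea498e.shift 0 1), (rhcf80391c5046a495.shift 3 1), rhde08b7821aae86ed, (rhe24448ac32e0808b.shift 2 1)] (by decide +kernel))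
noncomputable def rh8352f405aacad2c8 : CRef := CRef.mk (Pat.mk 0x1800000098000000000000000000000000 0x1c0000001f0000003f0000001f000000fb0000000f0000003e0000001c 13 8) 0 0 (step_sound _ 102 [(rh5419adcd928dba20.shift 3 3), rhcccb44b5b7de3a7f] (by decide +kernel))
noncomputable def rha9f746ff2dd0ceca : CRef := CRef.mk (Pat.mk 0x80000000980000008800000000000000000000000000000000 0x20000000a0000008f000000df000000ff0000007f000000ff0000007e00000002 13 8) 0 0 (step_sound _ 132 [(rh15982f933753baf2.shift 0 1), (rh634bb638430963cc.shift 0 1), (rh63c4d1dd62b60604.shift 0 1), (rh6c18fb4bb5892734.shift 0 1), (rh9e141fa6bc2add05.shift 0 1), (rhdaaa23b1a383527d.shift 0 1), (rhe15cabacc36eb8bd.shift 0 1), rhf41c0d5e7ae00ec8, (rhfa427a3b7d428523.shift 0 1)] (by decide +kernel))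
noncomputable def rh212d223d203c11cf : CRef := CRef.mk (Pat.mk 0x800000009800000088000000000000000000000000 0x280000003d0000007f000000770000007f000000ff000000df000000ff000000770000003f0000003f 13 8) 0 0 (step_sound _ 100 [rh27d2ff502bce0213, rh63c4d1dd62b60604, rh6e18dc207937a3e2, rh9e141fa6bc2add05, (rha02277b61c6d0e4d.shift 1 0), rhb02b6849f97305e9] (by decide +kernel))
noncomputable def rhf054d13389da922d : CRef := CRef.mk (Pat.mk 0x8800000098000000800000000000000000 0x20000007e000000ff0000007f000000ff000000df0000008f0000000a00000002 13 8) 0 0 (step_sound _ 132 [(rh26ffcb37093465b4.shift 0 2), (rh2dbc52c9ebd6da8b.shift 0 2), (rh3b6e445a047875a2.shift 0 1), (rh3c4b012b196bde2e.shift 0 1), (rh456fee83b6c5a056.shift 0 2), (rh4b43a0f26c39d442.shift 0 1), (rh61142f598d4e551e.shift 0 2), rh809d74d14d9f4d61, (rh99ec4d08f376f074.shift 0 1)] (by decide +kernel))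
noncomputable def rhabc68748a83660b5 : CRef := CRef.mk (Pat.mk 0x8800000098000000800000000000000000000000000000000000000000 0x3f0000003f00000077000000ff000000df000000ff0000007f000000770000007f0000003d00000028 13 8) 0 0 (step_sound _ 228 [(rh26ffcb37093465b4.shift 0 5), (rh5efecdc999974cf1.shift 0 4), (rh6cc5152a31bfb62a.shift 1 0), (rh87e103c08857fda2.shift 0 5), (rh99ec4d08f376f074.shift 0 4), (rhf5552707906fde2d.shift 0 1)] (by decide +kernel))
noncomputable def rhdc9515335960f5c3 : CRef := CRef.mk (Pat.mk 0x8000000098000000b0000000000000000000000000 0x280000007c000000fc0000005f000000ff000000de000000be0000007c0000003c00000020 13 8) 0 0 (step_sound _ 130 [rh63661019534cd568, (rhb739f4f82bb681b4.shift 1 3)] (by decide +kernel))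
noncomputable def rh12d11c9728e0e07e : CRef := CRef.mk (Pat.mk 0x1000000003000000060000000000000000000000000 0x18000000380000003e000001fe0000003e0000007e000000fe0000005f00000048 13 9) 0 0 (step_sound _ 165 [(rh5ee484cd30aed5fd.shift 1 1), (rh70e33bfdf511e144.shift 5 0), rhb1bdf8ad68c3ea96, (rhb23658ecdd7ce5df.shift 4 2)] (by decide +kernel))
noncomputable def rh37c2b49a4125ec78 : CRef := CRef.mk (Pat.mk 0x800000001800000090000000100000000000000000 0xc0000001e000000ff0000001f000000df0000007f000001ef0000000c 13 9) 0 0 (step_sound _ 67 [(rh078748749203f420.shift 1 1), (rh54f186f0dd73836f.shift 0 1), (rh6dba9c436c8cba71.shift 1 1), rh75fc9d7b44deae76, rheb023947bc608e90] (by decide +kernel))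
noncomputable def rhe868d0e12cded59f : CRef := CRef.mk (Pat.mk 0x80000000180000009000000000000000000000000000000000 0x1c0000001f000000ff0000001f000000ff0000000f0000003c0000001c00000014 13 8) 0 0 (step_sound _ 131 [(rh017f48fb9eca1bc9.shift 0 1), (rh102126d77a916feb.shift 0 1), rh599a60f6863fd029, (rh7dd3d324d2489ccb.shift 0 1), (rh9e141fa6bc2add05.shift 0 1), rhce7db5c0cba8c06f] (by decide +kernel))
noncomputable def rha07de4476072769d : CRef := CRef.mk (Pat.mk 0xb0000000980000008000000000000000000000000000000000 0x200000003c0000007c000000be000000de000000ff0000005f000000fc0000007c00000028 13 8) 0 0 (step_sound _ 162 [(rh53b3c253cb0c65f4.shift 1 5), rhf9db829816a0599b] (by decide +kernel))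
noncomputable def rh76664d471ab9ce51 : CRef := CRef.mk (Pat.mk 0x600000003000000100000000000000000000000000 0x480000005f000000fe0000007e0000003e000001fe0000003e0000003800000018 13 9) 0 0 (step_sound _ 101 [(rh000637b5a81e86aa.shift 4 1), (rh215e11e099257d75.shift 5 2), (rh78870b9e67e42722.shift 1 0), rhb6c0c6d8b52bca2f] (by decide +kernel))
noncomputable def rhc0197e547be5a687 : CRef := CRef.mk (Pat.mk 0x100000009000000018000000800000000000000000 0xc000001ef0000007f000000df0000001f000000ff0000001e0000000c 13 9) 0 0 (step_sound _ 163 [rh214cbfe9d4c17e50, (rh266421fe7753c52f.shift 1 2), (rh5dc80a0c8ec30515.shift 0 1), (rhc189904a255ed82e.shift 1 1), rhcf9e5eeb4800bcd0] (by decide +kernel))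
noncomputable def rh6630faf72a4e2686 : CRef := CRef.mk (Pat.mk 0x9000000018000000800000000000000000 0x140000001c0000003c0000000f000000ff0000001f000000ff0000001f0000001c 13 8) 0 0 (step_sound _ 131 [rh16464b5468e69a1c, (rh26ffcb37093465b4.shift 0 2), rh37bdffde165f321d, (rh8f26fa7cae4f34bd.shift 0 2), rh966c3ea23245b2ce, rhaae93416b4cefb15] (by decide +kernel))
noncomputable def rh9f8fa3968b2569a4 : CRef := CRef.mk (Pat.mk 0x20000000300000012000000000000000000000000000000000 0xc0000000c0000001e0000003e0000003e000001ff000000ee0000007e0000007000000050 13 9) 0 0 (step_sound _ 134 [(rh2fe78cc5ca4405d8.shift 4 4), rh9b485644f1bda6c2] (by decide +kernel))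
noncomputable def rh1bf17aca12f91bb0 : CRef := CRef.mk (Pat.mk 0x1200000003000000020000000000000000000000000 0x50000000700000007e000000ee000001ff0000003e0000003e0000001e0000000c0000000c 13 9) 0 0 (step_sound _ 166 [rh273dcb72ef5bc668, (rh361cc68994bd8a63.shift 4 4)] (by decide +kernel))
noncomputable def rh59cf3ee7a8dedd69 : CRef := CRef.mk (Pat.mk 0x20000000060000002000000004000000000000000000000000000000000 0x50000000700000007c000003fc00000070000007be000001fe000003ff000003fc0000007c00000054 13 11) 0 0 (step_sound _ 133 [rh18c3eb592fadc9b2, (rh3c489c4dae8d13f6.shift 4 1), (rh645cc59616b5c218.shift 1 0), (rh89527af5bc531f76.shift 1 1), (rh8fb113ee94ec2fe7.shift 4 1), (rhaa60f8cd4547d74b.shift 4 1), (rhac4e9abaaefda36e.shift 2 0), (rhd9252e2b1c0e17c9.shift 2 1)] (by decide +kernel))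
noncomputable def rhfe55801dab6fb4b4 : CRef := CRef.mk (Pat.mk 0x20000000060000002000000000000000000000000000000000000000000 0x30000000f0000003fc0000007c000007fe000001fe000003ff000000fc000000fc000000fc 13 11) 0 0 (step_sound _ 134 [(rh091653ab65163ab0.shift 3 1), (rh4ab93fe584b32b4f.shift 3 0), (rh54de2fdb00944588.shift 3 1), (rh5931525b362a352b.shift 3 1), (rh5dbcb9d7e9cac859.shift 3 0), (rh667434036d627f43.shift 5 1), rhb09c97263f72cb50, (rhb5ded66e2d29789e.shift 1 1), (rhe9a9a103bf583c4b.shift 3 1), (rhfe41e2d469dbe29a.shift 1 0)] (by decide +kernel))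
noncomputable def rh0e141ea6a83d024c : CRef := CRef.mk (Pat.mk 0x20000000060000002000000000000000000 0xfc000000fc000000fc000003ff000001fe000007fe0000007c000003fc000000f000000030 13 11) 0 0 (step_sound _ 166 [(rh00cd02226a3f50e6.shift 5 0), (rh399f49418fb96d6a.shift 3 0), (rh4a300ad94a5eb395.shift 3 0), (rh74170d2a42f2543d.shift 3 1), (rha4a767f2cc45b2b8.shift 3 1), rhacc96ba94468fd2a, (rhaec1c3338b3f09f9.shift 1 0), (rheb114806437765d2.shift 3 1), (rhf57a75ab07f13e68.shift 3 0), (rhf654fc57a7b98602.shift 1 0)] (by decide +kernel))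
noncomputable def rhf00dad9f5adf60a1 : CRef := CRef.mk (Pat.mk 0x20000000a6000000a000000000000000000000000000000000 0xa0000015e000001df000001df000001ff000000b6000001ff0000015f0000001f0000001e0000000a 13 9) 0 0 (step_sound _ 130 [(rh9c6b9a0537523f69.shift 1 2), (rha18dcc8cb01229f3.shift 1 0), (rhaf0291ce434fca91.shift 0 2), (rhaf883e5be8160833.shift 1 0), (rhdc42624347af028d.shift 1 0), (rhde6de23060fe52e3.shift 1 0), (rhf361376b75d4a710.shift 1 1)] (by decide +kernel))
noncomputable def rh509f692689885a9e : CRef := CRef.mk (Pat.mk 0x6000000140000001400000000000000000000000000000000 0x2a0000003e0000003b0000003f000000160000003400000038000000380000003800000020 13 6) 0 0 (step_sound _ 196 [(rh615872fc71fadb08.shift 1 1), (rh71ef8619d44923d6.shift 0 1), (rh9b578cfc7d2906a4.shift 1 1), (rha71d9c0c1280d0ef.shift 0 4), (rhd03d0c8aad655629.shift 3 2), (rhdc6728afcc93b33c.shift 1 0)] (by decide +kernel))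
noncomputable def rh1af5b4078f91b61f : CRef := CRef.mk (Pat.mk 0x800000029800000280000000080000000000000000000000000000000000000000 0x280000003e0000057e0000077f000007ff0000029800007ff800003f7800007fe800000740000007000000070000000100 13 15) 0 0 (step_sound _ 260 [(rh0e9eba12a09adc02.shift 3 4), (rh580df77fe152422b.shift 3 4), (rh95181d652f1b2c34.shift 0 5), (rhbfee855fdab73e88.shift 3 0), (rhc3bd74b730aa07ed.shift 3 4)] (by decide +kernel))
noncomputable def rhd7a045e1e80d8196 : CRef := CRef.mk (Pat.mk 0x20000000a6000000a00000000200000000000000000000000000000000000000000 0x140000001c4000001cc000001fc000000a600001fffc0000fdfc0001fffe00001fff00001c5000001c0000000400 13 17) 0 0 (step_sound _ 197 [(rh3820f35d5e705bec.shift 5 2), (rh83607a9f03da2e1b.shift 2 0), (rhb730ba14aa32bdb3.shift 5 4), (rhdd0c09385149c133.shift 0 2), (rhffb8e5993241bf15.shift 4 2)] (by decide +kernel))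
noncomputable def rh89397aec83bd1b6b : CRef := CRef.mk (Pat.mk 0x8000000018000000000000000800000000000000000000000000000000 0x140000001c0000001c0000001f000000ff0000001b0000001f0000000f0000003d0000001c0000001c00000014 13 8) 0 0 (step_sound _ 163 [(rh215e11e099257d75.shift 3 3), (rh3820f35d5e705bec.shift 3 1), (rh6dd9f033d0456d36.shift 0 3), rh77808b39ab8a0cac] (by decide +kernel))
noncomputable def rh831cca3d68dab43f : CRef := CRef.mk (Pat.mk 0x1200000003000000110000000000000000000000000 0x10000000700000007e000000ee000001ff0000003e000001fe0000004f0000000c0000000c 13 9) 0 0 (step_sound _ 99 [(rh409ccaf9a656e9bc.shift 1 2), rh4f35efc39788383b, rh6a7e0a43c132813e, (rha397e7b26d2c6e1a.shift 1 2), (rhb0b535abe4248c60.shift 1 0), rhb95dd6e3695a98da, (rhd70a730385f171bf.shift 1 2), (rhe186eaac5fec7b5c.shift 1 2), (rhedb42875cd4d0438.shift 1 0)] (by decide +kernel))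
noncomputable def rh5164e41a8042b476 : CRef := CRef.mk (Pat.mk 0x900000009800000088000000000000000000000000 0x67000000ff000000db000000ff0000007f0000007d00000040 13 8) 0 0 (step_sound _ 67 [rh6d9a0b36fa0460d1, (rh71222050f2c63a3a.shift 3 1)] (by decide +kernel))
noncomputable def rh894ab0ee2b645811 : CRef := CRef.mk (Pat.mk 0x400000000c00000004000000000000000000000000000000000 0x2800000038000001bf000003be000007ff000000fc000000fc000001f8000001f8000001e800000140 13 11) 0 0 (step_sound _ 199 [(rh422d1427940f8e6a.shift 3 3), rh788bcf5ee8c471ef, (rhcf80391c5046a495.shift 6 2), (rhe1f422e8172b7cfe.shift 3 2)] (by decide +kernel))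
noncomputable def rhfbf74a77e06dee9e : CRef := CRef.mk (Pat.mk 0x400000000c00000004000000000000000000000000000000000 0x2800000038000001bf000003be000007ff000000fc000001fc000001f8000001f8000001e800000140 13 11) 0 0 (step_sound _ 199 [(rh9cdee070315fb032.shift 6 3), (rhcf3aacaad9891ef5.shift 3 2), (rhcf80391c5046a495.shift 6 2), (rhe1f422e8172b7cfe.shift 3 2), rhf835cd3a39eebf40, (rhf9366b6a121593ef.shift 6 2)] (by decide +kernel))
noncomputable def rh8759c4816f535f48 : CRef := CRef.mk (Pat.mk 0x1000000003000000110000000000000000000000000000000000000000000000000 0x2000000028000001fe0000003e000003de000000fe000001ff0000003a0000003a0000003800000008 13 10) 0 0 (step_sound _ 164 [(rh215e11e099257d75.shift 4 4), (rh35ace000955472be.shift 0 2), (rhb2e5dcb21d0ddf6f.shift 3 0), (rhffb8e5993241bf15.shift 3 2)] (by decide +kernel))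
noncomputable def rh5f9df8b2ee3fe0a7 : CRef := CRef.mk (Pat.mk 0x400000000c000000450000000000000000000000000 0x68000001f8000001ff000001be000007ff000000fc000007d8000001b80000013800000128 13 11) 0 0 (step_sound _ 167 [(rh358736babf21756e.shift 6 2), rh52b2af8b353dd228, rhd6a67e02006c9ffd] (by decide +kernel))
noncomputable def rh9a63391a84b507fa : CRef := CRef.mk (Pat.mk 0x110000000300000012000000000000000000000000000000000 0xc0000000c0000004f000001fe0000003e000001ff000000ee0000007e0000007000000010 13 9) 0 0 (step_sound _ 195 [(rh0b5d706188135a44.shift 1 0), (rh197f3fb51be67eed.shift 1 2), (rh2cde94190fea62c1.shift 0 2), (rh65df5843fce57f95.shift 1 4), (rh8cebc58ebb99eea8.shift 0 2), (rh9247b6475afda4c5.shift 1 2), (rhc235a4c14390c0df.shift 0 2), (rhd5998ccc2e9c7f1e.shift 1 2), (rhd7b2121de08cf994.shift 1 2)] (by decide +kernel))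
noncomputable def rh77939ef9ae24b818 : CRef := CRef.mk (Pat.mk 0x88000000980000009000000000 0x400000007d0000007f000000ff000000db000000ff00000067 13 8) 0 0 (step_sound _ 131 [(rh2145e1d24b96a57e.shift 3 1), rhf210ad39d43454d5] (by decide +kernel))
noncomputable def rhbe525795eaf7f6bb : CRef := CRef.mk (Pat.mk 0x40000000c00000040000000000000000000000000000000000 0x140000001e8000001f8000001f8000000fc000000fc000007ff000003be000001bf0000003800000028 13 11) 0 0 (step_sound _ 135 [rh016251673454e4b0, (rhab4924a08ee69f28.shift 3 2), (rhc2c7bae8f445c890.shift 6 2), (rhd4ee616373a69375.shift 3 2)] (by decide +kernel))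
noncomputable def rh92b450ba9997d1f8 : CRef := CRef.mk (Pat.mk 0x40000000c00000040000000000000000000000000000000000 0x140000001e8000001f8000001f8000001fc000000fc000007ff000003be000001bf0000003800000028 13 11) 0 0 (step_sound _ 135 [rh3f3a91c1444a6604, (rh7e1098702e50f2b0.shift 6 2), (rhab4924a08ee69f28.shift 3 2), (rhc2c7bae8f445c890.shift 6 2), (rhc38f566cab2818e5.shift 6 2), (rhd486dac1c108fa29.shift 3 3)] (by decide +kernel))
noncomputable def rhddc466e8eef53256 : CRef := CRef.mk (Pat.mk 0x11000000030000001000000000000000000 0x8000000380000003a0000003a000001ff000000fe000003de0000003e000001fe0000002800000020 13 10) 0 0 (step_sound _ 164 [(rh14e0829dc73b6804.shift 3 2), rh20dccec5ff7672f9, (rh5dc8a6147c8f83be.shift 3 1), (rh70e33bfdf511e144.shift 4 0)] (by decide +kernel))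
noncomputable def rh9d4b8f5122054b80 : CRef := CRef.mk (Pat.mk 0x450000000c00000040000000000000000000000000000000000 0x12800000138000001b8000007d8000000fc000007ff000001be000001ff000001f800000068 13 11) 0 0 (step_sound _ 135 [rh290da4e2a2cf34ca, (rh4d5ec4caa1ea9a2e.shift 6 2), rh8be55b2fedc922c0] (by decide +kernel))
noncomputable def rh1c23d40af3226356 : CRef := CRef.mk (Pat.mk 0x1400000014c0000004000000000000000000000000000000000000000000 0x140000001c0000003c0000023fc000033f800003fee000016fe00003fff00007bfc00003bfc000029fc000001d000000140 13 15) 0 0 (step_sound _ 167 [(rh9c6b9a0537523f69.shift 6 3), (rha2c745313f9b529d.shift 2 0), (rha3157c1af5e7a0d4.shift 4 0), (rhde56c9224da190cb.shift 0 2), (rhf7fdb9666d162e22.shift 6 1)] (by decide +kernel))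
noncomputable def rhf92d8d604bc8bbac : CRef := CRef.mk (Pat.mk 0xa0000000a6000000240000000000000000000000000 0xa0000001e0000001f0000005f000001ff700000b7e00001fff00001da800001d0800001400 13 13) 0 0 (step_sound _ 132 [(rh5bb78067c54b222b.shift 3 3), (rh9a97a9f7b8f43c02.shift 0 1), (rhc669f5ac298842f8.shift 5 0)] (by decide +kernel))
noncomputable def rhb5d0fd30e39e6a19 : CRef := CRef.mk (Pat.mk 0x50000000530000001200000000000000000 0x85000000ef000000fff00000efe000007f0000005b000000ff000000e5000000a00 13 12) 0 0 (step_sound _ 133 [(rh01e7a5813b8e330e.shift 4 1), (rh12452934acb847d5.shift 4 1), (rh4f24de5c80bae476.shift 4 0), (rh8899cac0c6c33185.shift 0 1), (rh8ba2aa402370793e.shift 4 1)] (by decide +kernel))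
noncomputable def rh0a08fb53815b6a22 : CRef := CRef.mk (Pat.mk 0x28000000098000000800000000000000000000000000000000000000000 0x2800000038000000780000007c00000f7c000007fc000000df000000ff0000007f000000fe0000007e0000003800000028 13 12) 0 0 (step_sound _ 230 [(rh06a3fb0bcf0f8cce.shift 3 3), (rh219fbbb4fa2f181a.shift 0 2), (rh2983cafbadf8e393.shift 3 5), (rh44a2f003077b8089.shift 4 5), (rh7a710e6e514b6305.shift 1 0), (rhde6413e7a2a1d041.shift 3 5), (rhe447669f1ab1ee19.shift 0 2)] (by decide +kernel))
noncomputable def rh5ada453f6c6c967a : CRef := CRef.mk (Pat.mk 0x50000000530000001000000000000000000000000000000000000000000 0x500000007000000a7c00000e7c00000efe00000df8000005bc00000ffe00001efe00000fff00000efc0000087400000050 13 13) 0 0 (step_sound _ 165 [(rh1facce8ef24f846c.shift 4 3), (rh3b18d927ac3dd480.shift 4 2), (rh513169ec2687957d.shift 4 1), (rhd5aba1493b366a87.shift 0 2), (rhe62d9e28e7df81f4.shift 1 0), (rhecd61630fddf5126.shift 1 2), (rhf07649b063a7e700.shift 4 2)] (by decide +kernel))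
noncomputable def rh62253a465f06ab33 : CRef := CRef.mk (Pat.mk 0x1000000500000005300000010000000000000000000000000000000000000000000000000000000000 0xa0000000e1800000e5800000ff80000053e00000ffe00001eff00000ffe00000eff00000870000000700000007000000050 13 13) 0 0 (step_sound _ 229 [(rh0588d2c7f2cab5e9.shift 4 5), (rh28afc5b167f84184.shift 4 5), (rh3296438309676d7e.shift 4 6), (rh609513b75c5c9b7b.shift 2 0), (rhdad4b298ad1a0b1c.shift 1 4), (rhdcadc929f4d36859.shift 0 2)] (by decide +kernel))
noncomputable def rh2094e42b038d55b1 : CRef := CRef.mk (Pat.mk 0x2000000a0000000a600000020000000000000000000000000 0x40000000c0000001c7000001d700001fff00000fdf00001fff000000a7000001fd000001ce0000014e0000000a 13 13) 0 0 (step_sound _ 164 [(rh4c1e49815c73ba34.shift 0 1), (rh6668e42632f007c0.shift 1 0), (rh7aba3f457816467a.shift 1 1), (rhb4d07b480f5f4269.shift 1 1), (rhd4b5c1aee1219b2a.shift 1 4)] (by decide +kernel))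
noncomputable def rh54bdc6274bb6907a : CRef := CRef.mk (Pat.mk 0x100000000000000030000001000000000000000000000000000000000000000000 0x3800000038000000380000003c000001fe000000ff000000fe0000007f0000007000000050 13 9) 0 0 (step_sound _ 165 [(rh0588d2c7f2cab5e9.shift 4 3), (rh28afc5b167f84184.shift 4 3), (rh3296438309676d7e.shift 4 4), (rh75ac84bf5687e886.shift 2 0), (rh998ef3be58cacbe7.shift 1 2), rhdcadc929f4d36859] (by decide +kernel))
noncomputable def rh716c3009931f7938 : CRef := CRef.mk (Pat.mk 0x8000000800000001800000080000000000000000000000000 0x3c0000007c000000fc0000001e000000ff0000007e0000003e0000000c 13 8) 0 0 (step_sound _ 100 [(rh0588d2c7f2cab5e9.shift 3 1), (rh28afc5b167f84184.shift 3 1), (rh3296438309676d7e.shift 3 2), (rh53044f1eadad1f96.shift 1 0), (rh788b045fc6a641eb.shift 1 0), rh998ef3be58cacbe7] (by decide +kernel))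
noncomputable def rhad91f18e45138377 : CRef := CRef.mk (Pat.mk 0x400000014c0000014000000000000000000000000000000000000000000 0x140000001d0000029fc00003bfc00007bfc00003fff000016fe00003fee000033f8000023fc000003c0000001c000000140 13 15) 0 0 (step_sound _ 231 [(rh6000b24de01b26eb.shift 6 1), (rh6ac903e8e732b894.shift 4 2), (rh730e30a055b5a286.shift 6 1), (rha6246a628d1ed3e6.shift 2 3), rhe7f0b2c148c21a1b] (by decide +kernel))
noncomputable def rhbf506a40a62fc8ba : CRef := CRef.mk (Pat.mk 0x24000000a6000000a0000000000000000000000000000000000 0x140000001d0800001da800001fff00000b7e00001ff7000005f0000001f0000001e0000000a0 13 13) 0 0 (step_sound _ 164 [(rh2b3584ef0f05e9c2.shift 3 5), (rh60fbd9faab3c690f.shift 5 0), rh8794ff91cf41eb13] (by decide +kernel))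
noncomputable def rh0b4c34d1906e2aae : CRef := CRef.mk (Pat.mk 0x120000005300000050000000000000000000000000000000000 0xa0000000e5000000ff0000005b0000007f000000efe00000fff00000ef000000850 13 12) 0 0 (step_sound _ 133 [(rh1922fdb339946c5c.shift 4 0), (rh4c4f1f8a139336b8.shift 4 1), rh65eccffd7ea1a61d, (rh6d9172875361fe79.shift 4 0), (rhc47fe1bc6b175f77.shift 4 2)] (by decide +kernel))
noncomputable def rh15491c00fe7d3566 : CRef := CRef.mk (Pat.mk 0x8000000098000002800000000000000000000000000000000000000000 0x28000000380000007e000000fe0000007f000000ff000000df000007fc00000f7c0000007c000000780000003800000028 13 12) 0 0 (step_sound _ 166 [(rh1a2f22a65ad20718.shift 3 2), (rh352d1eafd00fffea.shift 3 1), (rh3fe996e48b4620ce.shift 4 2), (rh843394203d3a1a38.shift 3 1), (rh9a3109cd83262654.shift 0 3), (rhb5bfda0b5b24b76e.shift 1 1), rhfa10f39de66dbebd] (by decide +kernel))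
noncomputable def rh073be5e38d7ae261 : CRef := CRef.mk (Pat.mk 0x10000000530000005000000000000000000000000000000000000000000 0x500000087400000efc00000fff00001efe00000ffe000005bc00000df800000efe00000e7c00000a7c0000007000000050 13 13) 0 0 (step_sound _ 229 [(rh46453e6406670044.shift 1 3), (rh6940dffa850d68f7.shift 1 2), (rh7b52e19b623aa074.shift 4 0), (rhb4428e63c3c20639.shift 4 2), (rhb83d2c0030c0ec65.shift 4 2), (rhc0a45d0038855421.shift 0 1), (rhcc78711603d45329.shift 4 2)] (by decide +kernel))
noncomputable def rh82fae5f34e4a5041 : CRef := CRef.mk (Pat.mk 0x1000000053000000500000000100000000000000000 0x5000000070000000700000087000000eff00000ffe00001eff00000ffe0000053e00000ff800000e5800000e1800000a00 13 13) 0 0 (step_sound _ 165 [(rh00d6a6e3c7e3bb40.shift 4 1), (rh2df4dd43521d32ba.shift 1 1), (rh3efafc482874f7b3.shift 4 1), (rh47c8f558ece762e1.shift 0 2), (rh580df77fe152422b.shift 4 1), (rhe9ca7afca2d9b516.shift 2 0)] (by decide +kernel))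
noncomputable def rh50a95a5dde7433c0 : CRef := CRef.mk (Pat.mk 0x20000000a6000000a0000000020000000000000000000000000000000000000000 0xa0000014e000001ce000001fd000000a700001fff00000fdf00001fff000001d7000001c7000000c000000040 13 13) 0 0 (step_sound _ 196 [(rh0677d5d5cc3a157c.shift 1 2), (rh673bbfdc3ccc7ed7.shift 1 4), rh6eb8576848f0ffb1, (rh825d374ef4df7137.shift 1 5), (rhc3898f5d1713e0e1.shift 1 2)] (by decide +kernel))
noncomputable def rh26299859b01c1f00 : CRef := CRef.mk (Pat.mk 0x10000000030000000000000001000000000 0x50000000700000007f000000fe000000ff000001fe0000003c000000380000003800000038 13 9) 0 0 (step_sound _ 133 [(rh00d6a6e3c7e3bb40.shift 4 0), (rh0a679c0d5a703e6b.shift 2 0), (rh3efafc482874f7b3.shift 4 0), (rh47c8f558ece762e1.shift 0 1), (rh580df77fe152422b.shift 4 0), (rhe7b510da18d802bd.shift 1 0)] (by decide +kernel))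
noncomputable def rhf747801c68f11415 : CRef := CRef.mk (Pat.mk 0x8000000018000000800000000800000000 0xc0000003e0000007e000000ff0000001e000000fc0000007c0000003c 13 8) 0 0 (step_sound _ 132 [(rh00d6a6e3c7e3bb40.shift 3 0), (rh3efafc482874f7b3.shift 3 0), (rh4f1743e25db11fce.shift 1 0), (rh580df77fe152422b.shift 3 0), (rhb305f9d04b8f026d.shift 1 0), rhe7b510da18d802bd] (by decide +kernel))
noncomputable def rh749dbec2a6512c56 : CRef := CRef.mk (Pat.mk 0x240000000600000020000000020000000000000000000000000 0x3d000000078000007fe000001fe0000003f0000002000000020 13 11) 0 0 (step_sound _ 69 [(rh04253f50b6dd0619.shift 5 2), rh2be22f380d97f620] (by decide +kernel))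
noncomputable def rhf01903712f123a19 : CRef := CRef.mk (Pat.mk 0x2000000026000000200000000200000000000000000000000000000000000000000 0x1a0000001e0000001e0000003e000000360000007ff000001fe000001ff000003fc000001fc000003fc00000050 13 11) 0 0 (step_sound _ 262 [(rh00d6a6e3c7e3bb40.shift 5 4), (rh580df77fe152422b.shift 5 4), (rh5e2da94224e91930.shift 5 4), (rhc53efc28458cf0f1.shift 5 5), rhc5743425cdd916ad] (by decide +kernel))
noncomputable def rh17b4319273b0fc28 : CRef := CRef.mk (Pat.mk 0x400000004c000000400000000c0000000000000000000000000 0x100000001c000001fc000000ff000001bd000000fbf000006fe000006ff000003fc000003fe0000007800000040 13 13) 0 0 (step_sound _ 199 [(rh083fbbd10af1a861.shift 6 2), (rh2fbd74d470c0ae14.shift 5 2), rh3f1cf81768ab255e, (rh580df77fe152422b.shift 6 2)] (by decide +kernel))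
noncomputable def rh370ec9a32536085a : CRef := CRef.mk (Pat.mk 0x400000004c000000400000000c0000000000000000000000000 0x100000001c000001fc000000ff000001bd000000fbf000006fe000005ff000003fc000003fe0000007800000040 13 13) 0 0 (step_sound _ 199 [(rh083fbbd10af1a861.shift 6 2), rh3f1cf81768ab255e, (rh580df77fe152422b.shift 6 2), (rhae5d538985446cc6.shift 6 2)] (by decide +kernel))
noncomputable def rh65b585bd794bd22f : CRef := CRef.mk (Pat.mk 0x10000000030000000000000001000000000000000000000000000000000 0x5000000070000000700000007c000000f4000001ff0000003c0000003f0000007e000000ff0000001e0000001e0000000a 13 9) 0 0 (step_sound _ 229 [(rh00d6a6e3c7e3bb40.shift 4 3), (rh580df77fe152422b.shift 4 3), rhec5ef9054614ea60, (rhffa4ec467ff93e15.shift 2 4)] (by decide +kernel))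
noncomputable def rhd525c51d3d3c6705 : CRef := CRef.mk (Pat.mk 0x200000000600000000000000020000000000000000000000000 0xd0000000f4000000fc000001ec000003fe0000007c000000fe0000003f000000fc0000007c00000050 13 10) 0 0 (step_sound _ 163 [(rh016bdc7cc829a4b2.shift 0 1), (rh0756dc441baa20ed.shift 1 1), rh25a66fcb9fe4b58b, (rh2e99e00558cf62ce.shift 1 1), (rh6037157491ca79e8.shift 1 2), (rh8eb7f9b99469125d.shift 1 0), (rhd3e6bd385c5cff30.shift 1 0), (rhd47c07bbfc81acde.shift 0 1), (rhdd90ce3c8870b139.shift 0 1)] (by decide +kernel))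
noncomputable def rhf260c5c4a76fb8de : CRef := CRef.mk (Pat.mk 0x20000002000000006000000240 0x20000000200000003f000001fe000007fe00000078000003d0 13 11) 0 0 (step_sound _ 133 [rh049636b78d4f0bda, (rhff0f29cb645b05f7.shift 5 0)] (by decide +kernel))
noncomputable def rh51f4a85d404e3bf2 : CRef := CRef.mk (Pat.mk 0x20000002000000026000000200000000000000000000000000 0x50000003fc000001fc000003fc000001ff000001fe000007ff00000360000003e0000001e0000001e0000001a0 13 11) 0 0 (step_sound _ 102 [(rh0588d2c7f2cab5e9.shift 5 1), (rh28afc5b167f84184.shift 5 1), (rh94dbce66c1c40cb4.shift 5 0), (rhac5647042e2e81df.shift 5 0), (rhd07c77b540626f0d.shift 0 3)] (by decide +kernel))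
noncomputable def rh4e1c5cc4f0e11e04 : CRef := CRef.mk (Pat.mk 0xc000000400000004c0000004000000000000000000000000000000000000000000 0x4000000078000003fe000003fc000006ff000006fe00000fbf00001bd000000ff000001fc0000001c000000100 13 13) 0 0 (step_sound _ 167 [(rh02151fec4c3fe3f3.shift 6 4), (rh28afc5b167f84184.shift 6 3), (rhd8e82e684d0b5684.shift 5 4), rhf41e663d771a72cd] (by decide +kernel))
noncomputable def rh137861de2cb6d45b : CRef := CRef.mk (Pat.mk 0xc000000400000004c0000004000000000000000000000000000000000000000000 0x4000000078000003fe000003fc000005ff000006fe00000fbf00001bd000000ff000001fc0000001c000000100 13 13) 0 0 (step_sound _ 167 [(rh02151fec4c3fe3f3.shift 6 4), (rh28afc5b167f84184.shift 6 3), (rhec588216115773d0.shift 6 4), rhf41e663d771a72cd] (by decide +kernel))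
noncomputable def rh147a18d584577663 : CRef := CRef.mk (Pat.mk 0x100000000000000030000001000000000000000000000000000000000000000000 0xa0000001e0000001e000000ff0000007e0000003f0000003c000001ff000000f40000007c000000700000007000000050 13 9) 0 0 (step_sound _ 165 [(rh0588d2c7f2cab5e9.shift 4 3), (rh28afc5b167f84184.shift 4 3), (rh2fd5ab6ce81fc9cd.shift 2 0), (rhb5f0196ee6e479c8.shift 0 3)] (by decide +kernel))
noncomputable def rh9438832dbbc17f58 : CRef := CRef.mk (Pat.mk 0x2000000000000000600000020000000000000000000000000000000000 0x500000007c000000fc0000003f000000fe0000007c000003fe000001ec000000fc000000f4000000d0 13 10) 0 0 (step_sound _ 163 [(rh093c042111894bc3.shift 1 2), (rh1c30208f46633a8e.shift 1 2), (rh2e189c881704a9b3.shift 0 2), (rh2e33302b1206122c.shift 0 2), (rh3a8ba331af2bedcd.shift 0 2), rh7954e05fe321ac11, (rha8ea2265c25b7e54.shift 1 0), (rhccf23b12f7bdc631.shift 1 2), (rhd42d28da0866285d.shift 1 0)] (by decide +kernel))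
noncomputable def rheea0a76ea923bcd0 : CRef := CRef.mk (Pat.mk 0x400000020000000b4000000200000000000000000000000000 0xa0000000f8000003fc000015f800001fff00001dfe00001fff00000b5800001f5800001c000000140000000400 13 13) 0 0 (step_sound _ 170 [(rh20eecdbbd9297f8b.shift 5 3), (rh9b07f0eb4bc98d04.shift 0 3), (rhd03b113250ee824e.shift 8 0)] (by decide +kernel))
noncomputable def rh809e9caa714b7c9d : CRef := CRef.mk (Pat.mk 0x200000010000000520000001000000000000000000000000000000000 0xa0000000ed000000ef000000ff0000005e000000ff000000ef000000ff000000fd000000e0 13 8) 0 0 (step_sound _ 163 [(rh0f48a90b4d889945.shift 1 4), (rh60131db1effcf1bc.shift 1 1), (rhc924e5f7a4031fcc.shift 1 4), rhcdef22712ac8c1e8] (by decide +kernel))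
noncomputable def rh48377591ec565f35 : CRef := CRef.mk (Pat.mk 0x80000004000000018000000400000000000000000 0x140000001c0000001c0000001c0000003c0000000f000000ff0000001b000000ff0000001f0000001c 13 8) 0 0 (step_sound _ 131 [(rh046c5eb18e55a239.shift 3 0), (rh3f5e5eabc9ddfd8e.shift 2 0), (rh68271ae7d7bf0c6f.shift 0 2), (rhe4801b90a56dc753.shift 2 2), rhf502f619814e175c] (by decide +kernel))
noncomputable def rh282a9b19d2f636af : CRef := CRef.mk (Pat.mk 0x4000000000000000c000000280 0xa0000001f8000007f8000003fc000003ff000001fe000000ff000000d000000790 13 11) 0 0 (step_sound _ 134 [rhb81ebe9b32691684, (rhff0f29cb645b05f7.shift 6 0)] (by decide +kernel))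
noncomputable def rh1a8d27260a6043d6 : CRef := CRef.mk (Pat.mk 0x200000010000000120000001000000000000000000 0x50000000700000007800000078000000ff000001fe000000ff000001fe000001e0000003f00000007000000050 13 10) 0 0 (step_sound _ 133 [(rh3006016462977b3a.shift 4 0), (rh4d9dd426a7f2bd20.shift 4 0), (rh4e4f0d5e3b7752e7.shift 4 0), (rh86326b86b9df7a4b.shift 0 3), (rhaab55db13a11b26c.shift 4 0)] (by decide +kernel))
noncomputable def rh899fdc89809e132b : CRef := CRef.mk (Pat.mk 0xe0000001000000052000000100000000000000000000000000 0x280000003c000001bc000001bc000001fc000001ff000000fe0000071f000005e800000fc000000ec00000028000000200 13 12) 0 0 (step_sound _ 196 [(rh10b6a9411f24240a.shift 3 0), (rh4c622fddc53a5f99.shift 2 6), (rh592c7139d2c44767.shift 2 5), (rh9e97bba44c1b13e4.shift 2 5), (rhbc103e91375b1d9c.shift 0 4)] (by decide +kernel))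
noncomputable def rhb59bdc904bdd5656 : CRef := CRef.mk (Pat.mk 0x600000010000000000 0x280000017c000001fc000001fc000001fc000001ff000000fe000001df00000008 13 9) 0 0 (step_sound _ 68 [(rh31d55dd32e48ae3d.shift 2 1), (rhadc58f335021d7cb.shift 2 1), (rhb1b5db3d9517e810.shift 2 1), rhbc103e91375b1d9c, (rhe0765dbd0c28cb72.shift 3 1)] (by decide +kernel))
noncomputable def rh4c888abc120c23e3 : CRef := CRef.mk (Pat.mk 0x80000004000000048000000400000000000000000 0x2000000160000003f0000007f0000003f000000ff000000580000007c0000001c00000004 13 8) 0 0 (step_sound _ 131 [(rh260e4e640dc6b4ff.shift 2 0), (rh6b3163142a66df09.shift 2 0), (rh7071b6be0fb639f1.shift 2 1), (rh7d729e50619ec0c6.shift 2 0), (rh8842204726d92ebd.shift 2 0), (rhc49879b08428ed69.shift 2 0), (rhc977a8b0358f908b.shift 0 2), (rhe6a79c0cf523c83e.shift 2 0)] (by decide +kernel))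
noncomputable def rh629fa2b503a30dbf : CRef := CRef.mk (Pat.mk 0xc000000000000000800000000000000000 0x300000017000000170000003ff000001fe000003ff000000b8000000b800000028 13 10) 0 0 (step_sound _ 133 [(rh5adaa4da3f927dd2.shift 4 1), (rh833cbed0dc104bad.shift 3 1), (rh88c08cf226dcd40c.shift 2 2), (rha04cb4f65792b3cb.shift 2 3), (rhd6372986e467aa61.shift 2 0), (rhede7a913bbfdaf08.shift 0 2)] (by decide +kernel))
noncomputable def rh9afbf6dd611c8b56 : CRef := CRef.mk (Pat.mk 0x30000001000000000000000000 0xc0000001e0000001e000001ff000000fe000001df0000000c0000000c 13 9) 0 0 (step_sound _ 99 [(rh262517e2c925a6fe.shift 0 1), (rh2db5051668d34374.shift 1 1), (rh3236c2c4c26f25c0.shift 1 1), (rh344a70c8e96766cc.shift 1 2), (rh981e53b33f264963.shift 1 2), (rha9288bb4a6f10f31.shift 2 0)] (by decide +kernel))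
noncomputable def rhb5c79fc84ecf0bc8 : CRef := CRef.mk (Pat.mk 0x40000000c000000400000004800000040000000000 0x28000000b8000000b8000007b8000007fe000002fe000007ff000006be000004bf00000028 13 11) 0 0 (step_sound _ 132 [rh4857251cc6e15c17, rhea2ab123d2846334, (rhf107fc7d9e673e51.shift 4 1)] (by decide +kernel))
noncomputable def rhbafe4f11924eedbb : CRef := CRef.mk (Pat.mk 0x40000000180000004000000000000000000000000000000000 0x20000000300000003c000000fc0000001e000000ff0000003f0000003f0000003800000008 13 8) 0 0 (step_sound _ 132 [rh49d5efba4e1579a5, (rh5a7c51847e517cc5.shift 1 1), (rh7f0feb9d0da09cbe.shift 2 1), (rh8c25cb665ab79ec0.shift 1 4), (rhcbc2210cc93681ef.shift 3 0)] (by decide +kernel))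
noncomputable def rh87436bc8cccb90f0 : CRef := CRef.mk (Pat.mk 0x400000001800000040000000000000000000000000 0x8000000380000003f0000003f000000ff0000001e000000fc0000003c0000003000000020 13 8) 0 0 (step_sound _ 164 [rh3608cb17718c8e5c, (rh3cca38aa06f632da.shift 3 1), (rh953c74b3affc8480.shift 2 3), (rhb86a83a899c7d395.shift 1 2), (rhe33d9496e10d8eb0.shift 1 4)] (by decide +kernel))
noncomputable def rhda2b8814e8b22bbe : CRef := CRef.mk (Pat.mk 0x1000000018000000400000000000000000 0x80000001c0000001f0000001f0000001f0000007f0000003f0000001c 13 7) 0 0 (step_sound _ 67 [(rhb7566342d450d171.shift 0 1), (rhcf80391c5046a495.shift 3 0), rhcfabe2dc485cc206, (rhf9366b6a121593ef.shift 3 0)] (by decide +kernel))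
noncomputable def rh7a3232f1affa7d38 : CRef := CRef.mk (Pat.mk 0x400000001800000010000000000000000000000000 0x1c0000003f0000007f0000001f0000001f0000001f0000001c00000008 13 7) 0 0 (step_sound _ 163 [(rh3f8018100d201284.shift 0 1), (rhc2c7bae8f445c890.shift 3 1), (rhc38f566cab2818e5.shift 3 1), rhed4f3b9859dbf25d] (by decide +kernel))
noncomputable def rhc36e86e17dadd9e0 : CRef := CRef.mk (Pat.mk 0x80000000300000008000000000000000000000000000000000 0x1800000058000001f80000003c000001fe0000007e0000007f0000007000000010 13 9) 0 0 (step_sound _ 133 [rh3da0e7dc3ead0632, (rh79ada172e96b8cca.shift 2 1), (rh7f0feb9d0da09cbe.shift 3 1), (rh8c25cb665ab79ec0.shift 2 4), (rhd51ea6e961e524bd.shift 3 1), rhfba26399ed130f9f] (by decide +kernel))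
noncomputable def rh6495cd28c5afc0e6 : CRef := CRef.mk (Pat.mk 0x8000000030000000800000000000000000 0x10000000700000007f0000007e000001fe0000003c000001f80000005800000018 13 9) 0 0 (step_sound _ 133 [(rh285361bb38bf26a1.shift 3 0), rh32474fca62482b3e, rh32d6255056384f7c, (rh755520f75e33e38a.shift 2 1), (rh953c74b3affc8480.shift 3 2), (rhe33d9496e10d8eb0.shift 2 3)] (by decide +kernel))
noncomputable def rh02d17f57ff6dde4b : CRef := CRef.mk (Pat.mk 0x80000004000000018000000000000000000000000 0xc0000003c0000003d000000ff0000001f0000001f0000001f0000001c 13 8) 0 0 (step_sound _ 131 [rh6ec806145730f849, (rh70e33bfdf511e144.shift 3 0), (rhce17c3e2129fe20e.shift 0 2), (rhe4801b90a56dc753.shift 2 2)] (by decide +kernel))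
noncomputable def rhdea59828278a5cbb : CRef := CRef.mk (Pat.mk 0x80000004000000018000000000000000000000000 0x180000003f0000003f000000ff0000001f0000001f0000001f0000001c 13 8) 0 0 (step_sound _ 131 [rh6ec806145730f849, (rh70e33bfdf511e144.shift 3 0), rhb587655c868194f0, rhd531f397b1a7ce3d, (rhe4801b90a56dc753.shift 2 2)] (by decide +kernel))
noncomputable def rhc3ff9f908b479738 : CRef := CRef.mk (Pat.mk 0x80000004000000018000000000000000000000000 0x140000001c0000001c000000380000003f000000ff0000001f0000001f0000001f0000001c 13 8) 0 0 (step_sound _ 131 [(rh1662f65ed666287e.shift 2 2), rh6ec806145730f849, (rh70e33bfdf511e144.shift 3 0), rhb587655c868194f0] (by decide +kernel))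
noncomputable def rh08c77b6927cd94a3 : CRef := CRef.mk (Pat.mk 0x80000004000000018000000000000000000000000 0x140000001c0000001f0000003f000000fb0000001f0000001f0000001c0000001c 13 8) 0 0 (step_sound _ 131 [(rh14e0829dc73b6804.shift 2 2), (rh46105479cc697833.shift 0 2), (rh70e33bfdf511e144.shift 3 0), rhd531f397b1a7ce3d] (by decide +kernel))
noncomputable def rhb607b3727bbf6dc5 : CRef := CRef.mk (Pat.mk 0x800000040000000180000000000000000000000000000000000000000 0x3c0000003c0000003c00000039000000ff0000001f0000001f0000003f0000003c0000003800000008 13 8) 0 0 (step_sound _ 196 [(rh0d442680c58a8d5e.shift 0 2), (rhe33d9496e10d8eb0.shift 1 5), (rhe8d1c029b202ce90.shift 3 0)] (by decide +kernel))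
noncomputable def rh36f458d2ed35aa00 : CRef := CRef.mk (Pat.mk 0x10000000800000003000000000 0x100000003e000000ff0000007e000001fe0000003e0000002c 13 9) 0 0 (step_sound _ 69 [rh073fe50aca7b96a3, (rh84f7e5ad0cdf98bf.shift 2 0), (rhe33d9496e10d8eb0.shift 2 1)] (by decide +kernel))
noncomputable def rh5f1ad890af49dec3 : CRef := CRef.mk (Pat.mk 0x2000000100000001200000010000000000000000000000000000000000 0x90000000d8000001de000000fc000003fe000001fe0000037f0000007c0000007c0000007400000050 13 10) 0 0 (step_sound _ 228 [(rh048f60a5b77a1af0.shift 1 4), rh3f4b0242c2f513d5, (rh6384ca9923a7e2b7.shift 4 1), (rh7b189c330609db69.shift 0 1), rh9859768d59d980ab, (rh989950486071371a.shift 1 2), (rhe7999d725b403561.shift 2 1)] (by decide +kernel))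
noncomputable def rh74d953e571051158 : CRef := CRef.mk (Pat.mk 0x1800000040000000080000000000000000 0x1c0000001f0000001f0000001f000000ff0000003d0000003c0000000c 13 8) 0 0 (step_sound _ 99 [(rh215e11e099257d75.shift 3 1), (rh46e4d4e06a583742.shift 0 1), rh4bde0bac72aeb239, (rh7fd0535f176819d9.shift 2 0)] (by decide +kernel))
noncomputable def rh83254958cb07ab2d : CRef := CRef.mk (Pat.mk 0x1800000040000000080000000000000000 0x1c0000001f0000001f0000001f000000ff0000003f0000003f00000018 13 8) 0 0 (step_sound _ 99 [(rh215e11e099257d75.shift 3 1), (rh46e4d4e06a583742.shift 0 1), (rh7fd0535f176819d9.shift 2 0), rh9e04e0e6bd72cc07, (rhf1500fc01d5a1cec.shift 0 1)] (by decide +kernel))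
noncomputable def rh784782cbfb6850fc : CRef := CRef.mk (Pat.mk 0x18000000400000000800000000000000000000000000000000 0x1c0000001f0000001f0000001f000000ff0000003f000000380000001c0000001c00000014 13 8) 0 0 (step_sound _ 163 [(rh215e11e099257d75.shift 3 3), (rh46e4d4e06a583742.shift 0 3), (rh9e04e0e6bd72cc07.shift 0 2), (rha2d608bbf475f0c5.shift 2 0)] (by decide +kernel))
noncomputable def rha6d511940260c1d3 : CRef := CRef.mk (Pat.mk 0x180000004000000008000000000000000000000000 0x1c0000001c0000001f0000001f000000fb0000003f0000001f0000001c00000014 13 8) 0 0 (step_sound _ 131 [(rh215e11e099257d75.shift 3 2), (rhb5a72d8a8a00877e.shift 0 1), (rhf1500fc01d5a1cec.shift 0 2), (rhffb8e5993241bf15.shift 2 0)] (by decide +kernel))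
noncomputable def rhb7a49b9b75c65ab3 : CRef := CRef.mk (Pat.mk 0x180000004000000008000000000000000000000000 0x8000000380000003c0000003f0000001f0000001f000000ff000000390000003c0000003c0000003c 13 8) 0 0 (step_sound _ 132 [rh32be93bb5ee1681a, (rh8b5ca908d8f25fd0.shift 3 0), (rh8c25cb665ab79ec0.shift 1 4)] (by decide +kernel))
noncomputable def rhde03fa1965393917 : CRef := CRef.mk (Pat.mk 0x300000008000000010000000000000000000000000 0x2c0000003e000001fe0000007e000000ff0000003e00000010 13 9) 0 0 (step_sound _ 133 [(rh573b6453abfc1e40.shift 2 0), (rh8c25cb665ab79ec0.shift 2 4), rhe817f863ebe85c43] (by decide +kernel))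
noncomputable def rh16840e8b200d9114 : CRef := CRef.mk (Pat.mk 0x100000001200000010000000020000000000000000000000000 0x50000000740000007c0000007c0000037f000001fe000003fe000000fc000001de000000d800000090 13 10) 0 0 (step_sound _ 100 [(rh17be84a0a5ae24c3.shift 1 1), (rh185ce3289cc92d29.shift 0 2), (rh1ee26cd45ea62c4c.shift 1 0), rh2bf66e2bd4d3c6ee, (rh310ebd6a46e6137b.shift 2 1), (rhe77c15a57b56ff70.shift 0 2), (rhe820ab453c857b49.shift 4 1)] (by decide +kernel))
noncomputable def rhb0ac2b6522a9dab6 : CRef := CRef.mk (Pat.mk 0x10000000520000001000000000000000000000000000000000000000000 0x500000007000000afe00000fff00000efe00000ffc000005fe00000fb800001e7000000e7000000e7000000e5000000200 13 13) 0 0 (step_sound _ 231 [(rh014604b67fba4446.shift 3 0), (rh149da97906b94122.shift 1 0), (rh2f9b69af3b9ae98a.shift 3 1), (rh525ac2be3dc6e86e.shift 4 0), (rh700f3102fd0565d4.shift 0 3), (rh7adc09e52b0de0c6.shift 3 5), (rhcddd9137cc3db518.shift 3 5), (rhfe2fe22e4242c33a.shift 4 0)] (by decide +kernel))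
noncomputable def rhb056657b7225c303 : CRef := CRef.mk (Pat.mk 0x10000000520000001000000000000000000000000000000000000000000 0x20000000e5000000e7000000e7000001e7000000fb8000005fe00000ffc00000efe00000fff00000afe0000007000000050 13 13) 0 0 (step_sound _ 167 [(rh2feefb6530565394.shift 3 1), (rh407cd103b36d21d5.shift 4 2), (rh4d36457838fe3655.shift 3 2), (rhac3b2ca304b638aa.shift 4 1), (rhacd5dee6b90f3061.shift 3 5), rhae78848ab3c9ce34, (rhd0cc62a4134239d4.shift 1 1), (rhfdbcc17ea5e80034.shift 3 2)] (by decide +kernel))
noncomputable def rh5d0508431fbc14de : CRef := CRef.mk (Pat.mk 0x480000000c000000000000000000000000 0x370000003f0000003f0000007f0000001f0000003b0000003800000038 13 7) 0 0 (step_sound _ 132 [rh04c1f215acc97892, (rh361cc68994bd8a63.shift 2 3)] (by decide +kernel))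
noncomputable def rh703e69539ddfdbd9 : CRef := CRef.mk (Pat.mk 0x480000000c000000000000000000000000 0x10000003700000037000000370000007f0000001f0000003f0000003c00000038 13 7) 0 0 (step_sound _ 132 [(rh361cc68994bd8a63.shift 2 3), rh9ddd4fb8e73cf93c] (by decide +kernel))
noncomputable def rh6c077e93cf4bd702 : CRef := CRef.mk (Pat.mk 0x480000000c000000000000000000000000 0xb0000000b0000007f0000001f000000370000003c0000003c 13 7) 0 0 (step_sound _ 132 [(rh361cc68994bd8a63.shift 2 3), rh691e673a09858851] (by decide +kernel))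
noncomputable def rhaee6a5412d41f3f0 : CRef := CRef.mk (Pat.mk 0xc00000048000000000000000000000000 0x38000000380000003b0000001f0000007f0000003f0000003f00000037 13 7) 0 0 (step_sound _ 100 [(rh2fe78cc5ca4405d8.shift 2 3), rh45291d71b4e8bb0e] (by decide +kernel))
noncomputable def rhdd0698bf0dadccae : CRef := CRef.mk (Pat.mk 0xc0000004800000000000000000000000000000000 0x380000003c0000003f0000001f0000007f00000037000000370000003700000001 13 7) 0 0 (step_sound _ 132 [(rh2fe78cc5ca4405d8.shift 2 4), rh33799a42f83592ea] (by decide +kernel))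
noncomputable def rhbedfe81e1ee745b2 : CRef := CRef.mk (Pat.mk 0xc000000480000000000000000 0x3c0000003c000000370000001f0000007f0000000b0000000b 13 7) 0 0 (step_sound _ 68 [(rh2fe78cc5ca4405d8.shift 2 2), rh8a7a7ce59b18b50b] (by decide +kernel))
noncomputable def rhe2e0fcda1085c7a2 : CRef := CRef.mk (Pat.mk 0x180000000c000000000000000000000000 0x28000000380000003c0000003f0000001f0000001f0000003f0000001600000016 13 6) 0 0 (step_sound _ 97 [(rh53b3c253cb0c65f4.shift 0 3), rhffe1c56222fa4aa7] (by decide +kernel))
noncomputable def rh4de8b91dd461054a : CRef := CRef.mk (Pat.mk 0x180000000c000000000000000000000000 0x2800000038000000380000003a0000001f0000001f0000003f0000003e0000003e 13 6) 0 0 (step_sound _ 97 [rh49a8825f8b6d53c8, (rh53b3c253cb0c65f4.shift 0 3)] (by decide +kernel))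
noncomputable def rh96ea51119022a09d : CRef := CRef.mk (Pat.mk 0x900000001800000000000000000000000000000000 0x380000007e000000ff0000003e0000001f0000003c0000003800000030 13 8) 0 0 (step_sound _ 165 [rh2c0c635389f9441a, (rh361cc68994bd8a63.shift 3 4)] (by decide +kernel))
noncomputable def rha2d3a8765a0b509b : CRef := CRef.mk (Pat.mk 0x480000000c000000000000000000000000 0x28000000380000003c000000370000007f0000001f0000003f0000003f0000003f 13 7) 0 0 (step_sound _ 132 [(rh361cc68994bd8a63.shift 2 3), rh5054c96137ee8e01] (by decide +kernel))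
noncomputable def rh0b4d4680139adb69 : CRef := CRef.mk (Pat.mk 0x480000000c000000000000000000000000 0x180000003c0000003f0000007f0000001f000000370000003e0000003f 13 7) 0 0 (step_sound _ 132 [(rh361cc68994bd8a63.shift 2 3), rh769a19dfb36886f9] (by decide +kernel))
noncomputable def rhd9553f555c74f5ac : CRef := CRef.mk (Pat.mk 0xc0000001800000000000000000000000000000000 0x16000000160000003f0000001f0000001f0000003f0000003c0000003800000028 13 6) 0 0 (step_sound _ 161 [(rhb739f4f82bb681b4.shift 0 4), rhbb621a346a34c06a] (by decide +kernel))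
noncomputable def rh529d2d3e1746384a : CRef := CRef.mk (Pat.mk 0xc0000001800000000000000000000000000000000 0x3e0000003e0000003f0000001f0000001f0000003a000000380000003800000028 13 6) 0 0 (step_sound _ 161 [rh1ce45dfb692e8294, (rhb739f4f82bb681b4.shift 0 4)] (by decide +kernel))
noncomputable def rh52bb7eba7708513e : CRef := CRef.mk (Pat.mk 0x18000000900000000000000000 0x30000000380000003c0000001f0000003e000000ff0000007e00000038 13 8) 0 0 (step_sound _ 69 [rh2b0cb50411759533, (rh2fe78cc5ca4405d8.shift 3 2)] (by decide +kernel))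
noncomputable def rh0b502111bec90ec3 : CRef := CRef.mk (Pat.mk 0xc0000004800000000000000000000000000000000 0x3f0000003f0000003f0000001f0000007f000000370000003c0000003800000028 13 7) 0 0 (step_sound _ 132 [(rh2fe78cc5ca4405d8.shift 2 4), rhf5cf77bc9f22f55c] (by decide +kernel))
noncomputable def rh6b0c24a4a53b1d78 : CRef := CRef.mk (Pat.mk 0xc00000048000000000000000000000000 0x3f0000003e000000370000001f0000007f0000003f0000003c00000018 13 7) 0 0 (step_sound _ 100 [rh19b3f2394bdc5661, (rh2fe78cc5ca4405d8.shift 2 3)] (by decide +kernel))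
noncomputable def rh36de06e06a2b4c0f : CRef := CRef.mk (Pat.mk 0xc00000048000000000000000000000000 0x5000000070000000f0000003f0000001f0000007f0000003f0000001f00000015 13 7) 0 0 (step_sound _ 100 [(rh2fe78cc5ca4405d8.shift 2 3), rh8eba6ffb28e8973c] (by decide +kernel))
noncomputable def rh5ae9ed597368be75 : CRef := CRef.mk (Pat.mk 0xc00000048000000000000000000000000 0x2f0000003e0000003f0000001f0000007f0000003b0000003a00000030 13 7) 0 0 (step_sound _ 100 [(rh2fe78cc5ca4405d8.shift 2 3), rh79938f5a798b2426] (by decide +kernel))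
noncomputable def rh2721b350a035436b : CRef := CRef.mk (Pat.mk 0xc00000048000000000000000000000000 0x2e0000003e0000003f0000001f0000007b0000003f0000003f00000030 13 7) 0 0 (step_sound _ 100 [(rh2fe78cc5ca4405d8.shift 2 3), rha4fab76ddd699e79] (by decide +kernel))
noncomputable def rh4c8c9b2f7e72e8e4 : CRef := CRef.mk (Pat.mk 0xc00000048000000000000000000000000 0x50000000700000017000000370000001f0000007f0000000f0000000f00000005 13 7) 0 0 (step_sound _ 100 [(rh2fe78cc5ca4405d8.shift 2 3), rhb1e94b76e4f7b52c] (by decide +kernel))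
noncomputable def rh4f09a2bff9ac03f3 : CRef := CRef.mk (Pat.mk 0xc00000048000000000000000000000000 0x50000002f0000003f0000003f0000001f0000007f000000370000003f0000003f 13 7) 0 0 (step_sound _ 100 [(rh2fe78cc5ca4405d8.shift 2 3), rhc2d2b5c34ff4630d] (by decide +kernel))
noncomputable def rhe2857a19f3d4141c : CRef := CRef.mk (Pat.mk 0x480000000c00000000000000000000000000000000 0x150000001f0000003f0000007f0000001f0000003f0000000f0000000700000005 13 7) 0 0 (step_sound _ 164 [rh198f88fd67ce30a6, (rh361cc68994bd8a63.shift 2 4)] (by decide +kernel))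
noncomputable def rh3e1e608a8235a566 : CRef := CRef.mk (Pat.mk 0x480000000c000000000000000000000000 0x300000003a0000003b0000007f0000001f0000003f0000003e0000002f 13 7) 0 0 (step_sound _ 132 [(rh361cc68994bd8a63.shift 2 3), rhe828d1361d8f71bb] (by decide +kernel))
noncomputable def rhfc1bb7d9ae4dc573 : CRef := CRef.mk (Pat.mk 0x480000000c000000000000000000000000 0x300000003f0000003f0000007b0000001f0000003f0000003e0000002e 13 7) 0 0 (step_sound _ 132 [(rh361cc68994bd8a63.shift 2 3), rh9ca66768e715c86f] (by decide +kernel))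
noncomputable def rh56e5cd06e5a6872d : CRef := CRef.mk (Pat.mk 0x480000000c00000000000000000000000000000000 0x50000000f0000000f0000007f0000001f00000037000000170000000700000005 13 7) 0 0 (step_sound _ 164 [rh35f0d69b6f1f8f0d, (rh361cc68994bd8a63.shift 2 4)] (by decide +kernel))
noncomputable def rh91c2188078df7bad : CRef := CRef.mk (Pat.mk 0x480000000c00000000000000000000000000000000 0x3f0000003f000000370000007f0000001f0000003f0000003f0000002f00000005 13 7) 0 0 (step_sound _ 164 [(rh361cc68994bd8a63.shift 2 4), rhf60a6eb518340bdd] (by decide +kernel))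
noncomputable def rhd9f33169ebda475a : CRef := CRef.mk (Pat.mk 0x180000000c0000004000000000000000000000000000000000 0x50000000f0000003f000000070000001f0000001f0000007f0000003f0000003f0000000700000005 13 7) 0 0 (step_sound _ 161 [(rh53b3c253cb0c65f4.shift 0 5), rhd37ccbf77a6aa296] (by decide +kernel))
noncomputable def rh3ce7ebcd2975bd83 : CRef := CRef.mk (Pat.mk 0x480000000c0000000000000000000000000000000000000000 0x50000000f0000000f0000007f0000001f0000003b0000001f0000001f0000000700000005 13 7) 0 0 (step_sound _ 196 [(rh361cc68994bd8a63.shift 2 5), rhc10a46b043d5708b] (by decide +kernel))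
noncomputable def rh7171bb68157a769a : CRef := CRef.mk (Pat.mk 0x480000000c000000000000000000000000 0xb0000000b0000007f0000001f000000370000003e0000003f 13 7) 0 0 (step_sound _ 132 [(rh361cc68994bd8a63.shift 2 3), rh7e243c8b3e01c1cf] (by decide +kernel))
noncomputable def rh1c33b287193c1760 : CRef := CRef.mk (Pat.mk 0x400000000c0000001800000000000000000000000000000000 0x5000000070000003f0000003f0000007f0000001f0000001f000000070000003f0000000f00000005 13 7) 0 0 (step_sound _ 161 [rhac9f7705afb285a0, (rhb739f4f82bb681b4.shift 0 4)] (by decide +kernel))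
noncomputable def rh74c8426c12a2143f : CRef := CRef.mk (Pat.mk 0xc00000048000000000000000000000000 0x5000000070000001f0000001f0000003b0000001f0000007f0000000f0000000f00000005 13 7) 0 0 (step_sound _ 100 [rh25782a108a999bc8, (rh2fe78cc5ca4405d8.shift 2 3)] (by decide +kernel))
noncomputable def rhe0f3f23a9273737f : CRef := CRef.mk (Pat.mk 0xc000000480000000000000000 0x3f0000003e000000370000001f0000007f0000000b0000000b 13 7) 0 0 (step_sound _ 68 [(rh2fe78cc5ca4405d8.shift 2 2), rh9dbeea809957fbbc] (by decide +kernel))
noncomputable def rh6e094aabeae9a8ff : CRef := CRef.mk (Pat.mk 0x200000003000000100000000000000000000000000 0x6a000000fe0000003e0000007f000001fe0000007f0000003e0000000a 13 9) 0 0 (step_sound _ 100 [(rh9d5f9964e46b4125.shift 1 1), rhc737cba78e3980e7, (rhcf80391c5046a495.shift 4 1), (rhf9366b6a121593ef.shift 4 1)] (by decide +kernel))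
noncomputable def rh566cdcfba64e75ad : CRef := CRef.mk (Pat.mk 0x10000000030000000200000000000000000 0xa0000003e0000007f000001fe0000007f0000003e000000fe0000006a 13 9) 0 0 (step_sound _ 132 [(rh7d1b67e42a2269d8.shift 1 1), (rhc2c7bae8f445c890.shift 4 0), (rhc38f566cab2818e5.shift 4 0), rhf3457fb3968b554e] (by decide +kernel))
noncomputable def rh81d684941a617d1c : CRef := CRef.mk (Pat.mk 0x10000000030000001000000000000000000000000000000000000000000 0x50000000f0000000f8000000fc000003fe0000007c000001ff000000ec000000fc000000fc0000007400000050 13 10) 0 0 (step_sound _ 165 [(rh5e28a09da46f2adf.shift 0 2), (rh601f9d40da627e7e.shift 2 1), (rh69d594c8155febc7.shift 2 0), (rh797f484c8a6367b8.shift 2 2), (rh7de0b0d7d52fdeb7.shift 2 2), (rh88fe0961c71cacfb.shift 2 2), (rh927a7b676889157a.shift 2 1), (rhea4f283b731ac8af.shift 4 0)] (by decide +kernel))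
noncomputable def rh784cca74b89e656b : CRef := CRef.mk (Pat.mk 0x100000000300000010000000000000000000000000000000000 0x5000000074000000fc000000fc000000ec000001ff0000007c000003fe000000fc000000f8000000f000000050 13 10) 0 0 (step_sound _ 197 [(rh1a715a3f421bc02d.shift 2 1), (rh223f7dfa9fa3667e.shift 2 0), (rh29f98f94c242295c.shift 2 1), (rh3d61fb6a3e210df5.shift 2 2), (rh92f2974c0891da56.shift 2 2), (rhcb325d33d94dfb12.shift 4 0), (rhe12f1c348428db71.shift 0 2), (rhef757df3cb219fc1.shift 2 1)] (by decide +kernel))
noncomputable def rh68863be0ea3ee56d : CRef := CRef.mk (Pat.mk 0x480000000c0000000000000000000000000000000000000000 0x4000000150000001f0000003f0000007f0000001f0000003b00000037000000370000000700000005 13 7) 0 0 (step_sound _ 196 [rh119bfc5ba2e6d0f7, (rh361cc68994bd8a63.shift 2 5)] (by decide +kernel))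
noncomputable def rh39b31f3f595c298d : CRef := CRef.mk (Pat.mk 0x1200000003000000000000000000000000000000000 0x500000007e000000fe000000fe000001fe0000003e0000001e0000001f0000000e0000000a 13 9) 0 0 (step_sound _ 166 [rh09cc47774a3701a7, (rh361cc68994bd8a63.shift 4 4)] (by decide +kernel))
noncomputable def rh08a5c4cdcf93a5f7 : CRef := CRef.mk (Pat.mk 0x12000000030000001000000000000000000 0x140000005c000000fe000000fe000000ff000001fc00000070000001f00000005000000010 13 9) 0 0 (step_sound _ 134 [(rh361cc68994bd8a63.shift 4 3), rhc9692998a9a62906] (by decide +kernel))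
noncomputable def rhd09ad6aabd4e84a3 : CRef := CRef.mk (Pat.mk 0xc0000004800000000000000000000000000000000 0x50000000700000037000000370000003b0000001f0000007f0000003f0000001f0000001500000004 13 7) 0 0 (step_sound _ 132 [(rh2fe78cc5ca4405d8.shift 2 4), rhc9714432a2cb7a72] (by decide +kernel))
noncomputable def rhe249163364c0f61a : CRef := CRef.mk (Pat.mk 0x300000012000000000000000000000000000000000 0xa0000000e0000001f0000001e0000003e000001fe000000fe000000fe0000007e00000050 13 9) 0 0 (step_sound _ 134 [(rh2fe78cc5ca4405d8.shift 4 4), rh79a732de418c56b0] (by decide +kernel))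
noncomputable def rhe2c38ad619927e95 : CRef := CRef.mk (Pat.mk 0x10000000030000001200000000000000000000000000000000000000000 0x1000000050000001f000000070000001fc000000ff000000fe000000fe0000005c00000014 13 9) 0 0 (step_sound _ 166 [(rh2fe78cc5ca4405d8.shift 4 5), rh9b9f54730b8edac0] (by decide +kernel))
noncomputable def rh6573e94c0200f909 : CRef := CRef.mk (Pat.mk 0x10000000030000001000000000000000000000000000000000000000000 0x50000000fc000000fc000000fe000003f80000007e000001ff000000fe000000fe000000fc0000007800000050 13 10) 0 0 (step_sound _ 165 [(rh0e0ceee7b172bc4c.shift 1 1), (rh31c1fa862a21b46b.shift 1 2), (rh5fa0d58afe8e08be.shift 1 1), (rh7d304e9995cb3768.shift 2 1), (rh7e0683b3cbbde0d8.shift 0 1), (rh88fe0961c71cacfb.shift 2 2), (rhacadd9557a7a248d.shift 0 1), (rhbc101b091c75acb5.shift 1 0), (rhc67ef5bd82bb94a1.shift 0 2), (rhd97d303bd9f152cf.shift 1 1), (rhf1b99d9e3865086c.shift 2 1)] (by decide +kernel))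
noncomputable def rh2dfa27b4cb353a24 : CRef := CRef.mk (Pat.mk 0x100000000300000010000000000000000000000000000000000 0x5000000078000000fc000000fe000000fe000001ff0000007e000003f8000000fe000000fc000000fc00000050 13 10) 0 0 (step_sound _ 197 [(rh034fab0dca47bf15.shift 1 0), (rh1a715a3f421bc02d.shift 2 1), (rh261284cc881c7350.shift 2 0), (rh2969f9aabe7d3284.shift 2 0), (rh6f70f8ee0c3b06e0.shift 1 0), (rhaec53285b82f57a2.shift 1 1), (rhd10afbdefa387349.shift 0 2), (rhd1c05aefd0969169.shift 0 1), (rhdf15fd9f8f4bd142.shift 1 0), (rhe512756101d0a81f.shift 1 1), (rhe63a500025cc2461.shift 0 2)] (by decide +kernel))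
noncomputable def rhf4506e4b8e83ba76 : CRef := CRef.mk (Pat.mk 0x400000000c000000180000000000000000000000000000000000000000 0x140000001c0000001c0000000c0000007c0000001c0000001f0000003f0000003f0000001f0000001700000005 13 7) 0 0 (step_sound _ 227 [rh1d536c10eca4ac1c, (rh26420c0e3bb591bb.shift 2 1), (rh51804096c81a098a.shift 2 1), (rh70e33bfdf511e144.shift 3 2), (rhb23658ecdd7ce5df.shift 2 4)] (by decide +kernel))
noncomputable def rh110de446d99cd723 : CRef := CRef.mk (Pat.mk 0x400000001e0000000000000000000000000000000000000000 0x4000000040000000c0000000e0000007f0000001e0000003b0000003f000000ff0000002700000005 13 8) 0 0 (step_sound _ 99 [(rh1c36a3a3bb7df293.shift 0 2), (rh26e193a08491d3af.shift 1 1), (rh5a4d5d5a295c242c.shift 1 2), rh744c25782f3050f9, rh8e835aec1c796769] (by decide +kernel))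
noncomputable def rh2f5c5e292e8d900d : CRef := CRef.mk (Pat.mk 0x1e0000004000000000000000000000000000000000 0x500000027000000ff0000003f0000003b0000001e0000007f0000000e0000000c0000000400000004 13 8) 0 0 (step_sound _ 227 [(rh1112bf7ecf6cbade.shift 1 4), (rh1c40e8bd39a28df0.shift 1 4), (rh41f9d4db8887bc51.shift 0 2), rh49f996902415eae8, (rh56919480e3b69379.shift 0 3)] (by decide +kernel))
noncomputable def rh5af7bf820f5d089e : CRef := CRef.mk (Pat.mk 0x10000000030000001000000001000000000000000000000000000000000 0x280000007800000078000000de000001fe00000074000001fe000000fe000001ff000000f80000003800000028 13 9) 0 0 (step_sound _ 164 [(rh0994b7c96ddd9c55.shift 1 0), (rh15590a39afd9a120.shift 3 1), (rh92d3ec23f10336b2.shift 1 2), (rhf934ae0e75766a93.shift 0 3), (rhffb8e5993241bf15.shift 3 1)] (by decide +kernel))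
noncomputable def rhedcf54d0810c5193 : CRef := CRef.mk (Pat.mk 0xc00000009c000000000000000000000000 0x80000004c0000007f0000007f000000ff0000009c0000001f0000003e0000001c 13 8) 0 0 (step_sound _ 132 [rh0179e2295021a2d5, (rhb2a0b9ccfb5cecd5.shift 3 3)] (by decide +kernel))
noncomputable def rh8e99835bcdbcf7c8 : CRef := CRef.mk (Pat.mk 0x9c000000c000000000000000000000000000000000 0x1c0000003e0000001f0000009c000000ff0000007f0000007f0000004c00000008 13 8) 0 0 (step_sound _ 132 [rh2b79f48182f553b0, (rh5419adcd928dba20.shift 3 4)] (by decide +kernel))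
noncomputable def rh008600e74548d552 : CRef := CRef.mk (Pat.mk 0xe00000000000000000000000000000000 0x80000003c0000003f0000003f0000003f0000001e000000370000003f0000003f0000002d 13 6) 0 0 (step_sound _ 132 [rh4750a98b821d72ba, rh7deea0bc0ad27682, rhb157e94e1c6ae8c9, (rhf576cbc6ba99d365.shift 0 2), rhff8d6c420804c765] (by decide +kernel))
noncomputable def rh14b1adc66a48e713 : CRef := CRef.mk (Pat.mk 0xe0000000000000000000000000000000000000000 0x2d0000003f0000003f000000370000001e0000003f0000003f0000003f0000003c00000008 13 6) 0 0 (step_sound _ 164 [rh093923d1bb159634, (rh1dd9bafc81214674.shift 0 1), (rh552a6936c04b14b8.shift 0 2), (rh8784627f16ac20ae.shift 0 1), (rh9bed141511751992.shift 0 1)] (by decide +kernel))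
noncomputable def rhe6d760aea8f138e5 : CRef := CRef.mk (Pat.mk 0x100000000300000010000000000000000000000000000000000 0x50000000fc000000fc000000fe000003f70000007e000001ff000000fe000001ff000000fc00000054 13 10) 0 0 (step_sound _ 133 [(rh007b5f32742489ec.shift 1 0), (rh0a8440d85578d599.shift 2 1), (rh3f29e71633996f42.shift 2 2), (rh6efc6b81fadd77bf.shift 1 0), (rh744f9c7bc9b623f3.shift 2 1), (rh7466654cbcc9ba1a.shift 2 2), (rh797f484c8a6367b8.shift 2 1), (rh80aa9022738c1d06.shift 2 1), rh82a40efcbd3bd6c6, rh85f4812a37eb5c26, (rh9c88849b58e24b36.shift 1 1), (rhac991a4f12fc5353.shift 1 0), (rhbad411e9bcb7ff88.shift 1 1)] (by decide +kernel))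
noncomputable def rh13f890183f9f6017 : CRef := CRef.mk (Pat.mk 0x100000000300000010000000000000000000000000000000000 0x54000000fc000001ff000000fe000001ff0000007e000003f7000000fe000000fc000000fc00000050 13 10) 0 0 (step_sound _ 197 [rh0c20396907db4912, (rh1c07b1aa86bc582d.shift 1 1), (rh223f7dfa9fa3667e.shift 2 0), (rh2432dbefe687632f.shift 2 0), (rh68cc831bed989e16.shift 1 1), (rh6e0d2880f1d4621d.shift 1 0), (rh709e2b40acabf1e0.shift 0 2), (rh7a69c53827f5f79b.shift 1 1), (rh97b6305f12f2f37c.shift 1 0), (rhce9696821af08137.shift 2 0), (rhd2cee8351868113f.shift 2 1), (rhdc34d80654f7c0f8.shift 2 2), (rhf92610fb00690c59.shift 2 1)] (by decide +kernel))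
noncomputable def rh36cee3d3cebc33b2 : CRef := CRef.mk (Pat.mk 0x10000000030000001000000000000000000 0x20000000e0000000fc000000fc000001ff0000007e000001ff000000fc000000fc 13 9) 0 0 (step_sound _ 99 [(rh65183b4f471e3fcb.shift 0 2), (rha64948426190b4e6.shift 0 2), (rhba0466855112442a.shift 0 1), (rhce28c5242765a07b.shift 2 0), (rhd4ffb7e16e6d91bf.shift 0 1), (rhda6f673521835f26.shift 0 2), rhdaf7e75b3fe424a4] (by decide +kernel))
noncomputable def rh38854dfd7f68f183 : CRef := CRef.mk (Pat.mk 0x100000000300000010000000000000000000000000000000000 0xfc000000fc000001ff0000007e000001ff000000fc000000fc000000e000000020 13 9) 0 0 (step_sound _ 163 [(rh424e80a5aa539d4e.shift 0 4), (rh4a5e3fc94db99d7d.shift 0 2), (rha64948426190b4e6.shift 0 4), (rhba0466855112442a.shift 0 3), (rhc83ed920f18270f8.shift 2 0), (rhda6f673521835f26.shift 0 4), (rhdaf7e75b3fe424a4.shift 0 2)] (by decide +kernel))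
noncomputable def rh0e3e9ea83de37ef5 : CRef := CRef.mk (Pat.mk 0x800000008000000080000000000000004000000000000000000000000000000000 0x8000000090000001f000000fff000007fe00000eff000003fc000003fc000000a0 13 12) 0 0 (step_sound _ 102 [(rh25c2a4ccc7ef5618.shift 2 0), (rhd0be057026311c98.shift 6 3), (rhf55c067286018526.shift 0 1)] (by decide +kernel))
noncomputable def rh9c51abe6b56f8b05 : CRef := CRef.mk (Pat.mk 0x20000000280000002000000000000000000000000000000000 0x80000002f0000007e000001f7000001fc000003fc0000007000000050 13 10) 0 0 (step_sound _ 101 [(rh6eff4158bb400f47.shift 4 1), rh761ad74695cf638c, (rh97bdf0e9e8dcc28c.shift 2 2), rhd8e38447c2255b5d] (by decide +kernel))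
noncomputable def rh228079a185a9a635 : CRef := CRef.mk (Pat.mk 0x200000002800000020000000000000000000000000 0x10000000100000003ef000001fe000007f7000003fc000007fc00000030 13 11) 0 0 (step_sound _ 132 [(rh3a2e0da897283d2e.shift 0 3), (rh91e141387cb9579f.shift 2 0), (rhc21a95c499b3efdb.shift 2 3), (rhc92c11e8da6c894f.shift 0 3)] (by decide +kernel))
noncomputable def rh17c5e3caffcd5225 : CRef := CRef.mk (Pat.mk 0xa000000020000000000000005000000000000000000000000000000000 0xa0000000a0000007af000003fe000007ff000001f80000005800000018 13 11) 0 0 (step_sound _ 133 [(rh72b2b5614a542436.shift 3 3), (rhbf726fa7097229f2.shift 4 3), (rhca592a1eb6275e19.shift 2 0), (rhe45bb01ac4479772.shift 0 3)] (by decide +kernel))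
noncomputable def rh106253909b1bc3da : CRef := CRef.mk (Pat.mk 0x8000000080000000000000014000000100000000000000000000000000000000000000000 0x800000038000000f00000001e000003ff000001ff000003fe0000003c0000003800000028 13 10) 0 0 (step_sound _ 228 [rhab96ac486a800e76, (rhcfdf45280693d3da.shift 3 5)] (by decide +kernel))
noncomputable def rhbf281b07b1202a16 : CRef := CRef.mk (Pat.mk 0x4000000000000000000000003800000020000000000000000000000000 0x4000000040000003c6000001fe000003bc000000ff000000ff000001ff 13 10) 0 0 (step_sound _ 134 [(rh205dc383ce3b31ea.shift 2 3), rhc929ad4c8335059a, (rhfca48bdea898f94b.shift 3 3)] (by decide +kernel))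
noncomputable def rh56928e14f334282c : CRef := CRef.mk (Pat.mk 0x800000008000000080000000000000000000000000000000000000000 0x40000002f0000007c000003fe000001fc000003fc000000fc000000fc000000f0 13 10) 0 0 (step_sound _ 131 [(rh47992774edf9829f.shift 2 1), (rh5ad9898cc32ef511.shift 2 2), (rh8cdd36b03d57a2f6.shift 2 2), (rhc4526fc8abf298b6.shift 2 2), (rheb928ba02c1bb8b4.shift 2 0), rhf7ac85c5e6b97bf7] (by decide +kernel))
noncomputable def rhc17b47251d3df077 : CRef := CRef.mk (Pat.mk 0x4000000040000000000000002000000020000000000000000000000000000000000000000000000000 0x40000000ff000001be000001ff000001fe000001fe000001fe00000030000000700000007000000050 13 9) 0 0 (step_sound _ 261 [(rh1006c02ae4212ff0.shift 5 6), rhe899076c0c9b10a2] (by decide +kernel))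
noncomputable def rha652d6b70ba89d2b : CRef := CRef.mk (Pat.mk 0x50000000100000000800000008000000080000000000000000000000000000000000000000 0x4000000050000000740000006f0000007f0000007c0000007e000000fc0000005c0000001c00000010 13 8) 0 0 (step_sound _ 131 [(rh47992774edf9829f.shift 2 1), (rh5ad9898cc32ef511.shift 2 2), (rh8cdd36b03d57a2f6.shift 2 2), (rhbae45ac84924bb0b.shift 0 2), (rheb928ba02c1bb8b4.shift 2 0)] (by decide +kernel))
noncomputable def rh3be90f3e6c6e224f : CRef := CRef.mk (Pat.mk 0x4000000140000000400000002000000020000000280000000000000000000000000000000000000000 0x100000007c0000015c000003dc000007be00000fff000007f800000ffc000003ec000000600000006000000040 13 12) 0 0 (step_sound _ 133 [(rh22bef4d370f16163.shift 1 3), (rh5ad9898cc32ef511.shift 4 2), (rh66e8ee5080f80181.shift 2 0), (rh71b97df6f0b1908a.shift 2 0), (rhc5507e94df1ae923.shift 0 3)] (by decide +kernel))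
noncomputable def rh7a11044bc3ae9af8 : CRef := CRef.mk (Pat.mk 0x280000000800000004000000040000000400000000000000000000000000000000000000000 0x20000000280000003be0000037c00001ffe00001fff00001ffe00001fbf000007bc0000079c0000079c 13 13) 0 0 (step_sound _ 133 [(rh3743dbe66b959104.shift 5 2), rh95f88cfbbd3bf96f, (rh9b58b46f937426f7.shift 2 3), (rha3a4871aa57c5182.shift 1 0), (rhd67ddc8991fc6770.shift 2 3)] (by decide +kernel))
noncomputable def rh30b66d60dc988ff0 : CRef := CRef.mk (Pat.mk 0x40000000400000005000000000000000000000000000000000 0x3c0000003c0000003e0000007c000000ff0000007f000000df000000ff000000fc000000a4 13 8) 0 0 (step_sound _ 131 [(rh0ab14ab40c5eb319.shift 0 3), rh27a4f63a5470541e, (rh479762e25c185f37.shift 1 0), (rhb0de3eeae8874868.shift 3 0), (rhb3f0701341c741cf.shift 1 3)] (by decide +kernel))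
noncomputable def rhfffc6fe46befc472 : CRef := CRef.mk (Pat.mk 0x400000005000000000000000200000002800000000000000000000000000000000 0x400000007000000030000001ef000000fe000001ef000001fc000003fe00000070 13 10) 0 0 (step_sound _ 197 [(rh1006c02ae4212ff0.shift 5 4), rh1039da9dd47d13f7] (by decide +kernel))
noncomputable def rh1b41c95c9633421b : CRef := CRef.mk (Pat.mk 0x280000000800000000000000040000000500000000000000000000000000000000000000000 0x28000002b8000007f80000077800001ff800000ff000001fdf00000ffe00001fff000003a8000000a0 13 13) 0 0 (step_sound _ 167 [(rh252a8a3f365278a7.shift 3 1), (rh272374e714aa7152.shift 4 1), (rh37caf04d3aa6b3ef.shift 3 3), (rh76f255b113e826c7.shift 3 1), (rh9b67b2a6ae07e8ba.shift 3 1), rhb6f40e0b78712f83] (by decide +kernel))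
noncomputable def rhb073979ee00393c3 : CRef := CRef.mk (Pat.mk 0x140000000400000000000000020000000280000000000000000000000000000000000000000 0x40000015e000001fc000003bf000001fe000001ef0000006e0000007c0000007c0000007400000040 13 10) 0 0 (step_sound _ 133 [(rh1d742f25aee4f6d9.shift 4 2), rh8c8ca9c394e0043e, (rh93a9146fbe073366.shift 0 1), (rhe7a4fdd1ecb6b0a1.shift 4 0)] (by decide +kernel))
noncomputable def rhf86ebd38bc46a519 : CRef := CRef.mk (Pat.mk 0x1000000000000000080000000e0000000000000000000000000000000000000000 0x1000000070000001f00000007000001ff000000fe000000fb0000007f000001ff0000001c00000010 13 9) 0 0 (step_sound _ 164 [(rh394e80a462af5b2f.shift 0 4), rh6fb97f47822a4c25, (rh8377537580a72741.shift 1 4), (rh9a91d8f32e6bd95b.shift 0 4), (rha93a5dd541ab8209.shift 1 4), (rhe6bdd62e1711df0b.shift 1 5)] (by decide +kernel))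
noncomputable def rhc660b94af6014860 : CRef := CRef.mk (Pat.mk 0x800000028000000080000000400000004000000040000000200000000000000000 0x800000038000002f8000002b8000003be0000077f00000ffe00000fff0000037c0000035e00000214 13 12) 0 0 (step_sound _ 133 [rh06fa0612d635807d, (rh0a6962e251b8d693.shift 2 0), (rh0b2dbebd94b7d77b.shift 2 1), (rh0ce0d8002ff418d2.shift 2 1), (rh1adafa96e421417e.shift 1 1), (rh2ec0888f0862e239.shift 1 1), (rh5605825d292879dc.shift 1 1), (rh58e9ed7b94b7c1ae.shift 1 0), (rh84a901fb249618ba.shift 1 0), (rhba4d19d1735df16c.shift 1 0), (rhc88e0bedb89b256e.shift 2 0), (rhcd08fef583a4c8bc.shift 1 0), (rhf40238cb0568def2.shift 2 1)] (by decide +kernel))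
noncomputable def rh4b851e03ef0e1d31 : CRef := CRef.mk (Pat.mk 0x4000000040000000200000002000000020000000200000000000000000000000000000000000000000 0x40000004c000000cc000000ac00000fff000007fe00000fff0000006000000060000000700000007000000050 13 12) 0 0 (step_sound _ 134 [rh14e05719bbd0c43f, (rhd3458b32566d63f7.shift 5 4)] (by decide +kernel))
noncomputable def rh6911b634dc2646bb : CRef := CRef.mk (Pat.mk 0x200000002000000000000000100000001000000000000000000000000000000000 0x200000003a0000001e0000003e000001de000000fe000001ff0000003e00000028 13 9) 0 0 (step_sound _ 196 [(rh1006c02ae4212ff0.shift 4 4), rhbf489c7dfd8a0bbc] (by decide +kernel))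
noncomputable def rhd7bdc9f7d44c2455 : CRef := CRef.mk (Pat.mk 0x4000000040000000000000002000000028000000000000000000000000 0x50000000780000003c000001fc000000fe000001df000000f8000000f8 13 9) 0 0 (step_sound _ 197 [(rh04253f50b6dd0619.shift 5 3), rhde0b35ab2bb029b2] (by decide +kernel))
noncomputable def rh5b91a6a31cc537b3 : CRef := CRef.mk (Pat.mk 0x8000000080000000000000004000000050000000000000000000000000 0x80000000c00000004000000ff7000007fe00000fbf000001f0000001f8 13 12) 0 0 (step_sound _ 198 [(rh04253f50b6dd0619.shift 6 3), rhf088c9e61ef94135] (by decide +kernel))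
noncomputable def rhdcf8371b64f586b6 : CRef := CRef.mk (Pat.mk 0x4000000040000000000000002000000028000000000000000000000000 0x4a0000006e0000002e000001ef000000fe000001df000000fc000000fc 13 9) 0 0 (step_sound _ 197 [(rh04253f50b6dd0619.shift 5 3), rh848dd8c63bfd4eb8] (by decide +kernel))
noncomputable def rh3d39ac9a5fd36cfb : CRef := CRef.mk (Pat.mk 0x10000000100000001000000000000000080000000a000000000000000000000000000000000 0x1000000070000001f000000170000003fe000000fc000003ff000000fe0000007f0000007e0000007e00000050 13 10) 0 0 (step_sound _ 165 [(rh00f286eead7529d6.shift 1 1), (rh233183eb1f3b7d66.shift 1 1), (rh34fa030ade5d82f7.shift 2 2), (rh390797b073aea72e.shift 0 1), (rh8c3f52ee6afc6884.shift 1 1), (rh8c84597491cc1916.shift 1 1), (rh94dbb621bec7bba7.shift 0 1), (rhc80e82cadcff1b11.shift 1 0)] (by decide +kernel))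
noncomputable def rh3dce229be1ab013e : CRef := CRef.mk (Pat.mk 0x5000000010000000000000000a0000000a00000000000000000000000000000000 0x50000000d8000000e8000003ff000001fe000003f0000000f0000000e0000000a0 13 10) 0 0 (step_sound _ 195 [(rh1006c02ae4212ff0.shift 3 4), rhad3059db890182c0] (by decide +kernel))
noncomputable def rhe3d9a829e5830255 : CRef := CRef.mk (Pat.mk 0x4000000040000000000000002000000028000000000000000000000000 0x400000006000000024000007f7000003fe000007df000000f8000000fc 13 11) 0 0 (step_sound _ 197 [(rh04253f50b6dd0619.shift 5 3), rh43afda8f0b0a1aba] (by decide +kernel))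
noncomputable def rhd05d0be8a5fe7a03 : CRef := CRef.mk (Pat.mk 0x400000004000000000000000200000002000000020000000000000000000000000 0x40000001d0000001bc000001f8000001fe000001ff000003de0000005800000010 13 10) 0 0 (step_sound _ 100 [(rh00be6935dadc9201.shift 0 1), (rhb8b2232ac5a35305.shift 0 1), (rhfafeb437ceb8396d.shift 4 0), (rhfd5b8404a437b978.shift 1 2)] (by decide +kernel))
noncomputable def rhcfd9597b7a05be51 : CRef := CRef.mk (Pat.mk 0x80000000e000000000000000000000000 0x2000000020000007f0000007e000001fc000000fc000001fe 13 9) 0 0 (step_sound _ 100 [rh69a2e2659c7470ca, (rha93a5dd541ab8209.shift 1 2), (rhe401600d466b97cd.shift 0 2), (rhe6bdd62e1711df0b.shift 1 3)] (by decide +kernel))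
noncomputable def rhec9f6b29da02a0f3 : CRef := CRef.mk (Pat.mk 0x14000000040000000200000002000000020000000000000000000000000000000000000000000000000 0x10000000140000003dc000003bc00001fef00000ffe00001fff000007f0000003f8000007f80000017000000050 13 13) 0 0 (step_sound _ 198 [(rh0f020227edb1f81e.shift 2 2), (rh22fc2cf09c16640a.shift 0 1), (rh2e1094704e8e4866.shift 0 1), (rh4fb3122d27624e05.shift 2 0), (rh767abffe9d7e58ce.shift 0 1), (rh7c3cc99e1c36e252.shift 2 0), (rh9095d182cf5c1998.shift 4 0), (rha10b5b71ccb17a00.shift 0 2), (rhad8feb5b4aa1a2d0.shift 1 3), (rhbfa8fcf30f42d3a3.shift 1 2)] (by decide +kernel))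
noncomputable def rh96befc7c58dd8990 : CRef := CRef.mk (Pat.mk 0x1000000050000000100000000000000000000000000000000000000000 0x280000007c0000005e000000de000000fe000001ff000000380000003800000028 13 9) 0 0 (step_sound _ 132 [(rh5ee4dc8825dcefa0.shift 1 3), (rh8cdd36b03d57a2f6.shift 3 2), (rhac896e42bf3e13c0.shift 3 0), (rhc4526fc8abf298b6.shift 3 2), (rhff8953f7c4bdca96.shift 0 3)] (by decide +kernel))
noncomputable def rh5f25a95431013923 : CRef := CRef.mk (Pat.mk 0x20000000a000000020000000000000000000000000 0x1d0000001f0000000bc000001ef000001fe0000007f00000050 13 9) 0 0 (step_sound _ 69 [(rh5ee4dc8825dcefa0.shift 2 1), (rh6f252f6a176d1d1b.shift 0 1), (rh8cdd36b03d57a2f6.shift 4 0), (rhc4526fc8abf298b6.shift 4 0)] (by decide +kernel))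
noncomputable def rh84090bc8036b887b : CRef := CRef.mk (Pat.mk 0x1000000050000000100000001000000000 0x8000000080000001ef000000fe0000005e000003f8000001f0000000a0 13 10) 0 0 (step_sound _ 133 [(rh2f68792b6b779e96.shift 4 1), rhb84edae33e97555e] (by decide +kernel))
noncomputable def rh119d499cf64488df : CRef := CRef.mk (Pat.mk 0x60000000a0000000200000002000000000 0x100000001000000039e000001fc000000bc000001ff000000be00000017 13 10) 0 0 (step_sound _ 135 [(rh2820ca9a6c4f41b4.shift 2 3), rh451819d173c5d3b0, (rh73302c3f61b5ffae.shift 2 0), (rhd8b43b15431aaa50.shift 4 1)] (by decide +kernel))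
noncomputable def rh1a598c67fec71314 : CRef := CRef.mk (Pat.mk 0x20000000a0000000200000000000000000000000000000000000000000 0x140000001c0000003c0000001e4000000bc000001ff000007fe000003ff000003f80000017000000050 13 11) 0 0 (step_sound _ 133 [(rh6eff4158bb400f47.shift 4 2), (rh9520bf2462544557.shift 0 2), (rhac896e42bf3e13c0.shift 4 0), (rhb70978845b256c82.shift 2 0), (rhdda48431c616e73a.shift 2 0)] (by decide +kernel))
noncomputable def rh1c917a031f7cb462 : CRef := CRef.mk (Pat.mk 0x30000000b000000020000000000000000000000000000000000000000000000000 0x8000001ce000001fe000000b6000001ff000001fe0000013f0000007e0000007e0000003e00000028 13 9) 0 0 (step_sound _ 164 [(rh25175b604ac6a542.shift 0 3), (rh5c067d4e876f5172.shift 1 4), (rh5ddbeed5d869bf16.shift 4 4), (rhb71555a6b2173205.shift 1 0), (rhe437f081bfcdb831.shift 4 4)] (by decide +kernel))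
noncomputable def rhff6b3106098ad83f : CRef := CRef.mk (Pat.mk 0x60000000600000004000000000000000000000000000000000 0x40000001c0000001c0000001c0000007e0000007f000000ff0000001f0000001f0000001c00000014 13 8) 0 0 (step_sound _ 163 [(rh08436c2649689ebd.shift 1 4), (rh39f426ebe0691969.shift 2 4), rh52b75deb7f247d2f, (rhe859b7afcdff0648.shift 2 3)] (by decide +kernel))
noncomputable def rh82abd02329d24f68 : CRef := CRef.mk (Pat.mk 0x30000000a00000002000000000000000000000000000000000 0xc0000000e000003df000000fe000000af000007ff000003fe000003bf0000001e0000000a 13 11) 0 0 (step_sound _ 162 [rh053de999a58cafe4, (rh2361121e80430ac0.shift 0 2), (rh4a179318d09c91a0.shift 0 2), (rh946e925a5240a834.shift 1 3), (rhbb0419e1aa99c01d.shift 0 1), (rhd06fc11918f03bf1.shift 0 2)] (by decide +kernel))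
noncomputable def rh0a0228494173a8c5 : CRef := CRef.mk (Pat.mk 0x2000000020000000a0000000200000000000000000 0xa0000003e0000007f0000007f000001fe000000ff000001ffe000003f7000002a0000001f0000001d000000140 13 13) 0 0 (step_sound _ 198 [rh9b71d72dd942fd08, (rhbaefcd01e0a8bca3.shift 5 2)] (by decide +kernel))
noncomputable def rhdcae82a57008d5cb : CRef := CRef.mk (Pat.mk 0xe0000002800000020000000000000001000000000000000000000000000000000000000000000000000000000 0x50000000780000006e0000003c00000020000000f00000007c00000078000000ff000000fe0000003f000000380000003000000020 13 8) 0 0 (step_sound _ 322 [(rh2fe78cc5ca4405d8.shift 1 10), rha6189264db4ae2f6] (by decide +kernel))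
noncomputable def rhb38d939e9e85faef : CRef := CRef.mk (Pat.mk 0x300000001000000050000000000000002000000000000000000000000000000000 0x7000000ff000000fe00000056000007de000003fe000007ff000001e0000001e000000140 13 11) 0 0 (step_sound _ 132 [(rh458309a6175ad66b.shift 3 3), rh5f4e3812f1278d78, (rh64f58cea62e24702.shift 4 3), (rha3711ed12866f068.shift 3 3)] (by decide +kernel))
noncomputable def rhd9c3c8a74f82e0d6 : CRef := CRef.mk (Pat.mk 0x30000000a0000000a0000000000000000000000000000000000000000000000000 0x100000001f0000001bc000000ac000007ff000003fe000007ff0000001e0000001e00000008 13 11) 0 0 (step_sound _ 134 [(rh5702fadd08d395d2.shift 3 3), (rha657070f4efcd1c9.shift 4 3), rhfbc8536d8de37171, (rhff763b75cad9671b.shift 4 3)] (by decide +kernel))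
noncomputable def rh9f94ac68362cfcbe : CRef := CRef.mk (Pat.mk 0x500000005000000050 0x38000000380000007ff000003fe000007ff000001d0000000d000000050 13 11) 0 0 (step_sound _ 133 [(rh07ff884a7eb6c0ed.shift 5 0), (rh0caf077b5a27aa2e.shift 4 0), (rhe25716203317ed02.shift 3 0), rhfc16c41b14812d16] (by decide +kernel))
noncomputable def rh8d5d9b8e2e85ce75 : CRef := CRef.mk (Pat.mk 0x2000000020000000a0000000000000000000000000 0x29000000390000003980000075e000003fe000007ff000000ac0000003c0000003000000010 13 11) 0 0 (step_sound _ 69 [(rh6aa5625770489e83.shift 4 0), (rh7d529487f048e169.shift 0 2), (rhb8d7edd074a03fcf.shift 0 1), (rhcab3157f7bdcba3e.shift 4 0)] (by decide +kernel))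
noncomputable def rh874e24fe745aad61 : CRef := CRef.mk (Pat.mk 0x20000000040000007000000050000000000000000000000000 0x100000001c0000001c0000001c0000007fc000003fc000003df0000007000000050000000e0000000e0000000a0 13 11) 0 0 (step_sound _ 196 [(rh492c5df0169795b9.shift 3 3), (rh64b90283dd5064ca.shift 1 3), (rhce476da58b652c73.shift 1 3), (rhd2b9a42744ae2c4d.shift 0 3), (rhf13f69a39856bc36.shift 2 0)] (by decide +kernel))
noncomputable def rh12c474d6b14624e6 : CRef := CRef.mk (Pat.mk 0x4000000300000005800000000000000000000000000000000 0xa0000002e0000003e0000006e000000f60000005e0000004f0000004e0000000e0000000a 13 8) 0 0 (step_sound _ 166 [(rh18965a982d73c794.shift 3 4), rhe423b2f5eb1325ea] (by decide +kernel))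
noncomputable def rha2e119c1e8b21f1e : CRef := CRef.mk (Pat.mk 0x80000000c000000180000005000000000000000000000000000000000 0x20000000220000007b000000ff000000df0000005f0000004f0000000f0000000f00000005 13 8) 0 0 (step_sound _ 193 [rh7ee67f766cc1d591, (rhb739f4f82bb681b4.shift 0 5)] (by decide +kernel))
noncomputable def rhb22ef3a6de4d910b : CRef := CRef.mk (Pat.mk 0x2000000030000000600000000000000000 0x1c0000003c0000001f000003bc000003fc0000007c0000003000000030 13 10) 0 0 (step_sound _ 99 [(rhb739f4f82bb681b4.shift 2 2), rhd5bacab17ff48ab8] (by decide +kernel))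
noncomputable def rh71abf70830cf5bdb : CRef := CRef.mk (Pat.mk 0xc000000180000001000000000000000000000000000000000 0x1f80000007c0000001f0000001f0000001f00000007000000070000000700000005 13 9) 0 0 (step_sound _ 227 [(rh2145e1d24b96a57e.shift 3 4), rhccfbd442da2bff27] (by decide +kernel))
noncomputable def rh8bf9af1bc59a26e4 : CRef := CRef.mk (Pat.mk 0x4000000050000000c000000040000000000000000000000000 0x140000073f000003ff0000077f000000de0000007c0000002c0000000c00000004 13 11) 0 0 (step_sound _ 199 [rh42f5b911eb22b501, (rh5a281f6b25f3c6cc.shift 4 3), (rh87dd4c00dcd5841a.shift 2 2), (rhf55a4ea8be7eb910.shift 3 4)] (by decide +kernel))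
noncomputable def rhd543a57abb85ea3e : CRef := CRef.mk (Pat.mk 0x10000000c000000160000000000000000000000000 0x28000002fc000003f8000003fe000003df00000178000003980000039800000288 13 10) 0 0 (step_sound _ 136 [(rh18965a982d73c794.shift 5 3), rh9befa50c315a02be] (by decide +kernel))
noncomputable def rhfd82ad393e7ff239 : CRef := CRef.mk (Pat.mk 0x4000000300000005800000000000000000000000000000000 0xe0000000e0000000ea000007ff000003fe000007f6000000f40000005e000000ec000000e8000000e8000000a0 13 11) 0 0 (step_sound _ 166 [(rh18965a982d73c794.shift 3 4), rh74c9c95c84780a81] (by decide +kernel))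
noncomputable def rhbd8642dcafa336f6 : CRef := CRef.mk (Pat.mk 0x4000000300000005800000000000000000000000000000000 0x40000008e000003ff000001fe000003f6000000f60000005e000000ec000000e8000000e8000000a0 13 10) 0 0 (step_sound _ 166 [(rh18965a982d73c794.shift 3 4), rh538b1b5a83bab491] (by decide +kernel))
noncomputable def rh64be874654cf41c0 : CRef := CRef.mk (Pat.mk 0x800000060000000b0000000000000000000000000 0x20800000ffe000007fe00000fff000007fc000001ee000000be000001ce000001ce0000014a 13 12) 0 0 (step_sound _ 135 [rh0149bec80b4ad66d, (rh18965a982d73c794.shift 4 3)] (by decide +kernel))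
noncomputable def rh73f00e260e6ba4e1 : CRef := CRef.mk (Pat.mk 0x4000000300000005800000000000000000000000000000000 0xa0000002e0000003e0000006e000000f60000005e0000004f0000004e0000000e0000000a 13 8) 0 0 (step_sound _ 166 [rh0d95756e5ce003c5, (rh18965a982d73c794.shift 3 4)] (by decide +kernel))
noncomputable def rh1689700bc9f18c18 : CRef := CRef.mk (Pat.mk 0x2000000180000002c0000000000000000000000000 0x50000005f800000ffe00000ffe000007b7000002f0000007300000073000000510 13 12) 0 0 (step_sound _ 137 [(rh18965a982d73c794.shift 6 3), rh39eef92a5dc37b0a] (by decide +kernel))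
noncomputable def rha5216d2fd25c2cb4 : CRef := CRef.mk (Pat.mk 0x2000000380000002c000000000000000000000000 0x1f8000000fc000001fe000000fe0000003a0000002f000000260000002400000004 13 9) 0 0 (step_sound _ 97 [(rh53b3c253cb0c65f4.shift 0 3), (rhbc5352cd2dacb221.shift 1 0)] (by decide +kernel))
noncomputable def rha665841bd7819884 : CRef := CRef.mk (Pat.mk 0x2000000180000002c000000000000000000000000000000000 0x8000000180000017e000001fe0000037f000007b0000002f000000278000002700000007000000050 13 11) 0 0 (step_sound _ 169 [(rh18965a982d73c794.shift 6 4), rh42f050422ae43792] (by decide +kernel))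
noncomputable def rha2864d6813fce05c : CRef := CRef.mk (Pat.mk 0xa000000180000000800000000000000000000000000000000000000000 0x1000000150000001fc000001f8000001ef000000fe000001bf000000fc0000007800000038000000380000003800000028 13 9) 0 0 (step_sound _ 228 [(rhc10214bf3fe8094a.shift 4 6), rhee5f29faa57bf0d1] (by decide +kernel))
noncomputable def rh3f337c2bbc77aba0 : CRef := CRef.mk (Pat.mk 0x30000001a000000080000000000000000000000000 0x10000000740000007c0000006e0000003e000001be000000ff0000007c0000007e00000050 13 9) 0 0 (step_sound _ 101 [(rh794501743a61ce18.shift 4 0), (rh8ae707ccbbf43205.shift 2 0), rha0018c387283451c, (rhde5b474548b482d7.shift 4 0), (rhe4e4efb231e692a9.shift 4 0), (rhff394a85ff296817.shift 4 0)] (by decide +kernel))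
noncomputable def rh980f465bad733828 : CRef := CRef.mk (Pat.mk 0x300000004000000040000000000000000000000000 0x90000001f0000001f8000007f0000003f00000007f0000003e0000003f00000030 13 11) 0 0 (step_sound _ 133 [(rh2dd82c7e81af44a6.shift 3 0), (rh6319f8a017362dc6.shift 0 1), (rh8890a2107ac3536f.shift 4 0), (rhaa0eec57d75bda3b.shift 4 0), (rhd1df61ef3d0778c7.shift 3 2), (rhe871dd9ddf178828.shift 4 0)] (by decide +kernel))
noncomputable def rha1e40d1075368a26 : CRef := CRef.mk (Pat.mk 0x10000000c000000040000000000000000000000000 0xa0000000f8000000f8000000fe000000fe000000f8000000ff0000007f0000003c0000003800000028 13 8) 0 0 (step_sound _ 163 [(rh2467d30dcf0bfc11.shift 2 2), (rh2632d82b2e4daf8a.shift 3 0), rh3995a56eec3e7392, (rh60392335659ac034.shift 2 2), (rh8bd76c4c91d64559.shift 3 0), rh902c7775b4001ea4, (rhf067a2de654065cc.shift 3 2)] (by decide +kernel))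
noncomputable def rhaa7f8655e9c01c4c : CRef := CRef.mk (Pat.mk 0x80000000e00000018000000100000000000000000 0x500000037000000370000003b0000001e0000001f0000001f0000000f00000007 13 6) 0 0 (step_sound _ 132 [(rh7ff601fc6d1f05ff.shift 1 1), (rh9df9dd6c10f80a9f.shift 0 1), rhadff91eee13febbd] (by decide +kernel))
noncomputable def rh88da0a5b39d0f311 : CRef := CRef.mk (Pat.mk 0x180000000c000000100000001000000000000000000000000000000000 0x30000000780000001c0000001f0000001f0000000f000000070000000700000005 13 7) 0 0 (step_sound _ 229 [(rh18965a982d73c794.shift 2 6), rh66f249be55188b21] (by decide +kernel))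
noncomputable def rha90f5b7fb65cba75 : CRef := CRef.mk (Pat.mk 0x7000000018000000200000002000000000000000000000000000000000 0x4000000040000004e0000007e000000380000007f0000003e0000001f0000000e0000000e0000000a 13 7) 0 0 (step_sound _ 197 [(rh2f68792b6b779e96.shift 5 4), rhe4019304f5268e20] (by decide +kernel))
noncomputable def rh0ba5b5fd6ed2e210 : CRef := CRef.mk (Pat.mk 0x1c0000001000000010000000000 0x8000000f8000001f80000027800000fff000007fe0000017f000001f0000000b0 13 12) 0 0 (step_sound _ 136 [(rh1eeec04e73117746.shift 6 1), (rh684e729394fba19d.shift 6 1), rhe0b00b6e9d7698b2] (by decide +kernel))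
noncomputable def rhb5225da9909ca4b0 : CRef := CRef.mk (Pat.mk 0x30000000400000007000000000000000000000000000000000 0x600000007000000070000000740000003c000001fe000000fe000001ff 13 9) 0 0 (step_sound _ 100 [(rh02ef15e22aa7db92.shift 4 1), rh5d5ad91ce22205e3, (rh769c4338c227ba0a.shift 3 1), (rh7d7eaefe27cdd7b0.shift 4 3)] (by decide +kernel))
noncomputable def rh8d0b6fef12ed9bbd : CRef := CRef.mk (Pat.mk 0x14000000300000001000000000 0x70000002f0000003f0000003f0000003f0000001f000000370000001f00000007 13 6) 0 0 (step_sound _ 97 [rh8d26c942ce4b67bd, (rhc10214bf3fe8094a.shift 1 2)] (by decide +kernel))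
noncomputable def rh094cfb1b1a6aedc0 : CRef := CRef.mk (Pat.mk 0xc0000001800000010000000000000000000000000 0x3c0000007c0000006c0000007f0000001b0000000f0000000e0000000c 13 7) 0 0 (step_sound _ 195 [(rh2145e1d24b96a57e.shift 3 3), rh8828f32e2066b07c] (by decide +kernel))
noncomputable def rhffddd53683d62836 : CRef := CRef.mk (Pat.mk 0x180000002000000020000000000000000000000000 0xe0000000e000000ff000000ff0000003f000000fe000000360000001e0000001800000018 13 8) 0 0 (step_sound _ 132 [(rh3c3e23a02e82b2ed.shift 1 4), (rh8890a2107ac3536f.shift 3 0), (rha21128819fe7cf7a.shift 0 2)] (by decide +kernel))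
noncomputable def rha3ee9b9bc12b500b : CRef := CRef.mk (Pat.mk 0xe00000018000000100000000000000000 0x3f0000003f000000fb000000fe0000001f0000001b0000000a00000002 13 8) 0 0 (step_sound _ 132 [(rh7ff601fc6d1f05ff.shift 1 1), (rha477348e8890404e.shift 0 3), rhaa19e50756b525ed, (rhaa4f5ada35419d37.shift 2 2)] (by decide +kernel))
noncomputable def rh632038d25a4097e5 : CRef := CRef.mk (Pat.mk 0x10000000600000004000000000000000000000000000000000 0x8000000680000006c000001fc000001fe0000007f0000003e0000003f0000003c00000014 13 9) 0 0 (step_sound _ 197 [(rh4ca5dae25f5c14ff.shift 2 5), (rh7eaa06d7061b99da.shift 0 2), (rh8f7c4f8948d37998.shift 2 0), (rhdeca8db941583de2.shift 2 5)] (by decide +kernel))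
noncomputable def rh9360919bf1094b0a : CRef := CRef.mk (Pat.mk 0x8000000300000002000000000000000000000000000000000 0xe0000000e0000003f0000003f000001fe0000003e0000003e0000001e0000001e0000001e0000000a 13 9) 0 0 (step_sound _ 196 [(rh022d00921726cce1.shift 0 3), (rh542231675bda9a32.shift 0 1), (rh55b1567a653884c0.shift 1 1), (rh62d6bf3d2903fb0f.shift 1 1), (rh8ea57463cda4abb4.shift 1 1), (rh8f7c4f8948d37998.shift 1 0), (rhad28f631b021fc94.shift 1 0), (rhe63919302e4dbcab.shift 0 3), (rhe8940e7697da7714.shift 0 3)] (by decide +kernel))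
noncomputable def rha185281b2a5447f8 : CRef := CRef.mk (Pat.mk 0x10000000100000005000000010000000000000000000000000 0x1000000010000000100000007b0000001f0000003f0000003e0000003e 13 7) 0 0 (step_sound _ 99 [(rh932754581e0f4330.shift 3 2), rhbb27e0771d8e9f93] (by decide +kernel))
noncomputable def rhc1ef36db00bf57d3 : CRef := CRef.mk (Pat.mk 0x20000000a00000008000000000000000000000000000000000 0x3c000001be000001be000001ff000000fe000000ff00000078000000780000003800000028 13 9) 0 0 (step_sound _ 164 [(rh3bfd72564429151e.shift 0 2), (rh7e4fe7c1e14f38b1.shift 0 2), (rh81401afdf482ddd8.shift 1 0), (rh895512040732b67d.shift 1 3), (rhb3c00181835503b4.shift 3 2), (rhd3988dbd7a7bc962.shift 1 2), (rhde2581c0e57b3174.shift 2 2), (rhe65ae0df377fe13d.shift 3 2)] (by decide +kernel))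
noncomputable def rh5de54c314762623a : CRef := CRef.mk (Pat.mk 0x8000000280000002800000000 0x40000001c000001ff000000fe000001ef0000001f0000006f0000003d00000014 13 9) 0 0 (step_sound _ 131 [(rh65a643973921d367.shift 2 0), (rha3f95589f80c87aa.shift 2 1), (rhc53caa859a3a4358.shift 0 1), (rhd3a227387be01e9d.shift 2 0)] (by decide +kernel))
noncomputable def rhb1c91a56b214738b : CRef := CRef.mk (Pat.mk 0x20000000a0000000a0000000000000000000000000000000000000000000000000 0x20000001bf000000fe0000007f000001fe00000078000000780000007000000050 13 9) 0 0 (step_sound _ 165 [rh16f2ad68918ae7c7, (rh23ef1103e2f1cbb8.shift 4 1), (rh3e98d5159dc2b280.shift 3 1), (rh5133fbe07fd94255.shift 1 4), (rh8cdd36b03d57a2f6.shift 4 3), (rhb3b72ecfa3e27b41.shift 0 1)] (by decide +kernel))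
noncomputable def rh96291a50cef1eb1e : CRef := CRef.mk (Pat.mk 0x580000003000000020000000000000000000000000 0x3ff000001fe000003df000000d8000000f800000038000000180000001800000018 13 10) 0 0 (step_sound _ 100 [(rh46d6183566ef1216.shift 3 0), (rh5106c0b40a5f6a25.shift 3 1), (rha0f9e239d95d3882.shift 0 3)] (by decide +kernel))
noncomputable def rh1e58737ec605052d : CRef := CRef.mk (Pat.mk 0x300000004000000040000000000000000000000000 0x3c0000003c0000003c000000f8000003fc0000007f0000003e0000003f0000003c 13 10) 0 0 (step_sound _ 135 [(rh3375b4624a8ea661.shift 3 0), (rh83ec37ff6e78b01f.shift 3 4), rhad20740dea1c806e] (by decide +kernel))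
noncomputable def rh83bed392d130746a : CRef := CRef.mk (Pat.mk 0x18000000300000002000000000 0xc0000005f000001df000001fb000000ff0000003f00000010 13 9) 0 0 (step_sound _ 70 [rhf337d43cac06c778, (rhf48373e13d2bc128.shift 3 2)] (by decide +kernel))
noncomputable def rhb3dd6492849ff3d9 : CRef := CRef.mk (Pat.mk 0x580000003000000020000000000000000000000000 0x3ff000001fe000003df000000d8000000fe000000360000001e0000001c00000018 13 10) 0 0 (step_sound _ 100 [(rh46d6183566ef1216.shift 3 0), (rh4ffe68a833cd64d8.shift 1 1), (rh5151f730a117c598.shift 3 2), (rha0f9e239d95d3882.shift 0 3)] (by decide +kernel))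
noncomputable def rha5c0b64077b0a548 : CRef := CRef.mk (Pat.mk 0x700000004000000140000000000000000000000000 0x1000000030000007bf000003fe0000036f00000170000003b0000003b000000280 13 11) 0 0 (step_sound _ 163 [(rh0ae1080fd505a701.shift 2 0), (rh36eba2a3de447758.shift 0 4), (rhc92c4e59e97c42bf.shift 2 0), (rhd1d05263fabc0227.shift 1 4)] (by decide +kernel))
noncomputable def rh9184d1a3c0a2ef54 : CRef := CRef.mk (Pat.mk 0xa000000080000000800000000000000000 0x50000000740000007c0000007c00001fff00000ffe00001dff000000de0000001e0000001e 13 13) 0 0 (step_sound _ 134 [(rh554009a2f490582e.shift 1 3), (rhc8ae77ecad49585e.shift 3 2), (rhcb440d7ac054a977.shift 4 2), rhd08b1a41898087ab] (by decide +kernel))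
noncomputable def rh5203989683778ed5 : CRef := CRef.mk (Pat.mk 0x2000000040000000500000004000000040000000000000000000000000 0x80000000f4000000ff0000005f000000ff000000de0000007c0000003c0000001c00000014 13 8) 0 0 (step_sound _ 135 [rh1c41f185b810ef25, (rh42c8ae686d713d97.shift 5 4)] (by decide +kernel))
noncomputable def rh0f8a26489b5ab0ab : CRef := CRef.mk (Pat.mk 0x6000000050000000400000004000000000000000000000000000000000 0x8000000180000001c0000007f000000fe000000ff0000007c0000003c0000001c0000001c00000014 13 8) 0 0 (step_sound _ 133 [rh3505ea4d71cbb747, (rh932754581e0f4330.shift 5 3)] (by decide +kernel))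
noncomputable def rh4ca74b3178210d45 : CRef := CRef.mk (Pat.mk 0xa000000080000000800000000000000000 0x140000013c0000013c00001fff00000ffe00001ddf0000009e0000001e0000001e 13 13) 0 0 (step_sound _ 134 [(rh40e4aa884e5244a8.shift 4 2), (rh554009a2f490582e.shift 1 3), (rhc8ae77ecad49585e.shift 3 2), rhd08b1a41898087ab, (rhdba4da4e151cbcc5.shift 1 2)] (by decide +kernel))
noncomputable def rhb3ffbf0ffa6fc251 : CRef := CRef.mk (Pat.mk 0xa00000008000000280000000000000000000000000 0x14000000fc000000fc00001fff00000ffe00001fdf000002fe0000077e0000077e00000560 13 13) 0 0 (step_sound _ 166 [(rh554009a2f490582e.shift 1 4), (rha20e808a04dae405.shift 4 0), (rhaf065901c7eb6a1f.shift 4 0), (rhd08b1a41898087ab.shift 0 1), (rhdba4da4e151cbcc5.shift 1 3)] (by decide +kernel))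
noncomputable def rh7ec1744a3078d9dc : CRef := CRef.mk (Pat.mk 0xa00000008000000080000000000000000000000000 0x140000001d4000001fc000001fc000000ff000003fe000003df000000fe0000007e0000007e00000060 13 10) 0 0 (step_sound _ 166 [(rh554009a2f490582e.shift 1 4), (rhaf065901c7eb6a1f.shift 4 0), (rhd08b1a41898087ab.shift 0 1), (rhd206a33093af970d.shift 3 2), (rhdba4da4e151cbcc5.shift 1 3)] (by decide +kernel))
noncomputable def rhf3ef4eb82691f3ca : CRef := CRef.mk (Pat.mk 0x140000001000000050000000000000000000000000 0xb2000007fe000003fe000007fc000003ff0000005f0000004f0000000200000002 13 11) 0 0 (step_sound _ 196 [(rh20966da26a1c2ae8.shift 3 2), rh38147a8c09b4899b, (rh3fc2016f6a394083.shift 1 2), (rh59715b3e1c0e1f10.shift 1 3), (rh5ad14598e2c21a97.shift 2 3), (rhb6c8efb17806eddd.shift 0 1), (rhd25fef0fb2e17855.shift 2 2)] (by decide +kernel))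
noncomputable def rhf35dc2c7f032520d : CRef := CRef.mk (Pat.mk 0x140000001000000050000000000000000000000000 0x2800000038000000ba000000b6000003fe000001fc000003ff0000005f000000ee000000ee000000aa 13 10) 0 0 (step_sound _ 196 [(rh20966da26a1c2ae8.shift 3 2), (rh3aa70a2fbd78d5f4.shift 1 0), (rh3fc2016f6a394083.shift 1 2), (rh59715b3e1c0e1f10.shift 1 3), (rh5cca13cb11e6d660.shift 1 0), (rhb6c8efb17806eddd.shift 0 1), (rhdf217b989a41cbcb.shift 1 0)] (by decide +kernel))
noncomputable def rheab691478df7c07f : CRef := CRef.mk (Pat.mk 0x140000001000000050000000000000000000000000 0xa8000000be000003fe000001f4000003fe0000005e0000004f0000000200000002 13 10) 0 0 (step_sound _ 196 [(rh20966da26a1c2ae8.shift 3 2), rh38147a8c09b4899b, (rh771d065bdc85bf2d.shift 3 2), (rhc85cc95794737cf7.shift 3 3)] (by decide +kernel))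
noncomputable def rhfcae217e8ccb62b1 : CRef := CRef.mk (Pat.mk 0xa0000000800000028000000000000000000000000 0x140000001c0000001c0000001c000000fc000000ff000000fe000001ff0000002b000000770000007700000055 13 9) 0 0 (step_sound _ 195 [rh3aa70a2fbd78d5f4, (rh4e55bb8c152eaae3.shift 0 3), (rh68ae634e1ebb8f05.shift 1 3), (rha011e19fdaacded3.shift 1 3), (rhc85cc95794737cf7.shift 2 3), rhd140fb6a7f50c418] (by decide +kernel))
noncomputable def rh8ac9b9b3eb41e4e0 : CRef := CRef.mk (Pat.mk 0x500000005000000140000000000000000000000000 0x28000000b8000000bf00003fbe00001ff700003fde0000017c000003be000003b8000002a8 13 14) 0 0 (step_sound _ 100 [(rh16d5150a4767b77a.shift 3 0), (rh17b9bac2912e389a.shift 1 0), (rh1f29cbcfe2741478.shift 0 2), (rh445054c807bfbe21.shift 0 2), (rh717b8a99ffaeb33f.shift 3 0), (rhb26bc7984a15bb84.shift 0 2), (rhe936a4c9f168a7f5.shift 2 2)] (by decide +kernel))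
noncomputable def rhc2f86435f2e6760e : CRef := CRef.mk (Pat.mk 0x10000000060000000c00000020000000000000000000000000 0x2000000030000000380000003f000000fe000000ff0000007800000078000000760000003c00000020000000700000007000000050 13 8) 0 0 (step_sound _ 133 [(rh2fe78cc5ca4405d8.shift 1 4), rhe6ef14b111343426] (by decide +kernel))
noncomputable def rhabe229dfc113fa68 : CRef := CRef.mk (Pat.mk 0x20000000000000003000000060000000400000000000000000 0x1c0000001e0000007fe000003fc000003df00000170000001fe0000005c0000001800000018 13 11) 0 0 (step_sound _ 196 [(rh11aaa9d8c6ca73d9.shift 0 2), (rh36ae2ab44cf797d9.shift 1 2), (rh614c52ace41ea637.shift 3 0), (rhd2e90a8291f80a9b.shift 1 2), (rhd4209277732943e3.shift 1 2)] (by decide +kernel))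
noncomputable def rhccdcbcae1d049860 : CRef := CRef.mk (Pat.mk 0x1800000020000000a0000000000000000000000000 0xa0000007e000000ff000001ff000001ff000001bf000000af0000009e0000001e0000001e 13 9) 0 0 (step_sound _ 132 [(rh44dfc43c7323aae7.shift 1 2), (rh50bca99ed2caafe9.shift 1 2), (rh52f10003c58a24b5.shift 1 2), (rh58cdb5d012614265.shift 1 2), (rh610c376d07c03440.shift 1 1), (rh9434bc9785163576.shift 2 0), (rh99316177889b03e7.shift 1 2), (rhb1460fb4234267ce.shift 1 0), (rhf1f7e6d2850ee6c8.shift 1 3), rhf2546577117a5e39] (by decide +kernel))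
noncomputable def rh8bb27b4174bf7adf : CRef := CRef.mk (Pat.mk 0x1800000028000000200000000000000000 0x3ff000001ff000003ff000000df000000f8000000280000000800000008 13 10) 0 0 (step_sound _ 100 [(rh79b3c29022acbdf3.shift 2 3), (rh82d31a54e760e046.shift 0 2), rh9c269c181d7ceef5] (by decide +kernel))
noncomputable def rhc03e3ee61d27886e : CRef := CRef.mk (Pat.mk 0x300000007000000140000000000000000000000000 0x18000007ff000003fe000007fe000003b4000001fe0000014e000003800000038000000280 13 11) 0 0 (step_sound _ 131 [(rh36280a0968e51949.shift 1 0), (rhcc2be1f880c5ea3e.shift 1 3), (rhcd2b0da7bfbcb311.shift 0 3)] (by decide +kernel))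
noncomputable def rhf61bdc1ac9116f37 : CRef := CRef.mk (Pat.mk 0x10000000700000014000000000000000000000000000000000 0x28000002b8000003f8000003fe000003b0000003fc00000177000003be000003bf000002b800000020 13 10) 0 0 (step_sound _ 200 [(rh4000e5845fbb191c.shift 4 5), (rh74422d6eb294420b.shift 1 1), rh7b9234d96bbef21d, (rhd3f197dc983a41f0.shift 4 4), rhfeef336b9647284b] (by decide +kernel))
noncomputable def rhc68d087b4bec7b5d : CRef := CRef.mk (Pat.mk 0x6000000040000000000000000000000000 0x3c000000fc000001fc000003fe000003ff000000fe0000007f0000003c0000003c00000034 13 10) 0 0 (step_sound _ 165 [(rh0e2fcfc2ba4706c9.shift 2 0), (rh2381d594bbe73ac3.shift 2 0), rh51ab296a4ee56466, (rh5fc6958759623d20.shift 1 1), (rh6c75caa31449ea01.shift 2 0), (rh7f4d5d897a11cece.shift 2 0), (rh8400558b5bfb8d38.shift 2 2), (rhb471e6dda963c9fc.shift 2 0), (rhd78edc3e6782fb81.shift 2 0), (rhdaacfcdb44ac33c9.shift 2 0)] (by decide +kernel))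
noncomputable def rh95377436205a573a : CRef := CRef.mk (Pat.mk 0x10000000500000004000000000000000000000000000000000 0x8000000380000003e0000007e0000007f000000fe0000003f0000007c0000007f0000003e0000003f0000003800000028 13 8) 0 0 (step_sound _ 132 [(rh029f82fcbdb61681.shift 3 1), rh0527d1845a70a1e7, (rh21631644dc857a70.shift 3 0), (rh3c179db23d0eaedc.shift 0 3), (rh4b9f4b08d218d72f.shift 0 1), (rhbdffe9669b6f731d.shift 1 3)] (by decide +kernel))
noncomputable def rhb593f7916454b755 : CRef := CRef.mk (Pat.mk 0x2000000020000000a00000020000000000 0x5000000070000001ff000001fe00000e7f000007f0000007b00000021000000200 13 12) 0 0 (step_sound _ 165 [(rh137dff44e5e8546b.shift 4 0), (rh1741680720c097b4.shift 4 2), (rh771d065bdc85bf2d.shift 4 1), (rhaffc3ca00d9a39c9.shift 0 1), (rhb7ee8905496f843d.shift 4 1)] (by decide +kernel))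
noncomputable def rhbc9804441bc64351 : CRef := CRef.mk (Pat.mk 0x2000000020000000a0000000800000000000000000 0x140000005c0000017f0000017e000003ff000001ff000001bf0000009f0000001e0000001e 13 10) 0 0 (step_sound _ 197 [(rh1741680720c097b4.shift 4 3), rh525ef4ea4356f18b, (rhf5ddf26375aadc2a.shift 1 1)] (by decide +kernel))
noncomputable def rhdc3e3fee109c55e5 : CRef := CRef.mk (Pat.mk 0x2000000020000000a0000000800000000000000000 0x140000001c000003df000001fe000003ff000001ff000001bf0000009f0000001e0000001e 13 10) 0 0 (step_sound _ 197 [(rh15026cad7476510a.shift 3 2), (rh1f40cef2bd635046.shift 3 2), (rh2afa1d0fbf3c7ea2.shift 3 2), rh525ef4ea4356f18b, (rh7178191404b41ae8.shift 2 2), (rh7a3c78f8cc63548c.shift 2 2), (rhaffc3ca00d9a39c9.shift 0 2)] (by decide +kernel))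
noncomputable def rh9db705b481893df0 : CRef := CRef.mk (Pat.mk 0x10000000180000004800000040 0xc0000009c000000ff000000ff000000fb000000df00000056 13 8) 0 0 (step_sound _ 132 [(rh5c5e593799055d58.shift 3 1), rh94e59aeea4ff9dad] (by decide +kernel))
noncomputable def rh9e675f7cc1a1f607 : CRef := CRef.mk (Pat.mk 0x40000000400000010000000100000000000000000000000000 0x7e8000007f800000ff800000fd8000007fe000007fe0000077f000001fc000000fe000000dc00000040 13 12) 0 0 (step_sound _ 165 [(rh227182b19b3a51cf.shift 2 1), (rh4353a7612a0db872.shift 0 1), (rh43c5305649433cf4.shift 1 1), (rh45573f4e72cdc2bc.shift 0 1), (rh555c104ffc0f2322.shift 2 0), (rh5660c385ff0178b6.shift 1 1), (rh5b00e982390e429d.shift 3 2), (rh5d55b7567b3c5add.shift 1 1), (rha0bd2cd960dd1749.shift 2 0), (rhb2b1b37a54434d2c.shift 3 2), (rhcb6f85ded72456e7.shift 1 1), (rhd38d0767f9b7488c.shift 1 1)] (by decide +kernel))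
noncomputable def rhfc45f1a8b4e498cf : CRef := CRef.mk (Pat.mk 0x20000000200000008000000280000000000000000000000000 0x500000007000000070000000f8000003fe00001fff00000ffe00001fff000007a8000002f0000000700000007000000050 13 13) 0 0 (step_sound _ 198 [(rh862ba3e0fae11091.shift 4 3), (rh993da8c1347d6a9b.shift 1 3), (rh9da1745a0b9c0d8a.shift 0 3), (rhbf71eeff4baaf4e4.shift 1 3), (rhcb84a3348035e235.shift 4 3), (rhec1c6ba57f4d2ea7.shift 0 3), (rhf97c055c3901ae4f.shift 2 0), (rhfb6f1d15f03e8fd0.shift 4 3)] (by decide +kernel))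
noncomputable def rhc2ec11b01b7b7492 : CRef := CRef.mk (Pat.mk 0x18000000180000000000000000 0x50000003f0000003f000000ff0000001f000000ff0000000f00000008 13 8) 0 0 (step_sound _ 132 [(rh3786e859c99c7bbd.shift 1 2), (rh503dd4575245365b.shift 3 1), rh68a3304e0f2b4114] (by decide +kernel))
noncomputable def rh27c6bcba9b882845 : CRef := CRef.mk (Pat.mk 0x1000000018000000180000002000000020 0x2c000000ef000000ff000000df0000005f0000006c00000028 13 8) 0 0 (step_sound _ 35 [(rh71222050f2c63a3a.shift 3 0), rh8494658ea0069409] (by decide +kernel))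
noncomputable def rh5f7a042aa205da54 : CRef := CRef.mk (Pat.mk 0x6000000030000000800000008000000000 0x5000000070000000f00000003c00000070000003fc000001be000000fe0000007f 13 10) 0 0 (step_sound _ 99 [(rh53b3c253cb0c65f4.shift 2 3), rh60b5efd7a6f37ac0] (by decide +kernel))
noncomputable def rhcb9112454559f884 : CRef := CRef.mk (Pat.mk 0x2000000020000000800000028000000000 0x5000000070000000fc000003fe00001fff00000ffe00001fff000003bc000002b800000018 13 13) 0 0 (step_sound _ 134 [(rh14cfada961baa52d.shift 4 1), (rh862ba3e0fae11091.shift 4 1), (rh9d2e98e948619f8d.shift 3 1), (rha2571e3bfcc03b2a.shift 2 1), (rhbf71eeff4baaf4e4.shift 1 1), (rhc38bf13f8a262d05.shift 2 0), (rhcb84a3348035e235.shift 4 1), (rhec1c6ba57f4d2ea7.shift 0 1), (rhfb6f1d15f03e8fd0.shift 4 1), (rhfea8a32158c13e4b.shift 0 1)] (by decide +kernel))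
noncomputable def rh11258c9357c7bfa7 : CRef := CRef.mk (Pat.mk 0x400000004000000140000005000000000 0xa0000000e0000000e0000000e0000000e000003fe000001fc000003ff000000f60000005400000040 13 10) 0 0 (step_sound _ 162 [(rh1741680720c097b4.shift 1 2), (rh68d5bb5819f1e8f1.shift 0 1), (rh8529fe9f47ce3d5b.shift 1 2), (rhe7d82dc8a0bb7a2e.shift 1 0), (rhf95c921cb44a50b5.shift 2 1)] (by decide +kernel))
noncomputable def rh5c0ad11891472378 : CRef := CRef.mk (Pat.mk 0x2000000020000000800000028000000000 0x50000000700000007a000001fe000000fe00001fff00000ffe00001fef000003bc000002fc0000007c 13 13) 0 0 (step_sound _ 134 [rh06a8b697e23990bc, (rh14cfada961baa52d.shift 4 1), rh365fe7e8c44a8307, (rh9d2e98e948619f8d.shift 3 1), (rha91db8985ead26dc.shift 1 0), (rhbf71eeff4baaf4e4.shift 1 1), (rhcb84a3348035e235.shift 4 1), (rhec1c6ba57f4d2ea7.shift 0 1), (rhee25ba71a55ed8c6.shift 1 1), rhf71d6cfef245cbe5, (rhfea8a32158c13e4b.shift 0 1)] (by decide +kernel))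
noncomputable def rh60b6a4f4d2ede56b : CRef := CRef.mk (Pat.mk 0x8000000080000002000000020000000000000000000000000 0x140000001f0000003f0000003f000000ff0000007f000000ef0000001f0000006f0000003d0000001e0000001c00000014 13 8) 0 0 (step_sound _ 227 [rh30bbeb6377d9b5cb, (rh3e4d7fe503ccc40b.shift 0 4), (rh6170251e3fb969bc.shift 2 2), (rh6ea767f849b8e422.shift 1 0), (rh714ff379afbd0520.shift 0 2), (rh7e15c60d08ba6906.shift 0 2), rha382b19bb6ed9eaa] (by decide +kernel))
noncomputable def rh176105e9ffed45e6 : CRef := CRef.mk (Pat.mk 0x40000000a0000000a000000080000000800000000 0x50000001f0000001f0000001f0000000a0000001f000000790000000c00000004 13 7) 0 0 (step_sound _ 163 [(rh50fbb5868c909700.shift 2 2), rh9c89fb395c093289] (by decide +kernel))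
noncomputable def rh79e1841d2799f333 : CRef := CRef.mk (Pat.mk 0x5000000050000000400000004000000000 0x2c000000fe000000ef000000df0000007f000000df0000007e0000003e 13 8) 0 0 (step_sound _ 167 [rh2cc256b28094a2fb, (rhbaefcd01e0a8bca3.shift 6 1)] (by decide +kernel))
noncomputable def rhac07cbeb14ff53b0 : CRef := CRef.mk (Pat.mk 0x5000000010000000400000014000000000 0x34000000fc000000fe000000ef0000077f000003ff000003df0000017e0000013e 13 11) 0 0 (step_sound _ 102 [(rh31f96e4badbdfa7c.shift 1 1), (rh5506f995a9bf9dda.shift 1 0), rh846a367d1e10ff60, (rhacc351f1a969d86d.shift 2 0), (rhd90f8139b586504a.shift 1 0), (rhd963817c8326ba37.shift 1 0)] (by decide +kernel))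
noncomputable def rhdcd310786f98e5c3 : CRef := CRef.mk (Pat.mk 0x20000000a000000080000000000000000000000000 0x50000000780000007c000003fc000003ff000003fe000007bf000007e0000000f0000000700000007000000050 13 11) 0 0 (step_sound _ 197 [(rh39ea70b712573834.shift 4 2), (rh45cc91049de16250.shift 2 2), (rh4693c226a158db91.shift 0 3), (rh6d3d9f6644f5aff5.shift 2 0), (rh88b5be9ac1a0817d.shift 4 2), (rha53d4da53c213560.shift 4 0), (rhd19f141fbbf87f2f.shift 1 3)] (by decide +kernel))
noncomputable def rh58e7540391908ed6 : CRef := CRef.mk (Pat.mk 0x800000028000000a0000000000000000000000000 0x14000000fc000001fc000003e8000001ff000000bf0000009f0000008400000004 13 10) 0 0 (step_sound _ 99 [rh0648a2b7eb0fb17b, (rh3b7adefdf5cd421a.shift 0 2), (rh480f832e5144f1ce.shift 2 2), (rh83d6e1245dd851e5.shift 1 1), (rha23e0f40d5cd8b20.shift 0 2)] (by decide +kernel))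
noncomputable def rhd5b716704b36ad45 : CRef := CRef.mk (Pat.mk 0x100000005000000140000000000000000000000000 0x8000001f8000007f8000007ff000007ff000003ff000007df000003ff0000016f0000013c0000003c00000014 13 11) 0 0 (step_sound _ 198 [(rh13c2c593f0e23c2e.shift 1 2), (rh22cef076f14e700f.shift 0 1), (rh24e5847dff4bca69.shift 3 2), (rh25fb15bfdc1dd94c.shift 3 2), (rh4078f0adc5205922.shift 1 2), rh4b43e41577668f77, (rh71044a4132a088e9.shift 2 1), (rh96f2cb9a4c92e014.shift 3 2), (rhfafc97c0ded5ecb6.shift 0 2)] (by decide +kernel))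
noncomputable def rh71f7ab90fcd0c317 : CRef := CRef.mk (Pat.mk 0x60000000500000004000000100000000000000000000000000 0x140000001c0000001c0000001c000003ff000003fe0000037f0000011c000003880000038800000280 13 10) 0 0 (step_sound _ 165 [(rh06aa32078b6e2fc0.shift 2 4), (rh7019145761c91580.shift 3 4), rh7d2897913388c861, (rhacf582b6743d2a8e.shift 0 4), (rhd1f7c2d511dd814f.shift 2 4), (rhe3b9ae591612b554.shift 2 3)] (by decide +kernel))
noncomputable def rhda85f9878636dfa1 : CRef := CRef.mk (Pat.mk 0x40000000500000004000000160000000000000000000000000 0x140000001c0000005c000003df000003fe0000037f0000017c0000039c0000039c00000280 13 10) 0 0 (step_sound _ 165 [(rh0f8ec0d2915dcf38.shift 2 3), (rh10340a1d28fd3da3.shift 2 3), rh7d2897913388c861, (rh8e1335091da3f204.shift 2 1), (rhacf582b6743d2a8e.shift 0 4), (rhaeccced0b75c9430.shift 2 1), (rhe3b9ae591612b554.shift 2 3), (rhf826af8b6e8a4ecf.shift 2 2)] (by decide +kernel))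
noncomputable def rh2a2022ac694caa1a : CRef := CRef.mk (Pat.mk 0x5000000040000001400000000000000000 0x140000009c000000dc000007ff000003fe0000037f0000017c0000013c0000001c 13 11) 0 0 (step_sound _ 166 [(rh0363d47a46978688.shift 3 2), (rh20966da26a1c2ae8.shift 5 1), rhbacf9b5dee546c0d] (by decide +kernel))
noncomputable def rhf10bdaa8e8d71421 : CRef := CRef.mk (Pat.mk 0x700000004000000140000000000000000000000000 0x20000000200000037f000003fe0000037f00000140000003800000038000000280 13 10) 0 0 (step_sound _ 197 [rh70a7fd599c4b7e94, (rhc89253ff58c66167.shift 5 3), (rhe072fffdd2fccf38.shift 5 3)] (by decide +kernel))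
noncomputable def rhad51dac92552f929 : CRef := CRef.mk (Pat.mk 0x1c000000100000001000000000000000000000000000000000 0x1c0000001c000000ff0000001f0000001f0000000f0000000f0000000f00000005 13 8) 0 0 (step_sound _ 163 [(rh0d3ca8b63da7fd38.shift 0 2), (rh0da643aa182714f1.shift 0 4), rh11fab72d21f182d5, (rh7a5177ec1234c014.shift 0 2), (rh8861fe8508a52327.shift 0 2), (rh93531c2f2a4a2d39.shift 0 2), rhf31fdc07c7a30bbe] (by decide +kernel))
noncomputable def rh21e477c7096e56e2 : CRef := CRef.mk (Pat.mk 0x200000004000000058000000400000000000000000 0x140000009c000000fc000000fc0000004f0000005f0000005f0000001f00000014 13 8) 0 0 (step_sound _ 166 [rh38b7715d163bb09b, (rh50fbb5868c909700.shift 5 2)] (by decide +kernel))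
noncomputable def rhd1bfa68e78502d5e : CRef := CRef.mk (Pat.mk 0x60000000400000005000000040000000400000000000000000 0xa0000000f4000000fc000000de0000007c000000cf000000ff000000df0000007f0000003c0000000c 13 8) 0 0 (step_sound _ 69 [(rh932754581e0f4330.shift 5 1), rhbc5c69ef4f7b9724] (by decide +kernel))
noncomputable def rhbbc3aec531320b72 : CRef := CRef.mk (Pat.mk 0x3800000020000000a0000000000000000000000000 0x60000000f0000001f0000001b000001ff800000fff00000ebc000000980000009000000010 13 13) 0 0 (step_sound _ 196 [rh1a3ab75b47e8060e, (rha3df16ea9c8576c8.shift 4 3), (rhc89253ff58c66167.shift 4 3), (rhe072fffdd2fccf38.shift 4 3)] (by decide +kernel))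
noncomputable def rha34241ecea8f567c : CRef := CRef.mk (Pat.mk 0x100000001000000000000000000000000000000000 0x800000038000000380000003f0000003e0000007f0000001e0000007e000000ff0000003c00000028 13 8) 0 0 (step_sound _ 100 [rh001eea94b18ca57b, (rh0fabbeb2cfd1512d.shift 3 0), (rh22a0b3f5b8bb0d7e.shift 1 0), (rh38e1f6bd971c45d3.shift 3 1), (rh57145416ab811738.shift 1 1), (rha5141adeb788e906.shift 3 0), (rhea0250906b192214.shift 0 2)] (by decide +kernel))
noncomputable def rha4230e6f3a1b1f69 : CRef := CRef.mk (Pat.mk 0x80000002800000000000000000000000000000000 0x40000001c0000001f000000ff0000007f0000006f0000002f0000007f0000003f0000001f00000014 13 8) 0 0 (step_sound _ 99 [rh1900c1bad7e860ae, (rh6c01c336fcd86f30.shift 0 1), rh742d2dfe3f8cfc94, (rh7a3105e5f8daf74a.shift 2 1), (rh7f169489bbf2368b.shift 0 2), (rha5141adeb788e906.shift 2 0), (rhfdda4826a9361970.shift 0 1), (rhff2baf6a39e36bbe.shift 2 1)] (by decide +kernel))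
noncomputable def rhccb99702601551db : CRef := CRef.mk (Pat.mk 0x1000000050000000000000000000000000 0x280000003800000038000001ff000001fe000001ff000000fe0000005e0000005a0000001800000008 13 9) 0 0 (step_sound _ 164 [(rh66985b33f05f085d.shift 3 0), (rh7987029cc7109c6c.shift 1 2), (rhaa071fee0731719f.shift 2 1), (rhaae63ed1df69e921.shift 2 2), (rhaf6204c18993da91.shift 1 0), (rhcdb8519293f33729.shift 3 0), (rhf5cf8a84631dca39.shift 0 3), (rhfe4c11c3fd07bed1.shift 3 1)] (by decide +kernel))
noncomputable def rhf1c000941da21ce1 : CRef := CRef.mk (Pat.mk 0x10000000100000005000000010000000000000000000000000 0x3a0000001f0000000f80000005e000000fe000001ef0000008000000080 13 10) 0 0 (step_sound _ 101 [rh3515a6088c4873a9, (rh55afc6a59410cf00.shift 4 2)] (by decide +kernel))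
noncomputable def rh5aa16cab95850379 : CRef := CRef.mk (Pat.mk 0x1000000050000000000000000000000000 0x280000003800000038000001ff000003fe000003ff000003fe0000005e0000007e0000006800000008 13 10) 0 0 (step_sound _ 164 [(rh3ef9add1921aa745.shift 1 0), (rh59a980260ce8f69e.shift 1 1), (rh701b35b7b7005e75.shift 0 1), (rh75416682326a5a90.shift 1 1), (rh7987029cc7109c6c.shift 1 2), (rhaa071fee0731719f.shift 2 1), (rhaae63ed1df69e921.shift 2 2), (rhf51bb9e5ac73673b.shift 1 2), (rhf5cf8a84631dca39.shift 0 3), (rhfe4c11c3fd07bed1.shift 3 1)] (by decide +kernel))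
noncomputable def rh432e1b033d3677e5 : CRef := CRef.mk (Pat.mk 0x2000000020000000a0000000000000000000000000 0x540000007c0000007c000003bf000001fe000001ff000000bc000000f00000006000000040 13 10) 0 0 (step_sound _ 164 [(rhb1a251d9bff81766.shift 4 2), (rhd1779d7de7f8215b.shift 4 0), (rhde159e34f1c3ac5f.shift 0 2)] (by decide +kernel))
noncomputable def rhbb512df3abc143c3 : CRef := CRef.mk (Pat.mk 0x3800000010000000100000001000000000 0x8000000080000001c7000000fe000000f70000003e0000001e0000000a 13 9) 0 0 (step_sound _ 35 [rh2426ded2c0f0bc09, (rh932754581e0f4330.shift 3 0)] (by decide +kernel))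
noncomputable def rh3718a7f20b51ec62 : CRef := CRef.mk (Pat.mk 0x80000000a0000000a00000000000000000 0x140000001c0000001c0000001f0000007e0000001fe000000fe000000bf0000003000000020 13 11) 0 0 (step_sound _ 167 [(rh1620575d6b220873.shift 0 2), (rh678ee25ab6677b3a.shift 2 1), (rh72b5c60c0860ad4e.shift 0 2), rhb585390fef5fea3f, (rhc85cc95794737cf7.shift 6 2)] (by decide +kernel))
noncomputable def rhd84efb832158042e : CRef := CRef.mk (Pat.mk 0x5000000050000000100000000000000000 0x394000001ff000003de0000001f0000003f0000003c 13 10) 0 0 (step_sound _ 133 [(rh2820ca9a6c4f41b4.shift 1 3), rh2c422ebae866166c, (rh8ee80cc30e93a344.shift 3 3), (rhfa35e196e150edb4.shift 3 3)] (by decide +kernel))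
noncomputable def rh3c145772ce1970cd : CRef := CRef.mk (Pat.mk 0x1000000004000000040000000e00000000000000000 0xdc000001f8000003fc0000007f000003fe0000001f00000010 13 10) 0 0 (step_sound _ 68 [(rh0a2762235caac826.shift 2 1), (rh1f9701c4cf497514.shift 1 1), (rh592c7139d2c44767.shift 2 1), (rh77c9a0243504b4cb.shift 0 1), (rhc3483395a5ab4625.shift 2 0), (rhec0f150ffdda098a.shift 2 1)] (by decide +kernel))
noncomputable def rhe20db83063c3c8ce : CRef := CRef.mk (Pat.mk 0x50000000100000005000000000 0xd8000000f8000001f8000003f7000001fe000003df0000005800000048 13 10) 0 0 (step_sound _ 132 [rh2b83f9915ce1845a, (rh3b734c5288922837.shift 3 0), (rhac09afe906154c2a.shift 1 0), rhdc328f7b00e1727e, (rhf515f701b82bbaa6.shift 3 1)] (by decide +kernel))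
noncomputable def rh68305258073cc981 : CRef := CRef.mk (Pat.mk 0x40000000500000005000000000000000200000000000000000 0x8000000b8000000f8000000f3000000db0000007f0000005f000000ff000000fc0000009800000008 13 8) 0 0 (step_sound _ 100 [(rh399605dbb4cb20a8.shift 3 1), (rh4e851b6ebc4f8566.shift 3 2), (rha7381c9f1229ca7e.shift 4 2), rhfa56f8e0f409a2c5] (by decide +kernel))
noncomputable def rhe95ce0346f939fcf : CRef := CRef.mk (Pat.mk 0x40000000500000005000000000000000200000000000000000 0x8000000b8000000f8000000f3000000db0000007f0000005f000007bf000003fe000007ff00000008 13 11) 0 0 (step_sound _ 100 [(rh4e851b6ebc4f8566.shift 3 2), (rha822df604b29e217.shift 3 0), (rhb64438c522608d6b.shift 0 1), (rhcf7ca03edf95ab5e.shift 0 1)] (by decide +kernel))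
noncomputable def rhe1198ca544bf6e77 : CRef := CRef.mk (Pat.mk 0x4000000010000000500000000000000020000000000000000000000000 0x800000009000000fde000007fc0000075e000003df000007fe000003ff000000a8000000a0 13 12) 0 0 (step_sound _ 100 [(rh217cb361f47ce7d1.shift 1 0), rh61898c01e5490b5f, (rh6575f618e82f1fce.shift 3 0), (rhb5e57d376b469d66.shift 3 1), rhcf1122761281665a, (rhdf24145e521476d6.shift 1 2)] (by decide +kernel))
noncomputable def rh93dd5f103e9270c7 : CRef := CRef.mk (Pat.mk 0x20000000200000000000000060000000000000000000000000 0x300000007c0000003f000003de000001fc000003fe0000007c0000007c 13 10) 0 0 (step_sound _ 100 [(rh025cec19fe93d2d3.shift 2 2), (rh512b0bd2bd63fded.shift 1 2), (rh6990671792a18959.shift 1 0), (rh8b4b780c77908410.shift 1 1), rh974101330c56d755, (rhbd222a7c26433daf.shift 1 2), (rhd86066b9aba81e2d.shift 3 2), (rhe9c851edfe0e55b1.shift 3 2), (rhf193011675629504.shift 1 2)] (by decide +kernel))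
noncomputable def rh0b605e399db505d9 : CRef := CRef.mk (Pat.mk 0x40000000500000005000000000000000000000000000000000 0x2000000020000000770000007e000000ff00000050000007fe000003fe000007ff000000a0 13 11) 0 0 (step_sound _ 197 [(rh6edbc39da98141f8.shift 0 1), (rhb1a251d9bff81766.shift 5 3), rhc582d7160219e9f5] (by decide +kernel))
noncomputable def rha2f4480af80e912b : CRef := CRef.mk (Pat.mk 0x14000000140000001000000000 0x200000003800000078000001f8000001f4000001fc00000196000001be0000003f 13 9) 0 0 (step_sound _ 132 [(rh6a83890fb134e4b9.shift 2 0), (rhdf1a34d6da0a3126.shift 1 0), rhf92c094e260f0cb7] (by decide +kernel))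
noncomputable def rh0ca25975b5c54ce8 : CRef := CRef.mk (Pat.mk 0xa0000000a000000080000000800000000 0x50000001f0000007b0000001f0000000e0000000b0000001f0000001900000010 13 7) 0 0 (step_sound _ 36 [(rh55afc6a59410cf00.shift 3 0), (rhb37e496b881e8d43.shift 0 1)] (by decide +kernel))
noncomputable def rhf9b919aae37cfaf2 : CRef := CRef.mk (Pat.mk 0xa0000000a000000080000000000000000 0x100000001d0000003f000000ff000001ff000000fe000000eb000000cb0000000900000001 13 9) 0 0 (step_sound _ 163 [rh054f9f89b635b0dd, (rh1741680720c097b4.shift 2 2), (rh6a83890fb134e4b9.shift 1 1), (rh98b1f5f521715fac.shift 0 1)] (by decide +kernel))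
noncomputable def rh068fe2d7d7e0af41 : CRef := CRef.mk (Pat.mk 0x300000004000000050000000500000004000000000 0xf0000007e000000de000000f40000005e000000f8000000a0 13 8) 0 0 (step_sound _ 37 [rh7da5ed243b18efb8, (rh932754581e0f4330.shift 5 0)] (by decide +kernel))
noncomputable def rh312ed38c1c81c848 : CRef := CRef.mk (Pat.mk 0x8000000000000001400000014000000100000002000000000 0x140000001c0000001c000000fc0000007f000000ff0000001e0000001e0000000e00000014000000160000001e0000003200000020 13 8) 0 0 (step_sound _ 36 [(rh410472a287ea826d.shift 0 1), (rh55afc6a59410cf00.shift 4 0)] (by decide +kernel))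
noncomputable def rh65eac18e8bcaaa0f : CRef := CRef.mk (Pat.mk 0x14000000140000001000000000000000000000000000000000 0xa0000000e0000002e000000360000003c000000160000001e0000003f0000003e0000003f00000020 13 6) 0 0 (step_sound _ 100 [(rh20966da26a1c2ae8.shift 3 2), (rh8cdd36b03d57a2f6.shift 3 1), rha18924caf01d17d6, (rhb5fd2a4531caccf4.shift 1 2)] (by decide +kernel))
noncomputable def rh7e8d73dd45698d25 : CRef := CRef.mk (Pat.mk 0x80000000500000005000000040000000400000002000000000 0x500000007000000070000003f0000001fc000003fc000003fc000001fc000001ff000000500000005800000058000000580000007800000020 13 10) 0 0 (step_sound _ 229 [(rh28f88bda704deabd.shift 5 3), rh440767460c71fff6, (rh61cfb5b13b322220.shift 2 2)] (by decide +kernel))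
noncomputable def rh32877111fdf67e02 : CRef := CRef.mk (Pat.mk 0x10000000100000001000000000 0x500000007000000074000003ff000001ff000003ff0000007c0000007c000000fe000000300000001000000010 13 10) 0 0 (step_sound _ 133 [(rh22d86f446f3de558.shift 1 0), (rh7fc1d0f831250528.shift 2 1), (rh87d5e4118780fa3b.shift 4 0), rhe114cf0231804632] (by decide +kernel))
noncomputable def rh383566a572417c41 : CRef := CRef.mk (Pat.mk 0x20000000a0000000a00000000000000000000000000000000000000000000000000000000 0x50000001f0000001f0000001b0000001a0000000b0000001f0000007d0000001c0000001c0000001c0000001c0000001c00000014 13 7) 0 0 (step_sound _ 321 [(rh193da7fc9e1674f1.shift 0 6), (rh771d065bdc85bf2d.shift 0 6), rh9514f7a194ef62aa, (rh9c1a909469b2c0df.shift 0 4)] (by decide +kernel))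
noncomputable def rh9cc00362d386e667 : CRef := CRef.mk (Pat.mk 0x20000000a0000000a00000000000000000000000000000000000000000000000000000000 0x40000001f0000001f0000001b0000001e0000000a0000001f0000007f0000003f0000001c0000001c0000001c0000001c00000014 13 7) 0 0 (step_sound _ 321 [(rh363aecca38732be8.shift 0 5), (rh605ef5a5ae48f4b0.shift 1 3), (rh83b79ea19c694d98.shift 0 5), (rh84f973b8ce402bab.shift 0 4), (rh894af4fb1b7acafc.shift 0 5), (rh8cdd36b03d57a2f6.shift 0 5), rh9514f7a194ef62aa] (by decide +kernel))
noncomputable def rheb28553d89e28605 : CRef := CRef.mk (Pat.mk 0x200000002000000020000000a0000000a00000000000000000000000000000000000000000000000000000000 0x1000000130000001e0000001a0000000a0000001f0000007d0000001c0000001c0000001c0000001c0000001c00000014 13 7) 0 0 (step_sound _ 195 [(rh2aea2d122d965746.shift 0 6), (rh772b018c11e2d4b9.shift 1 3), (rhb0f7373017cbff8c.shift 0 3), rhecd65db65d414e8a] (by decide +kernel))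
noncomputable def rh4ef564f9be4005d4 : CRef := CRef.mk (Pat.mk 0x20000000a00000008000000000000000000000000000000000 0x50000000700000007a000000fe000000ae000000bf000007fe000003ff000003fe0000017800000050 13 11) 0 0 (step_sound _ 133 [(rh0c65c6d3034bcb6f.shift 0 1), (rh53475b098407fd19.shift 4 0), (rh78956d8a9189bf20.shift 1 0), (rha564f8d491a2d85e.shift 1 1), (rha72fb7b64218017f.shift 4 1), (rhae61b4a80123261b.shift 4 2), (rhc898514f55260c5a.shift 2 0), (rhf0fe0e749de2d361.shift 1 2)] (by decide +kernel))
noncomputable def rh4e50431c63663126 : CRef := CRef.mk (Pat.mk 0x140000001400000010000000000000000000000000000000000000000000000000 0xa0000000e0000000e000001df000000fc000001d70000007e0000007600000062000001f8000001f8000001f000000050 13 9) 0 0 (step_sound _ 259 [(rh011bb5d09274dbc9.shift 1 0), (rh09e3b3c49517183d.shift 1 7), (rh78ca88bbe8b82146.shift 0 5), (rhd01ed0cc6ce530d4.shift 2 5)] (by decide +kernel))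
noncomputable def rh43a51f0f91a7da4c : CRef := CRef.mk (Pat.mk 0xa0000000a00000008000000000000000000000000000000000000000000000000 0x500000017000000170000003b0000001e0000000b0000003f0000003b00000031000000fc000000fc000000f800000028 13 8) 0 0 (step_sound _ 260 [(rh215e11e099257d75.shift 3 5), (rh8e7b99dad8ac09d5.shift 0 6), rh90eec72597e59a19, (rha4265559c606ade5.shift 0 5)] (by decide +kernel))
noncomputable def rhf79681c5e74fdda7 : CRef := CRef.mk (Pat.mk 0x20000000a0000000a00000002000000000000000000000000 0x1000000070000001f0000000e0000000b0000001e00000033000000170000001f00000004 13 6) 0 0 (step_sound _ 132 [(rh01e48cd9f335aa73.shift 0 3), (rh82dd7d03c92971c1.shift 0 3), rh9f27ad3c3db2aed0] (by decide +kernel))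
noncomputable def rha091eedde4bdaf6a : CRef := CRef.mk (Pat.mk 0x10000000500000004000000000000000000000000000000000000000000000000000000000 0xa0000000e0000001e0000000f000000058000007e7000003fe000007ff000000fe000000e0000000e0000000e0000000a0 13 11) 0 0 (step_sound _ 198 [(rh26ebbfb0cc6b103d.shift 5 4), rh3f298367fc0c8efb, (rh8cea9db4ec833c71.shift 3 5), (rh9df31e441a7e04d9.shift 3 5), (rhd9db86898c79b07f.shift 3 5)] (by decide +kernel))
noncomputable def rh45e6de2ab9b59a1c : CRef := CRef.mk (Pat.mk 0xc00000008000000000000000000000000 0x10000000700000007f0000007f0000007f0000001f0000001f 13 7) 0 0 (step_sound _ 100 [rh439348b29f09b570, (rh4ca5dae25f5c14ff.shift 0 3), rhc5acd44b8ac224e6, (rhdeca8db941583de2.shift 0 3)] (by decide +kernel))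
noncomputable def rhff3398fbd79983b4 : CRef := CRef.mk (Pat.mk 0x20000000a0000000a00000000000000000000001000000000 0x50000000700000007000000060000000a0000000e0000001f0000001f0000001f00000014 13 5) 0 0 (step_sound _ 97 [rh12c3a9649a480f2c, rh85f55c0c641498ff, (rh8cdd36b03d57a2f6.shift 0 1), (rha087c6594f4bfb59.shift 0 2)] (by decide +kernel))
noncomputable def rhe87602591ce400eb : CRef := CRef.mk (Pat.mk 0x40000001400000014000000000000000000000020000000000000000000000000 0x80000000e0000000e0000000e0000000c0000001400000074000001ff000000fe000001ff000001fa000001f000000050 13 9) 0 0 (step_sound _ 290 [(rh1741680720c097b4.shift 1 6), (rh49759b6975f15643.shift 1 3), rh8765bb6962ee66aa, rh87a46843a58abff6] (by decide +kernel))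
noncomputable def rhabf098209bc321b5 : CRef := CRef.mk (Pat.mk 0x20000000a0000000a000000000000000000000010000000000000000000000000 0x20000000b0000003e0000007f000000fe000000fe000000fe0000003c0000001c 13 8) 0 0 (step_sound _ 132 [(rh7549e48f1b72cdee.shift 0 3), (rh79673049c70a3528.shift 1 0), (rhd4ab246f25327613.shift 3 2)] (by decide +kernel))
noncomputable def rh91fb27395dedd2a3 : CRef := CRef.mk (Pat.mk 0x1000000010000000000000000000000020000000000000000000000000 0x1000000078000001ff000001fe000001ff000001fc000001f800000078 13 9) 0 0 (step_sound _ 133 [(rh3f2a5be9bec61bba.shift 0 3), (rh79673049c70a3528.shift 2 0), (rhcbe4425dd99f34aa.shift 3 0), (rhd4ab246f25327613.shift 4 2)] (by decide +kernel))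
noncomputable def rh15a01244dee09109 : CRef := CRef.mk (Pat.mk 0x14000000140000001000000000000000000000000000000000 0xa0000000e0000002e000000360000003c00000016000000370000003f0000003f0000003f00000020 13 6) 0 0 (step_sound _ 100 [(rh842d5d10a16ac888.shift 0 2), (rh8cdd36b03d57a2f6.shift 3 1), rha18924caf01d17d6, (rhced6d86d2069808b.shift 4 2)] (by decide +kernel))
noncomputable def rhede968c71de84e60 : CRef := CRef.mk (Pat.mk 0x40000000400000014000000040000000000000000000000000 0x14000000dc000002dc000003ff0000037e000003ff0000017c000003dc000007c00000020000000200 13 11) 0 0 (step_sound _ 197 [rh2fa818e255454284, (rh50fbb5868c909700.shift 5 3)] (by decide +kernel))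
noncomputable def rhb2aef9a5df2a96f3 : CRef := CRef.mk (Pat.mk 0x180000001000000010000000100000000000000000 0x500000017000000170000003f0000001f0000001f000000ff0000003700000005 13 8) 0 0 (step_sound _ 99 [(rh5996aa8637777681.shift 3 1), (rh7fe11f484215afaf.shift 1 1), rhd7abbda977018660] (by decide +kernel))
noncomputable def rh9640fca88c112274 : CRef := CRef.mk (Pat.mk 0x1000000050000000100000000000000000000000000000000000000000 0x280000003800000038000000d0000000f00000005e000001ff000001fe000001ff0000003c0000003800000008 13 9) 0 0 (step_sound _ 132 [(rh2f880cbb53e08c67.shift 1 2), (rh6eff4158bb400f47.shift 3 2), (rh713d96f87d124bea.shift 3 0), (rh980b42d53e606c8c.shift 1 3), (rhc27be619e28bd394.shift 0 3), (rheac00100e35d8266.shift 3 3)] (by decide +kernel))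
noncomputable def rhb4aeba8fa788ac13 : CRef := CRef.mk (Pat.mk 0x20000000a00000002000000000000000000000000000000000 0x500000007000000070000001b0000001f7000000be000007ff000003ec000007fc0000017800000150 13 11) 0 0 (step_sound _ 101 [(rh28732725cafcd915.shift 2 0), (rh2f880cbb53e08c67.shift 2 1), (rh5abfc4c9d959be03.shift 4 2), (rh60edaf255ccfe7d9.shift 0 2), (rhc850b49d039efae1.shift 4 0)] (by decide +kernel))
noncomputable def rh5f9a9bea0aed3150 : CRef := CRef.mk (Pat.mk 0x1000000050000000100000000000000000000000000000000000000000 0x50000000fc0000005f000003ff000001ff000003ff000000be000000bc00000008 13 10) 0 0 (step_sound _ 132 [(rh112c24685f5defab.shift 2 2), (rh28732725cafcd915.shift 1 1), (rh6eff4158bb400f47.shift 3 2), (rh713d96f87d124bea.shift 3 0), (rhc27be619e28bd394.shift 0 3), (rhc545f1b1bbe09e03.shift 0 1)] (by decide +kernel))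
noncomputable def rhceeedfb0340a3d30 : CRef := CRef.mk (Pat.mk 0x40000001400000006000000000000000000000000000000000 0x3c0000013c000001fc0000017f000003fe000007bf000002b8000002b800000018 13 11) 0 0 (step_sound _ 132 [(rh13014761e2d8982b.shift 2 1), (rh447769b53578cf66.shift 1 1), (rh565051d0be2128bb.shift 3 0), (rh6a7f0c52f102bbac.shift 1 1), (rh7c77dda7c0412795.shift 0 1), (rha4274e905d36f2e5.shift 0 1), (rhdb8c22d4d1cd9346.shift 0 2)] (by decide +kernel))
noncomputable def rh9d3390bb98c0c39f : CRef := CRef.mk (Pat.mk 0x4000000040000000400000007000000000 0x270000007e000000ef0000005c000000fc0000008e 13 8) 0 0 (step_sound _ 39 [rh500e8e32c5039539, (rh55afc6a59410cf00.shift 6 0)] (by decide +kernel))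
noncomputable def rhaca7ca7fbb5c51eb : CRef := CRef.mk (Pat.mk 0x2000000008000000280000000000000000 0x180000003fe000001fc000003ff000001f8000003fe000001af000001ac00000008 13 10) 0 0 (step_sound _ 132 [(rh3c5c66640c6fec02.shift 1 1), (rh83964308f5bd348e.shift 1 0), (rh9306682ccbce1f31.shift 0 1), (rh9588f9419ecfa885.shift 2 0), (rha9263568bdb3b91b.shift 2 0), rhc528a042941590bd, (rhcdef7a0263e2a2b9.shift 0 1)] (by decide +kernel))
noncomputable def rh7333d0e0d4a79d5a : CRef := CRef.mk (Pat.mk 0x80000000a0000000a0000000000000000 0x10000000bc000000fc000001fe000003ff000001fe000003fe000000eb0000006300000003 13 10) 0 0 (step_sound _ 163 [rh1cbe887228903b94, (rh2af10517fcd2c852.shift 0 2), (rh6088d92095ce3ced.shift 0 2), (rh907348e48eff0b3d.shift 0 1), (rhc85cc95794737cf7.shift 2 2), (rhf233a9b9ef128e12.shift 1 2)] (by decide +kernel))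
noncomputable def rh00819540d3274264 : CRef := CRef.mk (Pat.mk 0x10000000040000001400000000000000000000000000000000 0x14000000fc000001ff000000fe000001fc000000fc000001fe000000d4000000fe0000003e0000002e0000000a 13 9) 0 0 (step_sound _ 195 [(rh0236f1a43d7f282c.shift 0 1), (rh6295f37c6cdf86e0.shift 1 0), (rh9588f9419ecfa885.shift 1 2), (rh9b29dae0d43b2d3e.shift 1 1), (rhe5c1e6a1be67b92c.shift 1 1)] (by decide +kernel))
noncomputable def rh5e4490203d306983 : CRef := CRef.mk (Pat.mk 0x200000000800000028000000080000000000000000000000000000000000000000000000000000000000000000 0x100000001000000030000000380000007c000003af000001f8000003f800000038000000ff000000fe0000003f000000380000003800000028 13 10) 0 0 (step_sound _ 356 [(rh055331f574142fff.shift 3 8), (rh09801475d705d836.shift 3 7), (rh1fa6f7f8cdcb4cc4.shift 0 7), rh8bbd283e08fec141] (by decide +kernel))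
noncomputable def rh264b51dfb3992423 : CRef := CRef.mk (Pat.mk 0x8000000020000000a000000060000000000000000000000000 0xa0000008e000000ae000000bf000001fe000003df0000015c00000048 13 10) 0 0 (step_sound _ 103 [(rh713c4f6a802cbedf.shift 4 2), (rh80d5a76dceac5bf5.shift 4 1), (rha9fbfd4bb8cf890b.shift 2 3), rhf1e09adacd95d2f5] (by decide +kernel))
noncomputable def rhe5f72c6b3452b870 : CRef := CRef.mk (Pat.mk 0x100000001000000010000000000000000000000000000000000000000000000000 0x60000001f0000001f000003bf000001ff000001ff0000003c000000380000003800000028 13 10) 0 0 (step_sound _ 164 [(rh6ab4eba411743c7b.shift 0 4), (rh6eff4158bb400f47.shift 3 3), (rh825b8ab1ed182b05.shift 3 0), (rh832d53b0c7150d1d.shift 3 2), (rhd751dd3da78697de.shift 0 1), (rhe84e00c98653ad0c.shift 3 2)] (by decide +kernel))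
noncomputable def rh74c12f56aeee64e2 : CRef := CRef.mk (Pat.mk 0x8000000020000000a000000000000000600000000000000000000000000000000000000000 0x100000001000000018000001f8e00000ffe00000ebf000007a0000003e0000007f000000380000003800000038000000200 13 13) 0 0 (step_sound _ 263 [(rh0c4ad358bbf70399.shift 4 0), (rh569774833124f14a.shift 0 7), (rh5d91ec4eb06a1f14.shift 4 6)] (by decide +kernel))
noncomputable def rhda88ac25073e8e0e : CRef := CRef.mk (Pat.mk 0x800000028000000000000001000000010000000000000000000000000 0x800000028000000e8000000fe000000ff000000ff0000001e0000000e 13 8) 0 0 (step_sound _ 131 [rh722eaf52e1b0386d, (rhff0f29cb645b05f7.shift 3 3)] (by decide +kernel))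
noncomputable def rhde1fad6a7b0947da : CRef := CRef.mk (Pat.mk 0x800000002000000020000000200000000000000000000000000000000 0x600000007000000074000000fe0000007e000000f7000000630000006300000003000000070000000700000004 13 8) 0 0 (step_sound _ 226 [rh07aa5574878aeebe, (rh08d50fe567eb1045.shift 1 3), rh1fcfb3ba8021b3f8, (rh2d9f8128359127b8.shift 0 4)] (by decide +kernel))
noncomputable def rhd3dd70dc4f2450d6 : CRef := CRef.mk (Pat.mk 0x800000002000000020000000200000000000000000000000000000000 0x600000007000000074000000fe0000007e000000f7000000630000006300000006000000070000000700000001 13 8) 0 0 (step_sound _ 226 [(rh08d50fe567eb1045.shift 1 3), (rh2d9f8128359127b8.shift 0 4), rh4de12cc7feafb128, rh5ffca854adc631d0] (by decide +kernel))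
noncomputable def rh4f928e30f7e16b4c : CRef := CRef.mk (Pat.mk 0x20000000400000001000000050000000000000000000000000 0x2000000538000007b8000007df00001ffe00001ff700003fd800000358000003f8000000fc000000a0 13 14) 0 0 (step_sound _ 134 [(rh3fdfff57602df0d6.shift 5 0), (rh8487e5866f07dffa.shift 0 1), (rh8559e380e0b4881b.shift 2 0), (rhbba7d23481996066.shift 5 0)] (by decide +kernel))
noncomputable def rhccd54750499ce183 : CRef := CRef.mk (Pat.mk 0x20000000080000002800000000000000000000000000000000 0x140000005c000000fc000001fc000000f80000007f0000002c0000003c0000007c0000001c00000014 13 9) 0 0 (step_sound _ 195 [(rh3cb77bd56c2f3c9d.shift 2 1), (rh53841fbf5a4fda33.shift 2 1), (rhb88d7b326ba58a0e.shift 2 1), (rhcdf262502dbba546.shift 2 0), (rhd366493d35abb880.shift 2 3), (rhd46bedfddf067f26.shift 2 1), (rhddea3d9d82b29e82.shift 0 1)] (by decide +kernel))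
noncomputable def rhae5f80118ad73801 : CRef := CRef.mk (Pat.mk 0x180000003800000000 0xf0000000f0000003ff000001fe000003ff000000380000003800000020 13 10) 0 0 (step_sound _ 132 [(rh04444455d6a3ea76.shift 4 0), (rh2e535578fbd52c37.shift 1 0), (rh5105f69098a4a2c2.shift 3 0), (rh7bd960232010427a.shift 0 1)] (by decide +kernel))
noncomputable def rheaa8883a8560da9d : CRef := CRef.mk (Pat.mk 0x38000000080000000000000000000000000000000000000000 0x10000000700000007000000070000003b0000003f8000007ef000003fc000003fc000007fc000000f4000000f0 13 11) 0 0 (step_sound _ 133 [(rh18fbbdb6aa30cd45.shift 2 3), (rh1c06509ff81e5861.shift 2 1), (rh5650761e0149f0bd.shift 2 1), rh886fb8e781c1c041, (rh9e31c89bff42b6de.shift 0 1)] (by decide +kernel))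
noncomputable def rhfb811cc544e6da25 : CRef := CRef.mk (Pat.mk 0x700000001000000000000000000000000000000000000000000000000000000000 0x2800000038000000380000075c000003f4000003de000001ff000001ff000003fe0000013e000000380000003800000028 13 11) 0 0 (step_sound _ 196 [(rh2583994356ee65c8.shift 1 3), (rh511913c11747295f.shift 3 5), (rh8b0d2795e3692bc4.shift 3 4), (rh988d64ab3dbba7de.shift 3 4), (rha11a0ec3f1d21376.shift 3 5), (rhc1104475b15d2b96.shift 1 3), (rhe91742b6d8a0ce50.shift 3 3), rhef4a6bc6c5a0aee4] (by decide +kernel))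
noncomputable def rh4b0befc1b9ca04c6 : CRef := CRef.mk (Pat.mk 0x1c0000001200000010000000000000000000000000000000000000000000000000 0x100000003c000001d6000000fc000001fe0000002c0000003f0000003f0000001f00000014 13 9) 0 0 (step_sound _ 226 [(rh18965a982d73c794.shift 1 7), rh2755a706e71e623c] (by decide +kernel))
noncomputable def rhde603a37c7efac23 : CRef := CRef.mk (Pat.mk 0x100000001c0000001000000010000000000000000000000000000000000 0x500000007000000070000000700000013c000003ff0000017e000003ff000002fe0000007e0000007000000050 13 10) 0 0 (step_sound _ 135 [rh44303c28ce28e491, (rh932754581e0f4330.shift 7 3)] (by decide +kernel))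
noncomputable def rh70deb1a07560a220 : CRef := CRef.mk (Pat.mk 0x10000000000000000000000000000000000000000000000000000000000 0x140000001c000000ff800000ff800003ff800003ffc00007ffc00007ffe00007fff000077fe00007fff00007ffc00003ffc00007ff800001ff0000017f800000140 13 15) 0 0 (step_sound _ 264 [(rh1c3fe87498a92761.shift 3 1), (rh2417309442d23990.shift 2 1), (rh266f049170366ba9.shift 0 1), (rh26e1326988e3a28c.shift 2 2), (rh2aeae0bced9f849e.shift 2 2), (rh2fad20a597bcbc60.shift 3 1), (rh3635388d9c1aa5cf.shift 4 2), (rh4ccb44f5d0075c8e.shift 4 3), (rh4eae9df19054044f.shift 1 3), (rh54c2ba36da4a5692.shift 2 2), (rh624195aba71b9a9a.shift 3 1), (rh62f479ef887fd37c.shift 1 0), (rh6fe8f3f4513a6758.shift 2 1), (rh7651e6fed1296f39.shift 2 1), (rh799a218eccc3686e.shift 2 2), (rh81b7436f5ba6b9ab.shift 3 1), (rh821d355b06ec7d3b.shift 3 2), (rh83346a56aa76925b.shift 1 3), (rh8867207d9c5f4c94.shift 2 3), (rh8cb46919fe159bc9.shift 3 3), (rh9b3dbe594f937663.shift 2 1), (rhf16985f42bbf304e.shift 3 1), (rhf2b62da864ae5615.shift 3 4), (rhf710e94a96024574.shift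 1 1), (rhf909003a01340b30.shift 4 2)] (by decide +kernel))
noncomputable def rh8733a1739c254c7b : CRef := CRef.mk (Pat.mk 0x40000000000000000000000000000000000000000000000000 0x140000001c0000003e000000ff800000ffc00001ffc00003ffe00003fff00007ffe00001fff00001ff800000ff0000007f0000003e0000000a0 12 15) 0 0 (sym_sound rh8ca189c8b8732476 _ false true true 14 14 9 (by decide +kernel))
noncomputable def rhf37c4885b9b20e35 : CRef := CRef.mk (Pat.mk 0x400000000000000000000000000000000000000000000000000000000000000000 0xa0000003e0000007f000000ff000001ff800001fff00007ffe00003fff00003ffe00001ffc00000ffc00000ff8000003e0000001c000000140 12 15) 0 0 (sym_sound rh8ca189c8b8732476 _ false true false 14 0 9 (by decide +kernel))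
noncomputable def rhaea43e3d534e903e : CRef := CRef.mk (Pat.mk 0x100000000000000000000000000000000000000000000000000 0x140000001c0000003e000000ff800001ff800001ffc00003ffe00007ffe00003fff00007ffc00000ffc000007f8000007f0000003e000000280 12 15) 0 0 (sym_sound rh8ca189c8b8732476 _ false false true 0 14 9 (by decide +kernel))
noncomputable def rhc2896a2d5d9f9f9c : CRef := CRef.mk (Pat.mk 0x40000000000000000000000000000000000000000000000000 0x140000001c0000003e0000007f800000ffc00001ffc00007ffe00003fff00007fff00001fff000007fc00000fec000005e0000001e0000000e0 12 15) 0 0 (sym_sound rhdfba28083d63b38f _ true true true 14 14 9 (by decide +kernel))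
noncomputable def rh0e16fc4d0957e0d4 : CRef := CRef.mk (Pat.mk 0x400000000000000000000000000000000000000000000000000000000000000000 0xe0000001e0000005e000000fec000007fc00001fff00007fff00003fff00007ffe00001ffc00000ffc000007f8000003e0000001c000000140 12 15) 0 0 (sym_sound rhdfba28083d63b38f _ true true false 14 0 9 (by decide +kernel))
noncomputable def rh146d4d5dd1f0a47e : CRef := CRef.mk (Pat.mk 0x100000000000000000000000000000000000000000000000000 0x140000001c0000003e000000ff000001ff800001ffc00003fff00007ffe00007fff00007ffc00001ff000001bf8000003d0000003c000000380 12 15) 0 0 (sym_sound rhdfba28083d63b38f _ true false true 0 14 9 (by decide +kernel))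
noncomputable def rh941c651e16c5a742 : CRef := CRef.mk (Pat.mk 0x1000000000000000000000000000000000000000000000000000000000000000000 0x380000003c0000003d000001bf800001ff000007ffc00007fff00007ffe00003fff00001ffc00001ff800000ff0000003e0000001c000000140 12 15) 0 0 (sym_sound rhdfba28083d63b38f _ true false false 0 0 9 (by decide +kernel))
noncomputable def rh57123f09106659c0 : CRef := CRef.mk (Pat.mk 0x40000000000000000000000000000000000000000000000000 0x140000001c0000003e0000007e800000ffc00001ff800007ffe00003fff00007fff00001fff00000ff000000ff8000007f8000001e0000000e0 12 15) 0 0 (sym_sound rhdfba28083d63b38f _ false true true 14 14 9 (by decide +kernel))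
noncomputable def rhb651b7eb7fc2e711 : CRef := CRef.mk (Pat.mk 0x400000000000000000000000000000000000000000000000000000000000000000 0xe0000001e0000007f800000ff800000ff000001fff00007fff00003fff00007ffe00001ff800000ffc000007e8000003e0000001c000000140 12 15) 0 0 (sym_sound rhdfba28083d63b38f _ false true false 14 0 9 (by decide +kernel))
noncomputable def rh1edd003a9f13d4d2 : CRef := CRef.mk (Pat.mk 0x100000000000000000000000000000000000000000000000000 0x140000001c0000003e000000bf000001ff800000ffc00003fff00007ffe00007fff00007ffc000007f800000ff800000ff0000003c000000380 12 15) 0 0 (sym_sound rhdfba28083d63b38f _ false false true 0 14 9 (by decide +kernel))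
noncomputable def rh1c64f9aa9402c763 : CRef := CRef.mk (Pat.mk 0x4000000000000000000000000000000000000000000000000000000000 0xa0000003f4000003fc000007fe00000fff00001fff00007fff00003fff00007fff00003ffe00001fdc00001ff8000017e0000003e000000200 12 15) 0 0 (sym_sound rh1ce66400dbe148a6 _ true true true 14 14 9 (by decide +kernel))
noncomputable def rh25c9144a8e50fa58 : CRef := CRef.mk (Pat.mk 0x4000000000000000000000000000000000000000000000000000000000 0x200000003e0000017e000001ff800001fdc00003ffe00007fff00003fff00007fff00001fff00000fff000007fe000003fc000003f4000000a0 12 15) 0 0 (sym_sound rh1ce66400dbe148a6 _ true true false 14 0 9 (by decide +kernel))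
noncomputable def rh07425e9f6fd95575 : CRef := CRef.mk (Pat.mk 0x10000000000000000000000000000000000000000000000000000000000 0x280000017e000001fe000003ff000007ff800007ffc00007fff00007ffe00007fff00003ffe00001dfc00000ffc000003f4000003e000000020 12 15) 0 0 (sym_sound rh1ce66400dbe148a6 _ true false true 0 14 9 (by decide +kernel))
noncomputable def rh0459d162b5b0ea65 : CRef := CRef.mk (Pat.mk 0x10000000000000000000000000000000000000000000000000000000000 0x20000003e0000003f400000ffc00001dfc00003ffe00007fff00007ffe00007fff00007ffc00007ff800003ff000001fe0000017e000000280 12 15) 0 0 (sym_sound rh1ce66400dbe148a6 _ true false false 0 0 9 (by decide +kernel))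
noncomputable def rh8258f260082cb6d7 : CRef := CRef.mk (Pat.mk 0x80000000000000000000000000000000000000000000000000 0x140000001e0000003fc000007f800000ffc00003fff00003ffe00007ffe00003ffe00007fee00003ff800001ff800003ff000000fe0000007c0 12 15) 0 0 (sym_sound rh1ce66400dbe148a6 _ false true true 14 14 9 (by decide +kernel))
noncomputable def rh1ac95954e8c93f3c : CRef := CRef.mk (Pat.mk 0x800000000000000000000000000000000000000000000000000000000000000000 0x7c000000fe000003ff000001ff800003ff800007fee00003ffe00007ffe00003ffe00003fff00000ffc000007f8000003fc000001e000000140 12 15) 0 0 (sym_sound rh1ce66400dbe148a6 _ false true false 14 0 9 (by decide +kernel))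
noncomputable def rhc5a0b332d22ecdd8 : CRef := CRef.mk (Pat.mk 0x80000000000000000000000000000000000000000000000000 0x140000003c000001fe000000ff000001ff800007ffe00003ffe00003fff00003ffe00003bff00000ffe00000ffc000007fe000003f8000001f0 12 15) 0 0 (sym_sound rh1ce66400dbe148a6 _ false false true 0 14 9 (by decide +kernel))
noncomputable def rhfece1831872934ab : CRef := CRef.mk (Pat.mk 0x4000000000000000000000000000000000000000000000000000000000 0x40000001c0000003e0000007e800000ffc00001ffc00003ffe00003fff00007ffe00001ffe000007ee00000ffc000007fc000001f0000000e000000020 12 15) 0 0 (sym_sound rh9d9a972f7e9c8fc3 _ false true true 14 15 9 (by decide +kernel))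
noncomputable def rh019b1c83ec983d9f : CRef := CRef.mk (Pat.mk 0x400000000000000000000000000000000000000000000000000000000000000000 0x20000000e0000001f0000007fc00000ffc000007ee00001ffe00007ffe00003fff00003ffe00001ffc00000ffc000007e8000003e0000001c000000040 12 15) 0 0 (sym_sound rh9d9a972f7e9c8fc3 _ false true false 14 0 9 (by decide +kernel))
noncomputable def rh219bda5501eb897d : CRef := CRef.mk (Pat.mk 0x10000000000000000000000000000000000000000000000000000000000 0x100000001c0000003e000000bf000001ff800001ffc00003ffe00007ffe00003fff00003ffc00003bf000001ff800001ff0000007c00000038000000200 12 15) 0 0 (sym_sound rh9d9a972f7e9c8fc3 _ false false true 0 15 9 (by decide +kernel))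
noncomputable def rhde57885e798ba98a : CRef := CRef.mk (Pat.mk 0x10000000000000000000000000000000000000000000000000000000000 0x3e0000007f000000ff000003ffc00003ffe00003ffe00003fff00000bfe00003fff00003ffe00003ffc00001ffc000007f0000007f0000002d0 13 14) 0 0 (step_sound _ 231 [(rh06cefc3d80932d78.shift 2 1), (rh0a1cd6367f8f8de3.shift 1 1), (rh0d1c91504896100d.shift 0 1), (rh0e34ed942fce236e.shift 2 1), (rh145f6ccf97d6ea1e.shift 1 2), (rh17205348e2f3c685.shift 1 2), (rh225f08e434997065.shift 2 1), (rh2aa2ca25be32c202.shift 2 3), (rh37367d81ff2a9d6c.shift 1 0), (rh3c2ed000aef3b237.shift 1 0), (rh3ddd8c9133deaff1.shift 1 1), (rh41b3e25b2300d90f.shift 1 2), (rh49a7d47b71875983.shift 1 1), (rh49e3260d3656328a.shift 2 0), (rh4acf6be8fe9ae0f4.shift 2 1), (rh500414ab7def261a.shift 2 1), (rh5f254fe2fe758997.shift 2 1), (rh66a8744de9338398.shift 2 1), (rh6ccb33063c77a693.shift 1 1), (rh77a4f8e38ee91085.shift 2 1), (rh873a96a2c5dec47d.shift 2 2), (rh8a00a69f203f38c7.shift 2 2), (rh8c93ef7cf9f32ba6.shift 2 1), (rh9147d7e152722d4b.shift 2 2), (rh96998b639dbc58a6.shift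 1 2), (rh9707d3cbde7dc08e.shift 1 1), (rha3419fbb1f28e480.shift 2 1), (rhaf0a48fcaeee82ef.shift 2 1), (rhd47778bc93e3644a.shift 3 1), (rhe3245a8014427320.shift 1 1), (rheb41a7c3fd182715.shift 1 1), (rhf0bd9354e3545b04.shift 2 1), (rhf49a66f8f4a9efdf.shift 0 1), (rhf6af4d08b2691d8d.shift 1 1)] (by decide +kernel))
noncomputable def rh375a34024582fac5 : CRef := CRef.mk (Pat.mk 0x80000000000000000000000000000000000000000000000000 0x100000003e000001ffa00001ffe00003ffe00003fff00003fff0000ffff00007fff00007fff00001ffe00001fbe000017b8000003a8 12 16) 0 0 (sym_sound rh5d009c6f04a5fe3c _ true true true 15 13 9 (by decide +kernel))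
noncomputable def rh416c95b03274f3ed : CRef := CRef.mk (Pat.mk 0x8000000000000000000000000000000000000000000000000000000000 0x3a8000017b800001fbe00001ffe00007fff00007fff0000ffff00003fff00003fff00003ffe00001ffe00001ffa000003e000000100 12 16) 0 0 (sym_sound rh5d009c6f04a5fe3c _ true true false 15 0 9 (by decide +kernel))
noncomputable def rh31e5aa8ec3b42830 : CRef := CRef.mk (Pat.mk 0x100000000000000000000000000000000000000000000000000 0x80000007c000005ff800007ff800007ffc0000fffc0000fffc0000ffff0000fffe0000fffe00007ff800007df800001de8000015c0 12 16) 0 0 (sym_sound rh5d009c6f04a5fe3c _ true false true 0 13 9 (by decide +kernel))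
noncomputable def rh2e0d853048d38302 : CRef := CRef.mk (Pat.mk 0x10000000000000000000000000000000000000000000000000000000000 0x15c000001de800007df800007ff80000fffe0000fffe0000ffff0000fffc0000fffc00007ffc00007ff800005ff8000007c000000080 12 16) 0 0 (sym_sound rh5d009c6f04a5fe3c _ true false false 0 0 9 (by decide +kernel))
noncomputable def rhad0e22c676d932bf : CRef := CRef.mk (Pat.mk 0x4000000000000000000000000000000000000000000000000000000000 0x4000000070000003f000000ffe00000ffc00000ffe00001fff00003fff00001fff00001ff800001fff00000ffe00000fff000007fc00000ffc000001f0 12 14) 0 0 (sym_sound rh5d009c6f04a5fe3c _ false true true 13 15 9 (by decide +kernel))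
noncomputable def rh4f800a4000c8fcb8 : CRef := CRef.mk (Pat.mk 0x400000000000000000000000000000000000000000000000000000000000000000 0x1f000000ffc000007fc00000fff00000ffe00001fff00001ff800001fff00003fff00001fff00000ffe00000ffc00000ffe000003f00000007000000040 12 14) 0 0 (sym_sound rh5d009c6f04a5fe3c _ false true false 13 0 9 (by decide +kernel))
noncomputable def rh361953ff9a19d19c : CRef := CRef.mk (Pat.mk 0x8000000000000000000000000000000000000000000000000000000000 0x8000000380000003f000001ffc00000ffc00001ffc00003ffe00003fff00003ffe000007fe00003ffe00001ffc00003ffc00000ff800000ffc000003e0 12 14) 0 0 (sym_sound rh5d009c6f04a5fe3c _ false false true 0 15 9 (by decide +kernel))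
end Crest.Agent.S0047.Helper85.Cert
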