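import Crest.Agent.Lib.S0047.Helper85CertPL13F0
set_option autoImplicit false
set_option linter.all false
set_option Elab.async false
namespace Crest.Agent.S0047.Helper85.Cert
open Crest.Agent.S0047.Helper85

noncomputable def rh989c5fb474b2a86c : CRef := CRef.mk (Pat.mk 0x40000000c000000080000000800000000000000000 0x8000001b8000001b8000001b8000000fe000000fc000001ff000001be0000013f00000028 14 9) 0 0 (step_sound _ 132 [(rh08436c2649689ebd.shift 2 3), rh0cd2fc5928b4c7ce, (rh473b2f7acaa88f87.shift 2 3), (rh555a45317abe89d0.shift 2 1), (rh80b53dcb83706a2d.shift 3 1), (rh824d79d8da16a934.shift 1 3), (rhf762bcda196c9e5f.shift 2 3)] (by decide +kernel))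
noncomputable def rh176a7b21420f0045 : CRef := CRef.mk (Pat.mk 0x40000000c000000080000000000000000000000000 0x1f8000001f8000001b800001efe00000ffc00001dff0000003e0000003f00000028 14 13) 0 0 (step_sound _ 136 [rh09cad63ef595a2a0, (rh47aee474a240d3ee.shift 5 4), (rh7e2ce30127ae7e25.shift 2 3), (rh9f93e2b24091a43d.shift 5 3)] (by decide +kernel))
noncomputable def rhc84a1b0e90ea4f8c : CRef := CRef.mk (Pat.mk 0x40000000400000014000000000000000000000000000000000 0x8000000080000073f000007fe00000fff000001de0000017c000000fe000000e0000000a0 14 12) 0 0 (step_sound _ 102 [(rh47992774edf9829f.shift 5 0), (rh4c7fdb9e4a27b169.shift 5 0), (rh9dde4bdaf9dec30c.shift 2 2), (rhb4d78cd0e58cc17c.shift 5 0), (rhbb2ce83129eb7330.shift 0 2)] (by decide +kernel))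
noncomputable def rh6bfd72106b1c6907 : CRef := CRef.mk (Pat.mk 0x1c0000001000000050000000000000000000000000000000000000000000000000000000000000000000000000 0xa0000000f0000000dc000000f800000050000003fe000001fe000003ff000001fe000001fc0000017e000000700000007000000050 14 10) 0 0 (step_sound _ 229 [(rh2c696265f7be2eea.shift 1 0), (rh2ecdea451570a7fb.shift 2 5), (rh757b8c856fe9779b.shift 0 3), (rha657070f4efcd1c9.shift 3 6), (rhff763b75cad9671b.shift 3 6)] (by decide +kernel))
noncomputable def rh3b752fe33a8e5a49 : CRef := CRef.mk (Pat.mk 0x10000000100000007000000000000000200000002000000000000000000000000000000000 0xf0000000f0000001de000001fe00000076000007cf000003fe000007ff000001ce000001ce000001c600000100 14 11) 0 0 (step_sound _ 166 [rh34997f6f9de11620, (rh5b2b7fa5abf5ab54.shift 1 4), (rh7c1f90fdbfb68d3f.shift 3 3)] (by decide +kernel))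
noncomputable def rhf2c218bc2573e811 : CRef := CRef.mk (Pat.mk 0x200000002000000020000000000000004000000040000000000000000000000000000000000000000000000000 0x40000001c0000001c0000001d0000007ff000007fe00000fee000000bc000000fc0000006000000040000000fc000003fc000003fc000000fc000000e0000000e0000000e0000000a0 14 12) 0 0 (step_sound _ 262 [(rhcfdf45280693d3da.shift 5 6), rhfaee4c04fd30d153] (by decide +kernel))
noncomputable def rh93b49e1c88b0ca46 : CRef := CRef.mk (Pat.mk 0x40000000000000006000000020000000000000000000000000 0x3000000034600000346000007cf000007fe000007bf0000018e0000018e00000006 14 11) 0 0 (step_sound _ 135 [(rh2713450bd12e7977.shift 3 1), (rh2820ca9a6c4f41b4.shift 2 3), (rh352b7f91eba0c81f.shift 4 3), rh811a423828dde17c] (by decide +kernel))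
noncomputable def rhc45658bc4fd60f2c : CRef := CRef.mk (Pat.mk 0x2000000030000000200000002000000000000000000000000000000000 0xa0000006e0000006e0000006f0000003e0000003e0000006f0000003e0000003f0000000e0000000a 14 7) 0 0 (step_sound _ 194 [(rh44a7e65439ee7df9.shift 1 2), (rh7e143111a189f2ad.shift 2 4), rh9145601c59378789, (rhb3f0b59ae92bd25d.shift 0 2)] (by decide +kernel))
noncomputable def rh733b8dba463a5c41 : CRef := CRef.mk (Pat.mk 0x200000002000000020000000a000000000000000000000000000000000 0x28000000fd000000ff000001ff000000ff0000003e000000fbf00000ffe00000eee000001a0000001e0000001c000000140 14 13) 0 0 (step_sound _ 167 [(rh02bc46a7cf5f8ed5.shift 4 3), rh267e89922961ddce, (rh442eb45b513e5fe7.shift 3 2), (rh86bae7f0611d3438.shift 3 4), (rh8719e2dea9b1ee43.shift 3 2), (rhbcbe4a7964ef146b.shift 4 0), (rhdb22b55b7fbb070f.shift 4 2)] (by decide +kernel))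
noncomputable def rh6f0973a752a205fd : CRef := CRef.mk (Pat.mk 0x1000000010000000100000005000000000000000200000002000000000000000000000000000000000 0x1e8000002f8000007d0000003f40000077400000fee000007fe00000fff000001dc000001c8000001c000000100 14 12) 0 0 (step_sound _ 166 [(rh0c9d061d41ef762d.shift 1 4), (rh18fd744912747430.shift 0 2), rh1d9f620361a3bb93, (rh5a78679ff74b95b2.shift 2 3), (rh5dfdd745c29c0539.shift 3 3), (rhbf4dddd8cfcc8da1.shift 1 2)] (by decide +kernel))
noncomputable def rhfe13230c3d09e5d0 : CRef := CRef.mk (Pat.mk 0x1000000010000000100000005000000000000000200000000000000000000000000000000000000000 0x28000000f8000000d0000000d000000050000007de000003fe000007ff000001e0000001e0000001c000000100 14 11) 0 0 (step_sound _ 325 [(rh2f68792b6b779e96.shift 4 7), rh544e8764af65a7f1] (by decide +kernel))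
noncomputable def rhb9264cdb8d9e68c1 : CRef := CRef.mk (Pat.mk 0x70000000000000014000000000000000000000000000000000 0x200000002000000770000003f000000378000001de000001ff000001fe000001e0000000a0 14 11) 0 0 (step_sound _ 199 [rh5d73c82e07a6f038, (rha04f4e915986deeb.shift 4 3), (rhb7e0a190ee9f337a.shift 3 5), (rhf817b6b59bdf06de.shift 3 3)] (by decide +kernel))
noncomputable def rh2b89fbc8a3cf4405 : CRef := CRef.mk (Pat.mk 0x78000000000000014000000000000000000000000000000000 0x200000002000000070000000f80000005c000001de000001ff000001fe000001e0000000a0 14 9) 0 0 (step_sound _ 163 [rhd5a047d220532cce, (rheb0810cc63b001d8.shift 2 5)] (by decide +kernel))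
noncomputable def rhf1265c0a426712fa : CRef := CRef.mk (Pat.mk 0x8000000f0000000000000014000000000000000000000000000000000 0x18c000000f800000058000001de000001ff000001fe000001e0000000a0 14 9) 0 0 (step_sound _ 231 [(rh33e738c4ed385b9f.shift 4 6), rh44929148243f1043] (by decide +kernel))
noncomputable def rhf86ce33d6931a4b7 : CRef := CRef.mk (Pat.mk 0x78000000000000005000000000000000000000000000000000 0xc70000007e000000de000000740000007e000000770000002000000020 14 8) 0 0 (step_sound _ 166 [rhdeb5d823b6a1665e, (rhe25b0a99195a5d59.shift 3 5)] (by decide +kernel))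
noncomputable def rhb897482207f07755 : CRef := CRef.mk (Pat.mk 0xc00000002000000000000000a00000000 0x500000007800000078000001f8000003ff000001fe000003fb0000003a0000002a00000008 14 10) 0 0 (step_sound _ 132 [rh8235b9011e7ea27b, (rhc60c902c512f9617.shift 0 1), (rhd84c24e4064bd6da.shift 2 1), (rhdc09afd880248b87.shift 0 1)] (by decide +kernel))
noncomputable def rhe846233db52a626c : CRef := CRef.mk (Pat.mk 0x30000000080000000000000028000000000000000000000000 0x140000001e0000001e0000007e000000fe0000007f000000ffc000000ff000000a8000000780000007000000050 14 12) 0 0 (step_sound _ 198 [rha0d65d152c7caa42, (rhd84c24e4064bd6da.shift 4 3), (rhf2b3bcf1454375d8.shift 3 5)] (by decide +kernel))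
noncomputable def rh55c539992b753a1c : CRef := CRef.mk (Pat.mk 0x1800000004000000000000001400000000 0x50000000780000007f000000ff000000fe00000078000000fc000000fe0000001400000014 14 8) 0 0 (step_sound _ 99 [(rh1739e0a8db423824.shift 1 0), (rh1dc94430b0561ce1.shift 1 0), (rh4153dd2efd0fcd4f.shift 0 1), (rh580df77fe152422b.shift 2 0)] (by decide +kernel))
noncomputable def rh8770ae550daa6ebf : CRef := CRef.mk (Pat.mk 0x1800000004000000000000001000000000 0xa0000000f0000000f0000003f0000007ff000003fe000007fc000000700000005000000010 14 11) 0 0 (step_sound _ 133 [rh0008a39afba678e7, (rh0f4a0920b9f47778.shift 2 3), (rh7d07c3f29f4a92af.shift 2 1), (rhd84c24e4064bd6da.shift 3 1), (rhf2b3bcf1454375d8.shift 2 3)] (by decide +kernel))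
noncomputable def rhcbfd6f3c02a9c000 : CRef := CRef.mk (Pat.mk 0x1000000030000000000000008000000000 0x280000003e000001ff000000ff000001ff000007be000003fe000007df0000008800000088 14 11) 0 0 (step_sound _ 164 [rh2a49eafd9afb658a, (rh2ae3e6277b6c452e.shift 3 1), (rh65e7cfa0e725f940.shift 3 1), (rh6db58fc4ffb5458e.shift 3 1), (rh95a22d73d0e775df.shift 3 2), (rhc930c156d83d0a77.shift 3 1), (rhce72aab1243c4247.shift 0 2)] (by decide +kernel))
noncomputable def rha825efac82f62969 : CRef := CRef.mk (Pat.mk 0x2000000040000000000000014000000000000000000000000000000000 0xa0000003f0000003f8000003dc00000fff00000ffe00000fff000001dc0000035c000003940000038000000080 14 12) 0 0 (step_sound _ 197 [(rh183244b4e272723f.shift 2 3), (rh237d537de06d7e1b.shift 2 0), (rh3a46b2200673a6fe.shift 3 2), (rh3fe29c1e3b6548a8.shift 0 2), (rh74749a053c5e9458.shift 2 3), (rh9a04582e4a4df810.shift 2 3), (rhb148891ce4f8f990.shift 1 3), (rhc1ec0ebf97825e98.shift 3 3), (rhcd23bef35b9867e2.shift 1 2), (rhcd9525f6c27d02c3.shift 0 2), (rhdbd0a3c6751bab41.shift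 0 2), (rhf8f333fb0f48c526.shift 2 3)] (by decide +kernel))
noncomputable def rh19359073c2d45a7c : CRef := CRef.mk (Pat.mk 0x40000000400000014000000000000000000000000000000000 0x29800001fb800000fbf00001ffe00000fff00001ddc00000f9c00001f800000038000000280 14 13) 0 0 (step_sound _ 200 [(rh1c3dbcd0666d60d1.shift 1 0), (rh2a0e1c655a5b10f7.shift 3 1), (rh2a523f71167b51c4.shift 5 1), (rh2c52638c530e9b85.shift 3 3), (rh4ccec85f5cdf5eeb.shift 2 3), (rh519af60b17c25946.shift 3 1), (rh7f7f7abb685bb92d.shift 5 0), (rh96f91f41b0201817.shift 2 0), (rh9f963fcd9baeddf5.shift 1 4), (rha3a8a3d84a5eda4a.shift 2 0), (rhb4878e7b9b848fdc.shift 2 0), rhd57cde82c7a6101b] (by decide +kernel))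
noncomputable def rhab02154d21738d7a : CRef := CRef.mk (Pat.mk 0x7000000000 0x140000009c000000fc000000fe0000007f000000fe0000007c0000002e 14 8) 0 0 (step_sound _ 35 [rh304542f6e0502fc2, (rh4c622fddc53a5f99.shift 1 1), (rh592c7139d2c44767.shift 1 0), (rh9e97bba44c1b13e4.shift 1 0)] (by decide +kernel))
noncomputable def rh5aca3b506d36bfb5 : CRef := CRef.mk (Pat.mk 0x100000001e000000000000000a000000000 0xf0000000f000000ffc00000ffc00000ffc0000017f000001fe0000035f000000e0000000a0 14 12) 0 0 (step_sound _ 199 [rh207b6fd731493f0f, (rh71a92610e0a296f1.shift 5 2), (rh93edd3a8ae073906.shift 1 0), (rhbae9b29932168f24.shift 0 2)] (by decide +kernel))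
noncomputable def rh0ded24263a289e0e : CRef := CRef.mk (Pat.mk 0x10000000000000000000000078000000000000005000000000 0x40000001ff000000fe000001ef000007ec000003f8000003ac0000007000000050 14 11) 0 0 (step_sound _ 103 [(rh3fc3a7fb6866dcd4.shift 4 2), rh8d0abd03389c87b3, (rh9890f9d77740bbed.shift 3 3), rhb543d29ae4ae438b] (by decide +kernel))
noncomputable def rh480ff5f1f098be62 : CRef := CRef.mk (Pat.mk 0x200000000000000000000000f000000000 0xa0000000e000003de000001ff000003bf000001ff000003ae000003fe0000075f 14 11) 0 0 (step_sound _ 101 [(rh316d0c7c5292e4bb.shift 3 0), (rh36258a80b7f69db2.shift 4 0), rh3fa214a74edb4b6f, (rhbf726fa7097229f2.shift 4 0)] (by decide +kernel))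
noncomputable def rhca18a8b1d7c6af4b : CRef := CRef.mk (Pat.mk 0x200000000000000020000000e00000000 0x3d0000001f0000003e000000120000003a0000003f00000075 14 7) 0 0 (step_sound _ 97 [(rh55afc6a59410cf00.shift 1 0), rh810acf63b2a3ec38] (by decide +kernel))
noncomputable def rh11b89140210f9674 : CRef := CRef.mk (Pat.mk 0x200000000000000000000000f000000000 0x28000000380000003e000000fe000000fe000003ff000003fe000003ff000003ae000003fc0000071c 14 11) 0 0 (step_sound _ 3 [rh3163ce09563c79b5, (rh80fcd6d0a18cb2dd.shift 3 0)] (by decide +kernel))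
noncomputable def rhf1c4d7b3ce5ae633 : CRef := CRef.mk (Pat.mk 0x1800000000000000000000007000000000 0x80000000e0000000e0000000f0000003fc000001f8000003e8000003df000001fe000003ae 14 10) 0 0 (step_sound _ 35 [rh00248e00edd7f4db, (rh1383627ed4ac30b8.shift 1 0), (rh394e80a462af5b2f.shift 2 0), (rh592c7139d2c44767.shift 1 0)] (by decide +kernel))
noncomputable def rh8346e971d1c8bb6a : CRef := CRef.mk (Pat.mk 0x200000002000000000000000e00000000 0x3d0000001f0000003e000000120000003a0000003f00000075 14 7) 0 0 (step_sound _ 65 [(rh55afc6a59410cf00.shift 1 0), rh810acf63b2a3ec38] (by decide +kernel))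
noncomputable def rhd4fe73253c868531 : CRef := CRef.mk (Pat.mk 0x200000002000000000000000e00000000 0x3d0000001f0000003b000000120000003a0000003f00000075 14 7) 0 0 (step_sound _ 65 [rh0a3966656baac687, (rh55afc6a59410cf00.shift 1 0)] (by decide +kernel))
noncomputable def rhd3cd33927e5aebc3 : CRef := CRef.mk (Pat.mk 0x1000000000000000000000007800000000 0x1c000000bc000003ff000001fe000003ff000000d0000000780000002c 14 10) 0 0 (step_sound _ 100 [(rh1d3d5ccf5bd9eaf1.shift 3 0), (rh316d0c7c5292e4bb.shift 2 0), rh8a9a6787bef64bad, (rhbf726fa7097229f2.shift 3 0)] (by decide +kernel))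
noncomputable def rh48927851499e239f : CRef := CRef.mk (Pat.mk 0x1c000000000000001400000000 0x1fc000000fe000001fe000003fc000001ff000003e80000001c00000014 14 10) 0 0 (step_sound _ 101 [(rh1c06065bb3036f30.shift 0 2), (rh97cdda0f3be8da7b.shift 1 2), (rha93a5dd541ab8209.shift 2 2), (rhb143c7a3e93df405.shift 2 2), (rhd955a0402bd7b38f.shift 0 2), (rhe101e934cfd10bcf.shift 1 0)] (by decide +kernel))
noncomputable def rh14cba65459d9ca92 : CRef := CRef.mk (Pat.mk 0x1e000000000000000000000000 0x280000003d0000003f000000ff000000fe0000003f0000001e000000340000000400000004 14 8) 0 0 (step_sound _ 132 [(rh33e738c4ed385b9f.shift 1 3), rhff67cec5819e2570] (by decide +kernel))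
noncomputable def rh2e53d8041c6e9c94 : CRef := CRef.mk (Pat.mk 0x200000012000000020000000200000000000000000000000000000000 0x250000007f0000003f0000007b000000360000003e0000007b0000003f0000007f0000003f0000002d 14 7) 0 0 (step_sound _ 97 [(rh7928877f9bf74a91.shift 0 2), (rh8cdd36b03d57a2f6.shift 0 1), rhba979cee78b71a1a, rhc08fee32a3b16ed1] (by decide +kernel))
noncomputable def rh0d926e41329274c9 : CRef := CRef.mk (Pat.mk 0x8000000480000000800000008000000000000000000000000 0x80000000e0000007f4000003fc000007ff000007ec000003e8000000f8000000ec000000bc0000001c00000010 14 11) 0 0 (step_sound _ 66 [(rh79877ebd3ef475dd.shift 2 2), rhe8cd263375f8e1ae] (by decide +kernel))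
noncomputable def rh03a0962af5182b7e : CRef := CRef.mk (Pat.mk 0x2000000120000000200000002000000000000000000000000 0x28000001f8000000fc000001fa000003fe000001fe000001fb000001ff0000003f0000002c 14 10) 0 0 (step_sound _ 64 [(rh79877ebd3ef475dd.shift 0 2), rhde06d854b7ec3d7f] (by decide +kernel))
noncomputable def rhebe344434e8f221a : CRef := CRef.mk (Pat.mk 0x20000001200000002000000020000000000000000 0x20000000380000003d0000007f0000003e0000007b000000fe000000fb000000fb0000003900000028 14 8) 0 0 (step_sound _ 64 [(rh932754581e0f4330.shift 0 1), rhfc1916acf14f621f] (by decide +kernel))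
noncomputable def rhfb44fe9f9248313a : CRef := CRef.mk (Pat.mk 0x40000002400000004000000050000000000000000 0x500000007a000003fe000001fe000003fc000000f6000001fc000001fe000001f70000007c000000fc 14 10) 0 0 (step_sound _ 194 [(rh1bc20e12ef9b572e.shift 1 1), (rh2943bd1894308c0d.shift 1 3), rh2e195db1995979c6, rha0e4e4480b572d2b, (rhd311e4b0f9086587.shift 1 1), (rhe8f1bbd7450c60db.shift 1 2), (rhf4eaa1ff1677f8eb.shift 1 1)] (by decide +kernel))
noncomputable def rh61e2dcdeeabf4827 : CRef := CRef.mk (Pat.mk 0x4000000040000000400000004000000050000000000000000 0x500000007a000003fe000001fe000003fc000000f6000001fc000001fe000001f70000007c000000fc 14 10) 0 0 (step_sound _ 133 [(rh1bc20e12ef9b572e.shift 1 1), (rh2943bd1894308c0d.shift 1 3), rh2e195db1995979c6, rha0e4e4480b572d2b, (rhd311e4b0f9086587.shift 1 1), (rhe8f1bbd7450c60db.shift 1 2), (rhf4eaa1ff1677f8eb.shift 1 1)] (by decide +kernel))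
noncomputable def rhb0940ec29c7ce5db : CRef := CRef.mk (Pat.mk 0x200000002000000020000000200000002800000000000000000000000000000000 0x280000003c000001fe000000fff00001fbe000007e700001ff000000fb800001fe0000003e0000003c000000280 14 13) 0 0 (step_sound _ 200 [(rh11553c7a4de2bbbf.shift 2 0), (rh194ca416ff2f60e4.shift 2 2), (rh1fadd03f9f0ae343.shift 2 0), (rh5dc68a890cae2e75.shift 3 1), (rh7e019d0985ec5853.shift 4 4), (rh880dc7607a13fa41.shift 4 5), (rha5589e1ff442b6fb.shift 0 3)] (by decide +kernel))
noncomputable def rhf6d48ce001df30eb : CRef := CRef.mk (Pat.mk 0x2000000120000000200000002000000000000000000000000 0x28000000380000003d0000003f0000003f0000007b000000fe000000fb000000fa0000003f0000002700000005 14 8) 0 0 (step_sound _ 228 [(rh2fe2f93220e5e36e.shift 0 2), (rh5116efaa1566f554.shift 0 2), (rh748600f9d4075be9.shift 0 3), (rh767da603035671c5.shift 0 2), rhbb470121d8ab4bdc, (rhd4a9e6bbb0fa5904.shift 0 3), (rhf7c084106284a5a9.shift 0 2)] (by decide +kernel))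
noncomputable def rhd6ee6211c7dfdbe5 : CRef := CRef.mk (Pat.mk 0x2000000120000000200000002000000000000000000000000 0x2800000038000001fd000000ff000000ff0000007b000000360000003e0000003a0000003f0000002700000005 14 9) 0 0 (step_sound _ 228 [(rh0c1e70b5b827bc3e.shift 0 1), (rh2fe2f93220e5e36e.shift 0 2), (rh5b3904feb9027b5d.shift 0 1), (rh67afac332c785b09.shift 0 1), (rhd4a9e6bbb0fa5904.shift 0 3), (rhecad2d6c0846949b.shift 0 1), (rhefc574a130a879aa.shift 0 1), rhf8d1ab82aa8621e5] (by decide +kernel))
noncomputable def rhf2b822050e8e9fc8 : CRef := CRef.mk (Pat.mk 0x2000000120000000200000002000000000000000000000000 0x1000000038000001fd000000ff000001ff0000007b0000003a000001fe000000fa0000003f0000002700000005 14 9) 0 0 (step_sound _ 228 [(rh48a3c4a916b22e2d.shift 1 1), (rh50d2ecc18602b12e.shift 0 2), (rh748600f9d4075be9.shift 0 3), rh7e5d763c916526e5, rhcf20331ad8e56f35, (rhd4a9e6bbb0fa5904.shift 0 3), rhf0e1bc7042eb8614, (rhfd5b0182e82354fd.shift 0 1)] (by decide +kernel))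
noncomputable def rh3e36942e32126f89 : CRef := CRef.mk (Pat.mk 0x100000001000000010 0x280000003800000038000000380000003f000001ff000000ff000001ff00000010 14 9) 0 0 (step_sound _ 100 [rh38b02e47b1d9c41d, rh5793e3518839d4b5, rh6ee3d32a195f1a68, rh7e9a0fcb26f40a27, (rhc85cc95794737cf7.shift 3 0), (rhe071f2d8352e9c5f.shift 3 0)] (by decide +kernel))
noncomputable def rh865fb290553ef1dc : CRef := CRef.mk (Pat.mk 0x2000000080000000a0000000000000000000000000 0x5000000070000001f0000007fe000007fe00007ff700003ff800007fbc00000f1000000e0000000e00 14 15) 0 0 (step_sound _ 133 [(rhc07fd72949128a6d.shift 3 2), (rhc1299508bf589dad.shift 2 2), (rhd127e5d9e20586cb.shift 2 0), (rhd48e48931b5d5668.shift 3 2), (rhd56a4a5877d51392.shift 3 2), (rhe192f7cf022cd93c.shift 2 2), (rhebe4e6a2f627d52d.shift 0 2)] (by decide +kernel))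
noncomputable def rh81bfa3d05ad59831 : CRef := CRef.mk (Pat.mk 0x400000030000000140000000000000000000000000 0xa0000000e8000003fc000003fc00000fff00000dfe00003fff00001f7e00003f7c00001e3c00001c1c00001400 14 14) 0 0 (step_sound _ 198 [(rh1c09a618366d2284.shift 2 2), (rh342846ed04b66387.shift 2 2), (rh3d7180357b6c80ae.shift 0 2), (rh8e11b862e23c118b.shift 4 2), (rh91e150f8125f7011.shift 0 2), (rha2c614b2064a383e.shift 1 2), (rhb1e8211da2ae79a2.shift 1 1), (rhb514e27833d3e7bf.shift 1 2), (rhcae42d2559ea5e7a.shift 2 2), (rhd5715bc805f89c0a.shift 1 2), (rhd92f477b7f7cb5ca.shift 3 0)] (by decide +kernel))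
noncomputable def rh2979aa00eb04fbd2 : CRef := CRef.mk (Pat.mk 0x100000004000000050000000000000000000000000 0xa8000001f8000001f800001fff00000fff00003fff00001ff700003fd8000007880000070000000700 14 14) 0 0 (step_sound _ 135 [(rh0aa175c922eeb3f4.shift 3 0), (rh44eb76741580de7e.shift 2 3), (rh66b644e81d34550c.shift 2 3), (rh6fa27c949f3fa255.shift 3 3), (rh72734bcc1c640679.shift 3 0), (rhb20f0682718ae6be.shift 0 2), (rhd3982a47ce5d2a64.shift 2 2), rhddddb297fd6e297f] (by decide +kernel))
noncomputable def rh5130f6fa8b43b915 : CRef := CRef.mk (Pat.mk 0x2000000080000000a0000000000000000000000000 0x5000000070000001f200001ffe00000ffe00007fff00003ffe00007fae00000f0e00000e0a00000e00 14 15) 0 0 (step_sound _ 134 [(rh22577acb9628a4ed.shift 3 2), (rh2478be642a639cfe.shift 1 1), (rh346dbcf0ebafb402.shift 3 3), (rh473b1a12bfb90c13.shift 2 3), (rh56243ecf91c9e427.shift 0 3), (rh6217c87e50edb7af.shift 1 1), (rh75b1b8852c98ab68.shift 3 0), (rha6b6ff740dd9bc94.shift 2 0), (rhefa5ca9f2c87d7f1.shift 3 2)] (by decide +kernel))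
noncomputable def rh20b07bb360106cc0 : CRef := CRef.mk (Pat.mk 0x400000010000000140000000000000000000000000 0x2a8000007f8000007f800007f7f00003ffe0000ffff00007ffe0000ff7c00001e3e00001c1c00001c00 14 16) 0 0 (step_sound _ 137 [(rh0aa175c922eeb3f4.shift 5 0), (rh20213d30d66d08b7.shift 5 3), (rh3c51fbac64b50616.shift 4 3), (rh6fa27c949f3fa255.shift 5 3), (rh8bc1fb4ec62bc577.shift 4 3), (rh8c70f82fa43b3f1c.shift 1 0), (rhd3982a47ce5d2a64.shift 4 2), (rhe66ddd7f14d56622.shift 5 0), (rhfe528564a1202201.shift 0 1)] (by decide +kernel))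
noncomputable def rha8ec0c2cc4bf7d96 : CRef := CRef.mk (Pat.mk 0x80000002800000028000000000000000000000000 0x40000001c0000001c0000001d4000001de000003ff000003fe000003e8000007c00000018000000180 14 11) 0 0 (step_sound _ 132 [(rh0360105a5ebcdc55.shift 2 0), (rha9fbfd4bb8cf890b.shift 0 4), (rhcc885ce58dbf0f1b.shift 1 3), (rhe3f612f8f5dcfdf1.shift 2 3)] (by decide +kernel))
noncomputable def rhdda18305d0153e30 : CRef := CRef.mk (Pat.mk 0x2000000080000000a000000000 0x5000000170000001fc000001fe00000fff000007fe00000fff000000bc00000010 14 12) 0 0 (step_sound _ 69 [(rh438fde9aee604939.shift 0 1), (rh43a32bc1fed752dc.shift 1 1), (rh5b1fc0a2d32aa767.shift 1 0), (rh6515ed09e3e9edab.shift 2 0), (rhcd8f54bc87346024.shift 1 0), (rhd50e0f29ab6e99b1.shift 2 0)] (by decide +kernel))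
noncomputable def rh28822255caf2242d : CRef := CRef.mk (Pat.mk 0x2000000020000000200000000 0x1d000000ff0000007f000000fe0000003f0000003e00000074 14 8) 0 0 (step_sound _ 129 [(rh1741680720c097b4.shift 0 1), rh7eb4a07d72ad7934, (rhced6d86d2069808b.shift 1 0), rhe0004462d29f9e13] (by decide +kernel))
noncomputable def rhffaaa43acb2834f8 : CRef := CRef.mk (Pat.mk 0x2000000080000000a00000000000000000 0x500000007000000770000003ff00000ffe00001fef00001ffc00000fbe00001f1000000200 14 13) 0 0 (step_sound _ 101 [(rh357f2d46fa5d470b.shift 1 0), (rh3892353668527c86.shift 1 2), (rh6515ed09e3e9edab.shift 2 1), (rh816f802baa33c5a5.shift 0 1), (rh91eeeeabe61d4cb9.shift 1 1)] (by decide +kernel))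
noncomputable def rh9bf57a23af873851 : CRef := CRef.mk (Pat.mk 0x200000002000000080000000a0000000000000000000000000 0x50000000700000007f000001fe000001fe0000003e000001fe000000fe000001be0000001e0000000400000004 14 9) 0 0 (step_sound _ 229 [(rh1be52293a6df631f.shift 1 0), (rh25c6e38466d8f65e.shift 1 3), (rh46a0f7870e65bd4d.shift 0 4), (rh576a263695f5bb82.shift 4 2), (rhc2067193da9ace7c.shift 1 0), (rhc8965495dc1e7dca.shift 1 3), (rhd02fe64ad940c860.shift 1 3)] (by decide +kernel))
noncomputable def rh4ba9acc02f6d828f : CRef := CRef.mk (Pat.mk 0x20000000a0000000a00000000000000000 0x340000003f000000ff000003ffe00001ffe00003fbf00000fe000000fb000000f1000000200 14 14) 0 0 (step_sound _ 167 [rh0382f0545734a339, (rh0aa86d0d16ff1301.shift 4 0), (rh12c66d0d164891af.shift 4 2), (rh1d6603713ae3742f.shift 4 1), (rh1f86d0bc2bf67a4d.shift 4 1), (rh80c3814115749272.shift 0 1), (rh8e14e6f8130eb8fb.shift 2 0), (rhb7d3406477f39467.shift 0 2), (rhdcc4cf1e773158b3.shift 4 1), (rhf6a35132626fa529.shift 4 1), (rhf6e3e6364bfbb15d.shift 4 0)] (by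 decide +kernel))
noncomputable def rh2e4626faea569a42 : CRef := CRef.mk (Pat.mk 0x20000001800000008000000000000000000000000 0xf0000000fe000003ff000007fb000003fc000007f8000003f0000003e0000000a0 14 11) 0 0 (step_sound _ 164 [(rh30a646f93b6a2830.shift 2 0), (rh4b9b608540082a4d.shift 0 2), (rh53316f1fef727abe.shift 0 2), (rh67c925e0c32d8015.shift 2 2), (rh8483626fb08f485b.shift 2 0), (rha05add1b50938254.shift 0 2), (rhdd8f6672cad950b1.shift 0 2)] (by decide +kernel))
noncomputable def rhfb0a9b19e7a63729 : CRef := CRef.mk (Pat.mk 0x8000000600000002800000000000000000 0x150000007f0000007f0000007f000001ffc0000fffe00007f7f0000fef800003c3800003808 14 16) 0 0 (step_sound _ 136 [(rh5464b7b11ed67cae.shift 7 0), (rh62c43d457eefcf4e.shift 5 1), (rh83ec37ff6e78b01f.shift 6 3), rhbfe3179a23b3f114] (by decide +kernel))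
noncomputable def rh01b2559647431eaf : CRef := CRef.mk (Pat.mk 0x180000004000000050000000000000000000000000 0x88000000f8000000fc000007fc000007df000007f800000fff000007df00000f8c0000030000000300 14 12) 0 0 (step_sound _ 132 [(rh39721980bec152d6.shift 2 2), (rh4bb421ab34673329.shift 1 3), (rh528577f1e6e821b4.shift 0 2), (rh6ea87f41f6310170.shift 2 0), (rh9f3cca1cb2499acf.shift 0 2), (rha50339d54c1b718b.shift 0 2)] (by decide +kernel))
noncomputable def rh82b08b065830d62a : CRef := CRef.mk (Pat.mk 0x30000000800000008000000000 0x280000017c000001fc000001fc000001fc000001bf000001fe000001df0000019800000110 14 9) 0 0 (step_sound _ 102 [(rh1744c2123d616bf8.shift 2 0), (rh1a1c7044ba201c88.shift 3 1), (rh3abcacfc0272f79b.shift 3 0), (rh4ea1bf3d78252f08.shift 2 2), (rh88c620441a3a17ea.shift 1 2), (rhbbf2c950c9218a9b.shift 0 1)] (by decide +kernel))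
noncomputable def rhd7d2eb0b53df055e : CRef := CRef.mk (Pat.mk 0x180000004000000050000000000000000000000000000000000 0x140000001f0000003f8000007fc000007fc000001ff000001fe00000fff00000dfc000000fc000000780000005000000040 14 12) 0 0 (step_sound _ 231 [(rh3b077392659d74f4.shift 0 1), (rh45103643d5dc54df.shift 0 2), (rh681e7139c0ae4fca.shift 4 3), (rh8aa2a5f124f3e758.shift 6 4), (rhd0cd418f94b9f057.shift 3 2), (rhd6e6f470defcbf25.shift 4 0), (rhea86dd4d40619aff.shift 3 3)] (by decide +kernel))
noncomputable def rh599653a62956614c : CRef := CRef.mk (Pat.mk 0x3000000014000000000000001000000000 0xe0000000e0000007f7000003fe000007d6000001d0000001d000000180 14 11) 0 0 (step_sound _ 165 [rh2de87c9ceda45cf9, (rh9e3edb185cc347de.shift 4 1)] (by decide +kernel))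
noncomputable def rh734ba54baf2340d3 : CRef := CRef.mk (Pat.mk 0x180000000a000000000000000800000000 0xa0000000fc000000fc000000e8000000ff000000fb000000dc000000cc0000000c 14 8) 0 0 (step_sound _ 100 [rh14a39a10cf6abe4b, (rhb32155389a4fa968.shift 0 1), (rhc0b5b9f5a987ada9.shift 2 0)] (by decide +kernel))
noncomputable def rh0d8a6ebfaa5ed95a : CRef := CRef.mk (Pat.mk 0x10000000100000000000000050000000000000000000000000 0xa0000000e0000006e0000006e000007ef000003ff000007ff000001ff00000074000000e0000000c0000000c0 14 11) 0 0 (step_sound _ 197 [(rh07f6ea9a5c0ddf02.shift 0 2), (rh2d31207366f651a5.shift 1 3), (rh42e88bc8a423e014.shift 2 0), (rh533b2f245a2f50c1.shift 2 2), (rh6d7a5983fb7b2883.shift 0 3), (rh6edc0f7a853879f2.shift 1 2), (rh902c2e1a031c1f14.shift 0 2), (rha8d308c9f9a99fa5.shift 0 2), (rhda8a56a5b2b3c35e.shift 0 2)] (by decide +kernel))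
noncomputable def rhcd0696a1bef263db : CRef := CRef.mk (Pat.mk 0x3000000010000000000000004000000000 0x7c000000fe000000ff000000ff000001fe0000002e0000006400000060 14 9) 0 0 (step_sound _ 99 [(rh0bb882ba86b2372d.shift 1 3), (rh1c669628f4a2f114.shift 0 2), (rh574fdbf07bdd18b9.shift 1 3), (rh82846efd2e9e42da.shift 1 0)] (by decide +kernel))
noncomputable def rh2a2a63b667f90310 : CRef := CRef.mk (Pat.mk 0x3000000010000000000000004000000000 0x7c000000fe000000ff000000ff0000003e0000006e0000006400000060 14 8) 0 0 (step_sound _ 99 [(rh0bb882ba86b2372d.shift 1 3), (rh1c669628f4a2f114.shift 0 2), (rh574fdbf07bdd18b9.shift 1 3), (rhccbdec3f98d3aa3c.shift 1 0)] (by decide +kernel))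
noncomputable def rh592ffd46a893b5e7 : CRef := CRef.mk (Pat.mk 0x100000000000000050000000000000000000000000 0x14000000b4000000fe000003ff000001fe000003ff000000770000007e0000007f00000028 14 10) 0 0 (step_sound _ 163 [rh0062c6d917dc4508, (rh0efaa870087dda73.shift 0 1), (rh27e60716db3dcbb1.shift 0 1), rh388f32a13ea03d43, rh4e148717cf90e805, rh4e1f264449482ab2, rh6aaab34bccad927c, rh70cbb75d4ee38ef2, rh9fbd81824b68496f, (rha2a73e2431e335e5.shift 0 1), rhafc944b10edc7f81, rhb41b4c93e8796302, rhc1d7ceb330a46a84, rhd171648c08523529] (by decide +kernel))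
noncomputable def rh2fa1ac106cbf4cfe : CRef := CRef.mk (Pat.mk 0x180000000000000050000000000000000000000000 0xf0000000f0000000f0000001f7000000fe000000ff00000077000001fe000000ff00000080 14 9) 0 0 (step_sound _ 165 [(rh1260a033a9ffa8a4.shift 0 2), (rh40c10ee78eb47d23.shift 0 2), rh6055e3d355cbb9ea, (rh66940a3e02f214c7.shift 0 1), (rh703132bdcc708ef6.shift 0 1), (rhd11ff76a54243cb4.shift 0 2), (rhe80739337393bf48.shift 2 2), (rhf3ab5cab7c22bf66.shift 0 1)] (by decide +kernel))
noncomputable def rha7951beea25aace3 : CRef := CRef.mk (Pat.mk 0xc00000000000000140000000000000000 0x40000000740000007c0000003c000001fc000000ff000000fe0000001c0000007c00000038 14 9) 0 0 (step_sound _ 163 [(rh00d6a6e3c7e3bb40.shift 2 1), (rh580df77fe152422b.shift 2 1), (rh886db41f4f7357e5.shift 0 1), (rh9b0785512d27cbbb.shift 0 1), rhfb630a9910c2b812] (by decide +kernel))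
noncomputable def rhb20f3fcb871b6848 : CRef := CRef.mk (Pat.mk 0x30000000000000005000000000 0x100000001c0000001e0000000f0000007f7000003fe000003f70000007000000070 14 11) 0 0 (step_sound _ 133 [(rh00d6a6e3c7e3bb40.shift 4 0), (rh580df77fe152422b.shift 4 0), (rh886db41f4f7357e5.shift 2 0), (rhd125751b7dddda92.shift 4 0), rhff1bfc621764e9e9] (by decide +kernel))
noncomputable def rh9da6c9db37b3e549 : CRef := CRef.mk (Pat.mk 0x6000000000000000a000000000 0xa0000002e0000003f8000003f8000001f800000fef000007fe000007ff000000e000000060 14 12) 0 0 (step_sound _ 134 [(rh00d6a6e3c7e3bb40.shift 5 0), (rh30026ffe49bb7ead.shift 1 1), rh3b4d2ae3cf5d7c03, (rh580df77fe152422b.shift 5 0), (rh886db41f4f7357e5.shift 3 0)] (by decide +kernel))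
noncomputable def rh025d5a587eba9e21 : CRef := CRef.mk (Pat.mk 0xe000000080000000a00000004000000000 0xe000000fc000001bc000000af000000fe000000e7 14 9) 0 0 (step_sound _ 6 [rhb1d61a8fadd0c5ea, (rheea67dfebd0f8008.shift 6 0)] (by decide +kernel))
noncomputable def rh38c1354fc71e1e29 : CRef := CRef.mk (Pat.mk 0xa000000020000000a00000004000000000000000000000000 0x1000000010000000fb0000007e0000007b0000002a0000007f000000ff0000001f00000014 14 8) 0 0 (step_sound _ 196 [(rh0601c8d273c0d30e.shift 0 2), rh63fc0c670516005c, (rh7f4cd105e770d447.shift 0 3), (rhc192858dc363f708.shift 0 5)] (by decide +kernel))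
noncomputable def rh5ca1a0a12a2d8fc1 : CRef := CRef.mk (Pat.mk 0x5000000010000000500000000000000000000000000000000000000000000000000000000000000000 0x1a0000001e0000007ff000003fe000007ff000000d0000000d000000770000003f8000007fe000001fe000001fe0000007f000000700000007000000050 14 11) 0 0 (step_sound _ 389 [(rh2dbb1f7265820c48.shift 0 7), (rh85bff42fe287d66e.shift 4 4), (rhe25716203317ed02.shift 3 8), rhf35d8fbc0994fecd] (by decide +kernel))
noncomputable def rh2148138c0b85a0eb : CRef := CRef.mk (Pat.mk 0x28000000280000002800000000000000100000000000000000000000000000000000000000 0x1e80000007c00000028000001ef000000fe000001ff0000000e0000000e0000000e00000002 14 9) 0 0 (step_sound _ 165 [(rh072ce4b569e16e7a.shift 4 4), (rh0953f5299b1005f9.shift 0 4), (rh6b16488aca7b5819.shift 0 4), (rh850cfb1d20dcdbe9.shift 1 4), rhc009ab54214f1447] (by decide +kernel))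
noncomputable def rh8ad45dde20da4266 : CRef := CRef.mk (Pat.mk 0x280000000800000028000000000000001000000000 0x3c0000007e0000007e000001ff000000fe000001ff000000280000002800000028000000700000007000000050 14 9) 0 0 (step_sound _ 133 [(rh35acb3ac21f75723.shift 0 3), (rhebbfc1325fb53d6f.shift 4 0)] (by decide +kernel))
noncomputable def rh55d9b751a4671fee : CRef := CRef.mk (Pat.mk 0x1000000004000000140000001c 0x50000003f0000003fa000003f6000000fe000000f40000007f0000001c 14 10) 0 0 (step_sound _ 98 [(rh65909b08999dc522.shift 1 0), (rhaec7e4a21ba657b5.shift 1 0), rhc0320a7a17a31eb6, rhcf9523056899b812] (by decide +kernel))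
noncomputable def rh1696a568b8a18985 : CRef := CRef.mk (Pat.mk 0xa000000020000000a0000000a 0x28000001f8000001fd000001fb0000007f0000003a0000003a0000000a 14 9) 0 0 (step_sound _ 128 [rh2ead8a0ef52f52ab, rhffd04209dc8ea796] (by decide +kernel))
noncomputable def rh673b8ccb86867482 : CRef := CRef.mk (Pat.mk 0x1000000050000000500000002000000000000000000000000000000000000000000000000000000000 0x100000005400000154000007fe000003fe000007ff000003fe000003ff000003f00000017000000050 14 11) 0 0 (step_sound _ 197 [(rhbe0e43a3bc50a43f.shift 4 6), rhd8486e66112ad5a4] (by decide +kernel))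
noncomputable def rh59d89665a9cc36f3 : CRef := CRef.mk (Pat.mk 0x8000000280000002800000000000000000000000000000000 0x3c0000007e0000007e000001ff000000fe000001ff000001e80000007c0000003800000060000000700000007000000010 14 9) 0 0 (step_sound _ 197 [(rh35acb3ac21f75723.shift 0 4), (rh79f6ad7528adf340.shift 2 1), (rha0fd922d6cee15ba.shift 2 4), (rhb8efad548af926b0.shift 2 0)] (by decide +kernel))
noncomputable def rhe3f16015ca187741 : CRef := CRef.mk (Pat.mk 0x8000000280000002800000000000000000000000000000000000000000000000000000000 0x60000000680000007800000038000001ff000000fe000001ff000000f0000000e0000000e000000080 14 9) 0 0 (step_sound _ 164 [(rh12ffe27d1538d583.shift 3 3), rh1e9fc9c7ba40b424, (rh613ce6606d767a7a.shift 3 5), (rhff763b75cad9671b.shift 2 4)] (by decide +kernel))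
noncomputable def rh8219555af0b3ef98 : CRef := CRef.mk (Pat.mk 0x80000002800000028000000000000001000000000 0x3c0000007e0000007e000001ff000000fe000001ff000001e80000007c00000028000000780000007000000040 14 9) 0 0 (step_sound _ 165 [(rh35acb3ac21f75723.shift 0 3), (rh79f6ad7528adf340.shift 2 0), (rhd3d019a85ab3f7d5.shift 3 1)] (by decide +kernel))
noncomputable def rh1fe6ed0cfd9624ec : CRef := CRef.mk (Pat.mk 0x380000000000000030000000000000000000000000 0x2000000178000009f800000ff800000ef00000ffb800007fdf0000fffe00000fef00000e4400000a40 14 16) 0 0 (step_sound _ 102 [(rh01a814bfc24ab6b1.shift 0 2), (rh0fae7dfd2481efec.shift 0 1), (rh1f6ff5d3352e2267.shift 1 2), (rh3675dd8deb3829a2.shift 3 2), rh37a20af4744b8529, (rh6d5401b74a4c0ed8.shift 1 2)] (by decide +kernel))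
noncomputable def rhde4a732736bf648f : CRef := CRef.mk (Pat.mk 0x70000000000000000000000000000000000000000000000000 0xa0000007f8000003f8000007f70000007f000000fc000000fc000000fc000000fc000000e4000000a0 14 11) 0 0 (step_sound _ 195 [(rh17f08a0ad30ba6e8.shift 2 5), (rh2df92d988b6a0e3d.shift 2 2), (rh3bc20d0d8c73da06.shift 2 4), (rh58fe62328a08cfc9.shift 3 1), (rh62e850c8d403340d.shift 2 3), (rh6e0595747358becb.shift 3 1), (rh9bc46f221d520ea4.shift 0 5), (rhd553a23802d2eb74.shift 2 0), (rhecd70068bf37130b.shift 2 2)] (by decide +kernel))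
noncomputable def rh1e7f89cc5fc2963e : CRef := CRef.mk (Pat.mk 0xe0000000000000000000000000 0x14000000ff0000007e000000fee000000fe000001ff0000005000000010 14 12) 0 0 (step_sound _ 100 [(rh17f08a0ad30ba6e8.shift 3 2), (rh3a67af294bae24af.shift 0 2), (rh62e850c8d403340d.shift 3 0), (rh9e97bba44c1b13e4.shift 2 2), (rhd00abbeb3aaa4999.shift 0 2)] (by decide +kernel))
noncomputable def rhed3884e19bcfa874 : CRef := CRef.mk (Pat.mk 0xe0000000000000000000000000000000000000000000000000 0x140000001e0000001f0000001ee000000fe000001ff00000190000001f8000001d8000001c800000140 14 9) 0 0 (step_sound _ 196 [(rh17f08a0ad30ba6e8.shift 3 5), (rh3a67af294bae24af.shift 0 5), (rh9e97bba44c1b13e4.shift 2 5), (rhd00abbeb3aaa4999.shift 0 5), (rhd553a23802d2eb74.shift 3 0)] (by decide +kernel))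
noncomputable def rh19f9d5173e99801f : CRef := CRef.mk (Pat.mk 0x380000002000000020000000000000000000000000 0x630000003e00000067000000370000007f0000007500000040 14 7) 0 0 (step_sound _ 162 [rh7b74847dfda78435, (rhe25b0a99195a5d59.shift 2 4)] (by decide +kernel))
noncomputable def rhec2da847ed94b6a2 : CRef := CRef.mk (Pat.mk 0x3c00000020000000000000000000000000000000000 0x28000000380000053f0000073e0000077f000006be000003f8000003dc000007f8000007f80000073800000128 14 11) 0 0 (step_sound _ 196 [rh562f7c74a46e1cf7, (rh8ea0c17d4ec8bf59.shift 6 0), (rhea6e2ff5d6d6fb77.shift 4 4)] (by decide +kernel))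
noncomputable def rhcaa0e526eaf0f618 : CRef := CRef.mk (Pat.mk 0x200000003c00000000000000000000000000000000000000000 0x2800000178000005ff000007fe000007ff000003be000003f8000006dc000007f8000007f8000007f800000548 14 11) 0 0 (step_sound _ 196 [rh11ae45396a0e6936, (rh3b68f2b4cda54ed8.shift 4 5), (rhc735e1995987289e.shift 3 0), (rhd9f8fdeeb50c6416.shift 5 3)] (by decide +kernel))
noncomputable def rhc9461df7af821627 : CRef := CRef.mk (Pat.mk 0x1c000000100000000000000000000000000000000000000000 0xc0000000c0000000c0000005f000000df000001ff000000ff000001ff0000003d00000014 14 9) 0 0 (step_sound _ 163 [(rh0ac142019db1f6b5.shift 0 1), (rh0def0af1f1791e3a.shift 0 3), rh2589220a6e0f6ec8, (rh29b18d80d7cb0959.shift 0 1), (rh4aa1b813bdb198c6.shift 0 2), (rh605e72e1466aaec5.shift 0 1), (rh6c67b71c56180308.shift 0 2), (rh88c38721de052629.shift 0 2), (rhb1b1acde61edbe35.shift 0 1), rhfbbcf74d4a0e1fc3] (by decide +kernel))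
noncomputable def rhbed14aa0eb21e06d : CRef := CRef.mk (Pat.mk 0x380000000000000000000000000000000000000000000000000000000000000000 0x140000001c0000005c0000007c0000007f000001f8000000b800001fff00000fff00001fff000003ff000000fe000000fe0000000e00000008 14 13) 0 0 (step_sound _ 197 [(rh026e7263ba1e672d.shift 0 3), (rh1a75096b7c3a3cb2.shift 1 2), (rh1e4c04f9e14fc4da.shift 1 2), (rh426aaf67dbde11fc.shift 2 2), (rh614d064fcda3b085.shift 1 3), rh6f1537832a5d9a3c, (rh74f924e26bca33ec.shift 1 2), (rha166954c66248018.shift 0 2), (rhba15e1881be77205.shift 1 4), (rhc8f5fe8e6d3daaaa.shift 1 4), (rhd8b55d9859b44213.shift 0 2), (rhd9cf0d04b0e7c0de.shift 2 2), (rhfe52f574cf77969c.shift 3 3)] (by decide +kernel))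
noncomputable def rh7e6292d6119df077 : CRef := CRef.mk (Pat.mk 0x10000000400000007000000000000000000000000000000000 0x1c0000003c000007ff000003fe000007de000003f0000000700000003c000000380000003800000010 14 11) 0 0 (step_sound _ 101 [(rh0588d2c7f2cab5e9.shift 4 1), rh082fb348bfb9890c, (rhd79d2ecf89709c31.shift 4 1), (rhf9366b6a121593ef.shift 5 1)] (by decide +kernel))
noncomputable def rhf7032b2cc0bc1548 : CRef := CRef.mk (Pat.mk 0xa000000080000000c0 0x1f0000001f0000001f8000007ff000003fe0000078f000000c0 14 11) 0 0 (step_sound _ 70 [(rh2ad16b965e9d69db.shift 0 1), (rhc243fc7af1536e6c.shift 4 0), (rhc4ac9c60df770a45.shift 3 0), (rhcb0cbc676d27cd07.shift 4 0)] (by decide +kernel))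
noncomputable def rhcaf575746d9d325a : CRef := CRef.mk (Pat.mk 0x6000000080000000c0 0x1f0000001f0000001f8000007ff000003fe0000078f000000c0 14 11) 0 0 (step_sound _ 71 [(rh2ad16b965e9d69db.shift 0 1), (rhc243fc7af1536e6c.shift 4 0), (rhc4ac9c60df770a45.shift 3 0), (rhcb0cbc676d27cd07.shift 4 0)] (by decide +kernel))
noncomputable def rhd9e4cadd1b2e1cf9 : CRef := CRef.mk (Pat.mk 0x200000003a0000001200000000000000000000000000000000000000000 0x5000000070000003f0000007f0000003bc000003b0000001bf000000fe000000fe0000007c0000007000000050 14 11) 0 0 (step_sound _ 229 [(rh0500c6cb6798baa0.shift 4 2), (rh3e9487c348110798.shift 3 4), (rh6f85501376463e9e.shift 4 3), (rh8aec248e25af352b.shift 3 2), (rhd634e9ad7050dba7.shift 2 3), (rhd7dd544d26266960.shift 4 1), (rhdf07bfac3d4ba63e.shift 4 3), rhef741aebe8001770] (by decide +kernel))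
noncomputable def rh15bd69e3480faa91 : CRef := CRef.mk (Pat.mk 0x80000000e8000000480000000000000000000000000000000000000000 0x380000007c000007fe000003fc000007fe000000ac000000ec0000006c000000ff0000007f0000001f0000001c0000001c 14 11) 0 0 (step_sound _ 134 [rh6252e6a8e2af9b9f, (rh71222050f2c63a3a.shift 6 3)] (by decide +kernel))
noncomputable def rha2480f59633f7a2e : CRef := CRef.mk (Pat.mk 0x7800000050000000000000002000000000000000000000000000000000 0xc80000007c0000005e000003d7000001fe000003ff000001fe0000003c0000001c 14 10) 0 0 (step_sound _ 132 [(rh4802dfac046309b0.shift 0 3), (rh80c59fdbc00f388c.shift 3 3), (rhaf3dc93409b31a78.shift 1 0), (rheaa0f4668048eae4.shift 1 2), (rheb138f4a460944d4.shift 2 3)] (by decide +kernel))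
noncomputable def rh9d7f1f9cea1dce6f : CRef := CRef.mk (Pat.mk 0xa0000000a0000000000000000000000000000000000000000000000000000000000000000000000000 0x11000000110000001b000000ffe00000ffe00000ebf000007e0000003f0000007fc000003fc000003fc000000fc000000e0000000e0000000a0 14 12) 0 0 (step_sound _ 326 [(rh09e3b3c49517183d.shift 4 9), (rh26e4b8188f39da75.shift 1 9), (rh2820ca9a6c4f41b4.shift 2 9), (rh33dd60889b8b3f57.shift 2 0), (rhcf82f26a8102c560.shift 0 7), (rhd8b43b15431aaa50.shift 4 7)] (by decide +kernel))
noncomputable def rha20599f44b40d46a : CRef := CRef.mk (Pat.mk 0x80000000a0000000a00000008000000000 0x28000000380000003e0000017e000003ff000001fe000000ff000000b8000000b0000000a000000020 14 10) 0 0 (step_sound _ 166 [rh5ebda63fc6d64737, (rhffd04209dc8ea796.shift 6 1)] (by decide +kernel))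
noncomputable def rh256b74d9f5f16f37 : CRef := CRef.mk (Pat.mk 0x80000000a0000000a0000000800000000000000000 0x28000000380000003e0000017e000003ff000001fe000000ff000000b8000000b0000001a0000001a000000100 14 10) 0 0 (step_sound _ 198 [rh721ddcb0157f43a9, (rhffd04209dc8ea796.shift 6 2)] (by decide +kernel))
noncomputable def rhd4c23e6cc74a9401 : CRef := CRef.mk (Pat.mk 0x280000002800000008000000000000000000000000 0x100000007c0000005c000000df000000780000002c000000380000007c0000001c00000004 14 8) 0 0 (step_sound _ 195 [(rh6c59ce14113da07f.shift 3 1), (rh973cc6b6ab09634c.shift 2 0), (rhd5d193521cc593a5.shift 0 3), (rhf426f646ee928233.shift 2 0)] (by decide +kernel))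
noncomputable def rh21cd6becd0d1e296 : CRef := CRef.mk (Pat.mk 0x2000000028000000280000002000000000 0x180000003c0000003d4000007ff000003fe000007ef000003fc000007ef0000002c0000007c00000058 14 11) 0 0 (step_sound _ 198 [rh5bc5ef78c7447a70, rh6ab82dccb3f126dd, (rh9c1db2c8967fb481.shift 5 2), (rhf2348089b610990c.shift 5 1)] (by decide +kernel))
noncomputable def rhacacbaa36c9df70d : CRef := CRef.mk (Pat.mk 0x100000005000000050000000000000000000000000 0xa0000000e0000000e0000000e000000fe000000ff0000075f000003f8000007f00000008000000080 14 11) 0 0 (step_sound _ 101 [(rh1def81b060737c15.shift 0 2), (rh47bdbc56a4c90577.shift 3 0), (rh53a9eca71b4a4b8f.shift 3 0), (rha9fbfd4bb8cf890b.shift 1 3)] (by decide +kernel))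
noncomputable def rh60154d19a4dfb805 : CRef := CRef.mk (Pat.mk 0x80000000800000028000000280000000000000000 0x3440000034c000003ff000003fc000003a8000000fc0000006400000040 14 10) 0 0 (step_sound _ 133 [(rh3faceb6b72173bf9.shift 2 1), (rh51f2fd63cf2371b7.shift 2 0), (rh546c0d96df3df8c5.shift 2 0), (rhc9b562155b2d7f36.shift 2 0), (rhd5d193521cc593a5.shift 0 2), (rhf1285f27cb7eaae6.shift 2 0)] (by decide +kernel))
noncomputable def rh244cc11d1a28bac9 : CRef := CRef.mk (Pat.mk 0x2000000020000000a0000000a0000000000000000000000000 0x500000007a000001fe0000013f000001fe000001ff000000be000001ef0000018e0000010a00000100 14 9) 0 0 (step_sound _ 132 [(rh14c4335c03ecb6d3.shift 2 0), rh2e4f1061f88c71f8, (rh3f873d66945197af.shift 1 3), (rh6601768196b8ce00.shift 0 2), rh9f32efcec3906de1, (rhd5c7d822392a49ff.shift 0 1)] (by decide +kernel))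
noncomputable def rh94059c68b5383b15 : CRef := CRef.mk (Pat.mk 0x20000000a0000000a0000000000000000000000000 0xa0000003e0000003f000000fe000000be000000be000001fe000003fe0000011e00000100 14 10) 0 0 (step_sound _ 197 [(rh64d324585ca865ad.shift 3 2), (rh771d065bdc85bf2d.shift 4 2), (rh9c1a909469b2c0df.shift 4 0), (rhc82f273de14ac124.shift 0 1), (rhfb48bea540f6436d.shift 4 1)] (by decide +kernel))
noncomputable def rh1c45b60c76f6c673 : CRef := CRef.mk (Pat.mk 0x4000000140000001000000000000000000000000000000000000000000 0x180000023800001f7f00001ffe00003fff0000017c000001fe000007fc000003fe000002f0000002f000000020 14 14) 0 0 (step_sound _ 166 [(rh0adee9b3cd10f608.shift 3 1), (rh1feee178ec91ccda.shift 3 2), (rh20c68ac13517eb08.shift 0 1), (rh317cccc9c3d03212.shift 3 0), (rh448d18cae6809d1f.shift 4 1), (rh6a170a5d2b7f2b35.shift 4 0), (rh750e839ca6fcf545.shift 5 0), (rh899cf44139d5f154.shift 1 0), (rh9218e4fc9107e1fe.shift 3 0), (rh9aed8ce57f5522df.shift 5 1)] (by decide +kernel))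
noncomputable def rh99224d94b344727e : CRef := CRef.mk (Pat.mk 0x1000000050000000500000000000000000000000000000000000000000 0x80000000d8000000f00000005800000fdf000007ff000007ff000000fc000000bc00000028 14 12) 0 0 (step_sound _ 132 [(rh6eff4158bb400f47.shift 3 2), (rh713d96f87d124bea.shift 3 0), (rh7ab5b9e0440324c5.shift 3 0), (rhb50fddfb51d8cb0c.shift 2 3), (rhe373c8a3bee9551d.shift 0 1)] (by decide +kernel))
noncomputable def rhb0bcb9c2eef4c799 : CRef := CRef.mk (Pat.mk 0x100000005000000040000000000000000000000000 0x1800000098000007ff000007fe0000075f000000ec000000ec000000ec000000a0 14 11) 0 0 (step_sound _ 166 [(rh0289c84f19766124.shift 3 0), (rh06f2148f998ff904.shift 1 0), (rh0759fbafcd6f1fe3.shift 1 1), (rh33fe6c9070ada414.shift 0 1), (rh895960a8d60b102d.shift 5 0), (rhc84dbe89ac4dad8d.shift 3 0), (rhd92a92a910a01cb4.shift 1 1), (rhffa3797c068e6299.shift 3 0)] (by decide +kernel))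
noncomputable def rhcb570da65edee143 : CRef := CRef.mk (Pat.mk 0xa0000000a00000008000000000000000000000000000000000 0x1000000070000000700000007000000138000001fe000001fe000000bf000001bc000000f8000001fc000001d000000140 14 9) 0 0 (step_sound _ 103 [(rh2c718f29f451ad95.shift 4 3), rh39d5321b07baa302, (rh3a73674d7a676c64.shift 4 3), (rh838eef74c2246eae.shift 2 2), (rh984750d98b5f6a73.shift 3 1), (rha51f537e042fce54.shift 2 3)] (by decide +kernel))
noncomputable def rh8e8bba0432b9a99a : CRef := CRef.mk (Pat.mk 0x140000001400000010000000000000000000000000 0x20000000e0000000e0000000e000000270000003e0000003600000016000000370000003e0000003b0000002a 14 6) 0 0 (step_sound _ 68 [(rh8cdd36b03d57a2f6.shift 3 0), rh984750d98b5f6a73, (rhced6d86d2069808b.shift 4 1)] (by decide +kernel))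
noncomputable def rhb19c9c69160a3bef : CRef := CRef.mk (Pat.mk 0x400000005000000010000000000000000000000000000000000000000000000000 0x2800000038000000380000001f0000007f000000ff0000001f0000001f0000003f00000038000000380000003800000008 14 8) 0 0 (step_sound _ 260 [(rh2689b07844a98c21.shift 1 6), (rh5fc642262e3ec883.shift 1 3), (rh6b9d9ddc46c6d293.shift 2 0), (rha72b62203989cde9.shift 1 5), (rhb239db6498f10a60.shift 0 4), (rhe735cdb0c61f29c0.shift 1 5), (rhea8f55b2140e6e8e.shift 3 5)] (by decide +kernel))
noncomputable def rh9be55093c514fb96 : CRef := CRef.mk (Pat.mk 0x2000000020000000a0000000a00000010000000000000000000000000 0x10000000700000003e000000ff000000ca000000fe000000fb000000ff0000007d000000fc 14 8) 0 0 (step_sound _ 132 [(rh1fb8a98d57cf566b.shift 1 0), (rh5c64dca2f8eda19a.shift 0 1), (rh5d54cb79a67f97ab.shift 3 1), (rhdaad837b8ec7bb4b.shift 0 1)] (by decide +kernel))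
noncomputable def rha1ff4fd686552a0c : CRef := CRef.mk (Pat.mk 0x20000000a00000008000000000000000000000000000000000000000000000000000000000 0x100000007d0000001f0000000bc00000ffe000007fe00000fff000001fc000001c0000001c0000001c000000140 14 12) 0 0 (step_sound _ 295 [(rh06f2148f998ff904.shift 2 4), (rh0759fbafcd6f1fe3.shift 2 5), (rh895960a8d60b102d.shift 6 4), (rh9f5f877a3198bfa4.shift 1 0), (rhd92a92a910a01cb4.shift 2 5), (rhdf2509a7fa9a7360.shift 0 4), (rhffa3797c068e6299.shift 4 4)] (by decide +kernel))
noncomputable def rh3830ccf9cdb54ce6 : CRef := CRef.mk (Pat.mk 0x10000000500000004000000000000000000000000000000000000000000000000000000000 0x1800000098000007ff000007fe0000075f000007ef000003fe000007ff000000fe000000e0000000e0000000e0000000a0 14 11) 0 0 (step_sound _ 294 [(rh06f2148f998ff904.shift 1 4), (rh0759fbafcd6f1fe3.shift 1 5), (rh33fe6c9070ada414.shift 0 5), (rh895960a8d60b102d.shift 5 4), rh9f5f877a3198bfa4, (rhd92a92a910a01cb4.shift 1 5), (rhffa3797c068e6299.shift 3 4)] (by decide +kernel))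
noncomputable def rh1d29018a6c9d2448 : CRef := CRef.mk (Pat.mk 0x10000000500000004000000000000000000000000000000000000000000000000000000000 0x88000003fe000006f80000065000000fff000007fe00000fff000001fe000000e0000000e0000000e0000000a0 14 12) 0 0 (step_sound _ 198 [(rh35aeddda23b83f23.shift 1 4), (rh3e0678eb1e5c0f77.shift 3 4), rh3f298367fc0c8efb, (rh457adf4546d6e894.shift 3 4), (rh610697237aa0f099.shift 1 4), (rh80b14c002b5bedd2.shift 2 4), (rhd363b6b315e96be1.shift 1 2), (rhe864e76d6eabcb1f.shift 1 5)] (by decide +kernel))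
noncomputable def rh61b3428d87bcb381 : CRef := CRef.mk (Pat.mk 0x18000000100000001000000000000000000 0xce000000fe000000ff00000efe000007ff0000017e000003ff00000f7e0000027e 14 12) 0 0 (step_sound _ 134 [(rh1d65bb0a35b59d5d.shift 5 1), (rh684647bd66f98623.shift 3 1), (rh8ca15ac0a42977a4.shift 1 0), rh9cdc5be645e8d92d, (rha9927c6825142fe2.shift 1 0), (rhb1688bf6da1a7843.shift 4 1)] (by decide +kernel))
noncomputable def rh0fa9d42dc00e3327 : CRef := CRef.mk (Pat.mk 0x1800000050000000100000000000000000000000000 0x20000000e2e00000eee00000fff00001efe00000fff000005fe00000fff00000e7e00000e3e00000a00 14 13) 0 0 (step_sound _ 166 [(rh232cbea1b7742fe5.shift 2 3), (rh3af97aaf7689b5e3.shift 1 1), (rh844214a7d645d440.shift 3 1), (rh8651862b85b4b6a8.shift 3 0), (rh9cdc5be645e8d92d.shift 0 1), (rh9dd780c15a65806b.shift 4 3), (rh9e91a7f91ffbbd30.shift 1 1), (rhaa66659c174d4b4a.shift 2 0), (rhc9b953370b0fd62a.shift 2 2)] (by decide +kernel))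
noncomputable def rh28cabfe4e86f3265 : CRef := CRef.mk (Pat.mk 0x200000003000000080000000000000000000000000 0x500000007a000001fe000001fe0000007e0000003f0000003e000001ef0000007e0000007a00000050 14 9) 0 0 (step_sound _ 197 [(rh15d469b93028534c.shift 1 4), rh2612b0237b9ea3a3, rh33a89cd1ebc48a8c, (rh3df1c703e1be13a8.shift 4 2), (rh5341bed829e60292.shift 4 2), (rhc3be5a85d1bef1c4.shift 4 0), (rhd0898b532c108a7c.shift 4 1)] (by decide +kernel))
noncomputable def rh18cfa03ae75bf34a : CRef := CRef.mk (Pat.mk 0x8000000030000000200000000000000000000000000000000000000000 0x500000007a0000007e000001ef0000003e0000003f0000007e000001fe000001fe0000007a00000050 14 9) 0 0 (step_sound _ 133 [(rh02424fb9949006b2.shift 4 1), (rh54808b4dc6579a6d.shift 4 2), (rh59da567456d2f726.shift 4 1), (rh9ef2dc6b4f3c1068.shift 0 1), (rhb0e84a82a95fa304.shift 4 2), (rhb407d0cc461bc9ee.shift 0 1), (rhdf13e44449ce2706.shift 1 0)] (by decide +kernel))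
noncomputable def rh8711ed1458a47356 : CRef := CRef.mk (Pat.mk 0x2400000026000000200000000000000000000000000 0xb8000000f8000001fe000003ff000001fe000003ff0000037e0000022f0000003c0000001c00000014 14 10) 0 0 (step_sound _ 198 [(rh035135cb4492b28a.shift 2 4), (rh32431e66bbf434a4.shift 5 3), (rh7a7e08304268422e.shift 5 3), (rh976a48eb1c80a12f.shift 5 3), (rhe631278183080db2.shift 1 4), rhf216d62b03e3a01f] (by decide +kernel))
noncomputable def rh596958ef969ad422 : CRef := CRef.mk (Pat.mk 0x20000000260000002400000000000000000000000000000000000000000 0x140000001c0000003c0000022f0000037e000003ff000001fe000003ff000001fe000000f8000000b8 14 10) 0 0 (step_sound _ 134 [(rh01483ff9cba2f6ac.shift 5 1), (rh0a6888916bcef86b.shift 5 1), (rh83692b69a36621d2.shift 1 1), rhb9865204d547392c, (rhd1779d7de7f8215b.shift 5 1), (rhf027e97003782b3f.shift 2 0)] (by decide +kernel))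
noncomputable def rh8582989a95c20456 : CRef := CRef.mk (Pat.mk 0x100000005300000012000000000000000000000000000000000000000000000000000000000 0x20000000e0a00000e8e00000e9e00007edf00007fdf000075be0000ffff00007ef40000fff000007ef000000e7000000e7000000a7000000050 14 16) 0 0 (step_sound _ 197 [(rh011789c12a2c3fb6.shift 4 1), (rh0a6888916bcef86b.shift 4 3), (rh0d4440fc287ac4cc.shift 4 0), (rh5b70cb9f59499b67.shift 0 1), (rh9a8809016bc1e0e0.shift 4 1)] (by decide +kernel))
noncomputable def rhaf6c1f34786c3587 : CRef := CRef.mk (Pat.mk 0x800000029800000090000000000000000000000000000000000000000000000000000000000 0x1000000070500000747c0000747e0003f6fe0003feff0003adfe0007ff7c0003f7fc0007fffc0003fffe000073f0000073f0000053d000000280 14 19) 0 0 (step_sound _ 237 [(rh18b849cc917c3f18.shift 7 3), (rh45ab23f1ba0f00e1.shift 7 3), (rh4c8206db8f5451aa.shift 9 4), (rhc4824cb784d5a337.shift 0 1), (rhff66d7847df99465.shift 1 0)] (by decide +kernel))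
noncomputable def rh8b569600df8591a6 : CRef := CRef.mk (Pat.mk 0x1000000053000000120000000000000000000000000000000000000000000000000 0x20000000e0000000e8000000ebf00007efe00007fde000075b400000ffe00003ef800000ff800000ef000000e5000000e0000000a00 14 15) 0 0 (step_sound _ 202 [(rh10cf9df22ce55649.shift 1 0), (rh18b849cc917c3f18.shift 4 2), (rh30cce009a851b4d4.shift 0 2), (rh45ab23f1ba0f00e1.shift 4 2), (rh4c8206db8f5451aa.shift 6 3)] (by decide +kernel))
noncomputable def rhb47613c0b33b1b87 : CRef := CRef.mk (Pat.mk 0x800000001800000090000000000000000000000000000000000 0x150000001f8000001f8000007fe000007fe000007ff00000efe000001fc00000ff800000770000003f0000003f000000050 14 12) 0 0 (step_sound _ 231 [(rh0588d2c7f2cab5e9.shift 7 2), (rh0ccae6f8ac2fa539.shift 4 3), (rh3862a03b00fec8b3.shift 1 4), (rh8b8d6069fa3a8116.shift 2 1), rhad37c1dbc8974dc1, (rhe26288d3ca1f5593.shift 2 3)] (by decide +kernel))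
noncomputable def rhf0b7023fed212b81 : CRef := CRef.mk (Pat.mk 0x80000000980000009000000000000000000000000000000000000000000 0xe0000000f4000000fc00000ffc00000ffe000007ff00000efe000009ff00000ffe000006fe000007f8000003f8000000f000000050 14 12) 0 0 (step_sound _ 169 [(rh2fe78cc5ca4405d8.shift 7 5), rha777e7c53cfb2f96] (by decide +kernel))
noncomputable def rh6519798adf084508 : CRef := CRef.mk (Pat.mk 0x2000000026000000240000000000000000000000000000000000000000000000000 0x140000001c0000001c000003ff000001fe000003bf0000037c0000037c000001ff000003fe000003ff000000bc0000001c00000004 14 10) 0 0 (step_sound _ 197 [(rh021be2dbb88d2ecc.shift 2 2), rh0c36b92a59a6a981, (rh1b3246e5eab9b1cd.shift 2 3), (rh260a8f1280168aaa.shift 2 3), (rh73815983ca48aaaa.shift 1 2), (rh77ce5dd96bed9d0b.shift 2 3), (rh9d05b35de45e3f37.shift 1 3), (rhbdad035fa4559cff.shift 0 3), (rhc0f7e0d500300501.shift 2 2), (rhc60c159f9fad40ac.shift 2 3), (rhd210d12044a8a0de.shift 1 3), (rhd5f0ba255d2ba158.shift 1 2), (rhf5ef507c264cf1ec.shift 2 3)] (by decide +kernel))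
noncomputable def rhc97333824bf4a630 : CRef := CRef.mk (Pat.mk 0x2000000026000000240000000000000000000000000 0x140000001c0000001c000003ff000001fe000003bf0000037c000003fc000001f4000003fc000003fe 14 10) 0 0 (step_sound _ 101 [(rh0663dc229492a41a.shift 2 0), (rh0beec28bf9f27fe1.shift 2 0), (rh3fe3ff97f384a00a.shift 2 0), rh527e3db9b792c9fb, rh5f2f04b808cb8a83, (rh69dfd60f4854d63f.shift 2 0), rhbdad035fa4559cff, (rhd69c7b3c85eb36e9.shift 4 0), (rhe259cd048fff11fe.shift 2 0), (rhe93e15031c0721ba.shift 2 0)] (by decide +kernel))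
noncomputable def rh5c2e31e19443482d : CRef := CRef.mk (Pat.mk 0x12000000530000001000000000000000000000000000000000000000000 0x5000000a7000000e7000000e7000007ef00000fff000007ef40000ffff000075be00007fdf00007edf00000e9e00000e8e00000e0a00000200 14 16) 0 0 (step_sound _ 261 [(rh03bd649c87d6ed86.shift 4 5), rh301a77da26dab9de, (rh32431e66bbf434a4.shift 4 5), (rh5d163e3fb98485eb.shift 4 0), (rhfa6264abc9c78c82.shift 4 5)] (by decide +kernel))
noncomputable def rhfcc004de7bd0d66e : CRef := CRef.mk (Pat.mk 0x90000002980000008000000000000000000000000000000000000000000 0x280000053d0000073f0000073f00003fffe0007fffc0003f7fc0007ff7c0003adfe0003feff0003f6fe0000747e0000747c0000705000001000 14 19) 0 0 (step_sound _ 237 [(rh4927961b97a06fbb.shift 1 0), (rh88eeadb012886b65.shift 7 5), (rhda19cf75efd906a0.shift 7 2), (rhdfa5e7b350e617de.shift 9 2), (rhe3ea4c6b8d3b3b2a.shift 0 1)] (by decide +kernel))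
noncomputable def rhe426caf06aacd684 : CRef := CRef.mk (Pat.mk 0x12000000530000001000000000000000000000000000000000000000000 0xa0000000e0000000e5000000ef000000ff800003ef800000ffe000075b400007fde00007efe00000ebf00000e8000000e0000000200 14 15) 0 0 (step_sound _ 234 [(rh0b116c410e968692.shift 1 3), (rh88eeadb012886b65.shift 4 5), (rhda19cf75efd906a0.shift 4 2), rhdf679ad4e73f9ae6, (rhdfa5e7b350e617de.shift 6 2)] (by decide +kernel))
noncomputable def rhdd14922150cd351a : CRef := CRef.mk (Pat.mk 0x9000000018000000800000000000000000000000000000000000000000000000000 0x50000003f0000003f00000077000000ff8000001fc00000efe000007ff000007fe000007fe000001f8000001f800000150 14 12) 0 0 (step_sound _ 167 [(rh00d6a6e3c7e3bb40.shift 7 4), (rh10f6f7290a84f7dc.shift 1 0), (rh7221ee311a031523.shift 2 4), rh7d2d0caf22f39d0f, (rh9506972e07edd24d.shift 4 4), (rhb61b7af033e20bce.shift 2 4)] (by decide +kernel))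
noncomputable def rh07872e09e65cafe9 : CRef := CRef.mk (Pat.mk 0x9000000098000000800000000000000000000000000000000000000000000000000 0x50000000f0000003f8000007f8000006fe00000ffe000009ff00000efe000007ff00000ffe00000ffc000000fc000000f4000000e0 14 12) 0 0 (step_sound _ 265 [rh30dc55e43d717d86, (rh361cc68994bd8a63.shift 7 7)] (by decide +kernel))
noncomputable def rh413f2a8acd3ee579 : CRef := CRef.mk (Pat.mk 0x24000000260000002000000000000000000000000000000000000000000 0x40000001c000000bc000003ff000003fe000001ff0000037c0000037c000003bf000001fe000003ff0000001c0000001c00000014 14 10) 0 0 (step_sound _ 229 [(rh0b8f95f95ba0e04e.shift 1 2), (rh27b18d292ed76d6d.shift 2 3), (rh2ff5af9726fbdf8c.shift 2 3), (rh3d2bdf77cccfa7d0.shift 2 2), (rh6251c70a315e5de4.shift 1 2), (rh805e68a7c6e9f33e.shift 2 3), (rh88ac45524b40bc1a.shift 2 3), (rha7e5803853a77083.shift 2 2), (rha863cc305a27ae62.shift 2 3), (rhaab590536ec4d68c.shift 1 2), (rhac1590900e9dfded.shift 1 2), (rhdb2633ab45f0e62d.shift 0 3), rhec8fd9c0afdec7bb] (by decide +kernel))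
noncomputable def rh910d081a9731f632 : CRef := CRef.mk (Pat.mk 0x24000000260000002000000000000000000000000000000000000000000 0x3fe000003fc000001f4000003fc0000037c000003bf000001fe000003ff0000001c0000001c00000014 14 10) 0 0 (step_sound _ 229 [(rh179ebff7e77cc28e.shift 2 3), (rh1d79788967e8094e.shift 2 5), (rh4135b4e4b0cee55c.shift 2 3), (rh6beee8ddcac0c9aa.shift 2 3), (rh92a87d3877e927c4.shift 4 3), (rha0aafd448b210b03.shift 0 2), (rhbe15f929dd4c85b6.shift 0 2), (rhe853dafdee702e94.shift 2 3), (rhea217decea915712.shift 2 3), rhec8fd9c0afdec7bb] (by decide +kernel))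
noncomputable def rh0a19a1ebb62f26f8 : CRef := CRef.mk (Pat.mk 0x1000000053000000120000000000000000000000000000000000000000 0x20000000e0000000ed000000ff000000ef000000fe0000005b000000ff000000ed000000fc000000e0000000e000000020 14 8) 0 0 (step_sound _ 227 [(rh3275d016f2188932.shift 0 4), rh3684a7c6a1631caf, (rh4e22726321437a71.shift 0 4), (rh7bf07bef293f4f3a.shift 0 4), (rhc1dd1d01351c6259.shift 0 4), rhca377049c105494e] (by decide +kernel))
noncomputable def rh10240c7ba9b3547e : CRef := CRef.mk (Pat.mk 0x1200000053000000100000000000000000000000000000000000000000 0x20000000e0000000e0000000fc000000ed000000ff0000005b000000fe000000ef000000ff000000ed000000e000000020 14 8) 0 0 (step_sound _ 163 [rh700b10658a509aa6, (rh811c6c612ab2329f.shift 0 2), (rh9555cd22f03b8595.shift 0 3), (rhb3205a3c21752f40.shift 0 2), rhc123bab1ccf74a5f, (rhc4e7909b41f8cbd3.shift 0 2)] (by decide +kernel))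
noncomputable def rhee31d21c592e8ec1 : CRef := CRef.mk (Pat.mk 0x18000000020000000000000000000000000000000000000000000000000 0x500000007000000070000000ff000000fe000001fe000000fe000000fe0000003e0000003c000000700000007000000050 14 9) 0 0 (step_sound _ 196 [(rh3ddcd74eb48bb311.shift 1 3), (rh5afd0153e82d7335.shift 0 3), (rh8142cc132ad3d394.shift 2 0), (rhaa26c83b691e7073.shift 1 5), (rhd06a3fb214439eaf.shift 3 6)] (by decide +kernel))
noncomputable def rh004f34a2c48a5796 : CRef := CRef.mk (Pat.mk 0x80000000980000008200000000000000000000000000000000000000000 0x100000001d0000001fc000002fe00000ffe00000dff00000ffe000007ef00000ffc000007f8000003f000000050 14 12) 0 0 (step_sound _ 164 [(rh74300a63a274f3fb.shift 4 1), rha727f0bc1ec88f88, (rhaa26c83b691e7073.shift 1 4), (rhd06a3fb214439eaf.shift 3 5), (rhd79f87ddfcd82202.shift 3 1)] (by decide +kernel))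
noncomputable def rh8ed2132bdfadf651 : CRef := CRef.mk (Pat.mk 0x80000000980000008200000000000000000000000000000000000000000 0x100000001e8000001f8000000ff000009fe00000dfe00000ffe000007be000005fe000005f8000001e800000140 14 12) 0 0 (step_sound _ 164 [(rh5afd0153e82d7335.shift 0 2), (rhaa26c83b691e7073.shift 1 4), (rhb6af07858a8aa4a5.shift 2 1), (rhd06a3fb214439eaf.shift 3 5), (rhd5a89dea7d3d9311.shift 1 0)] (by decide +kernel))
noncomputable def rh355ec9b2c4a243fd : CRef := CRef.mk (Pat.mk 0x400000004c0000004100000000000000000000000000000000000000000 0xa8000000f8000000f800000178000007f0000006f8000007ff000003ff000003ff000003fc000001fc00000028 14 11) 0 0 (step_sound _ 163 [(rh74300a63a274f3fb.shift 3 1), (rh8ce288e297c98be7.shift 2 1), rhc98e9b3f3316eb4d, (rhd06a3fb214439eaf.shift 2 5)] (by decide +kernel))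
noncomputable def rhb9bb45f59436a2f0 : CRef := CRef.mk (Pat.mk 0x10000000130000001040000000000000000000000000000000000000000 0xa0000000e0000001e0000005f000001ff000001be000001f6000000fe000000fe000000fe0000007a00000050 14 9) 0 0 (step_sound _ 194 [(rh212e60089d21115e.shift 0 5), rh5199192ddcdb5437, (rh6d4a71cc437835fc.shift 1 4), (rh6fe448e407e2368a.shift 1 2), (rh7518f3e739dceaf4.shift 0 2), (rhc39aa86b0941cb24.shift 0 5)] (by decide +kernel))
noncomputable def rhc07f0a6da2474738 : CRef := CRef.mk (Pat.mk 0x400000004c0000004100000000000000000000000000000000000000000 0xa0000000f4000000fc0000017c000007fc000006de000007ff000003ff000007ff000003fc000001e800000020 14 11) 0 0 (step_sound _ 166 [(rh0022f7d4027408d1.shift 2 1), (rh36f3e860d4b4dbe6.shift 3 2), (rh3900709c877feac2.shift 3 2), (rh3ebdd0880aebdecf.shift 3 2), (rh3f2ba84d663c4bfc.shift 2 0), (rh6bb9e3684fc59b03.shift 3 1), (rh8b41e08f589ba38b.shift 3 1), (rhe8b4441de656021c.shift 3 1), (rhed20bdce0d4270f8.shift 3 3), (rhf889eadc7575626c.shift 3 2), (rhffc0b19cffe1f4d4.shift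 0 1)] (by decide +kernel))
noncomputable def rh0024fcf83dd24327 : CRef := CRef.mk (Pat.mk 0x20000001800000000000000000000000000000000000000000 0x5000000070000000700000003c0000003e000000fe000000fe000001fe000000fe000000ff000000700000007000000050 14 9) 0 0 (step_sound _ 196 [(rh1b0dfb582b210625.shift 0 3), (rh79cbd2b541c1c295.shift 2 0), (rh9eee4c6bb46bd9bb.shift 1 5), (rha7b253017a5af1e0.shift 3 5), (rhee0dd698f306bede.shift 1 4)] (by decide +kernel))
noncomputable def rh794e50af9d1cc6f5 : CRef := CRef.mk (Pat.mk 0x820000009800000080000000000000000000000000000000000 0x50000003f0000007f800000ffc000007ef00000ffe00000dff00000ffe000002fe000001fc000001d000000100 14 12) 0 0 (step_sound _ 196 [(rh34504ae126c5d9d5.shift 3 2), (rh9eee4c6bb46bd9bb.shift 1 5), (rha7b253017a5af1e0.shift 3 5), (rhc135a6f699b09cdd.shift 4 0), (rhd8228a755bc99c98.shift 0 1)] (by decide +kernel))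
noncomputable def rh344558f747eedf72 : CRef := CRef.mk (Pat.mk 0x820000009800000080000000000000000000000000000000000 0x140000001e8000005f8000005fe000007be00000ffe00000dfe000009fe000000ff000001f8000001e800000100 14 12) 0 0 (step_sound _ 196 [(rh0a9c4f3b6b508c88.shift 2 3), (rh0ea4216b5ffce22e.shift 1 0), (rh1b0dfb582b210625.shift 0 3), (rh9eee4c6bb46bd9bb.shift 1 5), (rha7b253017a5af1e0.shift 3 5)] (by decide +kernel))
noncomputable def rh19ae11945bd95cb2 : CRef := CRef.mk (Pat.mk 0x410000004c00000040000000000000000000000000000000000 0x28000001fc000003fc000003ff000003ff000007ff000006f8000007f000000178000000f8000000f8000000a8 14 11) 0 0 (step_sound _ 195 [rh05b730fabbb42378, (rha7b253017a5af1e0.shift 2 5), (rhc135a6f699b09cdd.shift 3 0), (rhcab69dc4527dbc14.shift 2 2)] (by decide +kernel))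
noncomputable def rha0de76aec3bd1388 : CRef := CRef.mk (Pat.mk 0x104000001300000010000000000000000000000000000000000 0x500000007a000000fe000000fe000000fe000001f6000001be000001ff0000005f0000001e0000000e0000000a 14 9) 0 0 (step_sound _ 162 [(rh1842315e10b0debc.shift 0 2), (rh2c08e76e4d54697a.shift 1 2), rh2dd356877aa18ecd, (rha7208d5eeafc31c8.shift 0 4), (rhd3f92e1437b0e789.shift 0 4), (rhd77eaed57a9a778b.shift 1 2)] (by decide +kernel))
noncomputable def rha1bf7bc99e50528e : CRef := CRef.mk (Pat.mk 0x410000004c00000040000000000000000000000000000000000 0x20000001e8000003fc000007ff000003ff000007ff000006de000007fc0000017c000000fc000000f4000000a0 14 11) 0 0 (step_sound _ 198 [rh20f6d96ad4951d7d, (rh29f6ec47af959cba.shift 3 2), (rh2f367f208ca57fa4.shift 2 3), (rh30beeadf14f38b04.shift 3 3), (rh58e556083d2898f7.shift 3 0), (rh5e9b930f9f3e65bd.shift 3 3), (rh9199b6f4b93274f0.shift 2 3), (rha6f02ae565bbabac.shift 3 2), (rhd00648646a540a59.shift 3 3), (rhd539ad32833f473f.shift 3 4), (rhf08c82a25e0f7291.shift 3 3)] (by decide +kernel))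
noncomputable def rhc356325b798ad30d : CRef := CRef.mk (Pat.mk 0x880000001800000080000000000000000000000000 0xc0000002c0000007f000000ff0000001f000000fe0000007f0000007e0000002c 14 8) 0 0 (step_sound _ 100 [rhb592d46129d82bbc, (rhc2c7bae8f445c890.shift 3 1), rhd49cddbc3454dce2] (by decide +kernel))
noncomputable def rhe5210533c9dd21e5 : CRef := CRef.mk (Pat.mk 0x800000001800000088000000000000000000000000 0x2c0000007e0000007f000000fe0000001f000000ff0000007f0000002c0000000c 14 8) 0 0 (step_sound _ 164 [rh385ee42a3210a22f, (rh5554349e0f397d88.shift 0 2), (rhcf80391c5046a495.shift 3 1)] (by decide +kernel))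
noncomputable def rh8cbd521288ea35d1 : CRef := CRef.mk (Pat.mk 0x8000000098000000800000000000000000000000000000000000000000 0x280000003a0000007e000000ff000000df000000ff0000007f000000ff0000007f0000003c00000008 14 8) 0 0 (step_sound _ 163 [(rh023205e19f3453a4.shift 0 2), (rh02c7218cc810d1cb.shift 0 2), (rh09e1e07911c947ac.shift 0 2), (rh263fac02a271e3fd.shift 0 1), (rh3979e4d097d6d46a.shift 0 3), (rh54d942dff9d7212f.shift 0 2), rh5bba1bd34d83d378, (rh7e41f218fbdebcec.shift 0 2), (rh8ae470e156072442.shift 0 2), (rha4de965d49f749e4.shift 0 2), (rhb7158fca0e3963ac.shift 0 2), (rhdd9a547a943ea3e1.shift 0 2), (rheb0c59a1644ce103.shift 0 2)] (by decide +kernel))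
noncomputable def rhb0a7ec1af7cbaae8 : CRef := CRef.mk (Pat.mk 0x800000009800000080000000000000000000000000 0x80000003c0000007f000000ff0000007f000000ff000000df000000ff0000007e0000003a00000028 14 8) 0 0 (step_sound _ 163 [(rh1d29adb9761a2700.shift 0 1), rh3789af4ae0b870ea, (rh3d97dd7ec9c47be4.shift 0 1), rh505aa06148e130d1, rh5c958660f015e174, (rh8162256afb8560d3.shift 0 1), (rh98f6d7586350f8ca.shift 0 1), rhae5ca070f686698e, (rhb21f14f49386d335.shift 0 1), (rhbc4ef545190063d6.shift 0 1), (rhdd00a17c90c898c9.shift 0 1), (rhe9be15ecd46b9644.shift 0 1), (rhf13d332344ab0207.shift 0 1)] (by decide +kernel))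
noncomputable def rh1a6c6c0834f9c02c : CRef := CRef.mk (Pat.mk 0x11000000130000001000000000000000000 0x28000000f8000001fe000000fe000001f7000001be0000017f0000007e00000078 14 9) 0 0 (step_sound _ 133 [(rh1035fb13cee6a31c.shift 1 0), (rh127bebb648a3946c.shift 1 0), (rh2a6f1d245b226674.shift 1 0), (rh45933d6a9168fb6a.shift 1 0), rh802733d91df2925f, (rhd715f3d306171c18.shift 1 0), (rhf6a3776b7cfca2ba.shift 2 0)] (by decide +kernel))
noncomputable def rh6ea9d2fc094d777c : CRef := CRef.mk (Pat.mk 0x100000001300000011000000000000000000000000000000000 0x780000007e0000017f000001be000001f7000000fe000001fe000000f800000028 14 9) 0 0 (step_sound _ 133 [(rh6394440062ca24cf.shift 1 1), (rh77e4e9dbf97023ce.shift 0 1), (rh8352f405aacad2c8.shift 1 1), (rh85d77ecd2c80b326.shift 1 1), (rh9ab9340be25a56d2.shift 2 1), (rhd5e7e24ce050b165.shift 1 1), (rhe423239160308775.shift 1 0)] (by decide +kernel))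
noncomputable def rh402f08fa858c36dc : CRef := CRef.mk (Pat.mk 0x100000001300000010000000000000000000000000000000000 0x500000007a000000fe000000ee000000fe000001ff000001be000001ff000000ff000001fe000000fe0000002e 14 9) 0 0 (step_sound _ 132 [(rh212d223d203c11cf.shift 1 1), (rh25da0fd53ac7175a.shift 1 1), (rh3d1460994116117f.shift 1 1), (rh5cbfe98b9393b9aa.shift 1 2), (rh8870bb265f6a1cd2.shift 1 0), (rh951b5652bdf46155.shift 1 1), (rha35b8a202b16b558.shift 2 1), (rha9f746ff2dd0ceca.shift 1 0), (rhc96e7d51c9393d9d.shift 1 1), rhdbd1d7167f227956, (rhfb8ba9235e7bd91e.shift 1 1)] (by decide +kernel))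
noncomputable def rh72477b37c0075bc2 : CRef := CRef.mk (Pat.mk 0x10000000130000001000000000000000000000000000000000000000000 0x2e000000fe000001fe000000ff000001ff000001be000001ff000000fe000000ee000000fe0000007a00000050 14 9) 0 0 (step_sound _ 228 [(rh4a30900feb3b8899.shift 1 2), (rh76610f338794f13c.shift 1 0), (rh777f6d8f49756a84.shift 1 3), (rh853d39100b6037d8.shift 0 2), (rh88e8330cfa612e6e.shift 1 3), (rh9c79001833cb1556.shift 2 3), (rhabc68748a83660b5.shift 1 0), (rhb6743efcec4278a1.shift 1 2), (rhbbd4d2afcc18df7e.shift 1 2), (rhcd6fa17133ed146a.shift 1 3), (rhf054d13389da922d.shift 1 3)] (by decide +kernel))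
noncomputable def rha962af80b754760d : CRef := CRef.mk (Pat.mk 0x800000009800000090000000000000000000000000 0x280000007c000000fc0000005f000000ff000000de000000fe0000007c0000003c00000020 14 8) 0 0 (step_sound _ 101 [(rh2fe78cc5ca4405d8.shift 3 3), rhdc9515335960f5c3] (by decide +kernel))
noncomputable def rh104504d7377fa162 : CRef := CRef.mk (Pat.mk 0x1000000003000000120000000000000000000000000 0x18000000380000003e000001fe0000003e000001fe000000fe0000005f00000048 14 9) 0 0 (step_sound _ 102 [rh12d11c9728e0e07e, (rh2fe78cc5ca4405d8.shift 4 3)] (by decide +kernel))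
noncomputable def rheb195bedfc1c12c4 : CRef := CRef.mk (Pat.mk 0x8000000018000000900000000000000000000000000000000000000000 0xc0000001e000000ff0000001f000000df0000007f000001ff0000003c0000003800000028 14 9) 0 0 (step_sound _ 132 [(rh37c2b49a4125ec78.shift 0 2), (rh8df7e1e14f0bb9c4.shift 1 0), (rhb1a251d9bff81766.shift 3 3), (rhf9a6286f1d5377a2.shift 3 3)] (by decide +kernel))
noncomputable def rhdf06d002337f1cb5 : CRef := CRef.mk (Pat.mk 0x90000000980000008000000000000000000000000000000000 0x200000003c0000007c000000fe000000de000000ff0000005f000000fc0000007c00000028 14 8) 0 0 (step_sound _ 197 [(rh361cc68994bd8a63.shift 3 5), rha07de4476072769d] (by decide +kernel))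
noncomputable def rh1a60121b91c04d13 : CRef := CRef.mk (Pat.mk 0x1200000003000000100000000000000000000000000 0x480000005f000000fe000001fe0000003e000001fe0000003e0000003800000018 14 9) 0 0 (step_sound _ 166 [(rh361cc68994bd8a63.shift 4 4), rh76664d471ab9ce51] (by decide +kernel))
noncomputable def rhc7e9b0877b06d19e : CRef := CRef.mk (Pat.mk 0x9000000018000000800000000000000000 0x28000000380000003c000001ff0000007f000000df0000001f000000ff0000001e0000000c 14 9) 0 0 (step_sound _ 164 [(rh281c6819542c66e6.shift 3 0), rhc0197e547be5a687, (rhc8cdf55a7120aa2f.shift 1 2), (rhfafeb437ceb8396d.shift 3 0)] (by decide +kernel))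
noncomputable def rh869bb95937f752d0 : CRef := CRef.mk (Pat.mk 0x300000012000000000000000000000000000000000 0x100000007c0000007c000000fe0000003e0000003e000001ff000000ee0000007e0000007000000050 14 9) 0 0 (step_sound _ 197 [(rh01e7a5813b8e330e.shift 4 3), (rh27b28d6035436051.shift 4 0), (rh4c145d583973abd2.shift 4 1), (rh64d81e43c99da735.shift 2 2), rh9f8fa3968b2569a4] (by decide +kernel))
noncomputable def rh3124d18085ac5284 : CRef := CRef.mk (Pat.mk 0x120000000300000000000000000000000000000000000000000 0x50000000700000007e000000ee000001ff0000003e0000003e000000fe0000007c0000007c00000010 14 9) 0 0 (step_sound _ 133 [(rh1bf17aca12f91bb0.shift 0 1), (rh30538429c83531ce.shift 4 1), (rh566659606c8abe04.shift 4 3), (rh6d9172875361fe79.shift 4 0), (rhc37c27b8316f4fd0.shift 2 1)] (by decide +kernel))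
noncomputable def rh074cf8c562dab0a8 : CRef := CRef.mk (Pat.mk 0x20000000260000002000000000000000000000000000000000000000000 0xa0000001f0000001f0000001fc000003fc00000370000007fe000001fe000003ff000003fc000000fc000000f4 14 11) 0 0 (step_sound _ 134 [(rh2d4fe43f53412df5.shift 5 1), (rh486d5936ba9f156c.shift 3 0), (rh4ab93fe584b32b4f.shift 3 0), rh59cf3ee7a8dedd69, (rh69632e06fe7cd677.shift 5 1), (rh8bd2bde92409bcf3.shift 2 2), (rha242aefea148926b.shift 5 1), (rha5b0a1800cb58b7d.shift 2 0), (rhba429d274b59eaba.shift 5 1), (rhfa0c806ef3217d05.shift 5 1)] (by decide +kernel))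
noncomputable def rh667038beb6a30d39 : CRef := CRef.mk (Pat.mk 0x8000000298000002800000000000000000000000000000000000000000 0x280000043800000778000007f800000778000007f8000002d8000006fe0000077f0000077e0000073e0000043800000028 14 11) 0 0 (step_sound _ 230 [rh0f4d9a9442b0d789, (rh509f692689885a9e.shift 5 1), (rh8ca3a0eb7c389e6f.shift 3 1), (rhbe1d01bec249fb0d.shift 3 1), (rhe2c116b4994e1afc.shift 5 2)] (by decide +kernel))
noncomputable def rhd801096f56f9f6cb : CRef := CRef.mk (Pat.mk 0x20000000a6000000a0000000000000000000000000000000000000000000000000000000000 0xf0000014f800001df800001dfc00001ffc00000a6c0001fffc0000fdfe0001fffe0000ffff00001cf000001c5000001c0000001400 14 17) 0 0 (step_sound _ 197 [(rh11b4ee3a0e76d609.shift 2 1), (rh1af5b4078f91b61f.shift 2 1), (rh3eb86c7571eb6bf9.shift 0 3), (rh72bb2d888ceb5075.shift 2 1), (rh798f66d33c0d9e26.shift 2 3), (rh824c7734b8d888cf.shift 5 0), (rh89397aec83bd1b6b.shift 2 2), (rhd7a045e1e80d8196.shift 0 1)] (by decide +kernel))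
noncomputable def rhc2df87f608d95596 : CRef := CRef.mk (Pat.mk 0x1000000013000000110000000000000000000000000 0x10000000700000007e000000ee000001ff000001be000001fe000000ff000000dc0000008c 14 9) 0 0 (step_sound _ 165 [(rh69a7013e8d8e1999.shift 1 0), rh831cca3d68dab43f, (rhcf80391c5046a495.shift 4 1), (rhf9366b6a121593ef.shift 4 1)] (by decide +kernel))
noncomputable def rh39d5efb2fbe46837 : CRef := CRef.mk (Pat.mk 0x800000009800000088000000000000000000000000 0x3000000077000000ff000000db000000ff0000007f0000007d00000040 14 8) 0 0 (step_sound _ 164 [(rh358736babf21756e.shift 3 2), rh5164e41a8042b476, (rh9cdee070315fb032.shift 3 2), (rhcf80391c5046a495.shift 3 1), (rhf9366b6a121593ef.shift 3 1)] (by decide +kernel))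
noncomputable def rha275cc5d2280fdfe : CRef := CRef.mk (Pat.mk 0x400000000c00000044000000000000000000000000000000000 0x68000001f8000001ff000001be000007ff000000ff000007ff000003be000001fc000001fc00000170 14 11) 0 0 (step_sound _ 132 [rh0a91d56afd1e7c2c, (rh340b378386c8e92b.shift 3 1), (rh464482e2b33d85ca.shift 3 1), (rh47ec3a61bb0ba774.shift 3 1), (rh5f9df8b2ee3fe0a7.shift 0 1), (rhb23d3d967d0a3756.shift 3 0)] (by decide +kernel))
noncomputable def rh3dec54d77d412a5e : CRef := CRef.mk (Pat.mk 0x200000000600000022000000000000000000000000000000000 0x20000000e8000000fc000001dc000003ff0000007e000003ff000000be0000007e0000003c00000014 14 10) 0 0 (step_sound _ 198 [rh12c6b1a0df304049, (rh831cca3d68dab43f.shift 1 1), (rhcf80391c5046a495.shift 5 2), (rhf9366b6a121593ef.shift 5 2)] (by decide +kernel))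
noncomputable def rh045780116b2e95c3 : CRef := CRef.mk (Pat.mk 0x110000001300000010000000000000000000000000000000000 0x8c000000dc000000ff000001fe000001be000001ff000000ee0000007e0000007000000010 14 9) 0 0 (step_sound _ 133 [rh9a63391a84b507fa, (rhc2c7bae8f445c890.shift 4 2), (rhc38f566cab2818e5.shift 4 2), (rhd18c3c4b00e3c471.shift 1 3)] (by decide +kernel))
noncomputable def rh6cb1fe6b58af82c3 : CRef := CRef.mk (Pat.mk 0x8800000098000000800000000000000000 0x400000007d0000007f000000ff000000db000000ff0000007700000030 14 8) 0 0 (step_sound _ 68 [(rh4d5ec4caa1ea9a2e.shift 3 0), (rh77939ef9ae24b818.shift 0 1), (rh7e1098702e50f2b0.shift 3 0), (rhc2c7bae8f445c890.shift 3 0), (rhc38f566cab2818e5.shift 3 0)] (by decide +kernel))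
noncomputable def rhea8fb61912021baf : CRef := CRef.mk (Pat.mk 0x440000000c00000040000000000000000000000000000000000 0x170000001fc000001fc000003be000007ff000000ff000007ff000001be000001ff000001f800000068 14 11) 0 0 (step_sound _ 196 [(rh3239e164e599a8a2.shift 3 0), rh9d4b8f5122054b80, (rha4ccd487d35eb2df.shift 3 2), (rhbd80dea290af07c6.shift 0 2), (rhde6280409ab43150.shift 3 2), (rhe823384f686e162c.shift 3 1)] (by decide +kernel))
noncomputable def rhc82df8dc739ed90d : CRef := CRef.mk (Pat.mk 0x220000000600000020000000000000000000000000000000000 0x140000003c0000007e000000be000003ff0000007e000003ff000001dc000000fc000000e800000020 14 10) 0 0 (step_sound _ 134 [(rh9a63391a84b507fa.shift 1 0), (rhc2c7bae8f445c890.shift 5 2), (rhc38f566cab2818e5.shift 5 2), (rhd5b58ffc4b063a98.shift 0 1)] (by decide +kernel))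
noncomputable def rh8b7328559dfc5c12 : CRef := CRef.mk (Pat.mk 0xa0000000a60000002000000000000000000000000000000000000000000 0xa0000001e0000001f0000005f000001ff700000b7e00001fff00001dfe00001dfe000014fe000000e8000000a0 14 13) 0 0 (step_sound _ 166 [(rh9c6b9a0537523f69.shift 5 3), (rha2c745313f9b529d.shift 1 0), (rha3157c1af5e7a0d4.shift 3 0), (rhf7fdb9666d162e22.shift 5 1), (rhf92d8d604bc8bbac.shift 0 2)] (by decide +kernel))
noncomputable def rh12d2158e5dde380f : CRef := CRef.mk (Pat.mk 0x50000000530000001000000000000000000000000000000000000000000 0x500000087000000efc00000fff00000efe000007f8000005be00000ffe00000efe00000bff000000fc0000007400000050 14 12) 0 0 (step_sound _ 165 [(rh1facce8ef24f846c.shift 4 3), (rh26db98d9804546e5.shift 0 1), (rh3b18d927ac3dd480.shift 4 2), (rh785da59ea9079958.shift 2 1), (rhb5d0fd30e39e6a19.shift 0 3), (rhd5aba1493b366a87.shift 0 2), (rhe62d9e28e7df81f4.shift 1 0), (rhecd61630fddf5126.shift 1 2), (rhf07649b063a7e700.shift 4 2)] (by decide +kernel))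
noncomputable def rhd84d5253eb3f33db : CRef := CRef.mk (Pat.mk 0xa0000000a600000020000000000000000000000000000000000000000000000000000000000 0x140000001cf000001cf00000ffff0001fffe0000fdfe0001fff700000a7c00001ffc00003dfe00001ffc00001dfe000010f0000000f0000000e0000000a0 14 17) 0 0 (step_sound _ 325 [(rh2094e42b038d55b1.shift 4 4), (rh54bdc6274bb6907a.shift 1 2), (rh62253a465f06ab33.shift 1 0), (rh716c3009931f7938.shift 2 4), (rh731e19076d70f5e9.shift 5 5), (rh8a63740ddd9e550b.shift 2 2), (rhb046ca9bba640c44.shift 0 5), (rhc4f10df55f622b11.shift 0 2), (rhdb24f988c42d0861.shift 2 2)] (by decide +kernel))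
noncomputable def rhad81f55df9fb608c : CRef := CRef.mk (Pat.mk 0x20000000a6000000a0000000000000000000000000000000000 0xa0000000e8000014fe00001dfe00001dfe00001fff00000b7e00001ff7000005f0000001f0000001e0000000a0 14 13) 0 0 (step_sound _ 198 [(rh6000b24de01b26eb.shift 5 0), (rh6ac903e8e732b894.shift 3 1), (rh730e30a055b5a286.shift 5 0), (rha6246a628d1ed3e6.shift 1 2), rhbf506a40a62fc8ba] (by decide +kernel))
noncomputable def rhcef0f04731eda69a : CRef := CRef.mk (Pat.mk 0x10000000530000005000000000000000000000000000000000000000000 0x5000000074000000fc00000bff00000efe00000ffe000005be000007f800000efe00000fff00000efc0000087000000050 14 12) 0 0 (step_sound _ 229 [(rh0b4c34d1906e2aae.shift 0 1), (rh46453e6406670044.shift 1 3), (rh6940dffa850d68f7.shift 1 2), (rh6ecd0d4e85573c6e.shift 0 3), (rh7b52e19b623aa074.shift 4 0), (rha4d337777db5cfa0.shift 2 1), (rhb4428e63c3c20639.shift 4 2), (rhb83d2c0030c0ec65.shift 4 2), (rhc0a45d0038855421.shift 0 1)] (by decide +kernel))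
noncomputable def rh96dc3e70581fea0b : CRef := CRef.mk (Pat.mk 0x20000000a6000000a00000000000000000000000000000000000000000000000000 0xa0000000e0000000f0000010f000001dfe00001ffc00003dfe00001ffc00000a7c0001fff70000fdfe0001fffe0000ffff00001cf000001cf000001400 14 17) 0 0 (step_sound _ 165 [(rh24ebcf0d33d2ab21.shift 5 0), (rh26299859b01c1f00.shift 1 4), (rh3decc1e04e443627.shift 0 2), (rh50a95a5dde7433c0.shift 4 0), (rh633bc5ff00c1de1d.shift 2 1), (rh82fae5f34e4a5041.shift 1 3), (rh8bd6a2f4d7f4326b.shift 2 1), (rhc5c910de8c531771.shift 0 1), (rhf747801c68f11415.shift 2 4)] (by decide +kernel))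
noncomputable def rhf02dcc44a523e2d8 : CRef := CRef.mk (Pat.mk 0x2000000026000000200000000200000000000000000000000000000000000000000 0x20000000e0000000e0000000c0000003f000000378000007ff000001fe000003ff000003fc000001fc000003fc00000050 14 11) 0 0 (step_sound _ 262 [(rh00d6a6e3c7e3bb40.shift 5 4), (rh245461de05104160.shift 2 2), (rh24779c11ceac1faf.shift 3 3), (rh580df77fe152422b.shift 5 4), (rh749dbec2a6512c56.shift 0 2), (rh8317021edfdb6cb2.shift 3 3), rhc5743425cdd916ad] (by decide +kernel))
noncomputable def rh6acb472c760a8491 : CRef := CRef.mk (Pat.mk 0x200000002600000020000000020000000000000000000000000 0x1a0000001e0000001e0000003f000000378000007fe000001fe000001bf000001a000000020 14 11) 0 0 (step_sound _ 198 [(rh00d6a6e3c7e3bb40.shift 5 2), (rh37919f801f1ce004.shift 3 2), (rh580df77fe152422b.shift 5 2), rh749dbec2a6512c56, (rh8b70c0a9754d5d0f.shift 3 1), (rhc53efc28458cf0f1.shift 5 3)] (by decide +kernel))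
noncomputable def rh027138f3d2d0ac47 : CRef := CRef.mk (Pat.mk 0x400000004c0000004000000004000000000000000000000000000000000 0x100000001c000001fc000000ff000001bd000000fbf000006fe00000fff000003fe000007ff000003f8000001f8000001f8 14 13) 0 0 (step_sound _ 135 [(rh17b4319273b0fc28.shift 0 1), (rh370ec9a32536085a.shift 0 1), (rh5c936e83d940d161.shift 4 1), (rh775f431992b2e029.shift 4 1), (rhb48082e5752e7eaa.shift 4 0), (rhc56c6c11892e8cee.shift 5 2), (rhe12012d34f4fe771.shift 6 2), (rhea95dc06a9596e9d.shift 3 0), rheba865d9af8ecbf2, (rheeaae9d7dbec9e2a.shift 3 1)] (by decide +kernel))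
noncomputable def rhc0e91e2ffbd52bd8 : CRef := CRef.mk (Pat.mk 0x2000000200000002600000020000000000000000000000000000000000 0x50000003fc000001fc000003fc000003ff000001fe000007ff00000378000003f0000000c0000000e0000000e000000020 14 11) 0 0 (step_sound _ 134 [(rh0588d2c7f2cab5e9.shift 5 2), (rh28afc5b167f84184.shift 5 2), (rh6336d1d21e31726a.shift 2 4), (rh8f7c17d472f362b4.shift 3 0), (rh95777c629f8983d8.shift 3 0), (rhd07c77b540626f0d.shift 0 4), (rhf260c5c4a76fb8de.shift 0 4)] (by decide +kernel))
noncomputable def rh927418cc4d481a0e : CRef := CRef.mk (Pat.mk 0x20000002000000026000000200000000000000000000000000 0x20000001a0000001bf000001fe000007fe00000378000003f0000001e0000001e0000001a0 14 11) 0 0 (step_sound _ 102 [(rh0588d2c7f2cab5e9.shift 5 1), (rh28afc5b167f84184.shift 5 1), (rh576433bffeee19b4.shift 3 0), (rh94dbce66c1c40cb4.shift 5 0), (rhf260c5c4a76fb8de.shift 0 3), (rhfcac32312a33016d.shift 3 0)] (by decide +kernel))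
noncomputable def rh0598cd19120cc8bf : CRef := CRef.mk (Pat.mk 0x4000000400000004c0000004000000000000000000000000000000000000000000 0x1f8000001f8000003f8000007ff000003fe00000fff000006fe00000fbf00001bd000000ff000001fc0000001c000000100 14 13) 0 0 (step_sound _ 263 [rh137861de2cb6d45b, (rh178b6535a0f33072.shift 4 4), (rh1dc907ad64fc5ee1.shift 6 2), (rh335e4eef3a2fa899.shift 5 2), rh4e1c5cc4f0e11e04, (rh57429c799050ca80.shift 4 2), (rh5a24640e6e992a68.shift 3 2), (rh801fc955b618a30c.shift 3 5), (rh8ea2f5cdebe1ffd3.shift 4 4), (rheb821b4b96ee0907.shift 0 5)] (by decide +kernel))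
noncomputable def rh800bcbfa49aaf30c : CRef := CRef.mk (Pat.mk 0x400000020000000a4000000200000000000000000000000000 0xa0000000f8000003fc000015f800001fff00001dfe00001fff00000bd800001f7800001c000000140000000400 14 13) 0 0 (step_sound _ 136 [(rh0f48a90b4d889945.shift 6 3), (rhbe6be317c0f45535.shift 5 3), (rhc924e5f7a4031fcc.shift 6 3), rheea0a76ea923bcd0] (by decide +kernel))
noncomputable def rh85fce3d0237298c3 : CRef := CRef.mk (Pat.mk 0x80000004000000048000000400000000000000000 0x140000001c0000001c0000001c0000003c0000000f000000ff0000007b000000ff0000001f0000001c 14 8) 0 0 (step_sound _ 100 [(rh2db2c8c34df74365.shift 2 1), rh48377591ec565f35, (rh6eb9d2ddfb905593.shift 2 1), (rhabf575676fe0ef70.shift 3 2)] (by decide +kernel))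
noncomputable def rh98547b892fb5ef34 : CRef := CRef.mk (Pat.mk 0x4000000000000000c00000020000000000000000000000000000000000 0xa0000001f8000007f8000003fc000003ff000001fe000000ff000000d0000007d0000001f0000001f0000001f0000000c0 14 11) 0 0 (step_sound _ 135 [(rh01f1789c6f1ad086.shift 4 2), (rh0588d2c7f2cab5e9.shift 6 2), (rh282a9b19d2f636af.shift 0 4), (rh28afc5b167f84184.shift 6 2), (rhb0ef7ff0a327c555.shift 4 0)] (by decide +kernel))
noncomputable def rhc83f4ddb6a62431a : CRef := CRef.mk (Pat.mk 0x60000001000000052000000100000000000000000000000000 0x280000003c000001bc000001bc000001fc000001ff000000fe0000079f000005e800000fc000000ec0000002c000000200 14 12) 0 0 (step_sound _ 199 [(rh88c620441a3a17ea.shift 2 5), rh899fdc89809e132b, (rha8b3e1c22cfbc3a8.shift 5 1)] (by decide +kernel))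
noncomputable def rh2d3ef8a50891af5d : CRef := CRef.mk (Pat.mk 0xc000000400000004800000040000000000 0xb8000001f8000003fe000007fc000007fe000002fe000007ff000006be000004bf00000028 14 11) 0 0 (step_sound _ 166 [(rh1c51b27c05a018b7.shift 1 1), (rh95a80f84f48ac358.shift 6 1), (rhb11d41c808e1ab4d.shift 6 1), rhb5c79fc84ecf0bc8] (by decide +kernel))
noncomputable def rh5611b333cbe7592c : CRef := CRef.mk (Pat.mk 0x40000000480000004000000000000000000000000000000000 0x20000000300000003c000000fc0000007e000000ff0000003f0000003f0000003800000008 14 8) 0 0 (step_sound _ 164 [(rh22e203964f906d4b.shift 2 4), (rh2e8efbc4684aef7b.shift 2 4), (rhabf575676fe0ef70.shift 3 4), rhbafe4f11924eedbb] (by decide +kernel))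
noncomputable def rhbbfdbea3f054d4c9 : CRef := CRef.mk (Pat.mk 0x400000004800000040000000000000000000000000 0x8000000380000003f0000003f000000ff0000007e000000fc0000003c0000003000000020 14 8) 0 0 (step_sound _ 132 [(rh22e203964f906d4b.shift 2 3), (rh2e8efbc4684aef7b.shift 2 3), rh87436bc8cccb90f0, (rhabf575676fe0ef70.shift 3 3)] (by decide +kernel))
noncomputable def rhd1223349d95f63a5 : CRef := CRef.mk (Pat.mk 0x400000001800000040000000000000000000000000 0x80000003c0000003f000000ff0000001f0000007f0000003f0000003c00000030 14 8) 0 0 (step_sound _ 164 [(rh672a7e41a88dc9cb.shift 0 1), (rh6c1cdca9e0563a00.shift 1 0), (rhda2b8814e8b22bbe.shift 0 1), (rhe33d9496e10d8eb0.shift 1 4)] (by decide +kernel))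
noncomputable def rh8b15100d14f88e44 : CRef := CRef.mk (Pat.mk 0x400000001800000040000000000000000000000000 0x300000003c0000003f0000007f0000001f000000ff0000003f0000003c00000008 14 8) 0 0 (step_sound _ 100 [rh2bc2ca59b89655d4, rh7a3232f1affa7d38, (rh8c25cb665ab79ec0.shift 1 3), (rhb3a84f823285b4f5.shift 1 1)] (by decide +kernel))
noncomputable def rh2f8e450fc4f9f1d5 : CRef := CRef.mk (Pat.mk 0x80000000900000008000000000000000000000000000000000 0x1800000058000001f8000000fc000001fe0000007e0000007f0000007000000010 14 9) 0 0 (step_sound _ 165 [(rh22e203964f906d4b.shift 3 4), (rh2e8efbc4684aef7b.shift 3 4), (rha3fd83893c3ef42f.shift 2 4), (rhabf575676fe0ef70.shift 4 4), rhc36e86e17dadd9e0] (by decide +kernel))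
noncomputable def rhde10ff5bfdfbf4e1 : CRef := CRef.mk (Pat.mk 0x8000000090000000800000000000000000 0x10000000700000007f0000007e000001fe000000fc000001f80000005800000018 14 9) 0 0 (step_sound _ 101 [(rh22e203964f906d4b.shift 3 2), (rh2e8efbc4684aef7b.shift 3 2), (rh499fe0919994f2c0.shift 2 2), rh6495cd28c5afc0e6, (rhabf575676fe0ef70.shift 4 2)] (by decide +kernel))
noncomputable def rh3f9d95a89875b9a5 : CRef := CRef.mk (Pat.mk 0x80000004000000048000000400000000000000000 0xc0000003c0000003d000000ff0000007f000000df0000001f0000001c 14 8) 0 0 (step_sound _ 100 [rh02d17f57ff6dde4b, (rhabf575676fe0ef70.shift 3 2), (rhc8450956778d39a6.shift 1 2)] (by decide +kernel))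
noncomputable def rhbbd3340d5bd65aea : CRef := CRef.mk (Pat.mk 0x80000004000000048000000400000000000000000 0x180000003f0000003f000000ff0000007f000000df0000001f0000001c 14 8) 0 0 (step_sound _ 100 [(rhabf575676fe0ef70.shift 3 2), (rhc8450956778d39a6.shift 1 2), rhdea59828278a5cbb] (by decide +kernel))
noncomputable def rh760b145aa77299ee : CRef := CRef.mk (Pat.mk 0x80000004000000048000000400000000000000000 0x140000001c0000001c000000380000003f000000ff0000007f000000df0000001f0000001c 14 8) 0 0 (step_sound _ 100 [(rhabf575676fe0ef70.shift 3 2), rhc3ff9f908b479738, (rhc8450956778d39a6.shift 1 2)] (by decide +kernel))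
noncomputable def rhcb0ac0a9aa5b1302 : CRef := CRef.mk (Pat.mk 0x80000004000000048000000400000000000000000 0x140000001c0000001f0000003f000000fb0000007f000000df0000001c0000001c 14 8) 0 0 (step_sound _ 100 [rh08c77b6927cd94a3, (rhabf575676fe0ef70.shift 3 2), (rhc8450956778d39a6.shift 1 2)] (by decide +kernel))
noncomputable def rh5803f78f194ec465 : CRef := CRef.mk (Pat.mk 0x800000040000000480000004000000000000000000000000000000000 0x3c0000003c0000003c00000039000000ff0000007f000000df0000003f0000003c0000003800000008 14 8) 0 0 (step_sound _ 164 [(rhabf575676fe0ef70.shift 3 4), rhb607b3727bbf6dc5, (rhc8450956778d39a6.shift 1 4)] (by decide +kernel))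
noncomputable def rh655e7da6d39d521b : CRef := CRef.mk (Pat.mk 0x10000000800000009000000080 0x380000003e000000ff0000007e000001fe000000fe000001ac 14 9) 0 0 (step_sound _ 37 [(rh07142bfaba471b53.shift 3 0), rh36f458d2ed35aa00, (rhabf575676fe0ef70.shift 4 0)] (by decide +kernel))
noncomputable def rh6fba8294e13c37ab : CRef := CRef.mk (Pat.mk 0x400000004800000040000000080000000000000000 0x1c0000001f000000df0000007f000000ff0000003d0000003c0000000c 14 8) 0 0 (step_sound _ 132 [rh74d953e571051158, (rhabf575676fe0ef70.shift 3 3), (rhc8ffc5931fd66d8a.shift 1 3)] (by decide +kernel))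
noncomputable def rh801fa56a0796a88d : CRef := CRef.mk (Pat.mk 0x400000004800000040000000080000000000000000 0x1c0000001f000000df0000007f000000ff0000003f0000003f00000018 14 8) 0 0 (step_sound _ 132 [rh83254958cb07ab2d, (rhabf575676fe0ef70.shift 3 3), (rhc8ffc5931fd66d8a.shift 1 3)] (by decide +kernel))
noncomputable def rh44c399c3952af54c : CRef := CRef.mk (Pat.mk 0x4000000048000000400000000800000000000000000000000000000000 0x1c0000001f000000df0000007f000000ff0000003f000000380000001c0000001c00000014 14 8) 0 0 (step_sound _ 196 [rh784782cbfb6850fc, (rhabf575676fe0ef70.shift 3 5), (rhc8ffc5931fd66d8a.shift 1 5)] (by decide +kernel))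
noncomputable def rhecc85585948c290e : CRef := CRef.mk (Pat.mk 0x40000000480000004000000008000000000000000000000000 0x1c0000001c000000df0000007f000000fb0000003f0000001f0000001c00000014 14 8) 0 0 (step_sound _ 164 [rha6d511940260c1d3, (rhabf575676fe0ef70.shift 3 4), (rhc8ffc5931fd66d8a.shift 1 4)] (by decide +kernel))
noncomputable def rhc154175537ba53a5 : CRef := CRef.mk (Pat.mk 0x40000000480000004000000008000000000000000000000000 0x8000000380000003c0000003f000000df0000007f000000ff000000390000003c0000003c0000003c 14 8) 0 0 (step_sound _ 164 [(rhabf575676fe0ef70.shift 3 4), rhb7a49b9b75c65ab3, (rhc8ffc5931fd66d8a.shift 1 4)] (by decide +kernel))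
noncomputable def rh9842c9994b5f491d : CRef := CRef.mk (Pat.mk 0x80000000900000008000000010000000000000000000000000 0x1ac000000fe000001fe0000007e000000ff0000003e00000038 14 9) 0 0 (step_sound _ 165 [(rh7e2356b24464a5ca.shift 3 0), (rhabf575676fe0ef70.shift 4 4), rhde03fa1965393917] (by decide +kernel))
noncomputable def rh07277b6ad2605558 : CRef := CRef.mk (Pat.mk 0x100000000300000010000000000000000000000000000000000 0x54000000fc000000fc000000fc000001ff0000007c000001fc000000f0000000f00000007000000050 14 9) 0 0 (step_sound _ 197 [(rh072a5dd1a0637753.shift 1 0), (rh35ff3447e41b8d6c.shift 0 2), (rh58144e795052c1ef.shift 4 2), (rh5b90b0b43dc28c67.shift 2 2), (rh5d0508431fbc14de.shift 2 2), (rh6c077e93cf4bd702.shift 2 2), (rh703e69539ddfdbd9.shift 2 2), (rh73ae67b894b39955.shift 2 1), (rh825d56710c2eea7f.shift 2 2)] (by decide +kernel))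
noncomputable def rhc3e667dcbe21771b : CRef := CRef.mk (Pat.mk 0x100000000300000010000000000000000000000000000000000 0x5000000070000000f0000000f0000001fc0000007c000001ff000000fc000000fc000000fc00000054 14 9) 0 0 (step_sound _ 133 [(rh1e862c73b26db705.shift 2 0), (rh2068f5b88e41d055.shift 2 1), (rh70ed70107638c6e9.shift 4 1), (rh9a763c0452f69ede.shift 1 0), (rhaee6a5412d41f3f0.shift 2 1), (rhbedfe81e1ee745b2.shift 2 2), (rhdd0698bf0dadccae.shift 2 0), (rhefa2d2725866ffa1.shift 2 1), rhf9398b273f7b1ed5] (by decide +kernel))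
noncomputable def rh5d84145fa486c11b : CRef := CRef.mk (Pat.mk 0x480000000c000000000000000000000000 0x28000000380000003c0000003f0000007f0000001f0000003f0000001600000016 14 7) 0 0 (step_sound _ 132 [(rh361cc68994bd8a63.shift 2 3), rhe2e0fcda1085c7a2] (by decide +kernel))
noncomputable def rha933ef3def47400b : CRef := CRef.mk (Pat.mk 0x480000000c000000000000000000000000 0x2800000038000000380000003a0000007f0000001f0000003f0000003e0000003e 14 7) 0 0 (step_sound _ 132 [(rh361cc68994bd8a63.shift 2 3), rh4de8b91dd461054a] (by decide +kernel))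
noncomputable def rhb6bc64e90960be8e : CRef := CRef.mk (Pat.mk 0xc0000004800000000000000000000000000000000 0x16000000160000003f0000001f0000007f0000003f0000003c0000003800000028 14 7) 0 0 (step_sound _ 132 [(rh2fe78cc5ca4405d8.shift 2 4), rhd9553f555c74f5ac] (by decide +kernel))
noncomputable def rha7242abe8bd1db3d : CRef := CRef.mk (Pat.mk 0xc0000004800000000000000000000000000000000 0x3e0000003e0000003f0000001f0000007f0000003a000000380000003800000028 14 7) 0 0 (step_sound _ 132 [(rh2fe78cc5ca4405d8.shift 2 4), rh529d2d3e1746384a] (by decide +kernel))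
noncomputable def rhcce058acf1498066 : CRef := CRef.mk (Pat.mk 0x100000000300000010000000000000000000000000000000000 0x14000000bc000000fc000001fe0000007c000001fe000000fe000000ff000000fc00000054 14 9) 0 0 (step_sound _ 133 [(rh053c3521a27adace.shift 2 1), (rh057ec50104025eb4.shift 1 2), (rh2721b350a035436b.shift 2 1), (rh2b9debf404102c07.shift 1 0), (rh36de06e06a2b4c0f.shift 2 1), (rh4c8c9b2f7e72e8e4.shift 2 1), (rh4f09a2bff9ac03f3.shift 2 1), (rh571182b626beeb63.shift 1 0), (rh5ae9ed597368be75.shift 2 1), (rh6efc6b81fadd77bf.shift 1 0), (rh86e45a544be4fc86.shift 0 1), (rhf5e29ef0d2ab3481.shift 1 0)] (by decide +kernel))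
noncomputable def rhed481a41bd7d2998 : CRef := CRef.mk (Pat.mk 0x1000000003000000100000000000000000000000000 0x54000000fc000000ff000000fe000001fe0000007c000001fe000000fc000000bc00000014 14 9) 0 0 (step_sound _ 165 [(rh1ca3694d645f2061.shift 1 0), (rh25e6e45f0557304b.shift 1 1), (rh38e3ae9b48190866.shift 0 1), (rh3e1e608a8235a566.shift 2 1), (rh4226506a1475f75f.shift 1 1), (rh56e5cd06e5a6872d.shift 2 0), (rh68cc831bed989e16.shift 1 0), (rh80392a3cbe564899.shift 2 2), (rh91c2188078df7bad.shift 2 0), (rhc03510639dda1889.shift 1 0), (rhe2857a19f3d4141c.shift 2 0), (rhfc1bb7d9ae4dc573.shift 2 1)] (by decide +kernel))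
noncomputable def rhab29f825165c2b49 : CRef := CRef.mk (Pat.mk 0x480000000c0000004000000000000000000000000000000000 0x50000000f0000003f000000070000007f0000001f0000007f0000003f0000003f0000000700000005 14 7) 0 0 (step_sound _ 196 [(rh361cc68994bd8a63.shift 2 5), rhd9f33169ebda475a] (by decide +kernel))
noncomputable def rh560aa36cfd565925 : CRef := CRef.mk (Pat.mk 0x400000000c0000004800000000000000000000000000000000 0x5000000070000003f0000003f0000007f0000001f0000007f000000070000003f0000000f00000005 14 7) 0 0 (step_sound _ 132 [rh1c33b287193c1760, (rh2fe78cc5ca4405d8.shift 2 4)] (by decide +kernel))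
noncomputable def rh67b4355c28dbf2f1 : CRef := CRef.mk (Pat.mk 0x100000000300000010000000000000000000000000000000000 0x40000000680000007c0000007c000001ff0000007c000003fe000000fe000003fe0000007c00000054 14 10) 0 0 (step_sound _ 197 [(rh00a1198c58889409.shift 1 1), (rh69b164397e5d9779.shift 1 0), (rh7171bb68157a769a.shift 2 2), (rh910fae6541ccf194.shift 2 2), (rhd46ae1d0ec1c3d71.shift 2 0), (rhe6369a843f553341.shift 2 2), (rhf2ba906afd896c14.shift 1 0), (rhfc6072163a3253a6.shift 0 2)] (by decide +kernel))
noncomputable def rha185079a3fbea367 : CRef := CRef.mk (Pat.mk 0x100000000300000010000000000000000000000000000000000 0x540000007c000003fe000000fe000003fe0000007c000001ff0000007c0000007c0000006800000040 14 10) 0 0 (step_sound _ 133 [(rh73a1e1a164125cd7.shift 2 1), (rh89858fdd47e0c6c0.shift 2 2), (rh9a25c254f9e40f0d.shift 1 0), (rhac33ceb461162656.shift 0 1), (rhbee11a86370cb732.shift 2 2), (rhc74f839798235cd6.shift 1 2), (rhe0f3f23a9273737f.shift 2 2), (rhf5072d0f9bf62ac6.shift 1 2)] (by decide +kernel))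
noncomputable def rh696bbf02178fb6cf : CRef := CRef.mk (Pat.mk 0x100000000300000010000000000000000000000000000000000 0xe0000000e0000000ee000000fe000001ff0000007f000003fe000000ff000003fe000000fe00000070 14 10) 0 0 (step_sound _ 197 [(rh3279312772f7e041.shift 2 0), (rh5b90b0b43dc28c67.shift 2 2), (rh69b164397e5d9779.shift 1 0), (rh6e094aabeae9a8ff.shift 0 1), (rh7171bb68157a769a.shift 2 2), (rh910fae6541ccf194.shift 2 2), (rhf2ba906afd896c14.shift 1 0), (rhfc6072163a3253a6.shift 0 2)] (by decide +kernel))
noncomputable def rhff7b6ae849762b50 : CRef := CRef.mk (Pat.mk 0x100000000300000010000000000000000000000000000000000 0x70000000fe000003fe000000ff000003fe0000007f000001ff000000fe000000ee000000e0000000e0 14 10) 0 0 (step_sound _ 133 [(rh2068f5b88e41d055.shift 2 1), (rh566cdcfba64e75ad.shift 0 2), (rh9a25c254f9e40f0d.shift 1 0), (rhac33ceb461162656.shift 0 1), (rhbee11a86370cb732.shift 2 2), (rhc74f839798235cd6.shift 1 2), (rhd987c00ad596fd74.shift 2 0), (rhe0f3f23a9273737f.shift 2 2)] (by decide +kernel))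
noncomputable def rh5b6c7b86b9791b9c : CRef := CRef.mk (Pat.mk 0x400000000c00000040000000000000000000000000000000000 0x5000000170000003f8000003f8000003fc000007fe000001fe000007ff0000037c000003780000017800000050 14 11) 0 0 (step_sound _ 199 [(rh08a5c4cdcf93a5f7.shift 2 2), (rh12ffacdb165c2351.shift 4 2), (rh2a0377f347dd6665.shift 4 2), (rh39b31f3f595c298d.shift 2 1), (rh68863be0ea3ee56d.shift 4 0), (rh737500550cf114a0.shift 3 1), (rh7ed580e175c02e55.shift 3 1), (rh827699d812b56c37.shift 4 2), (rh909987655b1197b0.shift 2 2), (rha18c9de9261a2013.shift 0 1), (rhf96a88b6b15fc738.shift 2 3)] (by decide +kernel))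
noncomputable def rhf1161a4b65ae1975 : CRef := CRef.mk (Pat.mk 0x400000000c0000004000000000000000000000000000000000000000000 0x5000000178000003780000037c000007ff000001fe000007fe000003fc000003f8000003f80000017000000050 14 11) 0 0 (step_sound _ 167 [(rh14795435c1e28650.shift 2 2), (rh19477890d353b975.shift 3 2), (rh1b36d31ca96669d1.shift 4 2), (rh2369f325d94a9897.shift 4 2), (rh349d58c9ce22a316.shift 0 2), (rh730ee958f788c9f6.shift 2 1), (rhd09ad6aabd4e84a3.shift 4 1), (rhdbcf8328607eeafe.shift 4 2), (rhe249163364c0f61a.shift 2 1), (rhe2c38ad619927e95.shift 2 0), (rhef14ce4c44eab4ee.shift 3 2)] (by decide +kernel))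
noncomputable def rhe6b66eb3918cb094 : CRef := CRef.mk (Pat.mk 0x400000000c000000480000000000000000000000000000000000000000 0x140000001c0000001c0000000c0000007c0000001c0000007f0000003f0000003f0000001f0000001700000005 14 7) 0 0 (step_sound _ 164 [(rh2fe78cc5ca4405d8.shift 2 5), rhf4506e4b8e83ba76] (by decide +kernel))
noncomputable def rhb723c8703281e557 : CRef := CRef.mk (Pat.mk 0x400000000e0000000000000000000000000000000000000000 0xc0000003d0000003f0000003f0000007f0000001e0000003b0000003f000000ff0000002700000005 14 8) 0 0 (step_sound _ 164 [rh110de446d99cd723, (rh51d3409241131cf6.shift 0 1), (rh7a6624244b12c82b.shift 0 1), rh839253c457b4a13e, rhc73ed2e32c3eb444, (rhdfa0cdb47a9c01b3.shift 0 2), (rhf97958e61d9cb1c7.shift 1 2)] (by decide +kernel))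
noncomputable def rhbf90d7e4c5b8e29f : CRef := CRef.mk (Pat.mk 0xe0000004000000000000000000000000000000000 0x500000027000000ff0000003f0000003b0000001e0000007f0000003f0000003f0000003d0000000c 14 8) 0 0 (step_sound _ 164 [(rh0d5f00f2e3e338ad.shift 1 0), (rh22bea4207645462e.shift 0 2), rh2f5c5e292e8d900d, (rh7f61594068ffd494.shift 0 2), (rha5a94dc39e5d747c.shift 0 1), (rhe2a42bd7d992f40c.shift 0 1), (rhedf6979ec7de1671.shift 0 2)] (by decide +kernel))
noncomputable def rhb48b6a218284a0da : CRef := CRef.mk (Pat.mk 0x100000000300000010000000000000000000000000000000000 0x500000007a0000007e000000ff000003fe0000003e000001fe000000fe000000fe0000007e00000054 14 10) 0 0 (step_sound _ 133 [(rh03cdfdd02d783488.shift 1 0), (rh223ff4c58b174ec2.shift 1 1), (rh380b9ec320992f80.shift 2 1), (rh3a9126fdd58fb5ae.shift 2 1), (rh7e53244a5438e8b5.shift 2 1), (rh8258a38ca30bc8ae.shift 2 1), (rhca20a231a333c0b6.shift 2 0), rhe249163364c0f61a, (rhe3dd063c56f0b6b7.shift 2 1)] (by decide +kernel))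
noncomputable def rh744af6b209de7c8b : CRef := CRef.mk (Pat.mk 0x1000000013000000100000000000000000000000000000000000000000000000000 0x5000000078000000fc000003fe000000fe000003fe00000177000003fe000000ff000003ff000000ff000000fc0000003c00000028 14 10) 0 0 (step_sound _ 164 [(rh0408d9c00d78591c.shift 0 2), (rh1355061534081d20.shift 0 1), (rh298b1e31c2ea8506.shift 0 1), (rh30531964747c3b84.shift 0 1), (rh4c3fdea28b5e2c2e.shift 1 3), rh51d4a587dfc66a11, (rh5417c5420dc12940.shift 1 2), (rh564c2942b28e5537.shift 1 3), (rh5af7bf820f5d089e.shift 0 1), (rh64b57de0ad74860d.shift 0 2), (rh71070b14000a0088.shift 1 2), (rh96ecd4d5133e069f.shift 1 2), (rhd46bf9175851df36.shift 1 2)] (by decide +kernel))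
noncomputable def rh0cfa8c3521ba68ef : CRef := CRef.mk (Pat.mk 0x1000000013800000000000000000000000000000000 0x100000009c000000fe00000efe000007ff000001780000003f000000fc000000fc0000001c 14 12) 0 0 (step_sound _ 167 [(rh43d263827f313f55.shift 2 0), (rh4d9d3700d6aa3a24.shift 4 4), (rh920cf9216bf6f445.shift 3 4), rhb78c98789a7b83bf, (rhedcf54d0810c5193.shift 1 1)] (by decide +kernel))
noncomputable def rh6daa3a277775b168 : CRef := CRef.mk (Pat.mk 0x1380000010000000000000000000000000000000000 0x1c000000fc000000fc0000003f00000178000007ff00000efe000000fe0000009c00000010 14 12) 0 0 (step_sound _ 135 [(rh4b191874dca901c6.shift 4 3), (rh8bf7201cb5a906bd.shift 3 4), (rh8e99835bcdbcf7c8.shift 1 0), (rh8feab067d171f14c.shift 2 2), (rhb0dea6fdd0a1526b.shift 0 1)] (by decide +kernel))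
noncomputable def rh86099c7e90102a8d : CRef := CRef.mk (Pat.mk 0xc000000000000000000000000000000000 0x80000003e0000003f8000003f8000003ff000001fe0000037f000003f8000003f8000002f8 14 10) 0 0 (step_sound _ 133 [(rh008600e74548d552.shift 4 0), (rh16c9df4d331de6da.shift 3 0), rh770b85bab39a604a, (rh86373abb7b035593.shift 2 2), rha2898bf2ecae66c6, rha5c72bc2928a31d2, (rhb44ff88a01cd0e39.shift 0 3), (rhba0466855112442a.shift 2 2)] (by decide +kernel))
noncomputable def rh18ea8e0e96a17ec6 : CRef := CRef.mk (Pat.mk 0xc00000000000000000000000000000000000000000 0x2f8000003f8000003f80000037f000001fe000003ff000003f8000003f8000003e000000080 14 10) 0 0 (step_sound _ 165 [(rh07a00b80fbada4c1.shift 0 1), (rh14b1adc66a48e713.shift 4 0), (rh22c733cdbbe2e25a.shift 2 2), (rh2e864b9ff5b9702a.shift 0 2), (rh7fe8f7b5c9be5469.shift 0 2), (rhcd295640f4561c2b.shift 3 0), (rhdaf7e75b3fe424a4.shift 2 2), (rhea60bb43041adec7.shift 0 4)] (by decide +kernel))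
noncomputable def rh3e3aa192736560ad : CRef := CRef.mk (Pat.mk 0x100000001000000000000000280000002000000000000000000000000000000000 0x10000000380000002f0000007e000001f7000001fc000003fc0000007000000050 14 10) 0 0 (step_sound _ 197 [rh9c51abe6b56f8b05, (rhcfdf45280693d3da.shift 4 4)] (by decide +kernel))
noncomputable def rh234af214951b8d15 : CRef := CRef.mk (Pat.mk 0x1000000010000000000000002800000020000000000000000000000000 0x11000000130000003ef000001fe000007f7000003fc000007fc00000030 14 11) 0 0 (step_sound _ 165 [rh228079a185a9a635, (rhcfdf45280693d3da.shift 4 3)] (by decide +kernel))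
noncomputable def rhfaaaa3f98be09468 : CRef := CRef.mk (Pat.mk 0x400000000000000000000000280000002000000000000000000000000000000000 0x4600000046000003c7000001fe000003ff000000ff000000ff000001ff00000005 14 10) 0 0 (step_sound _ 164 [rh6f73b9c71a432ab4, (rh8ee80cc30e93a344.shift 2 4), (rhbf281b07b1202a16.shift 0 1), (rhea4157a0a89ac41d.shift 2 4)] (by decide +kernel))
noncomputable def rhe74100c6911f0e38 : CRef := CRef.mk (Pat.mk 0x10000000100000000000000008000000080000000000000000000000000000000000000000 0x100000001c0000002f0000007c000003fe000001fc000003fc000000fc000000fc000000f0 14 10) 0 0 (step_sound _ 227 [(rh1006c02ae4212ff0.shift 3 5), rh56928e14f334282c] (by decide +kernel))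
noncomputable def rha0bcb35aa2c5155a : CRef := CRef.mk (Pat.mk 0x50000000100000000000000008000000080000000000000000000000000000000000000000 0x40000000500000007c0000006f0000007f0000007c0000007e000000fc0000005c0000001c00000010 14 8) 0 0 (step_sound _ 227 [(rh1006c02ae4212ff0.shift 3 5), rha652d6b70ba89d2b] (by decide +kernel))
noncomputable def rhbf20da85e08c8e4d : CRef := CRef.mk (Pat.mk 0x4000000140000000400000000000000020000000280000000000000000000000000000000000000000 0x100000007c0000015c000003fc000007be00000fff000007f800000ffc000003ec000000600000006000000040 14 12) 0 0 (step_sound _ 229 [(rh1006c02ae4212ff0.shift 5 5), rh3be90f3e6c6e224f] (by decide +kernel))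
noncomputable def rhd17650125e41506e : CRef := CRef.mk (Pat.mk 0x280000000800000000000000040000000400000000000000000000000000000000000000000 0x20000000280000003fe0000037c00001ffe00001fff00001ffe00001fbf000007bc0000079c0000079c 14 13) 0 0 (step_sound _ 230 [(rh1006c02ae4212ff0.shift 6 5), rh7a11044bc3ae9af8] (by decide +kernel))
noncomputable def rhd613e5058cbf8670 : CRef := CRef.mk (Pat.mk 0x800000008000000000000000400000005000000000000000000000000000000000 0x3c000000bc000000fe0000007c000000ff0000007f000000df000000ff000000fc000000a4 14 8) 0 0 (step_sound _ 198 [(rh1006c02ae4212ff0.shift 6 4), rh30b66d60dc988ff0] (by decide +kernel))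
noncomputable def rh397a207c8886a829 : CRef := CRef.mk (Pat.mk 0x400000004000000000000000200000002800000000000000000000000000000000 0x140000005e000000ff000001be000001ef000000fe000001ef000001fc000003fe00000070 14 10) 0 0 (step_sound _ 228 [(rh26da89277c8ed87b.shift 0 3), (rh2d188d26f69b0dd2.shift 0 1), (rh67aa459a960b3d5e.shift 1 3), (rh8753e6bd700de53e.shift 0 3), (rhaa8109a4d5c525e9.shift 2 2), (rhae5e6af83ef9dfbe.shift 0 3), rhfffc6fe46befc472] (by decide +kernel))
noncomputable def rh76ba83a03b20fee5 : CRef := CRef.mk (Pat.mk 0x400000000000000020000000280000000000000000000000000000000000000000 0x40000001c0000007c0000001c000007ff000003fe000003ef000001fc000007fc0000007000000040 14 11) 0 0 (step_sound _ 164 [(rh209658185e438b00.shift 1 4), (rh3e0b38310ac09007.shift 0 5), (rha4e887c2a2a0f60b.shift 0 4), (rhf86ebd38bc46a519.shift 2 0), (rhfb46419da33febf8.shift 0 4)] (by decide +kernel))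
noncomputable def rh379f66349c889b8f : CRef := CRef.mk (Pat.mk 0x800000028000000080000000400000004000000040000000000000000000000000000000000000000000000000 0x800000038000002f8000002b8000003be0000077f00001ffe00000fff00001f7e0000037e000002fc000000fc0000007c00000050 14 13) 0 0 (step_sound _ 165 [(rh3743dbe66b959104.shift 5 3), (rh835921a06e9850f5.shift 2 4), (rha3a4871aa57c5182.shift 1 1), (rhb71555a6b2173205.shift 2 0), (rhc660b94af6014860.shift 0 3)] (by decide +kernel))
noncomputable def rh2b41d62c1ceae635 : CRef := CRef.mk (Pat.mk 0x14000000040000000200000002000000020000000000000000000000000000000000000000000000000 0x1040000014c000001cc000007ac00000fff00000fff00000fff000003ff00000070000000700000007000000050 14 12) 0 0 (step_sound _ 165 [rh4b851e03ef0e1d31, (rh6eff4158bb400f47.shift 4 3), (rh72361a4e31f73b95.shift 2 2), (rh790ba1b68aaa091c.shift 2 2), (rh8565a221cb40bcc9.shift 0 4), (rhc50ddccbf5e8e3a2.shift 1 0)] (by decide +kernel))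
noncomputable def rhe03b34df7dea662a : CRef := CRef.mk (Pat.mk 0x80000002800000008000000000000000400000005000000000000000000000000000000000 0x800000038000000f8000002bc000007ff0000077e00001fff00000ff000001fb8000007f8000007f800000528 14 13) 0 0 (step_sound _ 164 [(rh21c60cb444196a36.shift 3 1), (rh2fd9e64fd2c9a359.shift 3 2), (rh349bb13281589fed.shift 2 1), (rh3dce229be1ab013e.shift 3 0), (rh99431c244b692f57.shift 3 1), (rh9fbfbc523a7c0c0c.shift 1 1), (rhaa3fd1bad09f1a83.shift 2 1), rhc80e82cadcff1b11] (by decide +kernel))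
noncomputable def rhaee15d5b36b1a197 : CRef := CRef.mk (Pat.mk 0x4000000040000000000000002000000020000000000000000000000000000000000000000000000000 0x40000001df000001be000001ff000001fe000001ff000003fe0000007c000000700000007000000050 14 10) 0 0 (step_sound _ 165 [(rh0880d4f588257e6c.shift 2 1), rh140c0466d3f018e1, (rh152edaac1271de5b.shift 4 1), (rh1900c1bad7e860ae.shift 2 2), rh28345be40cdbb088, (rh3e0ba1c794e6f83a.shift 2 0), (rh70f834b40aa8abb4.shift 2 0), (rh78dd6c9a89da264e.shift 2 0), (rh811d65f05f134ee0.shift 4 2), (rhb6ffd38297a2b0a4.shift 4 1), (rhd05d0be8a5fe7a03.shift 0 2), (rhf05ceac9b0d440e4.shift 4 1)] (by decide +kernel))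
noncomputable def rh7424b67ceab14cea : CRef := CRef.mk (Pat.mk 0x2000000030000000000000000000000000 0x800000008000001fe000001fe000007f7000003f0000007f8 14 11) 0 0 (step_sound _ 99 [(rh0568b7ab013f43a7.shift 0 2), (rh182142b62bccbf23.shift 0 2), (rhb103f40a53fe1424.shift 0 2), (rhcfd9597b7a05be51.shift 2 0)] (by decide +kernel))
noncomputable def rhc479f4df540abbd4 : CRef := CRef.mk (Pat.mk 0x14000000040000000000000002000000020000000000000000000000000000000000000000000000000 0x10000000140000003fc000003bc00001fef00000ffe00001fff000007f0000003f8000007f80000017000000050 14 13) 0 0 (step_sound _ 261 [(rh1006c02ae4212ff0.shift 5 6), rhec9f6b29da02a0f3] (by decide +kernel))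
noncomputable def rhf66400e7081ad65b : CRef := CRef.mk (Pat.mk 0x20000000a0000000200000002000000000 0x10000000100000003de000001fc000000bc000001ff000000be00000017 14 10) 0 0 (step_sound _ 134 [rh119d499cf64488df, (rh2f68792b6b779e96.shift 5 1)] (by decide +kernel))
noncomputable def rhd3628a5bb7ae0d54 : CRef := CRef.mk (Pat.mk 0x1000000050000000100000000000000000000000000000000000000000 0x8000000080000001ef000000fe0000005e000003f8000001f8000000b8000000380000003800000028 14 10) 0 0 (step_sound _ 132 [(rh84090bc8036b887b.shift 0 3), (rh8cdd36b03d57a2f6.shift 3 2), (rhac896e42bf3e13c0.shift 3 0), (rhc4526fc8abf298b6.shift 3 2)] (by decide +kernel))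
noncomputable def rh316b06b23e44c2ba : CRef := CRef.mk (Pat.mk 0x60000000600000004000000000000000000000000000000000 0x40000001c0000001c0000001c0000007e0000007f000000ff0000005f0000005f0000001c00000014 14 8) 0 0 (step_sound _ 102 [(rh7b1f1fb55310c477.shift 5 2), rhff6b3106098ad83f] (by decide +kernel))
noncomputable def rheba9ca463bb2f025 : CRef := CRef.mk (Pat.mk 0x60000001400000004000000000000000000000000000000000 0x204000003bc000003fc000003bc000003fe0000017f000003ff00000fbf0000023f0000021c00000014 14 12) 0 0 (step_sound _ 165 [(rh492f4e30984a2908.shift 2 4), (rh4d903ee13bce1e8f.shift 2 2), (rh536921fdcf45dccc.shift 2 4), (rh638b92365685ccb3.shift 1 1), (rh7deee1b2811ee1f2.shift 2 3), rhff6b3106098ad83f] (by decide +kernel))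
noncomputable def rh092de2a2171fa1b7 : CRef := CRef.mk (Pat.mk 0x60000001400000004000000000000000000000000000000000 0x204000003bc000003fc000003bc000003fe0000017f000003ff0000033f0000023f0000001c00000014 14 10) 0 0 (step_sound _ 165 [(rh492f4e30984a2908.shift 2 4), (rh4d903ee13bce1e8f.shift 2 2), (rh536921fdcf45dccc.shift 2 4), (rhb8285882ba104cf2.shift 2 2), rhff6b3106098ad83f] (by decide +kernel))
noncomputable def rhe1acb09ea0fec8a6 : CRef := CRef.mk (Pat.mk 0x18000000100000001000000000000000000 0xce000000fe000000ff00000efe000007ff0000017e000003ff000001fe000000fe 14 12) 0 0 (step_sound _ 134 [(rh1d65bb0a35b59d5d.shift 5 1), (rh1da55f2686e6333f.shift 5 0), (rh684647bd66f98623.shift 3 1), (rh73dbc3d75d9f32e4.shift 3 0), rh9cdc5be645e8d92d, (rha9927c6825142fe2.shift 1 0), (rhb1688bf6da1a7843.shift 4 1)] (by decide +kernel))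
noncomputable def rh5355bbecd4145322 : CRef := CRef.mk (Pat.mk 0x2000000020000000a0000000000000000000000000 0xa0000003e0000007f0000007f000001fe000000ff000001ffe000003f7000002a0000001f0000001f000000150 14 13) 0 0 (step_sound _ 69 [rh0a0228494173a8c5, (rh5ad9898cc32ef511.shift 4 0), (rh6aa5625770489e83.shift 4 0), (rh6eff4158bb400f47.shift 4 0)] (by decide +kernel))
noncomputable def rh87548f8276781a46 : CRef := CRef.mk (Pat.mk 0xe0000000800000020000000000000001000000000000000000000000000000000000000000000000000000000 0x50000000780000006e0000007c00000020000000f00000007c00000078000000ff000000fe0000003f000000380000003000000020 14 8) 0 0 (step_sound _ 325 [(rh68691964b29f233d.shift 1 10), rh9cbccbf272a8bf2c, rhdcae82a57008d5cb] (by decide +kernel))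
noncomputable def rh7afadef6db403590 : CRef := CRef.mk (Pat.mk 0x300000001000000050000000000000000000000000000000000000000000000000 0x8000000080000003c7000001ff000003fe00000056000007fe000003fe000007ff000001e0000001e000000140 14 11) 0 0 (step_sound _ 133 [(rh179131209f27b1f6.shift 3 3), (rh8ac3cc5e149c24ca.shift 0 3), rhb38d939e9e85faef, (rhff763b75cad9671b.shift 3 3)] (by decide +kernel))
noncomputable def rhee4f773667167cd4 : CRef := CRef.mk (Pat.mk 0x600000004000000140000000000000000000000000000000000000000000000000 0x180000021f000003fe000003ff0000015c00000ffe000007fc00000ffe0000003c0000003c00000010 14 12) 0 0 (step_sound _ 232 [(rh126557da767e56cc.shift 3 7), (rh8c25cb665ab79ec0.shift 3 7), (rhab657cabf48b2883.shift 0 4), (rhd9c3c8a74f82e0d6.shift 1 0)] (by decide +kernel))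
noncomputable def rh1cd9074b7cc43c52 : CRef := CRef.mk (Pat.mk 0x50000000100000005000000000000000000000000000000000 0x38000000380000007ff000003fe000007ff000003d0000000f800000050000003fe000001fc000003fe00000008 14 11) 0 0 (step_sound _ 166 [(rh5d91ec4eb06a1f14.shift 3 3), (rh9f94ac68362cfcbe.shift 0 4), (rhace6a1d2d86aeb2a.shift 1 0)] (by decide +kernel))
noncomputable def rh6e50d31fe8ceac24 : CRef := CRef.mk (Pat.mk 0x10000001c00000016000000000000000000000000000000000 0x40000000700000007000000072800001ff800000ff800000ffe000001df0000017800000398000003980000038800000280 14 13) 0 0 (step_sound _ 231 [(rh02dac2d4d352e241.shift 2 4), rh83cbd0a54859d045, (rh874e24fe745aad61.shift 2 1), (rh93f42258268db2fc.shift 3 4), (rhd302a01a4e6865cd.shift 6 2)] (by decide +kernel))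
noncomputable def rh75d9e50bca2a2d03 : CRef := CRef.mk (Pat.mk 0xc000000180000005000000000000000000000000000000000 0x200000002a0000007b000000ff000000df0000005f0000004f0000000f0000000f00000005 14 8) 0 0 (step_sound _ 227 [(rh2145e1d24b96a57e.shift 3 4), rha2e119c1e8b21f1e] (by decide +kernel))
noncomputable def rh12da161a7d8804b5 : CRef := CRef.mk (Pat.mk 0x30000000600000004000000000 0x1c0000003c0000003f000003bc000003fc0000007c0000007000000030 14 10) 0 0 (step_sound _ 133 [(rh2145e1d24b96a57e.shift 5 1), rhb22ef3a6de4d910b] (by decide +kernel))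
noncomputable def rh24f5db63e15c81f1 : CRef := CRef.mk (Pat.mk 0xc000000100000001000000000000000000000000000000000 0x30000001fc000000ff000000ff0000001f0000001f0000000f0000000f0000000f00000005 14 9) 0 0 (step_sound _ 163 [(rh0358a0971668addd.shift 0 1), (rh0eebd43ba3f029a2.shift 0 3), (rh2e27c869e42fe209.shift 0 1), rh71abf70830cf5bdb, (rha501234103352993.shift 0 4), (rhad16872f2d996238.shift 0 1), (rhb5e6eed5d8ab6ad3.shift 0 1), (rhcbff0bcd73a76838.shift 0 1)] (by decide +kernel))
noncomputable def rh2221bd38c34a09d0 : CRef := CRef.mk (Pat.mk 0x50000000c000000040000000000000000000000000 0x20000000e0000000f4000007ff000003ff0000077f000000de0000007c0000002c0000000c00000004 14 11) 0 0 (step_sound _ 198 [rh42f5b911eb22b501, (rh648704db37c0fcc4.shift 3 3), rh8bf9af1bc59a26e4, (rhc85cc95794737cf7.shift 5 3), (rhe86a237a17356ab2.shift 3 3)] (by decide +kernel))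
noncomputable def rh05feecf8576eeaae : CRef := CRef.mk (Pat.mk 0x10000000c00000014000000000000000000000000000000000 0x38000000380000003e800001ffc00000ff800001ffe000003df00000178000003bc000003b8000003b8000002a8 14 13) 0 0 (step_sound _ 133 [(rh12c474d6b14624e6.shift 2 0), (rh83cf6c08e6cf7b2d.shift 3 1), (rha555648cd7e21296.shift 3 1), (rhd543a57abb85ea3e.shift 0 1), (rhdadd9e1d3cf6f25d.shift 3 2), (rhdd5593c79d0b5983.shift 0 1), (rhdef0c7a59fdb47fa.shift 3 3), (rhf47c28ae16d4bb6d.shift 3 1), (rhfd82ad393e7ff239.shift 2 0)] (by decide +kernel))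
noncomputable def rh7fa3e2b04d7b039d : CRef := CRef.mk (Pat.mk 0x800000060000000a000000000000000000000000000000000 0x20800000ffe000007fe00000fff000007fc000001ee000000be000001de000001de000001de00000154 14 12) 0 0 (step_sound _ 132 [(rh12322fa7c6b38814.shift 2 1), (rh1c6e68816438a0df.shift 2 1), (rh3ee6a03a31275d8e.shift 3 2), (rh4bfcd71c70a0cbcb.shift 1 1), (rh64be874654cf41c0.shift 0 1), (rh73f00e260e6ba4e1.shift 1 0), (rh86052a9ed49a191b.shift 1 1), (rhbd8642dcafa336f6.shift 1 0), (rhf0516fa3d93c2cea.shift 2 1)] (by decide +kernel))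
noncomputable def rha9ab9b1f9d96f362 : CRef := CRef.mk (Pat.mk 0x2000000180000002c000000000000000000000000 0x1f8000000fc000001fe000000fe0000007a0000002f000000260000002400000004 14 9) 0 0 (step_sound _ 133 [(rh18965a982d73c794.shift 2 3), rha5216d2fd25c2cb4] (by decide +kernel))
noncomputable def rh4b0c7356f8ec6fee : CRef := CRef.mk (Pat.mk 0xc000000100000001000000000000000000000000000000000 0x32000001fa000000ff000000ff0000001f0000001f0000000f0000000f0000000f00000005 14 9) 0 0 (step_sound _ 163 [(rh0eebd43ba3f029a2.shift 0 3), (rh2e27c869e42fe209.shift 0 1), rh71abf70830cf5bdb, (rha501234103352993.shift 0 4), (rhad16872f2d996238.shift 0 1), (rhb0444ca05028c92e.shift 0 3), (rhb5e6eed5d8ab6ad3.shift 0 1), (rhcbff0bcd73a76838.shift 0 1), (rhfc47cdc6977d6801.shift 0 2)] (by decide +kernel))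
noncomputable def rh436ffd83ae41110c : CRef := CRef.mk (Pat.mk 0x2000000380000002800000000000000000000000000000000000000000 0x150000001d0000001fc000007f8000007ef00000ffe000003bf000002fc0000027800000238000000380000003800000028 14 12) 0 0 (step_sound _ 231 [(rh075211c3608a5a57.shift 4 6), (rh5b36b02b2b297ef6.shift 4 3), rha2864d6813fce05c, (rhdeb26f2c1965e74f.shift 5 3)] (by decide +kernel))
noncomputable def rh5aef620f8610a212 : CRef := CRef.mk (Pat.mk 0x300000018000000080000000000000000000000000 0x10000000740000007c0000006e0000003e000001fe000000ff0000007c0000007e00000050 14 9) 0 0 (step_sound _ 133 [rh3f337c2bbc77aba0, (rh5419adcd928dba20.shift 4 4)] (by decide +kernel))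
noncomputable def rh4cf24ec73a1a50bd : CRef := CRef.mk (Pat.mk 0x100000004000000140000000000000000000000000 0x20000000f8000000f8000003fe000003ff00003ffe00001ff700001d7f0000013e0000013f00000030 14 14) 0 0 (step_sound _ 165 [(rh22151f32fdc4f727.shift 0 1), (rh387ca28685cc10c8.shift 2 0), (rh6611bf43adfd37fa.shift 0 3), (rh87eaecb96fc66f30.shift 1 0), (rh8c313c376b4a7be2.shift 1 0), rh980f465bad733828, (rhaf3e8f628a573659.shift 2 0), (rhefeeae490fcdea92.shift 0 2)] (by decide +kernel))
noncomputable def rh4c4d738b2ef22da9 : CRef := CRef.mk (Pat.mk 0x80000000c00000018000000100000000000000000 0x500000037000000370000003b0000001f0000001f0000001f0000000f00000007 14 6) 0 0 (step_sound _ 129 [rhaa7f8655e9c01c4c, (rhb739f4f82bb681b4.shift 0 3)] (by decide +kernel))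
noncomputable def rh9109948a42a826d2 : CRef := CRef.mk (Pat.mk 0x3000000018000000200000002000000000000000000000000000000000 0x4000000040000004e000000fe000000380000007f0000003e0000001f0000000e0000000e0000000a 14 8) 0 0 (step_sound _ 230 [(rh18965a982d73c794.shift 3 6), rha90f5b7fb65cba75] (by decide +kernel))
noncomputable def rhf09677c576820a08 : CRef := CRef.mk (Pat.mk 0xc0000001000000010000000000 0x8000000f8000003f80000027800000fff000007fe00000f7f000001f0000000b0 14 12) 0 0 (step_sound _ 104 [rh0ba5b5fd6ed2e210, rh8c7c7fd93dc3f370, (rh8f608fc770a6e29a.shift 2 2), (rh9311bff356bd1036.shift 5 1), (rhe77cdbae63d92bd9.shift 4 2)] (by decide +kernel))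
noncomputable def rh9c002801bfd72303 : CRef := CRef.mk (Pat.mk 0x30000000c00000006000000000000000000000000000000000 0x6000000070000000f00000007c0000003c000001fe000000fe000001ff 14 9) 0 0 (step_sound _ 132 [(rh53b3c253cb0c65f4.shift 3 4), rhb5225da9909ca4b0] (by decide +kernel))
noncomputable def rh977fc1da0217c61c : CRef := CRef.mk (Pat.mk 0x400000070000000500000000000000000 0x70000002f0000003f0000003f000000bf000001ff000000770000005f0000004700000040 14 9) 0 0 (step_sound _ 132 [(rh075211c3608a5a57.shift 1 3), (rh8d0b6fef12ed9bbd.shift 0 1), rhd0c16a96b9e7d71e, (rhdeb26f2c1965e74f.shift 2 0)] (by decide +kernel))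
noncomputable def rha82ffd7a9cec8823 : CRef := CRef.mk (Pat.mk 0xc0000001000000010000000000000000000000000 0x7c0000007c0000007f0000007f0000001b0000000f0000000e0000000c 14 7) 0 0 (step_sound _ 131 [rh094cfb1b1a6aedc0, (rh3c3e23a02e82b2ed.shift 0 4), (rh8890a2107ac3536f.shift 2 0)] (by decide +kernel))
noncomputable def rh0bf294db97f86910 : CRef := CRef.mk (Pat.mk 0xc00000018000000100000000000000000 0x3f0000003f000000fb000000ff0000001f0000001b0000000a00000002 14 8) 0 0 (step_sound _ 129 [rha3ee9b9bc12b500b, (rhb739f4f82bb681b4.shift 0 3)] (by decide +kernel))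
noncomputable def rh3867023ecac683e5 : CRef := CRef.mk (Pat.mk 0x180000002000000020000000000000000000000000 0xe0000000e0000007f000000ff000000df000000fe000000360000001e0000001c00000018 14 8) 0 0 (step_sound _ 132 [(rh094cfb1b1a6aedc0.shift 1 0), (rh3c3e23a02e82b2ed.shift 1 4), (rh9312608831dbc7ca.shift 0 2), (rha21128819fe7cf7a.shift 0 2)] (by decide +kernel))
noncomputable def rhe87f7eff6a853daf : CRef := CRef.mk (Pat.mk 0x20000000800000028000000000000000000000000000000000 0x3800000078000004fc000004fc00000fff000007fe000002ff0000027c0000027e0000007800000028 14 12) 0 0 (step_sound _ 166 [(rh1e5e81c760afbc62.shift 2 2), (rh331aed384ca4eab3.shift 2 3), (rh632038d25a4097e5.shift 1 0), (rh865977041eba647a.shift 2 1), (rh8a32f939ee6d987a.shift 0 1), (rh9360919bf1094b0a.shift 2 0), (rh9478a0e963804d00.shift 0 1), (rh9d66214c59d84636.shift 2 1), (rha90ff820fc68f548.shift 3 1), (rhb381b1042ca8939a.shift 0 2)] (by decide +kernel))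
noncomputable def rh2df897ed056f0a12 : CRef := CRef.mk (Pat.mk 0x40000000400000014000000000000000000000000000000000 0x200000006000000070000000d0000001ff000000fe000000ff000000f8000000f8 14 9) 0 0 (step_sound _ 102 [(rh4dc75d06c1bf4c3e.shift 2 2), (rh5133fbe07fd94255.shift 2 2), (rh5abfc4c9d959be03.shift 5 2), (rh643c9943a577215c.shift 0 1), (rh8cdd36b03d57a2f6.shift 5 1), (rha185281b2a5447f8.shift 2 0)] (by decide +kernel))
noncomputable def rha4f51b74c278c320 : CRef := CRef.mk (Pat.mk 0x20000000a000000080000000000000000000000000000000000000000000000000 0x1000000070000007fc000003f8000007be000001fc000007bf000000fe0000007f000001fe00000078000000780000007000000050 14 11) 0 0 (step_sound _ 197 [(rh02bbc98d17f7b55d.shift 1 3), (rh12d41e8ca682dab5.shift 1 3), (rh44020f2a9e505ba9.shift 1 3), (rh5de54c314762623a.shift 2 5), (rha089b6aa6dd4dd5e.shift 1 3), (rhaf7955adbc1f7ff4.shift 4 3), rhb1c91a56b214738b] (by decide +kernel))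
noncomputable def rhfe0763c40c1f5c87 : CRef := CRef.mk (Pat.mk 0x180000003000000020000000000000000000000000 0x3ff000001fe000003df000001f8000000fc00000038000000180000001800000018 14 10) 0 0 (step_sound _ 166 [(rh1d1b54d50877cc52.shift 2 2), rh96291a50cef1eb1e, (rhe1ccb8f6ef159d59.shift 3 4), (rhf6a00e39d98991ed.shift 2 3)] (by decide +kernel))
noncomputable def rha959bd03bcb2feaf : CRef := CRef.mk (Pat.mk 0x180000003000000020000000000000000000000000 0x3ff000001fe000003df000001f8000000fe000000360000001e0000001c00000018 14 10) 0 0 (step_sound _ 166 [(rh1d1b54d50877cc52.shift 2 2), rhb3dd6492849ff3d9, (rhe1ccb8f6ef159d59.shift 3 4), (rhf6a00e39d98991ed.shift 2 3)] (by decide +kernel))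
noncomputable def rhc93747d8edd0912c : CRef := CRef.mk (Pat.mk 0x300000004000000140000000000000000000000000 0x18000000b8000000b8000007bf000003fe0000037f0000017c000003bc000003b000000280 14 11) 0 0 (step_sound _ 166 [(rh37ef05b9917c30fc.shift 1 2), rh7ce9070cb69f3003, rha5c0b64077b0a548, (rhb36b9a7cdc05d6d2.shift 3 0), rhbce99b5a96fa0649, rhc0f4979667dee4a4, (rhe06e0055f4893bda.shift 2 0)] (by decide +kernel))
noncomputable def rh7ab941fa67d24688 : CRef := CRef.mk (Pat.mk 0x40000000500000004000000040000000000000000000000000 0x80000000f4000000ff0000007f000000ff000000de0000007c0000003c0000001c00000014 14 8) 0 0 (step_sound _ 229 [rh5203989683778ed5, (rhffd04209dc8ea796.shift 5 3)] (by decide +kernel))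
noncomputable def rhd333bca777d91bdc : CRef := CRef.mk (Pat.mk 0x4000000050000000400000004000000000000000000000000000000000 0x8000000180000003c0000007f000000fe000000ff0000007c0000003c0000001c0000001c00000014 14 8) 0 0 (step_sound _ 229 [rh0f8a26489b5ab0ab, (rh50fbb5868c909700.shift 5 4)] (by decide +kernel))
noncomputable def rh9f01e805c50bb7ed : CRef := CRef.mk (Pat.mk 0x500000004000000140000000000000000000000000 0x90000000b0000007bf000003fe000003ef00000170000003b0000003b000000280 14 11) 0 0 (step_sound _ 165 [(rh554009a2f490582e.shift 0 4), (rh56e3bea49a5ffec8.shift 4 0), rha5c0b64077b0a548] (by decide +kernel))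
noncomputable def rh27eaf55e0c51414e : CRef := CRef.mk (Pat.mk 0xa0000000a000000280000000000000000000000000000000000000000000000000 0x500000007000000ef0000007e0000007bf000002fe0000027f000001fe00000078000000780000007000000050 14 12) 0 0 (step_sound _ 197 [(rh029f82fcbdb61681.shift 4 3), (rh5ed69d152ecadf7b.shift 0 5), (rh6429be576e16fd89.shift 4 5), (rh6b713d40729ed4a1.shift 4 3), (rh8f3c23d30ef38b04.shift 4 5), (rh9e74382ec9f594b6.shift 1 4), rhb1c91a56b214738b] (by decide +kernel))
noncomputable def rh09330b5be52b2bfa : CRef := CRef.mk (Pat.mk 0xa0000000800000028000000000000000000000000000000000 0x5000000070000005700000057e00007f7c00003fef00007ffe00003aff0000077e0000077e0000057000000040 14 15) 0 0 (step_sound _ 165 [(rh32a36d34788e9ade.shift 4 3), (rh49c15d1008bd2904.shift 4 1), (rh86bf9099d952e2f7.shift 1 0), (rh8ac9b9b3eb41e4e0.shift 1 1), (rhabfb261b2812911f.shift 3 1), (rhade143d5c40f84ae.shift 0 1), (rhd4a8b3e1dc47e3b8.shift 4 1), (rhebd87b9c732791f6.shift 1 1), (rhf6454ed7b2002375.shift 4 1)] (by decide +kernel))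
noncomputable def rh9a880e551e77c075 : CRef := CRef.mk (Pat.mk 0x4000000060000000c00000028000000000000000000000000 0x2000000030000000380000003f000000fe000000ff000000fb0000007f0000007e0000003c00000028000000700000007000000050 14 8) 0 0 (step_sound _ 196 [(rh078dca784307230c.shift 0 3), (rh0fb41f9478a8a50d.shift 0 2), (rh2d253f50e1cae92f.shift 0 3), (rh709b3fede80d4830.shift 1 3), rhc2f86435f2e6760e, (rhf2bc2a6bfd2b0b71.shift 1 3), (rhf89b21a9648a5248.shift 0 3)] (by decide +kernel))
noncomputable def rhdd5253c5a0eab0ea : CRef := CRef.mk (Pat.mk 0x3000000060000000400000000000000000 0x1c0000001e0000007fe000003fc000003ff00000170000001fe0000005c0000001800000018 14 11) 0 0 (step_sound _ 197 [(rh6f1cbe15c631ee70.shift 5 2), rhabe229dfc113fa68] (by decide +kernel))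
noncomputable def rhe0e6a5c84f416436 : CRef := CRef.mk (Pat.mk 0x300000005000000140000000000000000000000000 0x18000007ff000003fe000007ff000003be000001fe0000014e000003800000038000000280 14 11) 0 0 (step_sound _ 133 [(rh79b3c29022acbdf3.shift 3 4), (rha9fbfd4bb8cf890b.shift 1 4), rhc03e3ee61d27886e, (rhe2b63c00a3d7bb73.shift 2 4), (rhf4b54ca06e4f5a34.shift 0 3)] (by decide +kernel))
noncomputable def rh041e788779b321bd : CRef := CRef.mk (Pat.mk 0x10000000500000014000000000000000000000000000000000 0x28000002f8000003fe000003fe000003be000003fc00000177000003be000003bf000002b800000020 14 10) 0 0 (step_sound _ 165 [rh1a59a3241c9d707e, (rh38791ac5737ed75e.shift 3 5), (rha9fbfd4bb8cf890b.shift 1 5), rhf61bdc1ac9116f37] (by decide +kernel))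
noncomputable def rh7bc6260394d7cc50 : CRef := CRef.mk (Pat.mk 0x40000001c000000100000000000000000000000000 0xbc000000fc000001fc000003fe000003ff000000fe000001ff0000017c000000fc000000f4000000a0 14 10) 0 0 (step_sound _ 165 [(rh6a38a633f768a23f.shift 3 0), (rhc02b3aee7ab87ee1.shift 3 4), (rhc68d087b4bec7b5d.shift 0 1), (rhdbcea10a0fbe5ba6.shift 3 4)] (by decide +kernel))
noncomputable def rhcf53dccfc3041449 : CRef := CRef.mk (Pat.mk 0x4000000140000001000000000000000000 0x3c000000fc000001fc000003fe000003ff000000fe000003ff000001bc000000fc000000f4 14 10) 0 0 (step_sound _ 133 [(rh126557da767e56cc.shift 3 3), (rh5eace4025614a95f.shift 4 0), (rh8c25cb665ab79ec0.shift 3 3), rhc68d087b4bec7b5d] (by decide +kernel))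
noncomputable def rh6e79096ca4ed5f51 : CRef := CRef.mk (Pat.mk 0x2000000020000000800000028000000000000000000000000000000000 0x5000000070000003ff000001fe00000fff000007fc000007b0000002f000000270000000700000007000000050 14 12) 0 0 (step_sound _ 165 [(rh12e2d20b3d4f381a.shift 4 3), (rh1e447d7a1e3dd2d2.shift 2 0), (rh353c99b15947840d.shift 2 1), (rh5695e0afd76d11ac.shift 4 1), (rh5e8ced243ac9081d.shift 4 0), (rh712fbcd1f72b0c82.shift 4 1), (rh9a0e653e04772e16.shift 4 2), (rh9b6b0a2fd63afa6e.shift 3 4), (rhb593f7916454b755.shift 0 3)] (by decide +kernel))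
noncomputable def rhfe94b271341c756b : CRef := CRef.mk (Pat.mk 0x2000000020000000800000008000000000000000000000000000000000 0x50000000740000007c0000017f0000017e000003ff000003ff000007bf000000ff0000007e0000007e0000007000000050 14 11) 0 0 (step_sound _ 165 [(rh5695e0afd76d11ac.shift 4 1), (rh591759c9b8953fa7.shift 2 3), (rh5e8ced243ac9081d.shift 4 0), (rh60bb53f896360232.shift 2 4), (rh6b6dc5e5764d4e1a.shift 2 0), (rh79e2dfaa8afaa996.shift 1 1), (rhab726308d791659d.shift 3 1), (rhaf1b82d98f26c7fa.shift 3 1), (rhbc9804441bc64351.shift 0 2)] (by decide +kernel))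
noncomputable def rha502a30ce12098de : CRef := CRef.mk (Pat.mk 0x2000000020000000800000008000000000000000000000000000000000 0x140000001c000003df000001fe000003ff000003ff000007bf000000ff0000007e0000007e0000007000000050 14 11) 0 0 (step_sound _ 165 [(rh5695e0afd76d11ac.shift 4 1), (rh591759c9b8953fa7.shift 2 3), (rh5e8ced243ac9081d.shift 4 0), (rh6b6dc5e5764d4e1a.shift 2 0), (rh712fbcd1f72b0c82.shift 4 1), (rh79e2dfaa8afaa996.shift 1 1), (rh9a0e653e04772e16.shift 4 2), (rh9c46a7060d06e11a.shift 3 0), (rhab726308d791659d.shift 3 1), (rhdc3e3fee109c55e5.shift 0 2)] (by decide +kernel))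
noncomputable def rhcf7997a838adf1b1 : CRef := CRef.mk (Pat.mk 0x10000000180000004000000040000000000000000000000000 0xc0000009c000000ff000000ff000000fb000000df0000007e000000380000001000000010 14 8) 0 0 (step_sound _ 131 [(rh9db705b481893df0.shift 0 3), (rha932df7c759f8641.shift 2 0), (rhdc2a8236b56c0a85.shift 0 2), (rhdf88e75bb107bccf.shift 0 2), (rhf9366b6a121593ef.shift 3 2)] (by decide +kernel))
noncomputable def rh137a9d959fb1d184 : CRef := CRef.mk (Pat.mk 0x18000000180000002000000020 0x3e000000ff000000ff000000df0000005f0000006c00000028 14 8) 0 0 (step_sound _ 132 [rh27c6bcba9b882845, (rh3786e859c99c7bbd.shift 1 2), (rh503dd4575245365b.shift 3 1)] (by decide +kernel))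
noncomputable def rh2c772ce151f8c4df : CRef := CRef.mk (Pat.mk 0x2000000030000000800000008000000000 0x5000000070000000f0000001bc000001f0000003fc000001be000000fe0000007f 14 10) 0 0 (step_sound _ 134 [(rh0bb882ba86b2372d.shift 2 3), (rh36639acf23ed5bce.shift 3 0), (rh574fdbf07bdd18b9.shift 2 3), rh5f7a042aa205da54] (by decide +kernel))
noncomputable def rh6dacd7938c24f329 : CRef := CRef.mk (Pat.mk 0x2000000020000000800000028000000000000000000000000000000000 0x5000000070000001ff000001fe00000e7f000007f0000007b8000002fe0000027c0000007e0000007000000010 14 12) 0 0 (step_sound _ 165 [(rh12e2d20b3d4f381a.shift 4 3), (rh5695e0afd76d11ac.shift 4 1), (rh712fbcd1f72b0c82.shift 4 1), (rh9a0e653e04772e16.shift 4 2), (rhb593f7916454b755.shift 0 3), (rhd80337218f51c545.shift 1 0)] (by decide +kernel))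
noncomputable def rha002cfe42c8a2d9e : CRef := CRef.mk (Pat.mk 0x1000000010000000400000014000000000000000000000000000000000 0x28000000380000003800000038000001f800000ffc000007f400000ffe000003de0000017e0000013f000000380000003800000008 14 12) 0 0 (step_sound _ 164 [rh04c160626033de9d, (rh11258c9357c7bfa7.shift 2 3), (rh12e2d20b3d4f381a.shift 3 3), (rh13961e4c77c5c2c8.shift 1 0), (rh712fbcd1f72b0c82.shift 3 1), (rhb877314a1c393c42.shift 2 4)] (by decide +kernel))
noncomputable def rh76f37de333ecf077 : CRef := CRef.mk (Pat.mk 0xa0000000a000000080000000800000000 0x50000001f0000001f0000001f0000000e0000001f000000790000000c00000004 14 7) 0 0 (step_sound _ 162 [rh176105e9ffed45e6, (rhffd04209dc8ea796.shift 2 1)] (by decide +kernel))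
noncomputable def rh9d1d447319648599 : CRef := CRef.mk (Pat.mk 0x5000000010000000400000004000000000 0x140000003c000000fe000000ef000000ff0000007f000000df0000007e0000003e 14 8) 0 0 (step_sound _ 102 [(rh1741680720c097b4.shift 5 1), rh79e1841d2799f333, rh846a367d1e10ff60, (rh93fc2f27f568ffca.shift 2 0), (rhc16db94c2420f4f5.shift 3 1)] (by decide +kernel))
noncomputable def rh31bd4eb73a918675 : CRef := CRef.mk (Pat.mk 0x5000000010000000400000014000000000 0x80000000ec000000fe000000ef000007df000003ff000003df0000017e0000013e 14 11) 0 0 (step_sound _ 102 [(rh0363d47a46978688.shift 3 1), (rh5506f995a9bf9dda.shift 1 0), rh79e1841d2799f333, (rh8e77ed8198b1a0fa.shift 5 1)] (by decide +kernel))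
noncomputable def rh1af7e92538f5efab : CRef := CRef.mk (Pat.mk 0x200000008000000280000000000000000000000000 0x50000003f800000ffc00000fff00000fff000007ff00000fbf000007fe000002fe0000027c0000027e00000078 14 12) 0 0 (step_sound _ 133 [(rh0c2ff1b3fdec41b5.shift 1 0), (rh2e71ab69b41c95d3.shift 2 1), (rh44c9e2a1a9627ed7.shift 1 1), (rh58e7540391908ed6.shift 2 0), rh92fc781aa7848296, (rhae4ade170f8df138.shift 1 1), (rhb9e497339a007a32.shift 1 1), (rhd22a16d53a3c3a43.shift 1 0), (rhd5b716704b36ad45.shift 1 0), rhdcd310786f98e5c3, (rhebbe7eb08d0f90a5.shift 1 1)] (by decide +kernel))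
noncomputable def rh8d8f786c63818e81 : CRef := CRef.mk (Pat.mk 0x40000000500000004000000140000000000000000000000000 0x140000001c0000001c0000003c000003ff000003fe0000037f0000015c000003880000038800000280 14 10) 0 0 (step_sound _ 197 [(rh50fbb5868c909700.shift 5 3), rh71f7ab90fcd0c317] (by decide +kernel))
noncomputable def rh7e00966dd492c2b0 : CRef := CRef.mk (Pat.mk 0x40000000500000004000000140000000000000000000000000 0x140000001c0000005c000003df000003fe0000037f0000017c000003bc0000039c00000280 14 10) 0 0 (step_sound _ 101 [(rh932754581e0f4330.shift 5 2), rhda85f9878636dfa1] (by decide +kernel))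
noncomputable def rh5aaea85238f7030b : CRef := CRef.mk (Pat.mk 0x500000004000000140000000000000000000000000 0x18000000b8000000b8000007bf000003fe0000037f0000017c000003bc000003b000000280 14 11) 0 0 (step_sound _ 165 [(rh37ef05b9917c30fc.shift 1 2), rh7ce9070cb69f3003, rha5c0b64077b0a548, (rhb36b9a7cdc05d6d2.shift 3 0), rhbce99b5a96fa0649, rhc0f4979667dee4a4, (rhe06e0055f4893bda.shift 2 0)] (by decide +kernel))
noncomputable def rha6157a61cf22ba25 : CRef := CRef.mk (Pat.mk 0x50000000400000014000000000000000000000000000000000 0xdc000000fc000000fc0000037f000003fe0000037f0000017c000003bc000003bc000002bc00000014 14 10) 0 0 (step_sound _ 197 [(rh2744c52d6ab7462d.shift 0 4), (rh3d7a205f2c96a877.shift 0 4), (rh41d27c8918c78f49.shift 0 4), (rh5e6fc665ddf73b1f.shift 0 3), (rh626dfd0b2fb72981.shift 0 2), (rh7d2897913388c861.shift 0 1), (rh8d6bd0f0fc9480b0.shift 2 1), (rhad51dac92552f929.shift 2 0), (rhf10bdaa8e8d71421.shift 0 1)] (by decide +kernel))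
noncomputable def rha1e2c30a02abae20 : CRef := CRef.mk (Pat.mk 0x20000000400000005000000040000000400000000000000000 0x140000009c000003fc000000fc0000004f000000ff000000df0000007f0000003c0000000c 14 10) 0 0 (step_sound _ 131 [(rh0515900207948dc3.shift 3 3), (rh21e477c7096e56e2.shift 0 1), (rh5e21dc1349369cd1.shift 1 3), rh8d17ea6ca9e19b1b, (rhe89524187d4c5895.shift 0 1)] (by decide +kernel))
noncomputable def rhc7e18ae2891e1b71 : CRef := CRef.mk (Pat.mk 0x20000000400000005000000040000000400000000000000000 0xa0000000f4000000fc000000fe0000007c000000cf000000ff000000df0000007f0000003c0000000c 14 8) 0 0 (step_sound _ 198 [(rh50fbb5868c909700.shift 5 3), rhd1bfa68e78502d5e] (by decide +kernel))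
noncomputable def rhf9f69220bdc91419 : CRef := CRef.mk (Pat.mk 0x500000004000000140000000000000000000000000 0xc0000001ec000003ec0000036f00003ffe00001fff00001d7c0000013c0000013c00000020 14 14) 0 0 (step_sound _ 165 [(rh554009a2f490582e.shift 0 4), (rh7cd4c573dd7b0df4.shift 0 1), (rh8ee80cc30e93a344.shift 3 4), (rhbbc3aec531320b72.shift 1 0), (rhf21446266911d911.shift 0 1)] (by decide +kernel))
noncomputable def rh6d1d40e18e2d24b4 : CRef := CRef.mk (Pat.mk 0x100000005000000010000000000000000000000000 0x80000003800000038000003b8000001f8000000f80000005e000000fe000001ef0000008000000080 14 10) 0 0 (step_sound _ 196 [(rh641b5241be04eec6.shift 1 2), (rh771d065bdc85bf2d.shift 3 2), (rh916fd83c93fa81d6.shift 3 3), (rhc85cc95794737cf7.shift 3 3), (rhe01cfd8f0577defd.shift 3 3), (rhe0bb19a74dac0e8f.shift 3 2), rhf1c000941da21ce1] (by decide +kernel))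
noncomputable def rhaa75fa32e59af73a : CRef := CRef.mk (Pat.mk 0x100000005000000010000000000000000000000000 0x3ef000001ff000000ff0000005e000000fe000001ef0000008000000080 14 10) 0 0 (step_sound _ 196 [(rh04be73c527df36e2.shift 1 2), (rh1d67193732f40132.shift 1 2), (rh230196991b533796.shift 1 3), (rh69f34d2fa26c2fcc.shift 0 2), (rh6a98544e48445ca8.shift 1 2), (rhe9122a9cf4b5d1f2.shift 0 2), rhf1c000941da21ce1, (rhfce4c0ac793fb0d9.shift 0 2)] (by decide +kernel))
noncomputable def rhf79309254e36e6bf : CRef := CRef.mk (Pat.mk 0x3000000010000000100000001000000000 0x8000000080000001cf000000fe000000f70000003e0000001e0000000a 14 9) 0 0 (step_sound _ 131 [(rh50fbb5868c909700.shift 3 1), rhbb512df3abc143c3] (by decide +kernel))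
noncomputable def rh3208dc6222226440 : CRef := CRef.mk (Pat.mk 0x8000000020000000a00000000000000000 0x14000000fc0000007f000000ff000000fee00001ffe00000ffe00000ebf000001f000000178 14 13) 0 0 (step_sound _ 103 [(rh10b6e5e97767c20b.shift 0 2), (rh145fd0e0c3c30b9b.shift 0 2), (rh31f95ca6908156f6.shift 1 1), rh3718a7f20b51ec62, (rh5c63dfc97ba138aa.shift 1 0), (rh95b484c1d5caba96.shift 2 1), (rhab3f4eb02f867ea7.shift 3 0)] (by decide +kernel))
noncomputable def rhad748197b2565801 : CRef := CRef.mk (Pat.mk 0x8000000020000000a0000000000000000000000000 0x14000000fc0000007f000000ff0000007ee00001ffe00000ffe00000ebf000001b0000001a000000100 14 13) 0 0 (step_sound _ 135 [(rh10b6e5e97767c20b.shift 0 3), (rh145fd0e0c3c30b9b.shift 0 3), (rh3718a7f20b51ec62.shift 0 1), (rh5c63dfc97ba138aa.shift 1 1), (rh7bfb7073d4f49239.shift 6 0), (rh95b484c1d5caba96.shift 2 2), (rhd14a7ad9d9585f99.shift 4 0)] (by decide +kernel))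
noncomputable def rhf2124e24f27cd8a7 : CRef := CRef.mk (Pat.mk 0x4000000050000000500000000000000000000000000000000000000000 0x8000000b8000000f8000003f4000001ff000003de0000005f0000003f0000003c000000380000003800000028 14 10) 0 0 (step_sound _ 228 [(rh20e456cc76827105.shift 3 2), (rh8a6915b555c86462.shift 1 5), (rhcb7169f2aa9399ef.shift 1 2), (rhd1badb3e07cc80ef.shift 3 0), (rhd84efb832158042e.shift 0 3)] (by decide +kernel))
noncomputable def rhc92bcb649225a2a9 : CRef := CRef.mk (Pat.mk 0x1000000004000000040000000c0000000000000000000000000 0xdc000001f8000003fc0000007f000003fe0000003f0000003000000030 14 10) 0 0 (step_sound _ 101 [(rh3c145772ce1970cd.shift 0 1), (rh3d164a09ad92dabc.shift 2 2), (rh5fde9fdec4039881.shift 2 0), (rhfafeb437ceb8396d.shift 5 0)] (by decide +kernel))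
noncomputable def rhcbe11adb948cf5c7 : CRef := CRef.mk (Pat.mk 0x4000000010000000500000000000000000000000000000000000000000 0xd8000000f8000001f8000007f7000003fe000007df0000005e000000ff000000fe000001ff0000003800000028 14 11) 0 0 (step_sound _ 228 [(rh028c27d7536d6fab.shift 1 2), (rh21ea3aee3f363713.shift 0 3), rh7fac441b4f12bccd, (rha2dd2a88f01a1e03.shift 1 2), (rhaee7c0b4dc7f00e5.shift 1 4), (rhe20db83063c3c8ce.shift 0 4), rhee5daf1a1883d4df] (by decide +kernel))
noncomputable def rhf7bb72ed0aca2527 : CRef := CRef.mk (Pat.mk 0x40000000100000005000000000000000200000000000000000 0x8000000b8000000f8000000f300000fdf000007ff0000075f000000ff000000fc0000009800000008 14 12) 0 0 (step_sound _ 166 [(rh046e4bc34261e00b.shift 1 4), (rh6766f36cd8b0fcdd.shift 1 0), rh68305258073cc981, (rh97bd62662717f3a7.shift 5 1)] (by decide +kernel))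
noncomputable def rhd2a46f0517f600a4 : CRef := CRef.mk (Pat.mk 0x8000000020000000a000000000000000400000000000000000 0x1000000170000001f0000001e600001fbf00000ffe00000ebe00000f7e000007fc00000ffe00000050 14 13) 0 0 (step_sound _ 167 [(rh046e4bc34261e00b.shift 2 4), (rh52fc37bd7c94eb65.shift 1 0), (rh760240d688a8cac1.shift 0 1), (rhd78c75d6225bf36b.shift 2 0), (rhe95ce0346f939fcf.shift 1 0), (rhfcad740ef95ac54a.shift 1 0)] (by decide +kernel))
noncomputable def rh8f11b3de5aacbeee : CRef := CRef.mk (Pat.mk 0x20000000200000000000000040000000000000000000000000 0x300000007c0000003f000003fe000001fc000003fe0000007c0000007c 14 10) 0 0 (step_sound _ 101 [(rh241154339d0cd161.shift 4 1), (rh4d1908549a908796.shift 2 1), rh93dd5f103e9270c7, (rh9a39fe698e9c4421.shift 2 2), (rhdf24145e521476d6.shift 2 2)] (by decide +kernel))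
noncomputable def rh467957ff53e9b9b2 : CRef := CRef.mk (Pat.mk 0x40000000100000005000000000000000000000000000000000 0xa0000000e0000000e0000003f7000003fe000000ff00000050000007fe000003fe000007ff000000a0 14 11) 0 0 (step_sound _ 166 [rh0b605e399db505d9, (rh5b55c5b43dfec00c.shift 5 1), (rha80071548e75db86.shift 1 2), (rhca1c8166938286b3.shift 3 1), (rhdee67538b8dccf39.shift 5 1)] (by decide +kernel))
noncomputable def rh92ed02ea8ec6a0eb : CRef := CRef.mk (Pat.mk 0x280000002800000020000000000000000000000000 0x140000007c000001ec0000007f000003780000032c000003fc000003e4000003c000000080 14 10) 0 0 (step_sound _ 69 [(rh0ca25975b5c54ce8.shift 2 1), (rh9258736a7488cc35.shift 2 2), (rhced6d86d2069808b.shift 5 1), rhffc3eab72ad414c7] (by decide +kernel))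
noncomputable def rha76226fbad1f3a46 : CRef := CRef.mk (Pat.mk 0x200000004000000050000000500000004000000000 0xef0000007e000000de000000f40000005e000000f8000000a0 14 8) 0 0 (step_sound _ 164 [rh068fe2d7d7e0af41, (rh744d591fc2d74f4f.shift 4 2), (rh9386d01ee076ebbe.shift 1 2), (rhea0849f06735466a.shift 3 0)] (by decide +kernel))
noncomputable def rhbed1fb6b6d7725e1 : CRef := CRef.mk (Pat.mk 0x200000004000000050000000500000004000000000 0xef0000007e000000de000000f40000005e000000f8000000a8 14 8) 0 0 (step_sound _ 164 [rh068fe2d7d7e0af41, (rh744d591fc2d74f4f.shift 4 2), (rh9386d01ee076ebbe.shift 1 2), (rha5310f58c1684c0e.shift 3 0)] (by decide +kernel))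
noncomputable def rh8c2250eda62da572 : CRef := CRef.mk (Pat.mk 0x200000001400000014000000100000002000000000 0x140000001c0000001c000000fc0000007f000000ff000000ff0000007e0000007e00000014000000160000001e0000003200000020 14 8) 0 0 (step_sound _ 195 [(rh28f88bda704deabd.shift 3 2), rh312ed38c1c81c848, (rh61cfb5b13b322220.shift 0 1)] (by decide +kernel))
noncomputable def rh91e531e40be7233c : CRef := CRef.mk (Pat.mk 0x500000005000000040000000400000002000000000 0x500000007000000070000003f0000001fc000003fc000003fc000001fc000001ff000000d00000005800000058000000580000007800000020 14 10) 0 0 (step_sound _ 199 [rh7e8d73dd45698d25, (rhbaefcd01e0a8bca3.shift 6 2)] (by decide +kernel))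
noncomputable def rh77ac1a57f86675c5 : CRef := CRef.mk (Pat.mk 0xa0000000a000000080000000000000000000000000 0xa0000000e0000000e8000007fe000003fe000007fe000007f8000003ff00000ffe000007e700000eb0000000b0000000700000007000000050 14 12) 0 0 (step_sound _ 197 [(rh2e3a79f85931144a.shift 3 3), (rh32877111fdf67e02.shift 1 3), (rh61d390d61f622432.shift 4 3), (rh65e3c5ef69112882.shift 3 3), (rhadc72b25ef2c49bb.shift 4 0), (rhe36a05302c74b633.shift 2 0), (rhf406a9b0c53ec0bd.shift 0 2)] (by decide +kernel))
noncomputable def rh33d6a12046b73184 : CRef := CRef.mk (Pat.mk 0x2000000020000000a0000000a00000000000000000000000000000000000000000000000000000000 0x500000007000000170000001e0000001a0000000a0000001f0000007d0000001c0000001c0000001c0000001c0000001c00000014 14 7) 0 0 (step_sound _ 353 [(rh1741680720c097b4.shift 0 8), (rh44f453b84f013105.shift 1 7), rheb28553d89e28605] (by decide +kernel))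
noncomputable def rhca8532911e7e7c17 : CRef := CRef.mk (Pat.mk 0x8000000280000002800000000000000000000000000000000 0x140000001c0000007c000000380000002c000000f8000000df0000005c0000007c00000010 14 8) 0 0 (step_sound _ 99 [(rh50d4d0fd838213a3.shift 0 2), (rh6e33ab5aa25752db.shift 2 2), (rh8cdd36b03d57a2f6.shift 2 1), (rha087c6594f4bfb59.shift 2 2), (rhf79681c5e74fdda7.shift 2 0)] (by decide +kernel))
noncomputable def rh496be14a392a85dd : CRef := CRef.mk (Pat.mk 0x400000004000000000000000800000008000000000000000000000000 0x400000014000000740000007f0000007f0000007f0000001f0000001f 14 7) 0 0 (step_sound _ 130 [rh45e6de2ab9b59a1c, (rhff0f29cb645b05f7.shift 2 3)] (by decide +kernel))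
noncomputable def rh3576bb91dd3895f7 : CRef := CRef.mk (Pat.mk 0x400000014000000040000000000000000000000000 0x14000000fc000002fc000003ff0000037e000003ff0000017c000003fc000007e00000022000000200 14 11) 0 0 (step_sound _ 198 [(rh193da7fc9e1674f1.shift 5 2), (rh641b5241be04eec6.shift 3 2), (rhc4526fc8abf298b6.shift 5 1), rhede968c71de84e60] (by decide +kernel))
noncomputable def rhdea56c13a1124691 : CRef := CRef.mk (Pat.mk 0x100000001000000010000000100000000000000000 0x5000000170000001f0000003f0000001f0000001f000000ff0000003700000005 14 8) 0 0 (step_sound _ 163 [(rh50fbb5868c909700.shift 3 2), rhb2aef9a5df2a96f3] (by decide +kernel))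
noncomputable def rh78b0396fb73d0f57 : CRef := CRef.mk (Pat.mk 0x40000000400000007000000000 0x270000007e000000ef0000005c000000fc000000ae 14 8) 0 0 (step_sound _ 134 [(rh932754581e0f4330.shift 5 0), rh9d3390bb98c0c39f] (by decide +kernel))
noncomputable def rh5ddb8462e9d1d284 : CRef := CRef.mk (Pat.mk 0x100000000400000014000000000000000000000000 0x2000000178000001f8000003fc000007fe000003fc000007fc000001d6000000fe0000003f00000028 14 11) 0 0 (step_sound _ 132 [rh44a8b08cbd5d6482, (rh46d322ae0e89db60.shift 3 0), (rh7333d0e0d4a79d5a.shift 1 1), rh8559e380e0b4881b] (by decide +kernel))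
noncomputable def rh71572b72287b232e : CRef := CRef.mk (Pat.mk 0x8000000020000000a000000020000000000000000000000000 0x500000007e0000007e000000ee000000be00000ebf000007fe00000fdf0000015c00000058 14 12) 0 0 (step_sound _ 102 [rh264b51dfb3992423, rh2f4d0fa07652619a, (rh4d4f211850216aef.shift 1 1), (rh949eca4b325d28de.shift 1 2), (rhcedf8ffb71b001a3.shift 4 2)] (by decide +kernel))
noncomputable def rh923bfc2bda1cf108 : CRef := CRef.mk (Pat.mk 0x8000000020000000a000000000000000400000000000000000000000000000000000000000 0x15000000170000001f000001fae00000ffe00000ebf00000fbf000007fe00000fff000003fc000003fc000003a800000200 14 13) 0 0 (step_sound _ 165 [(rh05716328bcef2eda.shift 1 2), (rh4f446cd745a6b96f.shift 1 4), (rh6cffd245b79d99d4.shift 1 2), rh74c12f56aeee64e2, (rhf07106e663aeb79b.shift 0 2), (rhf190ca19591f9a36.shift 0 1), (rhfd790945e43a3bd6.shift 1 1)] (by decide +kernel))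
noncomputable def rha8f269aa9d62bd99 : CRef := CRef.mk (Pat.mk 0x1000000050000000000000002000000000000000000000000000000000000000000000000000000000 0x100000005000000050000001fc000001fc000003fe000001fe000003ff000001fe000000780000007000000050 14 10) 0 0 (step_sound _ 197 [(rh0125b1682efa6e4f.shift 2 2), (rh6b9b940c4dacb3ee.shift 4 5), (rh984333f8db26a9cb.shift 1 0), rhd968d4a35364e76a, (rhda88ac25073e8e0e.shift 1 3)] (by decide +kernel))
noncomputable def rh4ec15968a0f10ec2 : CRef := CRef.mk (Pat.mk 0x40000000100000001000000000000000000000000000000000000000000000000000000000 0x300000003a8000003b8000007fc000003f0000007b80000031e000003ff000001ff000001fe0000003e000000380000003800000028 14 11) 0 0 (step_sound _ 196 [(rh4fb92a02837ecf2e.shift 1 3), (rh87d2cb0c10d78b5f.shift 2 4), rh8bb044d582a04cbb, (rha92621d9bab90637.shift 1 5), (rhb21c060961e3c792.shift 3 2), rhb46f5e185a16321b, (rhd3dd70dc4f2450d6.shift 3 2), (rhde1fad6a7b0947da.shift 3 2)] (by decide +kernel))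
noncomputable def rhdbe3e0fd283b72e4 : CRef := CRef.mk (Pat.mk 0x400000001000000050000000000000000000000000 0x2a0000007f8000007f8000007ff00001ffe00001ff700003fd800000358000003f8000000fc000000a8 14 14) 0 0 (step_sound _ 197 [(rh020aef1d719b1ffe.shift 3 0), (rh36f0456bc7c41cd2.shift 3 0), rh4f928e30f7e16b4c, (rh8966d52ef15ca553.shift 2 0), (rha2ed346a25198c4c.shift 0 2), (rhb95a39b787e73e76.shift 0 2), (rhc5a01e90cb40429b.shift 3 0)] (by decide +kernel))
noncomputable def rh49b43452e19fe906 : CRef := CRef.mk (Pat.mk 0x80000007800000000 0xf0000000f0000003ff000001fe000003ff00000038000000f800000020 14 10) 0 0 (step_sound _ 68 [rhae5f80118ad73801, (rhf48373e13d2bc128.shift 3 1)] (by decide +kernel))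
noncomputable def rhf54473463aa344f1 : CRef := CRef.mk (Pat.mk 0xe0000000000000000000000000000000000000000000000000 0x40000001c0000001c0000001e000000eef00000ffe00001fbf00000ff800000ffc00001ff0000003d0000003c0 14 13) 0 0 (step_sound _ 165 [(rh2820ca9a6c4f41b4.shift 2 5), (rhe88fd8de4087fb53.shift 4 3), (rheaa8883a8560da9d.shift 2 0), (rhf64f8274668450f1.shift 0 3)] (by decide +kernel))
noncomputable def rha57e12a537e1dac6 : CRef := CRef.mk (Pat.mk 0x700000000000000000000000000000000000000000000000000000000000000000 0x20000000e8000000f8000000f80000077e000007f400000fde000007ff000007ff00000ffe000001fe000001f80000003800000028 14 12) 0 0 (step_sound _ 228 [(rh09e3b3c49517183d.shift 3 7), (rh2bfb831579cf4956.shift 1 3), (rhd12cd0c70e57f28f.shift 1 3), (rheaa8883a8560da9d.shift 1 2), rhfb811cc544e6da25] (by decide +kernel))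
noncomputable def rh7c1c5d238fb14c18 : CRef := CRef.mk (Pat.mk 0x1c00000010000000100000000000000000000000000000000000000000000000000 0x10000000100000013c000003ff00001d7e00001fff00001ffe000003ce000003f0000003f0000001f000000140 14 13) 0 0 (step_sound _ 229 [(rh3cc5c7fb74c49f61.shift 3 7), (rh4b0befc1b9ca04c6.shift 4 0), (rh68ad02b8e90471ca.shift 0 4), (rhc7abf6e6e4d06632.shift 3 3)] (by decide +kernel))
noncomputable def rh54f19ae158cada0e : CRef := CRef.mk (Pat.mk 0x1c0000001000000010000000000000000000000000000000000 0x2d0000003f0000003f0000003f0000001bc000003ff0000017e000003ff000002fe0000007e0000007000000050 14 10) 0 0 (step_sound _ 232 [(rh60f2dd2cc1b3ee42.shift 7 4), rhde603a37c7efac23] (by decide +kernel))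
noncomputable def rha649437d4a2ca7a8 : CRef := CRef.mk (Pat.mk 0x80000000000000000000000000000000000000000000000000 0x140000003c000000ff000007ffa00007ffe00007ffe0001ffff0000fffe0001ffff00007ffe00007ffe00007f7c00001ffe00001ff8000007e8 13 17) 0 0 (sym_sound rh70deb1a07560a220 _ true false true 0 14 10 (by decide +kernel))
noncomputable def rhdde84d3c62b80de7 : CRef := CRef.mk (Pat.mk 0x800000000000000000000000000000000000000000000000000000000000000000 0x7e800001ff800001ffe00007f7c00007ffe00007ffe0001ffff0000fffe0001ffff00007ffe00007ffe00007ffa00000ff0000003c000000140 13 17) 0 0 (sym_sound rh70deb1a07560a220 _ true false false 0 0 10 (by decide +kernel))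
noncomputable def rh3af7e1a15689fff1 : CRef := CRef.mk (Pat.mk 0x4000000000000000000000000000000000000000000000000000000000 0x140000001c000000ff800000ff800000ffe00001ffe00001fff00003fff00007fff00003ff700007fff00001fff00001ffe00000fff000007fc00000ff400000140 13 15) 0 0 (sym_sound rh70deb1a07560a220 _ false true false 14 0 10 (by decide +kernel))
noncomputable def rh055da141b1b445aa : CRef := CRef.mk (Pat.mk 0x800000000000000000000000000000000000000000 0x140000007e000000ff800000ff800003fff00007ffe00007fff00007fff00007ffe00007fff00003f7e00001ff800000f7800000f70 13 15) 0 0 (sym_sound rhde57885e798ba98a _ true false true 0 13 9 (by decide +kernel))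
noncomputable def rh1eca38855a6199e8 : CRef := CRef.mk (Pat.mk 0x800000000000000000000000000000000000000000000000000000000000000000 0xf7000000f7800001ff800003f7e00007fff00007ffe00007fff00007fff00007ffe00003fff00000ff800000ff8000007e000000140 13 15) 0 0 (sym_sound rhde57885e798ba98a _ true false false 0 0 9 (by decide +kernel))
noncomputable def rhb4293e3cb28dacbf : CRef := CRef.mk (Pat.mk 0x2000000000000000000000000000000000000000000000000000000000 0x1f0000003f8000003fc00000fff00001fff00001fff00003fff00001ff400003fff00001fff00000fff00000ffe000003f8000003f8000002d0 13 14) 0 0 (sym_sound rhde57885e798ba98a _ false true false 13 0 9 (by decide +kernel))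
end Crest.Agent.S0047.Helper85.Cert
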