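import Crest.Agent.Lib.S0047.Helper85CertPL14F0
set_option autoImplicit false
set_option linter.all false
set_option Elab.async false
namespace Crest.Agent.S0047.Helper85.Cert
open Crest.Agent.S0047.Helper85

noncomputable def rhfc304901764f70e8 : CRef := CRef.mk (Pat.mk 0xc000000080000000800000000000000000 0x8000001b8000001f8000001f8000000fe000000fc000001ff000001be0000013f00000028 15 9) 0 0 (step_sound _ 166 [rh989c5fb474b2a86c, (rha3df16ea9c8576c8.shift 6 2), (rhc89253ff58c66167.shift 6 2), (rhe072fffdd2fccf38.shift 6 2)] (by decide +kernel))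
noncomputable def rhd8b9d61a8d957483 : CRef := CRef.mk (Pat.mk 0xc000000080000000800000000000000000 0x1f8000001f8000001f800001efe00000ffc00001dff000000be0000003f00000028 15 13) 0 0 (step_sound _ 166 [rh176a7b21420f0045, (rha3df16ea9c8576c8.shift 6 2), (rhc89253ff58c66167.shift 6 2), (rhe072fffdd2fccf38.shift 6 2)] (by decide +kernel))
noncomputable def rha29251fed556a46c : CRef := CRef.mk (Pat.mk 0x3000000020000000a0000000000000000000000000000000000000000000000000000000000000000000000000 0xc0000014c000001ef000001be000001ff000000ae000007fe000003fe000007fe000003fc000003f8000002fc000000e0000000e0000000a0 15 11) 0 0 (step_sound _ 355 [(rh6bfd72106b1c6907.shift 1 0), (rha0ae8adeb1dbcf8d.shift 0 10), (rhb2afcb5db661472f.shift 0 10), (rhc846c3da3b4507ba.shift 0 6), (rhc92c11e8da6c894f.shift 0 10)] (by decide +kernel))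
noncomputable def rh7702b736cd010dd4 : CRef := CRef.mk (Pat.mk 0x10000000100000005000000000000000200000002000000000000000000000000000000000 0xf0000000f0000001de000001fe00000076000007ef000003fe000007ff000001ce000001ce000001c600000100 15 11) 0 0 (step_sound _ 229 [(rh2613c889e411427e.shift 4 4), rh3b752fe33a8e5a49] (by decide +kernel))
noncomputable def rh0a4aab5700b50a34 : CRef := CRef.mk (Pat.mk 0x4000000000000000200000002000000000000000000000000000000000 0x3000000034600000346000007cf000007fe000007ff000001ee000001ee000001c600000100 15 11) 0 0 (step_sound _ 166 [(rh02ef15e22aa7db92.shift 5 2), rh34997f6f9de11620, (rh93b49e1c88b0ca46.shift 0 1)] (by decide +kernel))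
noncomputable def rh226c14efcf449f34 : CRef := CRef.mk (Pat.mk 0x2000000020000000200000002000000000000000000000000000000000 0xa0000006e0000006e000001ff0000003e0000003e0000006f0000003e0000003f0000001e0000000a 15 9) 0 0 (step_sound _ 196 [(rh01483ff9cba2f6ac.shift 4 1), rhc45658bc4fd60f2c, (rhdf8b9aa233deec1e.shift 2 4)] (by decide +kernel))
noncomputable def rh013bafab1ef4bbb4 : CRef := CRef.mk (Pat.mk 0x10000000100000001000000050000000000000002000000000000000000000000000000000000000000000000000000000 0x1e8000002f8000007d0000003f40000077400000fee000007fe00000fff000003fe000003ff000007f0000001700000007000000050 15 12) 0 0 (step_sound _ 197 [(rh0f3723cd7fc9b889.shift 1 0), (rh2056ad32784570c0.shift 0 2), (rh20605efe443fc5c1.shift 4 3), (rh6f0973a752a205fd.shift 0 2), (rh707da0ab4034fd36.shift 4 5), rhfb576e92042bed25] (by decide +kernel))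
noncomputable def rh450ecb01460d88d7 : CRef := CRef.mk (Pat.mk 0x70000000000000014000000000000000000000000000000000 0x38000000380000007f000001fe0000005e000001de000001ff000001fe000001e0000000a0 15 9) 0 0 (step_sound _ 195 [rh2b89fbc8a3cf4405, (rh61aef1e967b8dd77.shift 2 2), (rh775ca1963e850b80.shift 1 5), (rh875ee7c4c1e718c0.shift 0 6), (rhafa5a7051d37b143.shift 2 3)] (by decide +kernel))
noncomputable def rh6ea901924558dde7 : CRef := CRef.mk (Pat.mk 0xf0000000000000014000000000000000000000000000000000 0x19c000000f800000058000001de000001ff000001fe000001e0000000a0 15 9) 0 0 (step_sound _ 227 [(rh3f8766e6ecb455ce.shift 3 6), rhf1265c0a426712fa] (by decide +kernel))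
noncomputable def rh2c9a9bdfbf992015 : CRef := CRef.mk (Pat.mk 0x38000000000000005000000000000000000000000000000000 0x1c7000000fe000000de000000770000007e0000007f0000002000000020 15 9) 0 0 (step_sound _ 198 [(rh500a083f39e7580c.shift 3 3), (rh6fa74b591035993a.shift 0 2), rhf86ce33d6931a4b7] (by decide +kernel))
noncomputable def rh3e5a809f26dd2062 : CRef := CRef.mk (Pat.mk 0x1000000008000000000000002800000000000000000000000000000000 0x1e0000001f8000001fe000007fe00000ffe000007f800000ffe000001ff000000a800000078000000700000007000000050 15 12) 0 0 (step_sound _ 229 [(rh089e83b51fb664ca.shift 1 3), (rh55c539992b753a1c.shift 1 3), (rh5d02f054252a32a1.shift 1 0), (rhb897482207f07755.shift 2 3), (rhde92465d9171ba26.shift 2 3), (rhe846233db52a626c.shift 0 1)] (by decide +kernel))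
noncomputable def rh4b2fafa4ce2464f2 : CRef := CRef.mk (Pat.mk 0x20000000100000000000000050000000000000000000000000 0x3c0000003f8000003fc00000ffe00001fff00000ffe00001ff7000003f800000150000000780000003800000028 15 13) 0 0 (step_sound _ 198 [(rh1526b1cb338caac7.shift 1 0), (rh38bed9da7425f3b6.shift 0 3), (rh55c539992b753a1c.shift 2 2), (rh560f073a0f2c0697.shift 0 2), (rh6ad555b44fde5650.shift 2 0), (rh6fe370a543f370bb.shift 1 0), (rh8770ae550daa6ebf.shift 2 2), (rha95b6e88bf83a8ec.shift 3 2), rhb5fd7ff520471138, rhc272b473ba654718, (rhc4095ebc22c99eb2.shift 2 0), (rhed3aaa0253fd33a4.shift 3 2)] (by decide +kernel))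
noncomputable def rh191217204c1037f5 : CRef := CRef.mk (Pat.mk 0x400000002000000000000000a0000000000000000000000000 0x50000000780000007fc00001ffc00003fbe00001ffe00003fff000003fc000002a8000001f0000001f000000150 15 14) 0 0 (step_sound _ 199 [rh155a57e88c1d3a93, (rh47929590d8c3eb7c.shift 3 2), (rh560f073a0f2c0697.shift 1 2), (rh5d660642c57d3c14.shift 0 2), rh65302961bf245077, (rh8a005174848e98f0.shift 3 2), (rh9f4ff14b1c7e4194.shift 3 2), (rhe846233db52a626c.shift 2 0)] (by decide +kernel))
noncomputable def rhe5f151f78dc050d9 : CRef := CRef.mk (Pat.mk 0x100000002000000000000000a000000000 0x280000003e000001ff000001ff000001ff000007be000007fe000007ff000000ec000000a8 15 11) 0 0 (step_sound _ 100 [(rh062e468af6188d00.shift 1 1), (rh95a80f84f48ac358.shift 4 0), (rhb11d41c808e1ab4d.shift 4 0), (rhc1ec0ebf97825e98.shift 2 0), rhcbfd6f3c02a9c000] (by decide +kernel))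
noncomputable def rh5b8cf5a43edac6d2 : CRef := CRef.mk (Pat.mk 0x40000000000000014000000000000000000000000000000000 0x29800001fb800000fbf00001ffe00000fff00001ddc00000ffc00001ffc000003a000000280 15 13) 0 0 (step_sound _ 166 [rh19359073c2d45a7c, (rh310d8c1897d86d09.shift 2 1), (rh908fec1434bf4673.shift 3 1), (rhdcefbea72346ab1a.shift 3 1), (rhdfe6754d37e4801a.shift 2 1), (rhe2c24440905e1c2c.shift 2 1), (rhf15a1ce756bbc45e.shift 2 1)] (by decide +kernel))
noncomputable def rhd3f2b89d94bbb9b1 : CRef := CRef.mk (Pat.mk 0x500000000000000050000000000000000000000000 0x140000009c000000fc000000fe000000ff000001fe0000007c000000ee00000070000001e0000000e0000000a0 15 9) 0 0 (step_sound _ 165 [(rh73327ad6e4f6d5f3.shift 1 0), (rha203b9a7d67110b7.shift 4 0), (rhab02154d21738d7a.shift 0 4), (rhb777b61866b7c6ff.shift 1 2), (rhd5b96d8b7ac96d3a.shift 1 2), (rhedf8eaab163fa27e.shift 1 0)] (by decide +kernel))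
noncomputable def rhfe324cfb3dfb852c : CRef := CRef.mk (Pat.mk 0x1e000000000000000a000000000 0xf0000000f000000ffc00000ffc00000ffc0000037f000001fe0000035f000000e0000000a0 15 12) 0 0 (step_sound _ 136 [(rh33e738c4ed385b9f.shift 5 3), rh5aca3b506d36bfb5] (by decide +kernel))
noncomputable def rh9b1acb32457f9337 : CRef := CRef.mk (Pat.mk 0x78000000000000005000000000 0x40000001ff000002fe000003ff000007ec000003f8000003ac0000017000000150 15 11) 0 0 (step_sound _ 196 [rh0ded24263a289e0e, (rh1925ccdb9904f2b8.shift 2 2), (rh55a0927ffbbcbd8a.shift 2 2), (rh66e5cbf0ef4f6adb.shift 2 0), (rh6850f29699b0e3a4.shift 3 0)] (by decide +kernel))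
noncomputable def rh62cd56ecbd2ac979 : CRef := CRef.mk (Pat.mk 0x200000000000000000000000e000000000 0xa0000000e000003de000001ff000003bf000001ff000007be000003fe0000075f 15 11) 0 0 (step_sound _ 36 [(rh1d03ec6859586f19.shift 3 0), (rh394e80a462af5b2f.shift 3 0), rh480ff5f1f098be62, (rh592c7139d2c44767.shift 2 0)] (by decide +kernel))
noncomputable def rh91f8d52b31dd5d96 : CRef := CRef.mk (Pat.mk 0x800000000000000000000003800000000 0xf40000007c000000f800000048000001ef000000fc000001d4 15 9) 0 0 (step_sound _ 67 [(rh4a0cb3a9508b05dd.shift 2 0), (rh9e108fd409747b4d.shift 1 0), (rha9fbfd4bb8cf890b.shift 0 1), (rhca18a8b1d7c6af4b.shift 2 0)] (by decide +kernel))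
noncomputable def rh836c2f55382584f1 : CRef := CRef.mk (Pat.mk 0x200000000000000000000000e000000000 0x28000000380000003e000000fe000000fe000003ff000003fe000003ff000007be000003fc0000071c 15 11) 0 0 (step_sound _ 36 [rh11b89140210f9674, (rh22f434d7cbc34259.shift 2 0), (rh394e80a462af5b2f.shift 3 0), (rh592c7139d2c44767.shift 2 0)] (by decide +kernel))
noncomputable def rh1e96ce155e7160c4 : CRef := CRef.mk (Pat.mk 0x200000000000000000000000e000000000 0x100000001de000001fe000001fe00000fff000007fe000007df000007be000003fc0000075c 15 12) 0 0 (step_sound _ 132 [(rh2716b32aa25355c7.shift 2 0), (rh5edf8457c3a99695.shift 1 0), (rh705d389c79b29466.shift 2 0), (rh75efc8dc590d9653.shift 1 2), (rhb6208ca830585397.shift 0 1), (rhf1c4d7b3ce5ae633.shift 1 0)] (by decide +kernel))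
noncomputable def rha991ace964861fc5 : CRef := CRef.mk (Pat.mk 0x200000000000000000000000e000000000 0x80000001f8000007fc00000fff000007ff00000fff000007ae000003fc0000075e 15 12) 0 0 (step_sound _ 101 [(rh0cc30eefda29d3e2.shift 4 0), (rh6d66030781e0eae2.shift 4 0), (rh8346e971d1c8bb6a.shift 4 0), rh95abcfb079b68e45, (rhbd23a638a4b78b06.shift 4 0), (rhbfce48dd51f81795.shift 1 0), (rhc343a4e3c05d5e2e.shift 1 0), (rhd4fe73253c868531.shift 4 0)] (by decide +kernel))
noncomputable def rhcb4c445d4d2f5d42 : CRef := CRef.mk (Pat.mk 0x200000000000000000000000e000000000 0x3800000178000007fe000003fc000007fe000001bf000000fe0000005e 15 11) 0 0 (step_sound _ 36 [rh131452b48d05ed18, (rh1df40ebb1ee60bd0.shift 2 0), (rh592c7139d2c44767.shift 2 0), (rhd3cd33927e5aebc3.shift 1 0)] (by decide +kernel))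
noncomputable def rh0593b8a0bb9d44b7 : CRef := CRef.mk (Pat.mk 0xe000000000000000000000000 0x280000003d0000003f000000ff000000fe000000ff0000007e000000740000000400000004 15 8) 0 0 (step_sound _ 100 [rh14cba65459d9ca92, (rh3fc3a7fb6866dcd4.shift 1 2), (rhb18e6c78a554867d.shift 0 3), (rhbdb07089a4623ed7.shift 1 2), (rhe401600d466b97cd.shift 0 2)] (by decide +kernel))
noncomputable def rha1fc1f95d93271ae : CRef := CRef.mk (Pat.mk 0x800000008000000080000000800000000000000000000000000000000 0x80000000e0000007f4000007fc000007ff000007ec00000ff8000007f8000007ec000007fc000001fc000000fc000000b4 15 12) 0 0 (step_sound _ 198 [(rh03a0962af5182b7e.shift 2 1), (rh0d926e41329274c9.shift 0 1), (rh2e53d8041c6e9c94.shift 2 0), (rh3ab89b489d2aa7e6.shift 2 1), (rh9358244b61fbb390.shift 2 1), (rhb783cf5782872bd9.shift 2 1)] (by decide +kernel))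
noncomputable def rhbad7f128da226f11 : CRef := CRef.mk (Pat.mk 0x400000004000000040000000500000000000000000000000000000000 0x500000007a000003fe000001fe000003fc000000f6000001fc000001fe000003f7000001fe000003fe0000007e0000005a 15 10) 0 0 (step_sound _ 197 [(rh2781bb1c49a3838b.shift 0 1), rh40144d5a87a66c2e, (rh48b09cbb4e35957f.shift 1 3), (rh863b22b7f66fc24c.shift 1 1), (rh95864bacc1a16d3a.shift 1 0), (rhba86149670504284.shift 1 1), (rhc14a082430eb74cf.shift 1 3), (rhebe344434e8f221a.shift 1 2), (rhf3a3ffe485363a8d.shift 0 1), (rhfb44fe9f9248313a.shift 0 2)] (by decide +kernel))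
noncomputable def rh5f3170ff0e1bafee : CRef := CRef.mk (Pat.mk 0x2000000020000000200000002800000000000000000000000000000000 0x280000003d000001ff000001ff000001fff00001fbe00000fe700001ff000000fb800001fe0000007e0000003c000000280 15 13) 0 0 (step_sound _ 261 [(rh1741680720c097b4.shift 4 5), (rh3ca48e2a6d60153d.shift 4 4), (rh61e2dcdeeabf4827.shift 3 2), rhb0940ec29c7ce5db] (by decide +kernel))
noncomputable def rh978270f84a529134 : CRef := CRef.mk (Pat.mk 0x2000000020000000200000002000000000000000000000000 0x380000003d000001ff000000ff000001ff0000007b000000fe000001ff000000fa0000003f0000003f00000025 15 9) 0 0 (step_sound _ 164 [(rh3b048514e5bc07f8.shift 0 3), (rh48666bff44bc2624.shift 0 3), rh76ceb8f7df64b275, (rh8ce9f3d88910f338.shift 0 3), rhc293f81622c2423b, rhd6ee6211c7dfdbe5, rhf2b822050e8e9fc8, rhf6d48ce001df30eb, (rhfee66d7ba2a729b5.shift 0 3)] (by decide +kernel))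
noncomputable def rhd4fcdf39a2b7005c : CRef := CRef.mk (Pat.mk 0x1000000010000000000000001000000000 0x280000003800000038000000380000003f000001ff000000ff000001ff00000010000000180000001800000008 15 9) 0 0 (step_sound _ 164 [(rh3e36942e32126f89.shift 0 3), (rh576a263695f5bb82.shift 3 0), (rha227e5c849a93908.shift 3 0)] (by decide +kernel))
noncomputable def rh16edf0aef9b05210 : CRef := CRef.mk (Pat.mk 0x400000010000000140000000000000000000000000 0xa0000000e8000003fc000003fc00000fff00000dfe00007fff00003ffe00007f7c00001e3c00001c1c00001400 15 15) 0 0 (step_sound _ 137 [(rh156927a79b723172.shift 5 3), (rh44eb76741580de7e.shift 4 3), (rh66b644e81d34550c.shift 4 3), (rh6fa27c949f3fa255.shift 5 3), rh81bfa3d05ad59831, (rhb4d7750a62b356ee.shift 1 2), (rhddddb297fd6e297f.shift 2 0)] (by decide +kernel))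
noncomputable def rh870dd56112611fe0 : CRef := CRef.mk (Pat.mk 0x2000000080000000a0000000000000000000000000 0x15000000770000007700000077e0000077e00000fff00000ff800000fbc00001f100000060000000600 15 13) 0 0 (step_sound _ 133 [(rh3f4aa9e2bdee90f7.shift 0 2), (rh6515ed09e3e9edab.shift 2 2), (rh6521c621a012ffb3.shift 2 3), (rh97d3506cb8b5193f.shift 1 2), (rha8ec0c2cc4bf7d96.shift 2 0), (rhd50e0f29ab6e99b1.shift 2 2)] (by decide +kernel))
noncomputable def rh4afa3bf41f5bb2e3 : CRef := CRef.mk (Pat.mk 0x10000000400000005000000000 0xa0000000e0000003e000001fe800000fef00001ffe000007ff000007d800000e80 15 13) 0 0 (step_sound _ 102 [(rh27db3fae2ceb10ef.shift 3 0), (rh28822255caf2242d.shift 5 0), (rh416af53ed4dacf43.shift 0 1), (rha745fad5571fffa9.shift 4 0), rhddf15ea06778bc2e, rhf16b404934f95d17, (rhf66691f443e1fd56.shift 0 1)] (by decide +kernel))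
noncomputable def rh5887fb908a24e5d4 : CRef := CRef.mk (Pat.mk 0x400000010000000140000000000000000000000000 0xa0000002e8000007fe000007fc00001ffe00000fff00001ffe000001ff0000037e0000003e0000001800000018 15 13) 0 0 (step_sound _ 198 [(rh03c1bd4afc638b96.shift 2 2), (rh052ba842e7e6eb07.shift 1 0), (rh1cddf45d7b5ffa16.shift 0 2), (rh25cb6b0eca1c59b8.shift 4 2), (rh2bf6af5ea8de6fe7.shift 2 2), rh3843812d9536319a, (rh5a30fd26a342a54a.shift 1 2), (rh89422dd8ab0fb424.shift 1 0), (rh8bb77a2b8e8bf147.shift 3 2), (rh9120b126335e2180.shift 1 2), (rh9bf57a23af873851.shift 1 0), (rhac1afa8b51c36706.shift 2 2), (rhdb6a99ef6393f171.shift 1 2), (rhdc95f74eaaca6ab4.shift 0 2), (rhf91ea6e1bb0c73ba.shift 0 2)] (by decide +kernel))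
noncomputable def rh7f21088fe6527de7 : CRef := CRef.mk (Pat.mk 0x2000000080000000a00000000000000000 0x340000003f000000ff000003ffe00001ffe00003fbf00000ffe00000fbe00000f1000000200 15 14) 0 0 (step_sound _ 101 [(rh0a5fa27a725643d1.shift 2 2), (rh47bdad8508f88b88.shift 2 1), rh4ba9acc02f6d828f, (rh74253edce10f41bf.shift 2 1), (rh8f62166d4ab3b392.shift 0 2), (rh9beace5688f15c45.shift 3 1), (rhdfee837014241117.shift 2 1)] (by decide +kernel))
noncomputable def rh0e8bbd240f742569 : CRef := CRef.mk (Pat.mk 0x80000002000000028000000000000000000000000000000000 0x17d000001ff00001fff00000fff00001fffc0001fffe0000ff7f0001fef80000fc380000f8080000380000002800 15 17) 0 0 (step_sound _ 170 [(rh24b9526284fb00b5.shift 3 1), (rh2e4626faea569a42.shift 6 1), rh324d2552c51c8625, (rh74e088836a9bd0e1.shift 6 3), (rh7ed6dae75974423e.shift 7 1), (rh916034a89186610e.shift 6 1), (rhae4c82ca5f1dd73d.shift 6 3), (rhe0333cc47ff181a2.shift 3 3), (rhe5c6d715d0c41791.shift 6 1), (rhe7582cd528b900a6.shift 0 1), (rhebf843eb1e0b97d4.shift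 6 3), (rhfb0a9b19e7a63729.shift 0 2)] (by decide +kernel))
noncomputable def rhd1ce106aab00bdd3 : CRef := CRef.mk (Pat.mk 0x100000004000000050000000000000000000000000000000000 0x14000000bf000002ff800003ffc00007ffc0000fdff0003fffe0001ffff0003fdfc0000f8fc000070780000705000000040 15 18) 0 0 (step_sound _ 199 [(rh01b2559647431eaf.shift 4 1), (rh3fe368dc588371e9.shift 1 3), (rh82b08b065830d62a.shift 3 3), (rha854c2157615d06c.shift 1 3), (rhc0b8e32196875817.shift 1 2), (rhce6b46f9d5b2f846.shift 5 3), rhd7d2eb0b53df055e, (rhee621d0122f83ec8.shift 4 1)] (by decide +kernel))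
noncomputable def rhfdb46d24deee08c8 : CRef := CRef.mk (Pat.mk 0x100000001400000000000000100000000000000000 0x160000001f8000001fc000007f7000003fe000007f6000001f8000001d8000001d800000008 15 11) 0 0 (step_sound _ 165 [(rh599653a62956614c.shift 0 1), (rh6c540305211cb1a0.shift 0 1), (rh734ba54baf2340d3.shift 1 1), (rh87ac23ce835a3079.shift 3 0)] (by decide +kernel))
noncomputable def rh7bfa1c3e89c7db1b : CRef := CRef.mk (Pat.mk 0x2000000020000000000000008000000000 0x10000003f8000003fc00000fff000007fe00000ffe000003dc000000c8000000c8 15 12) 0 0 (step_sound _ 134 [(rh043cfd66d9b87d84.shift 2 0), (rh1f0d49808fbc6c54.shift 2 0), (rh2a2a63b667f90310.shift 1 0), rh2ed446fb048ac0d3, (rh44874b9bdd8adfa4.shift 3 0), (rh6ba47a622f27775f.shift 1 0), (rh6edc0f7a853879f2.shift 2 0), (rh81fc382ae2298095.shift 2 1), (rh94c23756c135caea.shift 1 0), (rha10ef072ed3da70f.shift 2 0), (rhcd0696a1bef263db.shift 1 0)] (by decide +kernel))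
noncomputable def rhcd1e4f13c210491b : CRef := CRef.mk (Pat.mk 0x2000000000000000a0000000000000000000000000 0x50000001f0000001f0000001e0000007fe000003fe000007ff000000ee000003fc000001fe000001d0 15 11) 0 0 (step_sound _ 164 [(rh055fc8234254f21a.shift 2 0), (rh1427e6997eba4e30.shift 1 0), (rh2a527716a1c9f1a5.shift 2 0), (rh2b28655c4069c9c0.shift 1 0), (rh2e3e791a44855765.shift 2 0), rh2ea55c248ab23f66, (rh2fa1ac106cbf4cfe.shift 1 0), (rh4a02df25eb76d7c5.shift 1 0), (rh6b958dd16ab9c148.shift 1 0), (rh7967a028c4b5a763.shift 1 0), (rh7ae1a5d2b876aec2.shift 1 0), (rh9474749b327e09c3.shift 1 0), (rhb66deb8f04088d21.shift 1 0)] (by decide +kernel))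
noncomputable def rhe26bf3a65b59ab3a : CRef := CRef.mk (Pat.mk 0xe000000080000000a000000000000000000000000000000000 0x1000000018e000000fc000001bc000000ef000000fe000000e70000004000000040 15 9) 0 0 (step_sound _ 102 [(rh025d5a587eba9e21.shift 0 2), (rh15a206fde95ee1c3.shift 4 3), (rh698361c8a3307363.shift 5 0)] (by decide +kernel))
noncomputable def rhd7614845660de95c : CRef := CRef.mk (Pat.mk 0x5000000010000000500000000000000000000000000000000000000000000000000000000000000000 0x8000000080000007d8000003f0000003d800000170000003f8000007fe000001fe000001fe0000007f000000700000007000000050 15 11) 0 0 (step_sound _ 229 [(rh12ab25c091e53222.shift 4 2), (rh28290736255878b9.shift 3 5), (rh33f5842b17e00b84.shift 4 5), (rh38c1354fc71e1e29.shift 3 4), rh4f6e38d1560ce85c] (by decide +kernel))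
noncomputable def rh4ed030077ba4c3eb : CRef := CRef.mk (Pat.mk 0x28000000080000002800000000000000100000000000000000000000000000000000000000 0x3c0000007e0000007e000001ff000000fe000001ff000001e80000007c00000028000001ef000000fe000001ff0000000e0000000e0000000e00000002 15 9) 0 0 (step_sound _ 261 [rh2148138c0b85a0eb, (rh31a89230c7d93b0e.shift 2 4), (rh35acb3ac21f75723.shift 0 7)] (by decide +kernel))
noncomputable def rh703208b3c1c4e186 : CRef := CRef.mk (Pat.mk 0x80000000800000028000000000000001000000000 0x3c0000007e0000007e000001ff000000fe000001ff000001f8000001fc00000028000000700000007000000050 15 9) 0 0 (step_sound _ 165 [rh8ad45dde20da4266, (rhb23a650437ef9ff2.shift 2 2), (rhc0568ac7dfcc6b1b.shift 0 3), (rhd8e88f70454c96dc.shift 2 0), (rhdc40e75446872ccf.shift 0 3)] (by decide +kernel))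
noncomputable def rhf6793c3c46ffb76d : CRef := CRef.mk (Pat.mk 0x10000000040000001400000014000000000000000000000000 0x50000003f0000003fa000003f6000000fe000000f40000007f0000001c000000080000000800000008 15 10) 0 0 (step_sound _ 99 [(rh046c5eb18e55a239.shift 2 0), (rh3674cf208d5ab260.shift 2 2), (rh55d9b751a4671fee.shift 0 3), (rh585cb2b6fc629abf.shift 2 0)] (by decide +kernel))
noncomputable def rh8fcf9b04c7fceb1f : CRef := CRef.mk (Pat.mk 0x8000000020000000a0000000a 0x28000001f8000001fd000001ff0000007f0000003a0000003a0000000a 15 9) 0 0 (step_sound _ 97 [rh0e85e751df3eb26d, rh1696a568b8a18985, rh1741680720c097b4, rh76deffd6924ffca5, rha9a823f1b3d79c28, rhbe2e2705e2f938ba] (by decide +kernel))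
noncomputable def rhfa24f0a16c580d79 : CRef := CRef.mk (Pat.mk 0x100000001000000050000000500000000000000000000000000000000000000000000000000000000000000000 0x10000000100000005400000174000007fe000003fe000007ff000003fe000003ff000003f00000017000000050 15 11) 0 0 (step_sound _ 229 [rh673b8ccb86867482, (rhd3458b32566d63f7.shift 4 7)] (by decide +kernel))
noncomputable def rh514e7bb9bf0441c3 : CRef := CRef.mk (Pat.mk 0x100000005000000050000000000000000000000000000000000000000000000000000000000000000000000000 0x78000000fc000000fc000003fe000001fc000003fe000003d0000000f800000150000007fe000003fc000007fe000003ff000003fe000003ff000001780000007000000050 15 11) 0 0 (step_sound _ 229 [rh309357196d7fbdc6, (rh8219555af0b3ef98.shift 1 6), (rhf296fe2e65550219.shift 1 2), (rhff763b75cad9671b.shift 3 6)] (by decide +kernel))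
noncomputable def rh3fe179c0317a4106 : CRef := CRef.mk (Pat.mk 0x7000000000000000400000000000000000000000000000000000000000 0x50000002f0000013f000001ff000001de00001ff700000ffbf0001fffe00001fff00001ffc000017fc000001fc00000100 15 17) 0 0 (step_sound _ 165 [(rh19bf95e4040a2052.shift 4 1), (rh1fe6ed0cfd9624ec.shift 1 2), (rh696f70add39a1b0a.shift 0 1), rhcc7da361c872dd5c, (rhed2ee93fad53f9e5.shift 2 2)] (by decide +kernel))
noncomputable def rh981020b932491af6 : CRef := CRef.mk (Pat.mk 0x3800000020000000000000000000000000000000000000000000000000 0x5000000070000000700000006b0000003e000001ef000003ff000001ff000003ff000000700000007000000050 15 10) 0 0 (step_sound _ 165 [(rh134e75ac27905a16.shift 1 0), (rh19f9d5173e99801f.shift 0 2), (rh207d12a249edf027.shift 2 3), (rh3282674b309c979d.shift 2 2), (rh4a8f0e251b4ec55e.shift 2 4), (rh91f1fa2aa9b3d59c.shift 1 2), (rhbc487417e062b67d.shift 1 4)] (by decide +kernel))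
noncomputable def rh278482f3d74c8770 : CRef := CRef.mk (Pat.mk 0x3c00000000000000000000000000000000000000000 0x28000000380000053f0000073e0000077f000006be000003f8000007dc000007f8000007f80000073800000128 15 11) 0 0 (step_sound _ 137 [(rhe25b0a99195a5d59.shift 6 4), rhec2da847ed94b6a2] (by decide +kernel))
noncomputable def rh8f009fc63d061a08 : CRef := CRef.mk (Pat.mk 0x3c00000000000000000000000000000000000000000 0x2800000178000005ff000007fe000007ff000007be000003f8000006dc000007f8000007f8000007f800000548 15 11) 0 0 (step_sound _ 201 [(rh33e738c4ed385b9f.shift 6 5), rhcaa0e526eaf0f618] (by decide +kernel))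
noncomputable def rh3faae5ca4f30f68b : CRef := CRef.mk (Pat.mk 0xe000000000000000000000000000000000000000000000000000000000 0x60000000600000026e000002fe000007ff00000ff800000ffc00000ff8000007f8000001e000000140 15 12) 0 0 (step_sound _ 199 [(rh50d93253920fc8c3.shift 3 1), rh8c29a3211f2de5f4, (rha0ae8adeb1dbcf8d.shift 2 6), (rhc21a95c499b3efdb.shift 4 6), (rhc9461df7af821627.shift 3 1)] (by decide +kernel))
noncomputable def rh888c4148517bf8ea : CRef := CRef.mk (Pat.mk 0x2000000080000000e00000000000000000000000000000000000000000 0x1f0000001f0000001f8000007ff000003fe000007af000000e00000006000000070000000700000007000000040 15 11) 0 0 (step_sound _ 231 [(rh1b8205aeab53059f.shift 5 2), (rh32431e66bbf434a4.shift 6 4), rh7e6c625d32790a6d, (rhf7032b2cc0bc1548.shift 0 5)] (by decide +kernel))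
noncomputable def rh7b04bf36e4fe3a2c : CRef := CRef.mk (Pat.mk 0x2000000080000000e000000000 0xa0000001f8000001f800000ffe000007ff00000ffe000007ef000000e000000020 15 12) 0 0 (step_sound _ 102 [(rh43e7a1980697ecba.shift 1 0), (rh54e11f7298164b1c.shift 3 0), (rh73e7eda3f48c5ae9.shift 5 0), (rh74dc6d218332fb34.shift 4 0), (rhcaf575746d9d325a.shift 0 1)] (by decide +kernel))
noncomputable def rh783ce1b975d04521 : CRef := CRef.mk (Pat.mk 0x200000003a0000000200000000000000000000000000000000000000000 0xe0000001f000001ff800000ff000001ff8000003bc000003b0000001bf00000ffe00000ffe000003fe000003f0000002f0 15 13) 0 0 (step_sound _ 168 [(rh15bd69e3480faa91.shift 2 0), (rhd670095a3bedec85.shift 3 0), rhd9e4cadd1b2e1cf9, (rhde88b40d0b5a1334.shift 1 0), (rhf9366b6a121593ef.shift 8 3)] (by decide +kernel))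
noncomputable def rh7fcd0c933862de81 : CRef := CRef.mk (Pat.mk 0x7800000050000000000000000000000000000000000000000000000000 0x200000003800000038000000d80000007c0000005e000003f7000001fe000003ff000001fe0000003c0000001c 15 10) 0 0 (step_sound _ 133 [(rh6a446ea2ffd95a5c.shift 2 2), (rh8c008eb1ea38f1ad.shift 2 1), (rh927027504f36f6e0.shift 3 3), rha2480f59633f7a2e, (rhbd169905db92c389.shift 3 2)] (by decide +kernel))
noncomputable def rh9ffcd6d8ecbc35da : CRef := CRef.mk (Pat.mk 0x80000000a0000000a0000000000000000000000000 0x28000000380000003e0000017e000003ff000001fe000001ff000001bc000000b0000001a0000001a000000100 15 10) 0 0 (step_sound _ 71 [(rha20599f44b40d46a.shift 0 1), (rhc85cc95794737cf7.shift 6 2), (rhc9de03f9731897d4.shift 7 0), (rhf46dfbafcd6b1070.shift 2 0)] (by decide +kernel))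
noncomputable def rh6e90a4a6c59d5be1 : CRef := CRef.mk (Pat.mk 0x80000000a0000000a000000000000000000000000000000000 0x28000000380000003e0000017e000003ff000001fe000000ff000000b8000000b0000001e0000001f80000017000000050 15 10) 0 0 (step_sound _ 103 [(rh256b74d9f5f16f37.shift 0 1), (rh8cdd36b03d57a2f6.shift 6 1), (rha20599f44b40d46a.shift 0 2), (rhd69d3066ba9e2dc4.shift 3 0)] (by decide +kernel))
noncomputable def rh9612f8d150867b3a : CRef := CRef.mk (Pat.mk 0xa0000000a00000000000000000000000000000000000000000 0x5000000070000001f00000017000000f7c000007f000000ebc000001ef000001fe000001ff0000007000000050 15 12) 0 0 (step_sound _ 133 [(rh098ebc3abef45ec3.shift 2 0), (rh0c251fd4871ada6e.shift 0 1), (rh264a73dd4fbfe8ea.shift 3 1), (rh92861911d5f34900.shift 2 3), (rhcee615d3493d89bf.shift 2 3), (rhd4c23e6cc74a9401.shift 2 1), (rhebc2b5fb466fab87.shift 3 0), (rhf67387d1c7512edc.shift 3 0)] (by decide +kernel))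
noncomputable def rh1b5ebc6822297ece : CRef := CRef.mk (Pat.mk 0x28000000280000002000000000 0x180000003c0000003d4000007ff000003fe00000fef000007fc00000fff000001af000001fc00000058 15 12) 0 0 (step_sound _ 133 [(rh0363d47a46978688.shift 2 1), rh16fb77bd2911dcdf, rh21cd6becd0d1e296, (rh447ac240b95e4617.shift 3 1), (rhb034511df68c2fcf.shift 2 1)] (by decide +kernel))
noncomputable def rhcbee0be50a45b940 : CRef := CRef.mk (Pat.mk 0x20000000a0000000a0000000000000000000000000 0x500000007a00000dfe00000d3f00000ffe00000fff00000ebe000003ff0000039e0000010a00000100 15 12) 0 0 (step_sound _ 197 [rh244cc11d1a28bac9, (rh49fecbedc7b14b6f.shift 2 0), (rh60154d19a4dfb805.shift 2 1), (rh64d324585ca865ad.shift 3 2), (rh771d065bdc85bf2d.shift 4 2)] (by decide +kernel))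
noncomputable def rh759ac455a59fa409 : CRef := CRef.mk (Pat.mk 0x20000000a0000000800000000000000000000000000000000000000000 0x100000013a000003fe000001ee00000ebf00001ffe00000fff00000ffe000001f80000017800000050 15 13) 0 0 (step_sound _ 165 [(rh1b589b9e060c2166.shift 2 2), (rh32ed2d9de977ab04.shift 2 2), (rh40df8b1665a3e8cc.shift 2 2), (rh7653773348b00d7d.shift 0 2), (rh9218e4fc9107e1fe.shift 2 0), (rh99224d94b344727e.shift 1 0), (rhc898514f55260c5a.shift 2 1), (rhea5e1fff21103425.shift 4 2)] (by decide +kernel))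
noncomputable def rh0142fee445e6e0cd : CRef := CRef.mk (Pat.mk 0x20000000a0000000800000000000000000000000000000000000000000 0xa0000003e0000003f000000fe000000be000000be000003ff000003fe0000017f000001780000007800000010 15 10) 0 0 (step_sound _ 165 [(rh38463a1ca9edee2c.shift 2 2), (rh5522a3d30974c5e3.shift 4 1), rh62a405bb3d029f6d, (rh750e839ca6fcf545.shift 4 0), (rh94059c68b5383b15.shift 0 2), (rhdeb2404550f3c7fa.shift 2 0), (rhfc369d9c042642bb.shift 2 2)] (by decide +kernel))
noncomputable def rh724e779e9a941882 : CRef := CRef.mk (Pat.mk 0x400000005000000050000000400000000000000000000000000000000000000000 0x2800000038000000380000001f0000007f000000ff0000005f000000df000000bf00000038000000380000003800000008 15 8) 0 0 (step_sound _ 167 [(rh55afc6a59410cf00.shift 6 4), rhb19c9c69160a3bef] (by decide +kernel))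
noncomputable def rh4d277a950961c11c : CRef := CRef.mk (Pat.mk 0x2000000020000000a0000000a000000000000000000000000000000000000000000000000 0x10000000700000003e000000ff000000ca000003ff000001fb000003ff000001fd000001fc0000001800000008 15 10) 0 0 (step_sound _ 164 [(rh568907dee4cb1303.shift 0 2), (rh84b572e6e744bf19.shift 0 4), (rh9be55093c514fb96.shift 0 2), (rha2eb543c9d6fcc7d.shift 0 3), (rhc1122e6033417422.shift 0 2), rhccf2888c25c7bb38, (rhead3287a36f1c2f8.shift 0 2)] (by decide +kernel))
noncomputable def rha592c95bd4a8bbe6 : CRef := CRef.mk (Pat.mk 0x20000000a0000000a000000000000000000000000000000000 0x5e0000007e000001fe0000013f000007fe00000dff00000cbe00000fff00000fae00000f7e0000037000000050 15 12) 0 0 (step_sound _ 229 [(rh0313c4c37c54c0dc.shift 1 0), (rh244cc11d1a28bac9.shift 0 1), (rh3eb3c55f100d2131.shift 3 1), (rh417be6dbf8974397.shift 1 1), (rh76b5394cbcca34fd.shift 1 1), (rh822b83cf42501aa5.shift 1 0), (rhc82f273de14ac124.shift 0 2), (rhf267b3bd021dbb40.shift 0 1), (rhfbc18fc73a6e5aa6.shift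 1 3)] (by decide +kernel))
noncomputable def rhbd15094e215bb5d5 : CRef := CRef.mk (Pat.mk 0x1000000050000000100000000000000000000000000 0x20000000eee00000efe00000fff00007efe00003fff000075fe00000fff00000f7e00000f7e00000a00 15 15) 0 0 (step_sound _ 167 [rh0fa9d42dc00e3327, (rh5317ed43b7bff785.shift 3 1), (rh61b3428d87bcb381.shift 0 1), (rhf9a6286f1d5377a2.shift 7 2)] (by decide +kernel))
noncomputable def rha054c7a411558072 : CRef := CRef.mk (Pat.mk 0x1000000050000000100000000000000000000000000 0x20000000eee00000efe00000fff00007efe00003fff000075fe00000fff00000ffe00000f7e00000a50 15 15) 0 0 (step_sound _ 167 [rh0fa9d42dc00e3327, (rh5317ed43b7bff785.shift 3 1), rh901f575fc195db8a, (rhf9a6286f1d5377a2.shift 7 2)] (by decide +kernel))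
noncomputable def rh16c07f719734da24 : CRef := CRef.mk (Pat.mk 0x800000003000000080000000000000000000000000 0x500000007a000001fe000001fe0000007e000001ff0000003e000001ef0000007e0000007a00000050 15 9) 0 0 (step_sound _ 165 [rh28cabfe4e86f3265, (rh604084affc1aa34c.shift 4 0), (rhe33d9496e10d8eb0.shift 2 4), (rhe5f1648f1cf73d4b.shift 4 0)] (by decide +kernel))
noncomputable def rh8f573a24ba939df7 : CRef := CRef.mk (Pat.mk 0x8000000030000000800000000000000000000000000000000000000000 0x500000007a0000007e000001ef0000003e000001ff0000007e000001fe000001fe0000007a00000050 15 9) 0 0 (step_sound _ 165 [rh18cfa03ae75bf34a, (rh8c25cb665ab79ec0.shift 2 5), (rhc2ad40f2ae2910b3.shift 4 2), (rhd397cddb210a7dee.shift 4 2)] (by decide +kernel))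
noncomputable def rh6ff9e67a99342cb7 : CRef := CRef.mk (Pat.mk 0x20000000a600000020000000000000000000000000000000000 0xbc000010fc00001dfe00001fff00003dfe00001fff00000b7e00001fef00001dfc00001dfc000015fc000010b4 15 14) 0 0 (step_sound _ 198 [(rh02fbbc0a8f992bc1.shift 5 1), (rh2e01302aaf2a1dd3.shift 3 0), (rh3c959928894ec381.shift 3 2), (rh48c23cc569692cc8.shift 1 0), (rh6b4f858d9af8e4dc.shift 5 0), (rh8711ed1458a47356.shift 0 1), (rha725460ffe1da1b4.shift 5 0), (rhb5f659d04345d5b9.shift 1 2), (rhe87a141a3ddc0293.shift 3 0)] (by decide +kernel))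
noncomputable def rhb5107e4a1c857a69 : CRef := CRef.mk (Pat.mk 0x20000000a60000002000000000000000000000000000000000000000000 0x10b4000015fc00001dfc00001dfc00001fef00000b7e00001fff00003dfe00001fff00001dfe000010fc000000bc 15 14) 0 0 (step_sound _ 166 [(rh12edd1bb414683aa.shift 1 0), (rh163e8683bc765019.shift 5 2), (rh16e079015aac45af.shift 5 2), (rh1fd13ed54ec1245f.shift 3 2), (rh2136ac97d617f4a2.shift 3 1), (rh2b886ea428fdaaf8.shift 1 1), rh596958ef969ad422, (rh8df35a2aa61b8fd6.shift 3 3), (rhb09fe634ff4deda7.shift 5 2)] (by decide +kernel))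
noncomputable def rh0460cc49ccf78e85 : CRef := CRef.mk (Pat.mk 0x800000029800000080000000000000000000000000000000000000000000000000000000000 0x1f0000011fc000071fc00007ffe00007ffe0003f7ff0003feff0003adff0007fffe0003f7fe0007fffc0003fffe000073f0000073f0000053d000000280 15 19) 0 0 (step_sound _ 232 [(rh0681838aaf58b2e3.shift 4 1), (rh0d7f538c6f5e8afa.shift 3 1), (rh1f3b6cf8122357b1.shift 4 1), (rh47751836506aa24a.shift 3 4), (rh4b7dffa48056d79e.shift 2 1), (rh4ebbfca343ecefb2.shift 3 4), (rh4f400b662b90cdea.shift 2 2), (rh6519798adf084508.shift 2 1), (rh7d8b2c31b83d18e2.shift 4 4), (rh8582989a95c20456.shift 3 0), (rh8b569600df8591a6.shift 3 1), rhaf6c1f34786c3587, (rhaff28f048b0c1462.shift 4 3), (rhb47613c0b33b1b87.shift 0 3), (rhc97333824bf4a630.shift 2 4), (rhd040449cb12ef25e.shift 3 1), (rhdb69768e443e56e8.shift 4 1), (rhe586a9c68e4a52a6.shift 2 2), (rhe70b8101217e2da7.shift 3 1), (rhf0b7023fed212b81.shift 0 2), (rhfbaf43168665b138.shift 4 1), (rhffc9385e84db0aca.shift 3 2)] (by decide +kernel))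
noncomputable def rhe4b25cbf4ce931d5 : CRef := CRef.mk (Pat.mk 0x8000000298000000800000000000000000000000000000000000000000000000000 0x280000053d0000073f0000073f00003fffe0007fffc0003f7fe0007fffe0003adff0003feff0003f7ff00007ffe00007ffe000071fc000011fc000001f0 15 19) 0 0 (step_sound _ 264 [(rh07152451c4ee90e5.shift 2 3), rh07872e09e65cafe9, (rh0eb587de0a12f339.shift 3 3), (rh1b1165d17c9de3c4.shift 4 4), (rh2ec46b0dd794a057.shift 3 2), (rh311831ad0e05cc60.shift 4 4), (rh413f2a8acd3ee579.shift 2 1), (rh4c6d715c33ecb120.shift 3 4), (rh5c2e31e19443482d.shift 3 1), (rh5f616696bd9d26cc.shift 3 4), (rh9015bffd32f9fb53.shift 4 4), (rh910d081a9731f632.shift 2 1), (rh9d439b84e69a7fa8.shift 4 4), (rha9f7c1ff7ebf6751.shift 4 4), (rhb182ce5471ec61fc.shift 2 2), (rhb74a202f5f12837d.shift 3 4), (rhb9f5c5d8d572cab3.shift 4 4), rhdd14922150cd351a, (rhe426caf06aacd684.shift 3 1), (rhf60716b0857a2db1.shift 2 4), (rhf92a3c5441347395.shift 3 4), (rhfcc004de7bd0d66e.shift 0 1)] (by decide +kernel))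
noncomputable def rh3e6ce0ff4f1cda4a : CRef := CRef.mk (Pat.mk 0x400000014c000000400000000000000000000000000000000000000000000000000 0x8000000394000003fe800003ffe00003bff00003fbe000016f800003ffe00003bff00003ffe00003ff8000039e8000009c000000140 15 14) 0 0 (step_sound _ 199 [(rh0a19a1ebb62f26f8.shift 6 1), (rh235cd1ec4d165c07.shift 3 1), (rh2e131f4547aacf93.shift 0 2), (rh7dd497fa669bbc50.shift 6 0), (rh8ea3f3a7ab46535e.shift 4 2), (rhaca4c29c466fa863.shift 6 3), (rhb2d23edd8b9a7eb2.shift 6 3), (rhf5dacbd64c853852.shift 2 0)] (by decide +kernel))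
noncomputable def rhc0bba82a484a1763 : CRef := CRef.mk (Pat.mk 0x400000014c0000004000000000000000000000000000000000000000000 0x140000009c0000039e800003ff800003ffe00003bff00003ffe000016f800003fbe00003bff00003ffe00003fe80000394000000800 15 14) 0 0 (step_sound _ 231 [(rh10240c7ba9b3547e.shift 6 0), (rh5b5fbba1643cef83.shift 6 2), (rh6d816cd74a24334b.shift 2 3), (rh850510bee41a6726.shift 6 2), (rh904258867bc37db1.shift 3 2), (rhdee0d555221f23a6.shift 6 2), (rhe19bab637fb27480.shift 4 1), (rhfc925609f3bd59cc.shift 0 1)] (by decide +kernel))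
noncomputable def rhd02a86b58781f2a2 : CRef := CRef.mk (Pat.mk 0x8000000098000000800000000000000000000000000000000000000000000000000 0x150000001f8000001fc000002ff00000fff00000dff00000fff000007ff00000ffe000007fe000003f8000003f0000002d0 15 12) 0 0 (step_sound _ 197 [(rh004f34a2c48a5796.shift 0 1), (rh355ec9b2c4a243fd.shift 1 1), (rh44be5062d93497ed.shift 1 3), (rh595f319d917ecacc.shift 0 2), (rh597917efa9c1b00a.shift 0 2), (rh6f93ef81d43f210c.shift 1 3), (rh756b862ddea0a48a.shift 2 2), (rh879a6f9061d998ec.shift 0 1), (rh897bded324545920.shift 1 2), (rh8ed2132bdfadf651.shift 0 1), (rhb9bb45f59436a2f0.shift 3 1), (rhc07f0a6da2474738.shift 1 1), (rhc130b452065316cf.shift 0 1), (rhe0d9e24e5c02b1c2.shift 3 0), (rheb9b2f3682c8a8d6.shift 0 2), rhee31d21c592e8ec1] (by decide +kernel))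
noncomputable def rh1484e75795054a44 : CRef := CRef.mk (Pat.mk 0x800000009800000080000000000000000000000000000000000 0x2d0000003f0000003f8000007fe00000ffe000007ff00000fff00000dff00000fff000002ff000001fc000001f800000150 15 12) 0 0 (step_sound _ 197 [rh0024fcf83dd24327, (rh19ae11945bd95cb2.shift 1 0), (rh2a12f183571d1fc3.shift 2 0), rh344558f747eedf72, (rh363fbca1be6a5c9f.shift 1 0), (rh37cdeddc2c273c4e.shift 1 1), (rh4094d6ab60fd85cc.shift 3 1), rh794e50af9d1cc6f5, rh85db88e64496d06b, (rha0de76aec3bd1388.shift 3 0), (rha1bf7bc99e50528e.shift 1 0), rhcceb968a6182d4b1, (rhcee0be3181710a27.shift 0 3), rhe83025bc09feb021, (rhf51323347802c704.shift 1 1), rhfb3140494bad058f] (by decide +kernel))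
noncomputable def rhbfb8a22a6b7c30c0 : CRef := CRef.mk (Pat.mk 0x80000000980000008000000000000000000000000000000000 0x140000007e000000ff0000007f000000ff000000df000000fe0000007f0000007e0000003c00000014 15 8) 0 0 (step_sound _ 195 [(rh00a1470d73594ab7.shift 1 2), (rh0747161ff270e90c.shift 0 2), rh0792cea29c06a644, (rh13962202214cc57c.shift 0 2), (rh2d15d05c7e4c2437.shift 0 1), (rh36c70346be031542.shift 0 1), (rh75faf5ab11f20ff7.shift 0 1), (rh7648322444f5b069.shift 1 2), (rh7c7d2381c9e78dd7.shift 0 1), (rha6a9858de99e8d7b.shift 0 1), (rhc356325b798ad30d.shift 0 1)] (by decide +kernel))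
noncomputable def rh66d3c89f3ac3235e : CRef := CRef.mk (Pat.mk 0x80000000980000008000000000000000000000000000000000 0x140000003c0000007e0000007f000000fe000000df000000ff0000007f000000ff0000007e00000014 15 8) 0 0 (step_sound _ 131 [(rh04e387602a7c0372.shift 0 1), rh2403846c030140b5, rh2bf0c03950963994, (rh3596c3ce9cf35848.shift 0 1), rh56bbf4bdfab9feba, (rh5cb46391262e4abe.shift 1 0), (rh5ccf062bf7389888.shift 1 2), (rh7c63d9b27f9c8774.shift 0 1), rhd52848790da5e93c, (rhe5210533c9dd21e5.shift 0 1), (rhef689b81a79c1652.shift 0 1)] (by decide +kernel))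
noncomputable def rh5ee19fac3ea74d24 : CRef := CRef.mk (Pat.mk 0x1000000013000000100000000000000000000000000 0x7a000000fe000001fe000000fe000001ff000001be0000017f000000fe0000007e0000007c 15 9) 0 0 (step_sound _ 164 [(rh1a6c6c0834f9c02c.shift 0 1), (rh429369098cf8045d.shift 1 0), (rh4399dfdfd21c8439.shift 1 0), (rh4b9c0deaa5723d85.shift 1 0), (rh60b4ba5cd874f657.shift 1 0), (rh6183a1c9b6b1e071.shift 1 1), (rh634d7f66537fcafa.shift 0 1), (rh68c4715d5bccaa53.shift 1 0), (rh6c7e6ac042c4520b.shift 1 1), (rh750849ca8b439a15.shift 1 0), (rha5f79d4b8f705a23.shift 1 0), (rha87271071b4420c4.shift 1 0), (rhb3ae450a3e999af9.shift 1 1), (rhc61d8300ede75370.shift 1 1), (rhf6563e1c14d6cdcd.shift 1 1)] (by decide +kernel))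
noncomputable def rh04bccaee5fecbab9 : CRef := CRef.mk (Pat.mk 0x100000001300000010000000000000000000000000000000000 0x7c0000007e000000fe0000017f000001be000001ff000000fe000001fe000000fe0000007a 15 9) 0 0 (step_sound _ 132 [(rh3c01d8001245b489.shift 0 1), (rh434dac873746161f.shift 1 1), (rh4677a02cd773238b.shift 1 1), (rh54ccf819d7589dbb.shift 1 0), (rh63854c53d4df3dc8.shift 1 0), rh6ea9d2fc094d777c, (rh73498bf16c34e2ac.shift 1 1), (rh8535306488ce432c.shift 1 0), (rha46203252e5fd43d.shift 1 0), (rhaf1df2b74be7c930.shift 1 1), (rhbd704fd3354d045e.shift 1 1), (rhc8da3ab4cdde8b50.shift 1 1), (rhd5232a2c16a82c4a.shift 1 1), (rhe0fb0941b1872e32.shift 1 0), (rhfe42ebfaae0fdc37.shift 1 1)] (by decide +kernel))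
noncomputable def rh33e5dd61031cada4 : CRef := CRef.mk (Pat.mk 0x10000000130000001000000000000000000000000000000000000000000 0x50000000f8000001f8000000be000001fe000001be000001fe000000fe000003ff000000fc0000007800000050 15 10) 0 0 (step_sound _ 165 [(rh104504d7377fa162.shift 0 2), (rh205d6dbd42673222.shift 1 0), (rh61b1d8c802358b1c.shift 1 0), (rh7ba4d9afd65100cc.shift 1 1), (rh7c43f035ec5e0e93.shift 2 0), rha02a4ba3ccc258e4, (rha962af80b754760d.shift 1 2), (rhb66e42c2bcaed984.shift 1 2), (rhce77433f539b491a.shift 1 2), (rhd40c8de2db66029c.shift 1 2), (rhe868d0e12cded59f.shift 1 1), (rheb195bedfc1c12c4.shift 1 0)] (by decide +kernel))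
noncomputable def rh18e12557badb649f : CRef := CRef.mk (Pat.mk 0x100000001300000010000000000000000000000000000000000 0x5000000078000000fc000003ff000000fe000001fe000001be000001fe000000be000001f8000000f800000050 15 10) 0 0 (step_sound _ 197 [(rh12872e325e791b92.shift 2 3), (rh1a45eedda6aae79b.shift 1 3), (rh1a60121b91c04d13.shift 0 1), (rh1ed63eaf6209b9d2.shift 1 0), (rh485d5d1091f8863b.shift 1 0), (rh4b60885a083ed149.shift 1 0), (rh6630faf72a4e2686.shift 1 2), (rh7917668eb4ef5509.shift 1 0), (rh7f9e353bfdd42848.shift 0 1), (rhc7e9b0877b06d19e.shift 1 2), (rhdf06d002337f1cb5.shift 1 0), (rhfa4905e859a20cb0.shift 1 2)] (by decide +kernel))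
noncomputable def rhf03eb9a7eb4cf314 : CRef := CRef.mk (Pat.mk 0x10000000130000001000000000000000000000000000000000000000000 0x700000007c000001ff000000fe000001bf000001be000001ff000000fe000003ff000000fe0000007a00000050 15 10) 0 0 (step_sound _ 165 [(rh275bc02d21db176c.shift 1 2), (rh58c5889adb5dc003.shift 0 2), (rh61b1d8c802358b1c.shift 1 0), rh707d0aca0c1627c3, (rh72d108263004556f.shift 1 1), (rh7ba4d9afd65100cc.shift 1 1), (rh869bb95937f752d0.shift 0 1), (rhad0249590c2365b2.shift 2 2), (rhbc40c5829886b9bd.shift 1 1), (rhe2cce0d6d4a65175.shift 0 1), (rheb606050bb1f2639.shift 1 2)] (by decide +kernel))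
noncomputable def rha56143a960a89461 : CRef := CRef.mk (Pat.mk 0x100000001300000010000000000000000000000000000000000 0x500000007a000000fe000003ff000000fe000001ff000001be000001bf000000fe000001ff0000007c00000070 15 10) 0 0 (step_sound _ 197 [(rh19594e468ef10d3b.shift 1 0), (rh1a45eedda6aae79b.shift 1 3), rh24b62fbeb41ef600, rh3124d18085ac5284, (rh578ca15c9cb72f77.shift 1 0), (rh6b583cc9d1df7f55.shift 1 2), rh75229a06b4c90787, (rh7551884517a6ddc6.shift 2 0), (rh8901ff346c584dcc.shift 1 2), (rhc993dd8ec39b01d7.shift 0 2), (rhfa4905e859a20cb0.shift 1 2)] (by decide +kernel))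
noncomputable def rh4bea61c05a8805cd : CRef := CRef.mk (Pat.mk 0x20000000a600000020000000000000000000000000000000000000000000000000000000000 0xa0000010f000001df800001ffe00003dfc00001ffc0003eb6c0001fffc0003fdfe0001fffe0000ffff00001cf000001cf000001c0000001400 15 18) 0 0 (step_sound _ 235 [(rh21e3d4f2111e93ff.shift 5 2), (rh225f3cb32e722acd.shift 1 3), (rh644e3353552249e3.shift 5 3), (rh667038beb6a30d39.shift 2 2), (rh75248d3c513e8921.shift 8 4), (rh7805d0f764e4eaf1.shift 5 3), rhd801096f56f9f6cb, (rhf00dad9f5adf60a1.shift 4 3)] (by decide +kernel))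
noncomputable def rh1cf0e97572ceddf3 : CRef := CRef.mk (Pat.mk 0x400000004c000000400000000000000000000000000000000000000000000000000 0x68000001f8000001ff000003be000007ff000006ff00000fff000003fe000007fc000003fc000001f8000000e000000020 15 12) 0 0 (step_sound _ 198 [(rh39d5efb2fbe46837.shift 3 3), (rh3dec54d77d412a5e.shift 1 2), (rh4ae338b43edfa2b5.shift 3 3), (rh6bf3035b670e6c2f.shift 1 2), (rh701ea76d6eb01e92.shift 3 2), (rh8759c4816f535f48.shift 2 0), (rh894ab0ee2b645811.shift 0 2), (rh8ae470e156072442.shift 3 3), (rh9df8f5221f574b28.shift 2 2), (rha275cc5d2280fdfe.shift 0 2), (rhb59c2a4cbf1ca445.shift 3 3), (rhc00df95cb9c83796.shift 3 3), (rhc2df87f608d95596.shift 2 3), (rhfbf74a77e06dee9e.shift 0 2)] (by decide +kernel))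
noncomputable def rhc71528702edcceaf : CRef := CRef.mk (Pat.mk 0x400000004c00000040000000000000000000000000000000000 0x20000000e0000001f8000003fc000007fc000003fe00000fff000006ff000007ff000003be000001ff000001f800000068 15 12) 0 0 (step_sound _ 198 [(rh045780116b2e95c3.shift 2 0), (rh1d29adb9761a2700.shift 3 2), (rh4dfb617f66fd0b73.shift 3 2), (rh5a33687e326ff01e.shift 3 2), (rh6cb1fe6b58af82c3.shift 3 2), rh92b450ba9997d1f8, (rhaeda3369b559229e.shift 3 2), rhbe525795eaf7f6bb, (rhc82df8dc739ed90d.shift 1 0), (rhd200ebb82fb8349c.shift 1 1), (rhddc466e8eef53256.shift 2 2), (rhdfc8cc0aa2e1aa83.shift 3 1), rhea8fb61912021baf, (rhf4e0fcce2dff3c86.shift 2 1)] (by decide +kernel))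
noncomputable def rh789f2393c5410af8 : CRef := CRef.mk (Pat.mk 0x400000014c00000040000000000000000000000000000000000000000000000000000000000 0x2800000039e0000039e00001fffe0003fffc0001fbfc0003ffee000016fe00003fff00007bfc00003ffc00003bfc000021f0000001e0000001c000000140 15 18) 0 0 (step_sound _ 300 [(rh0a08fb53815b6a22.shift 3 2), (rh12d2158e5dde380f.shift 2 2), (rh1c23d40af3226356.shift 0 2), (rh5ada453f6c6c967a.shift 2 2), (rh5d4b444c031b391d.shift 9 4), (rh8b7328559dfc5c12.shift 1 2), (rhd84d5253eb3f33db.shift 1 0)] (by decide +kernel))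
noncomputable def rh40eb28c254cb0c0c : CRef := CRef.mk (Pat.mk 0x400000014c000000400000000000000000000000000000000000000000000000000 0x140000001c0000001e0000021f000003bfc00003ffc00007bfc00003fff000016fe0003ffee0001fbfc0003fffc0001fffe000039e0000039e000002800 15 18) 0 0 (step_sound _ 204 [(rh073be5e38d7ae261.shift 2 1), (rh15491c00fe7d3566.shift 3 1), (rh96dc3e70581fea0b.shift 1 0), (rhad81f55df9fb608c.shift 1 2), (rhad91f18e45138377.shift 0 1), (rhc58b374b830e7987.shift 9 3), (rhcef0f04731eda69a.shift 2 1)] (by decide +kernel))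
noncomputable def rh20803af294e71d90 : CRef := CRef.mk (Pat.mk 0x400000004c000000400000000000000000000000000000000000000000000000000 0x140000001e000001fe800000ff800001bd800000fff000006fe00000fff000003fe00000fff000007fc000003fc000007fc000000a4 15 13) 0 0 (step_sound _ 166 [(rh027138f3d2d0ac47.shift 0 1), (rh047e1e6870b2290a.shift 2 2), (rh2a545505b97c53b3.shift 0 1), (rh2dc814becbd30143.shift 1 1), (rh3173273131e197cd.shift 4 2), (rh4d43ad351fdc0929.shift 2 2), rh50582b73b121d5df, (rh65b585bd794bd22f.shift 2 1), (rh6acb472c760a8491.shift 1 2), (rh918aa14e37b6d74d.shift 3 3), (rh942407f62126860a.shift 4 2), (rhcb976324eac0770b.shift 2 2), (rhd525c51d3d3c6705.shift 1 2), (rhe134e4ebe5964e08.shift 3 2), (rhf01903712f123a19.shift 1 0), (rhf02dcc44a523e2d8.shift 1 0), (rhf0766f5ace6379e3.shift 1 1)] (by decide +kernel))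
noncomputable def rhc31ae48652048d8b : CRef := CRef.mk (Pat.mk 0x400000004c0000004000000000000000000000000000000000000000000 0xa4000007fc000003fc000007fc00000fff000003fe00000fff000006fe00000fff00001bd800000ff800001fe8000001e000000140 15 13) 0 0 (step_sound _ 262 [rh0598cd19120cc8bf, (rh147a18d584577663.shift 2 0), (rh2c13f0a726ef8d9b.shift 3 2), (rh360c8195a0348a12.shift 1 3), (rh46e28832bf773319.shift 1 4), (rh51f4a85d404e3bf2.shift 1 2), (rh620b16d960a5b857.shift 4 2), (rh7f79339c6c712dea.shift 2 1), (rh927418cc4d481a0e.shift 1 2), (rh9438832dbbc17f58.shift 1 1), (rh96393138e8250eea.shift 4 1), (rh972e0c8c448dc7f0.shift 3 0), (rhae65614b064f0842.shift 2 2), (rhc0e91e2ffbd52bd8.shift 1 1), (rhcb037af888e14f3c.shift 0 1), (rhe065cadfae6432e6.shift 2 2), (rhe7e07565d88eec2b.shift 0 1)] (by decide +kernel))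
noncomputable def rhb3918a02d6a608e3 : CRef := CRef.mk (Pat.mk 0x4000000200000002400000020000000000000000000000000000000000 0xa0000001f8000007f8000003fc000003ff000001fe000006ff000003d0000007f0000001f0000001f0000001f0000000c0 15 11) 0 0 (step_sound _ 167 [(rh6eb9d2ddfb905593.shift 5 3), rh98547b892fb5ef34, (rhabf575676fe0ef70.shift 6 4)] (by decide +kernel))
noncomputable def rhea18bfd9ddd1d7f7 : CRef := CRef.mk (Pat.mk 0x20000001000000052000000100000000000000000000000000 0x280000017c000003fc00000ffc00000ffc00000fff00000efe00000fdf000005e800000ff000000ee000000ae000000200 15 12) 0 0 (step_sound _ 198 [(rh48c40cc15fec64ff.shift 3 1), (rh62dcecc53faf83c1.shift 3 1), (rh9a398c421f851ed5.shift 4 1), (rhb59bdc904bdd5656.shift 0 4), rhc83f4ddb6a62431a, (rhc9dddadaaa568836.shift 1 1)] (by decide +kernel))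
noncomputable def rhcada519ff3555169 : CRef := CRef.mk (Pat.mk 0x800000040000000480000004000000000000000000 0xb8000001f8000003fe000007fc000007ff000003fe00000fff000006be000005ff000001e800000140 15 12) 0 0 (step_sound _ 166 [(rh07b57f663902cd85.shift 2 0), (rh2d3ef8a50891af5d.shift 0 1), (rh439ec4f7293ce112.shift 2 0), (rh503e55b10da7d85d.shift 0 1), (rh629fa2b503a30dbf.shift 0 1), (rh62a9f24d25c92eb4.shift 2 0), (rh8025924852927109.shift 2 1), (rh9afbf6dd611c8b56.shift 2 2), (rhfa26d5e1bc6d22bd.shift 6 2)] (by decide +kernel))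
noncomputable def rh9ca2b68559278381 : CRef := CRef.mk (Pat.mk 0x40000000480000004000000000000000000000000000000000 0x1c0000003c0000003f000000ff0000007f0000007f0000003f0000003c0000003c00000014 15 8) 0 0 (step_sound _ 164 [(rh22e203964f906d4b.shift 2 4), (rh2f0c720f45a6cf72.shift 1 0), (rha3fd83893c3ef42f.shift 1 4), (rhb6357239fc538462.shift 2 0), (rhd1223349d95f63a5.shift 0 1)] (by decide +kernel))
noncomputable def rhd7e2b1a6f93f09c5 : CRef := CRef.mk (Pat.mk 0x400000004800000040000000000000000000000000 0x140000003c0000003c0000003f0000007f0000007f000000ff0000003f0000003c0000001c 15 8) 0 0 (step_sound _ 132 [(rh2e8efbc4684aef7b.shift 2 3), (rh499fe0919994f2c0.shift 1 3), (rh719426a26e95c21c.shift 1 0), rh8b15100d14f88e44, (rhc29ec9c58e066831.shift 2 0)] (by decide +kernel))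
noncomputable def rh413f4d1faf833020 : CRef := CRef.mk (Pat.mk 0x100000005200000010000000000000000000000000000000000 0x50000000fc00000aff00000ffe00000efc00000ffe000005fe00000f7f00000efc00000efe00000af400000070 15 12) 0 0 (step_sound _ 229 [(rh3d5bde7a1774284b.shift 2 2), rh3f03471a5d3cba48, (rh3f9d95a89875b9a5.shift 2 2), (rh4adff312d3175abf.shift 1 0), (rh4dc8227252b9390a.shift 4 1), (rh5803f78f194ec465.shift 2 0), rh5f1ad890af49dec3, (rh655e7da6d39d521b.shift 1 4), (rh760b145aa77299ee.shift 2 2), (rhaaf5d32724e3a574.shift 2 2), (rhba5a1343c115d474.shift 0 1), (rhba7675ec64d4f9a8.shift 1 0), (rhbbd3340d5bd65aea.shift 2 2), (rhcb0ac0a9aa5b1302.shift 2 2), (rhd654371fd3aa0ef0.shift 2 2), (rhf3451e76bf508732.shift 2 2)] (by decide +kernel))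
noncomputable def rh819755fdd79e8a99 : CRef := CRef.mk (Pat.mk 0x10000000520000001000000000000000000000000000000000000000000 0x7000000af400000efe00000efc00000f7f000005fe00000ffe00000efc00000ffe00000aff000000fc00000050 15 12) 0 0 (step_sound _ 133 [(rh008866b29fc39913.shift 1 0), (rh09189158af2531ca.shift 2 1), (rh16840e8b200d9114.shift 0 1), (rh44c399c3952af54c.shift 2 0), (rh6665d6840b89c8a3.shift 0 1), (rh6fba8294e13c37ab.shift 2 2), (rh801fa56a0796a88d.shift 2 2), (rh9312989514f47adb.shift 2 1), (rh9842c9994b5f491d.shift 1 1), (rh9bcf9ecbfdfbd67f.shift 2 0), (rha28db5e2ae8a3cf0.shift 4 1), (rhc154175537ba53a5.shift 2 1), (rhc599e61d46c448c2.shift 1 1), (rhcf2cb4ea231a1d58.shift 2 1), (rhecc85585948c290e.shift 2 1), (rhf8cf9e882a57d812.shift 0 1)] (by decide +kernel))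
noncomputable def rh0c531548c32716a3 : CRef := CRef.mk (Pat.mk 0x80000000180000008000000000000000000000000000000000 0x7000000078000000780000007e000000ff0000003e000001ff0000007f0000007f0000007e0000003a 15 9) 0 0 (step_sound _ 196 [(rh00a1198c58889409.shift 0 1), (rh0b4d4680139adb69.shift 1 2), (rh3279312772f7e041.shift 1 0), (rh5d84145fa486c11b.shift 1 2), rh69b164397e5d9779, (rh73ae67b894b39955.shift 1 1), (rh825d56710c2eea7f.shift 1 2), (rh96ea51119022a09d.shift 0 1), (rha2d3a8765a0b509b.shift 1 2), (rha933ef3def47400b.shift 1 2), rhb217ef37564e58e4, rhce294d208f6d939d, (rhd46ae1d0ec1c3d71.shift 1 0)] (by decide +kernel))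
noncomputable def rh0b65479df2cf8121 : CRef := CRef.mk (Pat.mk 0x80000000180000008000000000000000000000000000000000 0x3a0000007e0000007f0000007f000001ff0000003e000000ff0000007e000000780000007800000070 15 9) 0 0 (step_sound _ 132 [(rh0b502111bec90ec3.shift 1 0), (rh1e862c73b26db705.shift 1 0), (rh52bb7eba7708513e.shift 0 2), (rh6b0c24a4a53b1d78.shift 1 1), (rh89858fdd47e0c6c0.shift 1 2), rh9a25c254f9e40f0d, (rha7242abe8bd1db3d.shift 1 0), (rhab090e887f6febe6.shift 0 3), (rhb6bc64e90960be8e.shift 1 0), (rhd987c00ad596fd74.shift 1 0), (rhd9d5bde26e8a467c.shift 0 1), (rhefa2d2725866ffa1.shift 1 1), (rhf5072d0f9bf62ac6.shift 0 2)] (by decide +kernel))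
noncomputable def rh1d46254f35a8d49b : CRef := CRef.mk (Pat.mk 0x100000000300000010000000000000000000000000000000000 0x540000007c000000fc0000003e000001ff0000007c000001fe000000fe000000fc0000007c00000014 15 9) 0 0 (step_sound _ 197 [(rh00a1198c58889409.shift 1 1), (rh2ebc2640428523ba.shift 1 1), (rh35ff3447e41b8d6c.shift 0 2), (rh3ce7ebcd2975bd83.shift 2 0), (rh7171bb68157a769a.shift 2 2), (rh825d56710c2eea7f.shift 2 2), (rh910fae6541ccf194.shift 2 2), (rh9b177a78426875d1.shift 1 1), (rhab29f825165c2b49.shift 2 0), (rhb3fe1f17927bbbc6.shift 2 0), (rhe6369a843f553341.shift 2 2)] (by decide +kernel))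
noncomputable def rh8476891b67ee0f41 : CRef := CRef.mk (Pat.mk 0x100000000300000010000000000000000000000000000000000 0x140000007c000000fc000000fe000001fe0000007c000001ff0000003e000000fc0000007c00000054 15 9) 0 0 (step_sound _ 133 [(rh1e862c73b26db705.shift 2 0), (rh223ff4c58b174ec2.shift 1 1), (rh3c236aca1a86089c.shift 2 1), (rh560aa36cfd565925.shift 2 0), (rh73a1e1a164125cd7.shift 2 1), (rh74c8426c12a2143f.shift 2 1), (rh7dddf4a7fc8d6532.shift 1 0), (rhbee11a86370cb732.shift 2 2), (rhe0f3f23a9273737f.shift 2 2), (rhf5072d0f9bf62ac6.shift 1 2), rhf9398b273f7b1ed5] (by decide +kernel))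
noncomputable def rha708958f295234db : CRef := CRef.mk (Pat.mk 0x10000000030000001000000000000000000000000000000000000000000 0x5000000078000003fe000000fe000003fe00000078000001fe000000ff000000fe000000fe0000005c00000014 15 10) 0 0 (step_sound _ 165 [(rh0c1fa21a29120a87.shift 4 2), (rh3a9126fdd58fb5ae.shift 2 2), (rh75109a7064686394.shift 4 2), (rh8b54c14bf0c5ba14.shift 4 1), (rhb95d787c958ae93f.shift 1 2), (rhbb3e34ef282e9fc3.shift 1 3), (rhc74f839798235cd6.shift 1 3), rhe2c38ad619927e95, (rhe6b66eb3918cb094.shift 2 0), (rhf932851835579109.shift 1 2)] (by decide +kernel))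
noncomputable def rh44cefe82c429ca04 : CRef := CRef.mk (Pat.mk 0x200000000600000000000000000000000000000000000000000 0x60000001e8000001f8000001f8000003ff000000fe000001df000001fc000007fc000001fc000000a8 15 11) 0 0 (step_sound _ 164 [(rh6bd89ba8735cea62.shift 1 1), rh8dbcad73e967949d, (rhb723c8703281e557.shift 3 0), (rhbd890518e657c1db.shift 1 4), (rheea756d338f63b3a.shift 0 4)] (by decide +kernel))
noncomputable def rhb82135908199822d : CRef := CRef.mk (Pat.mk 0x600000020000000000000000000000000000000000 0xa8000001fc000007fc000001fc000001df000000fe000003ff000001f8000001f8000001e800000060 15 11) 0 0 (step_sound _ 164 [(rh2cdb45970d098203.shift 1 2), rh5fd5a6ccc4bb3aca, (rh9a61103240c46d89.shift 1 4), (rhbf90d7e4c5b8e29f.shift 3 0), (rhd41035d39ff02fe7.shift 0 4)] (by decide +kernel))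
noncomputable def rhac0c0342224b7200 : CRef := CRef.mk (Pat.mk 0x400000004c000000000000000000000000000000000 0x4000000270000003f800003bf800001fff000005fe000000ff000003f8000003f800000078 15 14) 0 0 (step_sound _ 133 [(rh0cfa8c3521ba68ef.shift 2 0), (rh69ca04b937b6e319.shift 3 0), rh770b85bab39a604a, (rh9aac8893672b7542.shift 3 0), rha2898bf2ecae66c6, rha5c72bc2928a31d2, (rhb44ff88a01cd0e39.shift 0 3), (rhba0466855112442a.shift 2 2), rhc3bd3cafb7315f85] (by decide +kernel))
noncomputable def rhb34947b0df156831 : CRef := CRef.mk (Pat.mk 0x4c00000040000000000000000000000000000000000 0x78000003f8000003f8000000ff000005fe00001fff00003bf8000003f80000027000000040 15 14) 0 0 (step_sound _ 165 [(rh07a00b80fbada4c1.shift 0 1), (rh2e864b9ff5b9702a.shift 0 2), (rh6daa3a277775b168.shift 2 0), (rh77de7437174df855.shift 0 2), (rh7fe8f7b5c9be5469.shift 0 2), (rhca37bc460a38cb95.shift 3 2), (rhd3f58f515de24028.shift 3 2), (rhdaf7e75b3fe424a4.shift 2 2), (rhea60bb43041adec7.shift 0 4)] (by decide +kernel))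
noncomputable def rhb2e9ce1ce0249e8c : CRef := CRef.mk (Pat.mk 0x5000000010000000000000002800000000000000000000000000000000000000000000000000000000 0x400000015000000178000007ef000003fe000007f7000003fc000007fc000003f0000000700000007000000050 15 11) 0 0 (step_sound _ 197 [(rh1b781e7362e23db8.shift 2 5), (rh234af214951b8d15.shift 0 3), (rh3e3aa192736560ad.shift 0 2), (rh6b5b2883e1a7ce16.shift 0 6), (rhbdaa74e1c2d1ee41.shift 2 2), (rhd2f8fba5ca2e238b.shift 2 0)] (by decide +kernel))
noncomputable def rh3e1e0b2201322650 : CRef := CRef.mk (Pat.mk 0xa0000000200000000000000050000000000000000000000000000000000000000000000000 0x80000000ac000000ec000007cf000003fe00000fff000007fe00000ffe000007fe000000ea000000a0 15 12) 0 0 (step_sound _ 166 [(rh106253909b1bc3da.shift 2 0), (rh1b781e7362e23db8.shift 3 4), (rha9d76025e3b85728.shift 1 1), (rhcbbbb0c56a09a856.shift 0 1), (rhdaead4a4cefa3681.shift 0 2), (rhf231a5a9eff862a9.shift 3 1), (rhfaaaa3f98be09468.shift 1 1)] (by decide +kernel))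
noncomputable def rh68b6d9404e2b4898 : CRef := CRef.mk (Pat.mk 0x10000000500000001000000000000000080000000800000000000000000000000000000000000000000 0x1000000070000001f00000057e00000ffc00001efe00003ffe00001ffe00003fff00000fb0000001f0000001c000000140 15 14) 0 0 (step_sound _ 165 [(rh0605d1a375fb4f61.shift 4 0), (rh19cc832505d0fe5d.shift 0 2), (rh2bbd49f2d1601561.shift 1 2), (rh37964690872f8b1b.shift 2 2), (rh43701a45accaa4c1.shift 1 3), (rh5ed31cf4a91e3e2c.shift 3 2), (rh925b8d85bf3c63bf.shift 1 2), (rh93082bc9422d8832.shift 1 2), (rha8f1a86f4b5f8fac.shift 1 2), (rhbc0cdfe278f3780c.shift 1 2), (rhbf20da85e08c8e4d.shift 2 0)] (by decide +kernel))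
noncomputable def rh9f490a61cd706980 : CRef := CRef.mk (Pat.mk 0x280000000800000000000000040000000400000000000000000000000000000000000000000 0x3c000002bc000007fe0000077e00001fff00000fff00001fdf00000fff00001fff000003ec000000a0 15 13) 0 0 (step_sound _ 164 [rh1b41c95c9633421b, (rh231debc6d53f5459.shift 0 2), (rh2e43cb89ab64aa07.shift 0 1), (rh397a207c8886a829.shift 1 1), (rh517c469e90b69191.shift 0 2), (rh5dbcb26068ba7c59.shift 3 0), (rh5e7016f0f64969b8.shift 1 2), (rh76ba83a03b20fee5.shift 1 0), (rh93082bc9422d8832.shift 0 2), (rhb073979ee00393c3.shift 1 0), (rhd613e5058cbf8670.shift 0 1)] (by decide +kernel))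
noncomputable def rh932923e4ab6c10f3 : CRef := CRef.mk (Pat.mk 0x800000028000000080000000000000004000000040000000000000000000000000000000000000000000000000 0x800000038000002f8000002b8000003fe0000077f00001ffe00000fff00001f7e0000037e000002fc000000fc0000007c00000050 15 13) 0 0 (step_sound _ 262 [(rh1006c02ae4212ff0.shift 6 6), rh379f66349c889b8f] (by decide +kernel))
noncomputable def rh6844381e7eaf0d50 : CRef := CRef.mk (Pat.mk 0x14000000040000000000000002000000020000000000000000000000000000000000000000000000000 0x1040000014c000001ec000007ac00000fff00000fff00000fff000003ff00000070000000700000007000000050 15 12) 0 0 (step_sound _ 261 [(rh1006c02ae4212ff0.shift 5 6), rh2b41d62c1ceae635] (by decide +kernel))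
noncomputable def rh0d1ac14bfcd7047e : CRef := CRef.mk (Pat.mk 0x100000005000000010000000000000000800000008000000000000000000000000000000000 0x1000000070000001f00000057e00000ffe00001efe00003fff00001ffe00003f7f00000ffe00000ffe00000a50 15 14) 0 0 (step_sound _ 133 [(rh25ed05d3997a70e8.shift 1 1), rh3d39ac9a5fd36cfb, (rh43afda8f0b0a1aba.shift 2 1), (rh5b91a6a31cc537b3.shift 1 1), (rha0d820a33733a68f.shift 2 1), (rhade4edfa12d02f62.shift 1 1), (rhbcd3cd100f36559f.shift 2 1), (rhbd8544e4e5d6af3a.shift 2 1), (rhd7bdc9f7d44c2455.shift 2 1), (rhdcf8371b64f586b6.shift 2 1), (rhe03b34df7dea662a.shift 1 0), (rhe3c4d3dbf74f9cd1.shift 1 0), (rhe3d9a829e5830255.shift 2 1)] (by decide +kernel))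
noncomputable def rh774b8288badee81b : CRef := CRef.mk (Pat.mk 0x400000004000000000000000200000002000000000000000000000000000000000 0x5c000001fc0000019f000003ff000003ff000007ff000003fe000007fe00000058 15 11) 0 0 (step_sound _ 132 [(rh02c61308ef7a57d8.shift 0 1), rh042844af2916de7d, (rh0c483166ce0fb6a0.shift 0 1), (rh2c4318a934d992d8.shift 0 1), rh2cae18b50cc6b4ea, (rh31ad430d8abc66d4.shift 2 1), (rh335b17b7570f0876.shift 0 1), (rh5440cb1be66fa9c9.shift 0 1), (rh694203be496cb63a.shift 2 2), rh736f19f0f867c247, (rh7424b67ceab14cea.shift 0 1), (rh9af1de026faec4d0.shift 1 1), (rhbd870ab0e79b163c.shift 2 1), (rhcb71377827b9161a.shift 1 1), (rhfa3b4ecf0e200d40.shift 2 1)] (by decide +kernel))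
noncomputable def rh41d395586d5e7134 : CRef := CRef.mk (Pat.mk 0x20000000a0000000200000000000000000 0x10000000100000003de000001fc000000bc000007ff000003fe000003df 15 11) 0 0 (step_sound _ 37 [rh12878c459a546dda, rh6f252f6a176d1d1b, (rh84090bc8036b887b.shift 1 0), (rh88e20a16de8ce751.shift 2 0), rh9f8798f7e83e9195, rhd978966a311075c3, rhf66400e7081ad65b, (rhff8953f7c4bdca96.shift 1 0)] (by decide +kernel))
noncomputable def rh826be98b710e5170 : CRef := CRef.mk (Pat.mk 0x600000014000000040000000000000000000000000000000000000000000000000 0x40000001c0000001c0000039c000003fe0000017f000003ff000003ff0000027f000000fc000000fc0000007c00000050 15 10) 0 0 (step_sound _ 229 [(rh1c917a031f7cb462.shift 1 0), (rh20e3cbe97aab9353.shift 4 4), (rh316b06b23e44c2ba.shift 0 2), (rh536921fdcf45dccc.shift 2 6), (rh677e6fbb651585de.shift 3 4)] (by decide +kernel))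
noncomputable def rhe5c233d0ace34df3 : CRef := CRef.mk (Pat.mk 0x10000000500000001000000000000000000000000000000000000000000 0x8de00000efe00000fff00007efe00003fff000075fe00000fff00000dfe00000bfe000003f0000003d000000080 15 15) 0 0 (step_sound _ 231 [(rh092de2a2171fa1b7.shift 2 1), (rhbbc2cb1a3b477f78.shift 3 0), (rhe1acb09ea0fec8a6.shift 0 3), (rhf9a6286f1d5377a2.shift 7 4)] (by decide +kernel))
noncomputable def rh86230056265fd615 : CRef := CRef.mk (Pat.mk 0xe0000000800000028000000000000000000000000000000000000000000000000000000000000000000000000 0x50000000780000006e0000007c00000028000003ff000001fe000003ff000000ff000000fe000000bf000000380000003000000020 15 10) 0 0 (step_sound _ 228 [(rh2ecdea451570a7fb.shift 1 5), rh87548f8276781a46, (rha657070f4efcd1c9.shift 2 6), (rhb26efa0a25c134e7.shift 0 3), (rhff763b75cad9671b.shift 2 6)] (by decide +kernel))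
noncomputable def rh953d78044b042791 : CRef := CRef.mk (Pat.mk 0x100000001000000050000000000000000000000000000000000000000000000000 0x50000001f0000001f8000001f8000003f7000001ff000003fe00000056000007fe000003fe000007ff000001e0000001e000000140 15 11) 0 0 (step_sound _ 261 [(rh215e11e099257d75.shift 4 5), (rh611d3b96aeaafdc3.shift 2 5), rh7afadef6db403590] (by decide +kernel))
noncomputable def rh83162a20438ec6f2 : CRef := CRef.mk (Pat.mk 0x400000004000000140000000000000000000000000000000000000000000000000 0x200000003800000f7f000007fe000003ff0000015c00000ffe000007fc00000ffe0000003c0000003c00000010 15 12) 0 0 (step_sound _ 261 [(rh746ec45db8c0aae7.shift 1 5), (rhb1a251d9bff81766.shift 5 5), rhee4f773667167cd4] (by decide +kernel))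
noncomputable def rh96f77ba3682a95e9 : CRef := CRef.mk (Pat.mk 0x10000000100000005000000000000000000000000000000000 0x380000003a8000007ff000003fe000007ff000003f0000007f800000050000003fe000001fc000003fe00000008 15 11) 0 0 (step_sound _ 198 [(rh065f3ddae6d0709b.shift 3 1), rh1cd9074b7cc43c52, (rh74941c9bbb8b0c8f.shift 1 4), (rh9308b8e69ccc3d87.shift 3 3), (rh985c666587eb6c3f.shift 3 1), (rhbf576d57f5753645.shift 1 0)] (by decide +kernel))
noncomputable def rhe6ea7ad6cbc78876 : CRef := CRef.mk (Pat.mk 0x10000000c00000016000000000000000000000000000000000 0x40000000700000007000000072800001ff800000ff800000ffe000003df0000017800000398000003980000038800000280 15 13) 0 0 (step_sound _ 168 [(rh18965a982d73c794.shift 5 4), rh6e50d31fe8ceac24] (by decide +kernel))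
noncomputable def rh171957f3ba92d85e : CRef := CRef.mk (Pat.mk 0x30000000400000014000000000000000000000000000000000 0x80000000a8000001ec000003fc000003fe0000017f0000013e0000003f0000003c00000014 15 10) 0 0 (step_sound _ 165 [(rh36fcd40e079a031f.shift 0 2), (rh4ca5dae25f5c14ff.shift 2 5), (rh75d9e50bca2a2d03.shift 2 0), (rhb0121edee88fe839.shift 2 5), (rhd1df61ef3d0778c7.shift 3 3), (rhdeca8db941583de2.shift 2 5)] (by decide +kernel))
noncomputable def rhd3a1c3aacdf0cb0e : CRef := CRef.mk (Pat.mk 0x30000000400000014000000000000000000000000000000000 0x1c000000bc000000bf000003fe000003fc0000037e0000017e0000013c0000003c0000003c00000014 15 10) 0 0 (step_sound _ 165 [(rh0358a0971668addd.shift 2 1), (rh12da161a7d8804b5.shift 0 3), (rh1caaad6ce425dc73.shift 2 0), (rh2f3ff2cf3143f9fd.shift 2 3), (rh44c28824b7fa1b1f.shift 1 3), (rh50c6a6fc0d1d5a87.shift 1 1), (rh75d9e50bca2a2d03.shift 2 0), (rh8beeb7ee7d806f41.shift 2 1), (rhfc47cdc6977d6801.shift 2 2)] (by decide +kernel))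
noncomputable def rh847374b1bf388fcc : CRef := CRef.mk (Pat.mk 0x10000000400000004000000000000000000000000000000000 0x80000000e000000ee000007f6000003ff000003fe000003ff0000007f0000003e0000003f0000003c00000014 15 11) 0 0 (step_sound _ 197 [(rh0864d3c0f4f8234e.shift 2 1), (rh0b409b5c219482ee.shift 0 1), (rh17f303c350bfd32c.shift 0 1), (rh24f5db63e15c81f1.shift 2 0), (rh545acab9cff5529e.shift 2 1), (rh99bb1344a7c11f4a.shift 0 1), (rhb5348b790af8ecaa.shift 2 1), (rhed0914a24a0a359e.shift 1 2), (rhfa72faa1303d4e24.shift 0 4)] (by decide +kernel))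
noncomputable def rh3da23061f49c6038 : CRef := CRef.mk (Pat.mk 0x10000001c000000140000000000000000000000000 0x20000000e0000000f4000007ff000007ff000007ff000001de0000017c0000012c0000010c00000004 15 11) 0 0 (step_sound _ 166 [(rh075211c3608a5a57.shift 3 4), rh2221bd38c34a09d0, (rh3afdcdf137303c16.shift 3 3), (rh7d7ed6130a534f8f.shift 3 1), (rh91195d2f9fd9a558.shift 4 1)] (by decide +kernel))
noncomputable def rh0cc64eb16c097671 : CRef := CRef.mk (Pat.mk 0x10000000400000014000000000000000000000000000000000 0x3a8000003b8000003fe00001ffe00000ff800003ffe00001fff00001d78000003bc000003b8000003b8000002a8 15 14) 0 0 (step_sound _ 167 [rh05feecf8576eeaae, (rh15b0415cbfd99251.shift 0 1), (rh38c4c99863e43fe5.shift 3 1), (rh783001b007e59d41.shift 2 2), (rhac3adebb4e8fb65f.shift 3 0), (rhc58d01c744b6f753.shift 3 1), (rhe3a81ba3cd10722b.shift 3 0)] (by decide +kernel))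
noncomputable def rh463ee9781d4bf51a : CRef := CRef.mk (Pat.mk 0x10000000400000014000000000000000000000000000000000 0x4b000001ffc00000ffc00001fff00003ffe00001ffc00001d7c000003bc000003bc000003bc000002a8 15 14) 0 0 (step_sound _ 167 [(rh38c4c99863e43fe5.shift 3 1), (rh783001b007e59d41.shift 2 2), (rh7fa3e2b04d7b039d.shift 1 0), (rhac3adebb4e8fb65f.shift 3 0), (rhc58d01c744b6f753.shift 3 1), (rhe3a81ba3cd10722b.shift 3 0), (rhef22d120caea1b0b.shift 0 1)] (by decide +kernel))
noncomputable def rh23cc869835db62b9 : CRef := CRef.mk (Pat.mk 0x20000001800000028000000000000000000000000000000000 0x7000000070800001fd800003ffe00001ffe00003fff000007b7000002f000000778000007700000077000000550 15 14) 0 0 (step_sound _ 134 [(rh1689700bc9f18c18.shift 0 1), (rh83cf6c08e6cf7b2d.shift 4 1), (rha555648cd7e21296.shift 4 1), rha665841bd7819884, (rha9ab9b1f9d96f362.shift 4 1), (rhd72619ddf12e6456.shift 0 1), (rhdadd9e1d3cf6f25d.shift 4 2), (rhdef0c7a59fdb47fa.shift 4 3), (rhf47c28ae16d4bb6d.shift 4 1), (rhfd82ad393e7ff239.shift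 3 0)] (by decide +kernel))
noncomputable def rh677382b8817fddf3 : CRef := CRef.mk (Pat.mk 0x10000000400000014000000000000000000000000000000000 0xa000000ce000007ee000003ff000003fe000003ff0000017f0000003e0000003f0000003c00000014 15 11) 0 0 (step_sound _ 197 [(rh0864d3c0f4f8234e.shift 2 1), (rh0ac75c69b9b847b3.shift 1 3), (rh17f303c350bfd32c.shift 0 1), (rh4b0c7356f8ec6fee.shift 2 0), (rh545acab9cff5529e.shift 2 1), (rh6e1ec9c1230982b4.shift 0 2), (rh935fd30835b3bba6.shift 0 3), (rh99bb1344a7c11f4a.shift 0 1), (rhb5348b790af8ecaa.shift 2 1), (rhe1f24eb0dac8e358.shift 2 2)] (by decide +kernel))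
noncomputable def rhf1650cdac98d86c1 : CRef := CRef.mk (Pat.mk 0x10000000400000004000000000000000000000000000000000 0xa000000ee000007ee000003ff000003fe000003ff0000007f0000003e0000003f0000003c00000014 15 11) 0 0 (step_sound _ 197 [(rh0864d3c0f4f8234e.shift 2 1), (rh0ac75c69b9b847b3.shift 1 3), (rh17f303c350bfd32c.shift 0 1), (rh4b0c7356f8ec6fee.shift 2 0), (rh545acab9cff5529e.shift 2 1), (rh6e1ec9c1230982b4.shift 0 2), (rh759b7f5c3e35389a.shift 0 4), (rh99bb1344a7c11f4a.shift 0 1), (rhb5348b790af8ecaa.shift 2 1)] (by decide +kernel))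
noncomputable def rhe0a6dfc2ae0e2e6b : CRef := CRef.mk (Pat.mk 0x2000000180000002800000000000000000000000000000000000000000 0x150000001d0000001fc000007f8000007ef00007ffe00003fbf00003afc0000027800000238000000380000003800000028 15 15) 0 0 (step_sound _ 201 [(rh4303adad090fabf2.shift 6 5), rh436ffd83ae41110c, (rh485547c197806ade.shift 6 5), (rh893b927cea449a3b.shift 4 3), (rhd8b43b15431aaa50.shift 6 3), (rhff761a6166dce01f.shift 6 3)] (by decide +kernel))
noncomputable def rh6f807b887771a630 : CRef := CRef.mk (Pat.mk 0x200000018000000080000000000000000000000000 0x140000001d0000001f4000001fc000001ee000001fe000001fe000000ff0000007c0000007e00000050 15 9) 0 0 (step_sound _ 164 [rh5aef620f8610a212, (rh6bcc182d0153c7e8.shift 1 2), (rha7b253017a5af1e0.shift 3 4), (rhf067a2de654065cc.shift 4 2)] (by decide +kernel))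
noncomputable def rh241444d4c8ba0208 : CRef := CRef.mk (Pat.mk 0x10000000400000014000000000000000000000000000000000 0xa0000004f800001ffc00000ffe00001ffe00003ff800001fff00001d7f000003bc000003bc000003bc000002a8 15 14) 0 0 (step_sound _ 167 [(rh38c4c99863e43fe5.shift 3 1), (rh7fa3e2b04d7b039d.shift 1 0), (rha1e40d1075368a26.shift 0 1), (rhac3adebb4e8fb65f.shift 3 0), (rhc58d01c744b6f753.shift 3 1), (rhd65929238cebfd33.shift 3 2), (rhe3a81ba3cd10722b.shift 3 0)] (by decide +kernel))
noncomputable def rh2b3f8c93fd5e10bb : CRef := CRef.mk (Pat.mk 0x300000004000000040000000000000000000000000 0x1c000000fc000001ff000003fe000003fe0000007c00000070000000300000003000000030 15 10) 0 0 (step_sound _ 133 [(rh12da161a7d8804b5.shift 0 2), (rh2e6e98f23489e744.shift 2 2), (rh542231675bda9a32.shift 1 0), (rh8890a2107ac3536f.shift 4 0), (rh9312608831dbc7ca.shift 1 2), (rha501234103352993.shift 2 3), (rhb0444ca05028c92e.shift 2 2)] (by decide +kernel))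
noncomputable def rh8b9c126c75499bbc : CRef := CRef.mk (Pat.mk 0xc00000018000000100000000000000000 0x5000000370000003f0000003b0000001f0000001f0000001f0000000f00000007 15 6) 0 0 (step_sound _ 163 [(rh2145e1d24b96a57e.shift 3 2), rh4c4d738b2ef22da9] (by decide +kernel))
noncomputable def rh9c97c3ddbf2e29a8 : CRef := CRef.mk (Pat.mk 0x1000000018000000200000002000000000000000000000000000000000 0x40000000c000003ef000000ff000000380000007f0000003e0000001f0000001e0000001e0000000a 15 10) 0 0 (step_sound _ 229 [(rh1ec2f6b0e57a63df.shift 0 3), (rh88da0a5b39d0f311.shift 1 0), rh9109948a42a826d2, (rha44bc9217eccd07b.shift 3 4), rhf3dc64ed855d7a18] (by decide +kernel))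
noncomputable def rh80e2a8b627314dfd : CRef := CRef.mk (Pat.mk 0x30000000c00000004000000000000000000000000000000000 0x3800000078000001de000007fe000007f0000000f80000007c0000003e000001fe000000fe000001ff 15 11) 0 0 (step_sound _ 133 [(rh1f2f9619d3522a27.shift 1 3), (rh272bc4aa1bde44ac.shift 1 1), (rh48d0e92ecc684371.shift 3 1), (rh6e7c4d821e790886.shift 3 1), rh9c002801bfd72303, (rh9d6ab6a82043c88d.shift 3 1), (rhd1ee94638bebaa95.shift 3 1)] (by decide +kernel))
noncomputable def rh3812e2ca613a5d74 : CRef := CRef.mk (Pat.mk 0x400000030000000500000000000000000 0x70000002f0000003f000000bf000001ff00000fff000007f70000075f0000004700000040 15 12) 0 0 (step_sound _ 102 [(rh02e8bf6a6aed1d74.shift 1 0), (rh4303adad090fabf2.shift 3 2), (rh485547c197806ade.shift 3 2), rh977fc1da0217c61c, (rhd8b43b15431aaa50.shift 3 0), (rhff761a6166dce01f.shift 3 0)] (by decide +kernel))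
noncomputable def rhc7eaa66be03b4d04 : CRef := CRef.mk (Pat.mk 0x180000002000000020000000000000000000000000 0xe0000007e000000ff000001ff000001ff0000003e000000360000001e0000001c00000018 15 9) 0 0 (step_sound _ 132 [(rh02b656dd9c401b3d.shift 1 2), (rh0bf294db97f86910.shift 1 1), (rh2e6e98f23489e744.shift 1 2), (rh2f3ff2cf3143f9fd.shift 1 2), (rh8890a2107ac3536f.shift 3 0), (rh9312608831dbc7ca.shift 0 2), (rha21128819fe7cf7a.shift 0 2), (rha501234103352993.shift 1 3), (rhe63919302e4dbcab.shift 0 2)] (by decide +kernel))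
noncomputable def rhc7f80accfd321a9a : CRef := CRef.mk (Pat.mk 0x40000001400000010000000000000000000000000000000000 0xa0000000e0000000e000000160000003f800000fd0000001ff000000fe000000ff000000f8000000f8 15 12) 0 0 (step_sound _ 134 [(rh02bbc98d17f7b55d.shift 2 1), (rh0c47bc719ec59a37.shift 3 1), (rh1fb3bf20344ca92d.shift 5 1), rh2df897ed056f0a12, (rh317a984f04c5d4a3.shift 5 1), (rhd9e8eea0787f5e0c.shift 3 1), (rhe9fb6be6e742330b.shift 2 1)] (by decide +kernel))
noncomputable def rh848c41c056527a93 : CRef := CRef.mk (Pat.mk 0x180000002000000020000000000000000000000000 0x6000003ff000001ff000003df000001fe000000fc0000003e0000001e0000001800000018 15 10) 0 0 (step_sound _ 132 [(rh022d00921726cce1.shift 0 2), (rhc53d4c24604c4d00.shift 2 2), (rhdeca8db941583de2.shift 1 4), rhfe0763c40c1f5c87] (by decide +kernel))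
noncomputable def rhe7e7a57c7f82c361 : CRef := CRef.mk (Pat.mk 0x30000000400000004000000000000000000000000000000000 0x7fe000003fe000007be000003f6000001fe0000007f0000003e0000003f0000003c00000014 15 11) 0 0 (step_sound _ 165 [(rh50a812c0dc5ab146.shift 3 3), (rh7eaa06d7061b99da.shift 0 2), (rh83bed392d130746a.shift 1 3), (rh8f45f8b4f95424a8.shift 1 3), (rha959bd03bcb2feaf.shift 1 1), (rhad28f631b021fc94.shift 2 0), (rhc53d4c24604c4d00.shift 3 3), (rheac7a0eea0d2311d.shift 1 3), (rhfe0763c40c1f5c87.shift 1 1)] (by decide +kernel))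
noncomputable def rhb6e9812c78360476 : CRef := CRef.mk (Pat.mk 0x500000004000000040000000000000000000000000 0x80000000f4000007ff000007ff00000fff000000de0000007c0000003c0000001c00000014 15 12) 0 0 (step_sound _ 198 [(rh018f2ebb4d91ad9d.shift 3 3), (rh0363d47a46978688.shift 3 3), (rh4962a6c834c13761.shift 2 2), (rh5ad14598e2c21a97.shift 4 3), rh7ab941fa67d24688, (rhc85cc95794737cf7.shift 5 3)] (by decide +kernel))
noncomputable def rh7db974aeb6c4aa5c : CRef := CRef.mk (Pat.mk 0x50000000400000004000000000000000000000000000000000 0x20000000e8000000fc000000ff0000007f000003ff000000ff0000007c0000003c0000001c0000001c00000014 15 10) 0 0 (step_sound _ 230 [(rh142161f605ffde05.shift 3 4), (rh1726a00b0a8befd0.shift 5 3), (rh4e55bb8c152eaae3.shift 3 4), (rh750d9f0bfb43b2d4.shift 3 3), (rh771d065bdc85bf2d.shift 5 3), (rh7ab941fa67d24688.shift 0 1), rhd333bca777d91bdc] (by decide +kernel))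
noncomputable def rh8af1dc60e709ed2a : CRef := CRef.mk (Pat.mk 0x200000008000000280000000000000000000000000 0x140000001d4000001fc00000ffc00001fff00001ffe00001fdf000002fe0000077e0000077e00000560 15 13) 0 0 (step_sound _ 167 [(rh244a31d9bae99186.shift 3 2), (rh397bbf8a9347d422.shift 5 2), (rh3f256a784b035849.shift 1 0), (rh7eb86cdebefe9c7f.shift 4 2), rh7ec1744a3078d9dc, (rh816f850d877ed8a2.shift 5 2), (rh9f01e805c50bb7ed.shift 1 0), rhb3ffbf0ffa6fc251, (rhe3f0b9189c48765d.shift 4 2)] (by decide +kernel))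
noncomputable def rhaed1e669af3b84c7 : CRef := CRef.mk (Pat.mk 0xa00000008000000280000000000000000000000000000000000000000000000000 0x500000007000000070000000f800000efc00000fef00001fff000002ff0000027f000001fe000001f8000000780000007000000050 15 13) 0 0 (step_sound _ 229 [(rh165a58c8e219b69a.shift 4 5), rh27eaf55e0c51414e, (rh32a36d34788e9ade.shift 4 5), (rh349fb6c33002d9f6.shift 1 2), (rh45beb8c392291d03.shift 0 3), (rh86bf9099d952e2f7.shift 1 2), (rh8f7efc36f701455b.shift 0 2), (rhade143d5c40f84ae.shift 0 3), (rhcf55a1b42e8e4556.shift 1 3)] (by decide +kernel))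
noncomputable def rhc469a0bc2a9d6c0a : CRef := CRef.mk (Pat.mk 0x60000000c00000028000000000000000000000000 0x2000000030000000380000003f000000fe000000ff000000ff0000007f0000007e0000003c00000028000000700000007000000050 15 8) 0 0 (step_sound _ 194 [(rh2145e1d24b96a57e.shift 2 3), rh9a880e551e77c075] (by decide +kernel))
noncomputable def rha0041478bcd9f01f : CRef := CRef.mk (Pat.mk 0x300000004000000040000000000000000000000000 0x1c0000001e4000007fe000003fe000003ff0000017e000001fe0000005e000000380000003800000028 15 11) 0 0 (step_sound _ 133 [(rh3c3e23a02e82b2ed.shift 2 4), (rh5c5a2014709044d0.shift 2 4), (rhdd5253c5a0eab0ea.shift 0 1), (rhf2546577117a5e39.shift 1 0)] (by decide +kernel))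
noncomputable def rh5d1d105700de61f5 : CRef := CRef.mk (Pat.mk 0x300000004000000140000000000000000000000000 0x780000007e000007ff000003fe000007ff000003be000001fe0000015e000003b8000003b8000002a8 15 11) 0 0 (step_sound _ 132 [(rh05a1e2cacf932ab3.shift 1 1), (rh3c74f17f37265b35.shift 1 1), (rh5c94718bf7cdc4fd.shift 1 2), (rh8bb27b4174bf7adf.shift 1 1), rhe0e6a5c84f416436, (rhed66c2bfbb7ced41.shift 1 0), (rhf06d6fe02dfd6c4b.shift 1 0), (rhf13231894797d148.shift 1 0)] (by decide +kernel))
noncomputable def rh9ff5d2d4ecc8df2e : CRef := CRef.mk (Pat.mk 0x400000014000000100000000000000000000000000 0xbc000000fc000001fc000003fe000003ff00000efe000007ff0000017c000000fc000000f4000000a0 15 12) 0 0 (step_sound _ 135 [(rh38791ac5737ed75e.shift 5 4), (rh59ef8705fbb03f31.shift 3 0), rh7bc6260394d7cc50, (rha9fbfd4bb8cf890b.shift 3 4)] (by decide +kernel))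
noncomputable def rh1d6e3f1b4c74e299 : CRef := CRef.mk (Pat.mk 0x40000000400000010000000100000000000000000000000000 0x28000000380000027e000003fc000007fe00000ffe0000037f000001fc000000fc000000fc00000068 15 12) 0 0 (step_sound _ 165 [(rh45573f4e72cdc2bc.shift 0 1), (rh53a832dc8bee2fc0.shift 2 2), (rh5660c385ff0178b6.shift 1 1), (rh6d5bb83552a59cbb.shift 1 0), (rh7c6e091827b9e7a3.shift 2 1), (rh840eafc1705d834d.shift 3 0), (rh8989b35c62f1dab3.shift 2 0), (rhbef109332cdd78eb.shift 1 1), (rhcbac9668806ea359.shift 2 0), (rhcf7997a838adf1b1.shift 2 0)] (by decide +kernel))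
noncomputable def rh7b59a2b33e6096b3 : CRef := CRef.mk (Pat.mk 0x3000000010000000400000004000000000 0xa0000007e000001fe000001ff000001be000001ff000003de0000005000000010 15 10) 0 0 (step_sound _ 101 [(rh061b1341422ada59.shift 0 1), (rh137a9d959fb1d184.shift 1 1), (rh35dbd4f825a319a9.shift 1 0), (rh638c4a4d14e9932c.shift 1 1), (rhc2ec11b01b7b7492.shift 1 1), (rhd98bcd4b20b7b0f5.shift 1 0), (rhf51756e887fc1236.shift 1 2)] (by decide +kernel))
noncomputable def rha9289a7f916323d9 : CRef := CRef.mk (Pat.mk 0x20000000200000008000000080000000000000000000000000 0x1000000070000000700000007c000001ff000001be000003ff000007fe000001bf000000fe0000007f0000007e00000014 15 11) 0 0 (step_sound _ 164 [(rh2c772ce151f8c4df.shift 0 2), (rh46aa8579dcbcd212.shift 0 1), (rh48c4c7fb5d7700c4.shift 0 2), (rh53a832dc8bee2fc0.shift 1 2), rh6d5bb83552a59cbb, (rh7c6e091827b9e7a3.shift 1 1), (rh840eafc1705d834d.shift 2 0), (rh92b0c5774196ef18.shift 2 3), (rhbef109332cdd78eb.shift 0 1), (rhd38d0767f9b7488c.shift 0 1), (rhe4ed8abbb5258a15.shift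 0 2)] (by decide +kernel))
noncomputable def rh7e9dce33488b55b9 : CRef := CRef.mk (Pat.mk 0x20000000a000000080000000800000000 0x150000001f0000001f0000001f0000007e0000007f000000790000000c00000004 15 7) 0 0 (step_sound _ 131 [(rh0363d47a46978688.shift 0 1), (rh1741680720c097b4.shift 2 1), (rh6cd1461cb7dadbe4.shift 0 1), rh76f37de333ecf077, (rhf8aa6e00902d9ee7.shift 2 1)] (by decide +kernel))
noncomputable def rh3b15a71ff28f49de : CRef := CRef.mk (Pat.mk 0x200000002000000080000002800000000000000000 0x168000001f8000001fc00000fdf00000ffe00000fff000007be000002fc0000027c00000050 15 12) 0 0 (step_sound _ 167 [(rh2e049e68370d5ecb.shift 2 2), (rh31bd4eb73a918675.shift 1 1), (rh5f742f375f0a946b.shift 2 2), (rh9d1d447319648599.shift 1 1), (rh9d41e8fb7d8ceb2b.shift 2 0), (rh9f8e0ef2761391d6.shift 0 2), (rhac07cbeb14ff53b0.shift 1 1), (rhdc74f1599e4d9dbd.shift 0 2), (rhf0f2de456f26ea8c.shift 2 0), (rhf9ddea93ebfabffe.shift 3 1)] (by decide +kernel))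
noncomputable def rh527e3b16a5bc0e81 : CRef := CRef.mk (Pat.mk 0x500000004000000140000000000000000000000000 0x140000001c0000003c0000077c000007ff000007fe0000037f0000017c000003bc0000039c00000280 15 11) 0 0 (step_sound _ 198 [(rh2897c7716630d2a9.shift 2 2), (rh771d065bdc85bf2d.shift 5 2), rh7e00966dd492c2b0, rh8d8f786c63818e81, (rhbacf9b5dee546c0d.shift 0 1), (rhbe8aa00efa9770a9.shift 3 2)] (by decide +kernel))
noncomputable def rh0eba5c5877de3f62 : CRef := CRef.mk (Pat.mk 0x400000005000000040000000400000000000000000 0x140000009c000003fc000000fc0000006f000000ff000000df0000007f0000003c0000000c 15 10) 0 0 (step_sound _ 197 [rha1e2c30a02abae20, (rhffd04209dc8ea796.shift 5 2)] (by decide +kernel))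
noncomputable def rhf2747d302aced012 : CRef := CRef.mk (Pat.mk 0x400000005000000040000000400000000000000000 0xa0000000f4000000fc000000fe0000007c000000ef000000ff000000df0000007f0000003c0000000c 15 8) 0 0 (step_sound _ 197 [rhc7e18ae2891e1b71, (rhffd04209dc8ea796.shift 5 2)] (by decide +kernel))
noncomputable def rh64d8d970790ac0be : CRef := CRef.mk (Pat.mk 0x100000005000000000000000000000000000000000 0x80000003800000038000003b8000001f8000000f80000005e000000fe000001ff000000bc000000a8 15 10) 0 0 (step_sound _ 100 [rh001eea94b18ca57b, (rh57145416ab811738.shift 1 1), (rh5f452f890cbd7cd4.shift 3 1), rh6d1d40e18e2d24b4, (rh742d2dfe3f8cfc94.shift 1 0), (rh7a3105e5f8daf74a.shift 3 1), (rha5141adeb788e906.shift 3 0), (rhff2baf6a39e36bbe.shift 3 1)] (by decide +kernel))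
noncomputable def rh9a872861e7d80c75 : CRef := CRef.mk (Pat.mk 0x100000005000000000000000000000000000000000 0x3ef000001ff000000ff0000005e000000fe000001ff000000be000000a8 15 10) 0 0 (step_sound _ 100 [rh001eea94b18ca57b, (rh0fabbeb2cfd1512d.shift 3 0), (rh1900c1bad7e860ae.shift 1 0), (rh22a0b3f5b8bb0d7e.shift 1 0), (rh57145416ab811738.shift 1 1), (rh9a9b8043eb934358.shift 2 0), rhaa75fa32e59af73a] (by decide +kernel))
noncomputable def rh1d529766401666ae : CRef := CRef.mk (Pat.mk 0x1000000010000000100000001000000000 0x8000000080000001ef000000fe000000f70000003e0000001e0000000a 15 9) 0 0 (step_sound _ 133 [(rh2f68792b6b779e96.shift 4 1), rhf79309254e36e6bf] (by decide +kernel))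
noncomputable def rh0a5b49ab55f46693 : CRef := CRef.mk (Pat.mk 0x8000000020000000a00000000000000000000000000000000000000000 0x140000003d0000003f0000007f0000007ee00001ffe00000ffe00000ebf0000007e000000f8000000700000007000000050 15 13) 0 0 (step_sound _ 199 [(rh046e4bc34261e00b.shift 2 5), (rh145fd0e0c3c30b9b.shift 0 5), (rh3718a7f20b51ec62.shift 0 3), (rh3dc3c4a4177851a7.shift 2 4), (rha80071548e75db86.shift 2 3), (rhddde39e0a85c34d8.shift 1 0), (rhf2124e24f27cd8a7.shift 1 0), (rhf21d098ad8261485.shift 4 1)] (by decide +kernel))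
noncomputable def rhc599916eec71d7ce : CRef := CRef.mk (Pat.mk 0x100000000400000014000000040000000000000000000000000 0x80000000dc000001f8000003fc00001d7f00000ffe00001fbf000002b0000000b0 15 13) 0 0 (step_sound _ 103 [(rh1779f98266d6b43c.shift 3 2), (rh483b82f3a16b3b46.shift 2 0), (rh4d4f211850216aef.shift 2 1), (rhc88eb406ccb299be.shift 5 2), rhc92bcb649225a2a9, (rhcedf8ffb71b001a3.shift 5 2)] (by decide +kernel))
noncomputable def rh95f805208f57463f : CRef := CRef.mk (Pat.mk 0x8000000020000000a000000000000000000000000000000000000000000000000000000000 0x1000000170000001f0000001e600001fbf00000ffe00000ebf00000ffe00000ffe00000ffe0000017c0000017c0000007000000050 15 13) 0 0 (step_sound _ 166 [(rh059f0361f3085751.shift 2 3), (rh0858a7030efb1621.shift 0 3), (rh304f08ea5f988998.shift 1 3), (rh8f11b3de5aacbeee.shift 0 2), (rha6639611707d9bb9.shift 2 3), (rhd2a46f0517f600a4.shift 0 3), (rhe1198ca544bf6e77.shift 1 2), (rhec6a82b5d48f35d4.shift 1 3), (rhedea73c37a9d00cf.shift 2 0), (rhef455373c717c554.shift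 2 4), (rhf7bb72ed0aca2527.shift 1 3)] (by decide +kernel))
noncomputable def rh2205ddd92b4d0cef : CRef := CRef.mk (Pat.mk 0x4000000050000000500000004000000000 0xef0000007e000000fe000000f40000005e000000f8000000a0 15 8) 0 0 (step_sound _ 165 [rha76226fbad1f3a46, (rhffd04209dc8ea796.shift 5 1)] (by decide +kernel))
noncomputable def rhf0583b78c890f89b : CRef := CRef.mk (Pat.mk 0x4000000050000000500000004000000000 0xef0000007e000000fe000000f40000005e000000f8000000a8 15 8) 0 0 (step_sound _ 165 [rhbed1fb6b6d7725e1, (rhffd04209dc8ea796.shift 5 1)] (by decide +kernel))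
noncomputable def rh66a52cd2d27fd691 : CRef := CRef.mk (Pat.mk 0x1400000014000000100000002000000000 0x140000001c0000001c000000fc000001ff000001ff000001ff0000007e0000007e00000074000000160000001e0000003200000020 15 9) 0 0 (step_sound _ 165 [(rh08d50fe567eb1045.shift 4 1), (rh41bc6a43edc2c8e3.shift 3 2), rh8c2250eda62da572, (rhf48d93cb7a9e42c5.shift 4 0)] (by decide +kernel))
noncomputable def rhcb46bab6cdc3bf2e : CRef := CRef.mk (Pat.mk 0x50000000500000004000000040000000000000000000000000 0x500000007000000070000003f0000001fc000003fc000003fc000001fc000001ff000000d00000005800000078000000dc000000f8000000fc00000080 15 10) 0 0 (step_sound _ 69 [(rh91e531e40be7233c.shift 0 1), (rhbd097c4034f102b6.shift 5 1), (rhe59c2c7e3ec1df7a.shift 2 0), (rhf3d56b0c59b0c7bb.shift 2 2)] (by decide +kernel))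
noncomputable def rh318f6136d75a5448 : CRef := CRef.mk (Pat.mk 0x20000000a00000008000000000000000000000000000000000000000000000000000000000 0x50000001f0000001fa000001be000001ee00000ebf00001ffe00000fff00000ffe000001f8000001f8000001d0000001c000000140 15 13) 0 0 (step_sound _ 229 [(rh1b589b9e060c2166.shift 2 4), (rh32ed2d9de977ab04.shift 2 4), (rh383566a572417c41.shift 4 0), (rh7653773348b00d7d.shift 0 4), (rh99224d94b344727e.shift 1 2), (rh9cf7297d06ed1243.shift 4 3), (rhc898514f55260c5a.shift 2 3), (rhea5e1fff21103425.shift 4 4)] (by decide +kernel))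
noncomputable def rh595c596967265fdd : CRef := CRef.mk (Pat.mk 0x4000000140000001400000000000000000000000000000000000000000000000000000000 0xa0000003e0000003e0000007f0000003c000000140000003e000000fa000000380000003800000038000000380000003800000028 15 8) 0 0 (step_sound _ 322 [(rh1741680720c097b4.shift 1 7), (rh33d6a12046b73184.shift 1 0), (rh5896c00bf8efa07d.shift 1 0), (rh9514f7a194ef62aa.shift 1 0), (rhbd728c65a80743f0.shift 1 3), (rhcdf0481e12f89280.shift 0 6)] (by decide +kernel))
noncomputable def rh663e8de657b0ce06 : CRef := CRef.mk (Pat.mk 0x100000005000000040000000000000000000000000000000000000000000000000 0x2800000038000000f8000000f00000005e000001f8000001bf000000b8000000f8000000380000003800000028 15 9) 0 0 (step_sound _ 196 [(rh1465a2189fee1c4d.shift 3 3), (rh1f44343b1d5b92f7.shift 3 3), (rh336e74a7680e3763.shift 1 5), (rh3bdf9e6ba7652af6.shift 1 0), (rh8c7b3a3cb7ad1962.shift 2 4), (rha8418baecd683848.shift 0 1), (rhca8532911e7e7c17.shift 1 2)] (by decide +kernel))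
noncomputable def rh95c73930051883d1 : CRef := CRef.mk (Pat.mk 0x20000000a0000000a000000000000000000000010000000000000000000000000 0x4000000060000000b0000003e000000fb000000ff000000ff000000ff000000ff0000003e 15 8) 0 0 (step_sound _ 132 [(rh496be14a392a85dd.shift 1 0), (rh4d626123b2e99a15.shift 0 1), (rhaf419aa03ea3c470.shift 3 0), (rhcbe4425dd99f34aa.shift 2 0), (rhd4ab246f25327613.shift 3 2)] (by decide +kernel))
noncomputable def rhc60096765b230a34 : CRef := CRef.mk (Pat.mk 0x20000000a0000000a000000000000000000000010000000000000000000000000 0x2000000020000006b0000007e000000fc000000fe000000fe000000fe000000fe0000003e 15 8) 0 0 (step_sound _ 132 [(rh33d686816831f17b.shift 0 3), (rh496be14a392a85dd.shift 1 0), (rhcbe4425dd99f34aa.shift 2 0), (rhd4ab246f25327613.shift 3 2)] (by decide +kernel))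
noncomputable def rhb97bf2de4308e75a : CRef := CRef.mk (Pat.mk 0x20000000a00000008000000000000000000000000000000000 0xa0000000e0000000e8000007fe000003fe000007fe000007f8000003ff00000ffe000007e700000eb0000001b8000001f8000001f8000001f800000100 15 12) 0 0 (step_sound _ 199 [(rh15a01244dee09109.shift 3 0), (rh2b829fc43539fe53.shift 4 1), (rh4c569ff3b1c25a45.shift 5 1), (rh77ac1a57f86675c5.shift 0 1), (rha6f8144f891f87b0.shift 4 2), (rhacf27d7ecb361a31.shift 3 0)] (by decide +kernel))
noncomputable def rh765ca5d4b7c90fd3 : CRef := CRef.mk (Pat.mk 0x10000000100000001000000000000000000000000000000000 0x50000001f0000001f0000003f0000001f0000001f000000ff0000003f0000003d00000028 15 8) 0 0 (step_sound _ 100 [(rh6eff4158bb400f47.shift 3 1), (rh771d065bdc85bf2d.shift 3 2), (rhc850b49d039efae1.shift 3 0), (rhdea56c13a1124691.shift 0 1)] (by decide +kernel))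
noncomputable def rh694811f6041544e5 : CRef := CRef.mk (Pat.mk 0x8000000080000000c0000000000000000000000000 0x7e000000fc000001fe000000bf000003fe0000077f0000007c00000078 15 11) 0 0 (step_sound _ 101 [(rh2818d3d6f6ff492b.shift 4 2), (rh447769b53578cf66.shift 2 0), (rh4c607257c1c9d063.shift 4 2), (rh78b0396fb73d0f57.shift 1 2), (rh7b6333edc09db234.shift 2 0), (rh7ce97328e7142564.shift 3 2), (rh963feb3689400c88.shift 3 2), rhb1e3d0397b2595bb] (by decide +kernel))
noncomputable def rh38ffdcfee9334172 : CRef := CRef.mk (Pat.mk 0x8000000020000000a0000000000000000000000000000000000000000000000000000000000000000000000000 0x500000007e000000fe000000ee000001fe00000ebf000007fe00000fff000003fe000003fc000003f8000000fc000000f0000000e0000000a0 15 12) 0 0 (step_sound _ 261 [(rh5e4490203d306983.shift 2 0), (rh71572b72287b232e.shift 0 5), (rh7371eaac216ae604.shift 1 6), (rh75e3af95a6716250.shift 2 5), (rha41ff6db79024610.shift 2 2), (rhe493c35485accc44.shift 4 4), (rhe5f72c6b3452b870.shift 1 2)] (by decide +kernel))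
noncomputable def rh1cba8a38f0a497cd : CRef := CRef.mk (Pat.mk 0x8000000020000000a0000000000000000000000000000000000000000000000000000000000000000000000000 0x150000001f0000001f000001fae00000ffe00000ebf00000fff000007fe00000fff000003fc000007fe000003fc000002f0000000e0000000a0 15 13) 0 0 (step_sound _ 230 [(rh7fc00b83e4eff15d.shift 0 6), (rh814d838f259020d9.shift 4 2), (rh923bfc2bda1cf108.shift 0 2), (rha8f269aa9d62bd99.shift 1 0), (rhb0cc909c3c6fdf9f.shift 1 5), (rhdceab40a272815b1.shift 0 6)] (by decide +kernel))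
noncomputable def rh31c08a50d106d488 : CRef := CRef.mk (Pat.mk 0x7800000000 0xf0000000f0000003ff000001fe000003ff0000003c000000f800000020 15 10) 0 0 (step_sound _ 67 [(rh3244c3cc8379b070.shift 2 1), rh49b43452e19fe906] (by decide +kernel))
noncomputable def rh354e507db1af2c4e : CRef := CRef.mk (Pat.mk 0x1c00000010000000000000000000000000000000000000000000000000000000000 0x2d0000003f0000003f0000003f0000001bc000003ff00001d7e00001fff00001ffe000003fe000003f0000003f0000001f000000140 15 13) 0 0 (step_sound _ 200 [(rh54f19ae158cada0e.shift 0 2), (rh56259dd1390eee46.shift 7 3), rh7c1c5d238fb14c18, (rhb1a251d9bff81766.shift 7 5)] (by decide +kernel))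
noncomputable def rh24e9b35ae55e2fca : CRef := CRef.mk (Pat.mk 0x80000000800000028000000000000000000000000000000000 0x38000005f8000007f8000007fe00001efe00001ffc00001fff00003bbe00001f7f00003f780000074000000100 16 14) 0 0 (step_sound _ 198 [(rh39a3b698da439483.shift 3 1), (rh6788240f43f7c79c.shift 1 1), (rh852d12c9d9e28128.shift 2 3), (rh90203ef0889a5fb4.shift 2 3), (rha2311ca626712ce5.shift 2 3), (rhbcebf686a5aa4c24.shift 2 3), (rhcce6d0545b3bfb32.shift 3 0), (rhd8b9d61a8d957483.shift 0 2), (rhf067a6a7f36de420.shift 2 0), (rhfbd0c7c0bff9e6a3.shift 3 0), (rhfc304901764f70e8.shift 0 2)] (by decide +kernel))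
noncomputable def rh4a5a2ef759174300 : CRef := CRef.mk (Pat.mk 0x2000000020000000a0000000000000000000000000000000000000000000000000000000000000000000000000 0x50000000700000007c0000017c000001ff000001be000001ff000000ae000007fe000003fe000007fe000003fc000003f8000002fc000000e0000000e0000000a0 16 11) 0 0 (step_sound _ 356 [(rh56259dd1390eee46.shift 4 6), rha29251fed556a46c, (rhf87cd3e5f7cb0314.shift 3 9)] (by decide +kernel))
noncomputable def rh0e306fe20647befe : CRef := CRef.mk (Pat.mk 0x2000000020000000a0000000000000004000000000000000000000000000000000000000000000000000000000 0x40000001c0000001c0000001d0000007ff000007fe00000fee000007bc000007fc000006ec00000fde00000ffc00000ffe000003fc000003fc000003fc000002e0000000e0000000a0 16 12) 0 0 (step_sound _ 198 [(rh0a4aab5700b50a34.shift 1 2), (rh112b4676ef5294ef.shift 5 3), (rh20e9c771a70657a1.shift 2 0), (rh707da0ab4034fd36.shift 5 5), (rh7702b736cd010dd4.shift 1 2), (rhba05194098db1a39.shift 2 0), rhf2c218bc2573e811] (by decide +kernel))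
noncomputable def rh2eb13fac4ba6d828 : CRef := CRef.mk (Pat.mk 0x200000002000000020000000a000000000000000000000000000000000 0xa0000077e000003ee000007ff000007be000001fe000000ef000000be000000ff0000007e0000004a 16 11) 0 0 (step_sound _ 167 [(rh1b50ded45eedf7e5.shift 2 1), rh226c14efcf449f34, (rh49559e6dcdbd8748.shift 2 0), (rh69e98cac484c7f41.shift 4 2), (rhc3599917cbba57e7.shift 4 3), (rhecd5758827546546.shift 2 4)] (by decide +kernel))
noncomputable def rha57f5b5e16aa0e55 : CRef := CRef.mk (Pat.mk 0x10000000100000001000000050000000000000000000000000000000000000000000000000000000000000000000000000 0x1e8000002f8000007d0000003f40000077400000ffe000007fe00000fff000003fe000003ff000007f0000001700000007000000050 16 12) 0 0 (step_sound _ 229 [rh013bafab1ef4bbb4, (rhe410088c7bc5bca8.shift 4 7), (rhfe13230c3d09e5d0.shift 0 2)] (by decide +kernel))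
noncomputable def rh42d2531d7b570a46 : CRef := CRef.mk (Pat.mk 0xc0000000000000028000000000000000000000000000000000 0xf0000000fc000001fc00000eff000007fe000006ff000003bc000003fe000003fc000003c000000140 16 12) 0 0 (step_sound _ 197 [(rh00c3888597a1893b.shift 0 3), (rh243d181839e4ed79.shift 1 2), (rh39476ad20857d178.shift 0 1), (rh450ecb01460d88d7.shift 1 0), (rh468fdde4bd725226.shift 0 2), (rh4b0ff723e9fe8124.shift 1 1), (rh4c69d5f686de0454.shift 0 1), (rhb9264cdb8d9e68c1.shift 1 0)] (by decide +kernel))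
noncomputable def rh5e68213bec46e2a7 : CRef := CRef.mk (Pat.mk 0x60000000000000014000000000000000000000000000000000 0xb8000000b800000fff000007fe00000f5f000001de000003ff000003fe000003e0000000a0 16 12) 0 0 (step_sound _ 196 [(rh0c387c74c2f0f034.shift 0 2), (rh0ee7c13b7c1a37d1.shift 3 1), rh450ecb01460d88d7, (rh965860148329302d.shift 1 3), (rha8ddcf873f96c9cc.shift 2 1), (rhfff41a1969d0984b.shift 2 1)] (by decide +kernel))
noncomputable def rh5774707e4ca77b7d : CRef := CRef.mk (Pat.mk 0x70000000000000014000000000000000000000000000000000 0x7bc000003f80000035c000001de000003ff000003fe000003e0000000a0 16 11) 0 0 (step_sound _ 199 [(rh18e39bc34e431067.shift 3 1), (rh2a535ce68d5cfc5d.shift 3 3), rh6ea901924558dde7, (rh775ca1963e850b80.shift 2 5), (rha3cd6e417638cbd6.shift 4 1)] (by decide +kernel))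
noncomputable def rhf353734b1be0f1b6 : CRef := CRef.mk (Pat.mk 0x70000000000000014000000000000000000000000000000000 0x80000000a000000fbc000007f800000f78000001de000003ff000003fe000003e0000000a0 16 12) 0 0 (step_sound _ 199 [(rh18e39bc34e431067.shift 3 1), (rh2a535ce68d5cfc5d.shift 3 3), (rh3b00e9e9432b8f40.shift 3 5), (rh3d9ccce8f1410f87.shift 3 1), rh6ea901924558dde7, (rha3cd6e417638cbd6.shift 4 1), (rhb61ad485c4336967.shift 4 3)] (by decide +kernel))
noncomputable def rhf5d302678a8fa0f0 : CRef := CRef.mk (Pat.mk 0x18000000000000005000000000000000000000000000000000 0x2000000020000001f7000000fe000000df00000077000000fe000000ff000000a800000020 16 9) 0 0 (step_sound _ 197 [rh2c9a9bdfbf992015, (rh4c2db3f84b1cea03.shift 2 1), (rh66030455abfa3d21.shift 0 1), (rh6b0a7e6e36ea45de.shift 2 3), (rh837faecd64f19141.shift 0 1), (rh97176d4945c8430a.shift 0 1), (rhe896bcd1ab03479c.shift 0 3)] (by decide +kernel))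
noncomputable def rhb7d51dcd09545ea7 : CRef := CRef.mk (Pat.mk 0x2000000000000000a000000000000000000000000000000000 0x780000007f0000007fc00001ffc00003ffe00001fff00003fff000007ff000002a8000001f0000001f0000001d000000140 16 14) 0 0 (step_sound _ 230 [(rh191217204c1037f5.shift 0 1), (rh2d638b58643e2dbd.shift 1 3), (rh3e5a809f26dd2062.shift 2 0), (rh4b2fafa4ce2464f2.shift 1 1), rh5addfed2bb5d7e60, (rh739aebbd4d180445.shift 4 1), (rhabdd5126f3ff8f77.shift 0 1), (rhbca03447fd1147ca.shift 1 1)] (by decide +kernel))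
noncomputable def rh784c44a91e940d5d : CRef := CRef.mk (Pat.mk 0x40000000000000014000000000000000000000000000000000 0x50000001fc000003fe000007fe00000fff00001fff00001fff00003fff000001dc0000037c000003f4000003e000000080 16 14) 0 0 (step_sound _ 229 [(rh01e7062cd565a4f1.shift 2 3), (rh0c325040d0296ca2.shift 4 0), (rh5a9b09f1119b5900.shift 5 0), (rh767999a167435443.shift 1 3), (rh85281a4c10feae78.shift 1 2), (rh9bae389b2618af25.shift 3 0), rha825efac82f62969, (rhaf7d692a5526fb4e.shift 1 3), (rhe5f151f78dc050d9.shift 1 3), (rhf3255335160c180a.shift 0 2), (rhfeebd2d7fa6633ec.shift 0 3)] (by decide +kernel))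
noncomputable def rhabf538e29704b47a : CRef := CRef.mk (Pat.mk 0xe000000000000000a000000000 0xf0000000f000000ffc00000ffc00000ffc0000077f000003fe0000075f000000e0000000a0 16 12) 0 0 (step_sound _ 104 [(rh3fc3a7fb6866dcd4.shift 5 2), (rh56a24c72f1c55520.shift 4 3), (rhe401600d466b97cd.shift 4 2), rhfe324cfb3dfb852c] (by decide +kernel))
noncomputable def rh2928f4b82f641c9c : CRef := CRef.mk (Pat.mk 0x70000000000000005000000000 0x40000001ff000002fe000003ff000007ee000003fc000003ae0000017000000150 16 11) 0 0 (step_sound _ 99 [(rh4c622fddc53a5f99.shift 1 3), (rh7654d7b92c96fe12.shift 1 2), (rh775ca1963e850b80.shift 1 2), rh9b1acb32457f9337] (by decide +kernel))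
noncomputable def rh979652f9a65e0f0b : CRef := CRef.mk (Pat.mk 0xe000000000 0x2800000138000001fe000001fe000007fe00000fff000007ff00000fff000007bf000003fe0000075f 16 12) 0 0 (step_sound _ 133 [rh1e96ce155e7160c4, (rh4491d2f17daad97e.shift 2 0), rh62cd56ecbd2ac979, (rh718822341fd6b376.shift 2 0), (rh782c4bba66a8f733.shift 1 0), rh836c2f55382584f1, (rh8a48ba4d586e8221.shift 1 0), (rh91f8d52b31dd5d96.shift 2 0), rha991ace964861fc5, (rhb4c8c3c59baecd16.shift 2 0), rhcb4c445d4d2f5d42, (rhddaef846be150229.shift 4 0)] (by decide +kernel))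
noncomputable def rh52da1afa5ba39f7e : CRef := CRef.mk (Pat.mk 0x2000000020000000000000002800000000000000000000000000000000 0x380000003d000001ff000001ff000001fff00001fbe00003fe700001ff000001fb800001ff000001ff000000ff0000003d0 16 14) 0 0 (step_sound _ 165 [(rh193da7fc9e1674f1.shift 4 3), (rh1c8b2a74e6937441.shift 3 0), rh5f3170ff0e1bafee, (rh771d065bdc85bf2d.shift 4 3), (rh978270f84a529134.shift 4 1), (rha1fc1f95d93271ae.shift 2 0), (rhbad7f128da226f11.shift 3 0)] (by decide +kernel))
noncomputable def rh65b79987ca442a0a : CRef := CRef.mk (Pat.mk 0x4000000050000000000000000000000000000000000 0x3c000003ff000003ff80003fffc0001fffc0003ffff0003fffe0001ffff0003fdfc0001f8fc0001f0780000707000005040 16 18) 0 0 (step_sound _ 200 [(rh0cc6290014c7dc6c.shift 3 3), (rh0e8bbd240f742569.shift 1 0), (rh154f7c264a61a691.shift 5 3), (rh16edf0aef9b05210.shift 2 1), (rh20b07bb360106cc0.shift 2 1), (rh2979aa00eb04fbd2.shift 4 1), (rh4afa3bf41f5bb2e3.shift 4 3), (rh5130f6fa8b43b915.shift 3 1), (rh5887fb908a24e5d4.shift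 2 1), (rh59b5a2ed64bf7382.shift 3 3), (rh773271a2b7a8d430.shift 6 3), (rh7f21088fe6527de7.shift 3 2), (rh81cf88522447bb12.shift 4 1), (rh865fb290553ef1dc.shift 3 1), (rh870dd56112611fe0.shift 3 1), (rhbac58764f5189c0b.shift 4 1), (rhca950fd9ff47afd3.shift 6 1), (rhcd3e35749f2db8e3.shift 2 3), rhd1ce106aab00bdd3, (rhdda18305d0153e30.shift 3 3), (rhffaaa43acb2834f8.shift 3 2)] (by decide +kernel))
noncomputable def rh90ddbf2a29f2fd9f : CRef := CRef.mk (Pat.mk 0x2000000000000000a0000000000000000000000000 0x540000007c000003fc000003fc00000fff000007fe00000ffe000007fe000000e8000001c8000001c0000001c0 16 12) 0 0 (step_sound _ 197 [(rh0d8a6ebfaa5ed95a.shift 1 0), (rh2e864f45b346e189.shift 2 2), (rh355f6b0dd38d58d7.shift 1 2), (rh4b899b3d8a1df3a5.shift 1 2), (rh5dc1a69f01196023.shift 0 2), (rh695a4242ad0d274f.shift 2 2), (rh785b6a512d85b68e.shift 1 3), (rh7bfa1c3e89c7db1b.shift 0 2), (rhb916c8a97abc239a.shift 1 0), (rhbb8b6f6d4be0399c.shift 2 2), (rhbbdfe2b64221e21e.shift 3 2), (rhca8229d158cc6489.shift 1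 0), (rhd690fe6a71a263aa.shift 1 2), (rhfeea7fc87be4502f.shift 1 0), (rhffc04b400757e0f3.shift 1 0)] (by decide +kernel))
noncomputable def rh43a5348663d16876 : CRef := CRef.mk (Pat.mk 0xe000000000000000a000000000000000000000000000000000 0x180000001ae000000fe000001ff00000eef000007fe00000fe70000014000000040 16 12) 0 0 (step_sound _ 167 [(rh43f6b0f7303fd4e5.shift 3 3), (rh5a60ead3bb8ecb8c.shift 0 5), rhe26bf3a65b59ab3a, (rhe3d51701f00b224b.shift 5 1)] (by decide +kernel))
noncomputable def rha978dee87058679c : CRef := CRef.mk (Pat.mk 0x1000000010000000500000000000000000000000000000000000000000000000000000000000000000 0x500000007000000070000003f0000001fc000007ff000003fe000007ff000003f0000003d800000777000003fe000007ff000001fe000001fe0000007f000000700000007000000050 16 11) 0 0 (step_sound _ 326 [(rh2a0fb091ad7417f9.shift 0 6), rh5ca1a0a12a2d8fc1, (rhb19e76444162420e.shift 2 2), (rhbf3c34f6d940e42f.shift 0 7), rhd7614845660de95c, (rheb801cadf924206a.shift 3 7)] (by decide +kernel))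
noncomputable def rh63ae59e05a6533da : CRef := CRef.mk (Pat.mk 0x10000000100000005000000000000000200000000000000000000000000000000000000000 0x78000000fc000000fc000003fe000001fc000003fe000003f0000003f800000050000003de000001fe000003ff000001fc000001fc0000015c00000004 16 10) 0 0 (step_sound _ 294 [(rh1e9708fc9dde86e3.shift 3 4), (rh4ed030077ba4c3eb.shift 1 0), (rhb23a650437ef9ff2.shift 3 6), (rhdc40e75446872ccf.shift 1 7), (rhe8f1d3787e0285b3.shift 0 1)] (by decide +kernel))
noncomputable def rh89337efd81b50aed : CRef := CRef.mk (Pat.mk 0x10000000500000005000000000000000000000000000000000 0xa0000001e000000fe800000ff800000ff8000003f8000003d0000001fc000000770000003e0000003f0000003800000020 16 12) 0 0 (step_sound _ 230 [(rh00d75e3d69a237d5.shift 2 0), (rh1cfb6e5374208f69.shift 2 3), (rh1e1d744b7844ed1f.shift 2 0), (rh843139dc320e2610.shift 2 0), (rh8fcf9b04c7fceb1f.shift 3 4), (rhb3f7ef5c683e1566.shift 3 1), (rhc86885b0d65ccb02.shift 2 3), (rhccbb4d05a8275ce2.shift 2 3), rhdaffb9646ae767f9, (rhf6793c3c46ffb76d.shift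 2 1), (rhfb6c68ae9a5edd0d.shift 3 3)] (by decide +kernel))
noncomputable def rhdbc3d0602bf3b04a : CRef := CRef.mk (Pat.mk 0x1000000050000000500000000000000000000000000000000000000000000000000000000000000000 0x280000003800000038000000100000005400000174000007fe000003fe000007ff000003fe000003ff000003f00000017000000050 16 11) 0 0 (step_sound _ 356 [(rh1741680720c097b4.shift 3 8), rhfa24f0a16c580d79] (by decide +kernel))
noncomputable def rhba09d71ef41ab550 : CRef := CRef.mk (Pat.mk 0x1000000050000000500000000000000000000000000000000000000000000000000000000000000000 0x280000003800000038000000100000007400000174000007fe000003fe000007ff000003fe000003ff000003f00000017000000050 16 11) 0 0 (step_sound _ 356 [(rh1741680720c097b4.shift 3 8), (rh5abfc4c9d959be03.shift 3 7), (rhced6d86d2069808b.shift 4 7), rhfa24f0a16c580d79] (by decide +kernel))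
noncomputable def rh81e44cf874735490 : CRef := CRef.mk (Pat.mk 0x7000000000000000000000000000000000000000000000000000000000 0xa0000000e0000000f0000002fe000017fe00001ffe00001fee0001ff700000ffff0001fffe00001fff00001ffe000017fc000007fc000001d0 16 17) 0 0 (step_sound _ 166 [(rh03d01d9e526269e8.shift 4 2), (rh16321e3936144445.shift 2 3), (rh329c620c547b732a.shift 2 2), rh3fe179c0317a4106, rh710bbc34a0471714, (rh763ba28bc2c1e17c.shift 2 2), (rh80037920d41df9ba.shift 2 0), (rh97deca324b807a60.shift 2 1), (rh9fed0a5e9ca7f9e3.shift 2 2), (rhb513563d96c144cf.shift 2 1), (rhbff62be6e9238ade.shift 2 1), (rhd365d685c29c72ea.shift 2 1), (rhd518e3fcfad4919b.shift 1 0), (rhe5333322058ea447.shift 3 3), (rheac31fb234f12e8b.shift 3 1)] (by decide +kernel))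
noncomputable def rh03f564eb89a40a0a : CRef := CRef.mk (Pat.mk 0xe000000000000000000000000000000000000000000000000000000000 0x140000001c0000001c0000001e0000001ae000000fe000007ff00000ffc000007fc00000ffc000001c0000001c000000140 16 12) 0 0 (step_sound _ 199 [(rh1508362ecb14c35c.shift 2 1), (rh9343ddcd69bf3695.shift 0 6), (rh981020b932491af6.shift 2 0), (rhc21a95c499b3efdb.shift 4 6), (rhee6dd302fa2c0123.shift 0 2)] (by decide +kernel))
noncomputable def rh7a80d0ed8852bc47 : CRef := CRef.mk (Pat.mk 0x3800000000000000000000000000000000000000000 0x2800000178000005ff000007fe000007ff000007be000003f8000007dc000007f8000007f8000007f800000568 16 11) 0 0 (step_sound _ 166 [(rh17f08a0ad30ba6e8.shift 5 4), rh278482f3d74c8770, (rh2df92d988b6a0e3d.shift 5 1), (rh3a67af294bae24af.shift 2 4), (rh6e0595747358becb.shift 6 0), rh8f009fc63d061a08] (by decide +kernel))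
noncomputable def rha0a7d211dd5d626e : CRef := CRef.mk (Pat.mk 0xe000000000000000000000000000000000000000000000000000000000 0x1c0000001c0000007e0000003ee000002fe000007bf00000ffc00000ffc00000ffc000007d0000001c000000140 16 12) 0 0 (step_sound _ 199 [(rh67be9803d340090f.shift 3 2), rh8c29a3211f2de5f4, (rh8cdd0a5b328cf224.shift 1 2), (rh981020b932491af6.shift 2 0), (rhf7f30f4125541383.shift 2 6)] (by decide +kernel))
noncomputable def rh9f794965d63660e3 : CRef := CRef.mk (Pat.mk 0x80000000e00000000000000000000000000000000000000000 0xa0000001f8000001f800000ffe000007ff00000ffe000007ef000000e00000007c00000070000000700000007000000040 16 12) 0 0 (step_sound _ 229 [(rh6b545b6ef4704d9f.shift 4 2), (rh7b04bf36e4fe3a2c.shift 0 4), (rh7b9e4221f34f3f8e.shift 4 2), (rh7e6292d6119df077.shift 1 1), rh888c4148517bf8ea, (rh8948e379be99e81f.shift 1 2), (rhd3b410e354afedd0.shift 1 3), (rhf37a43b834be6024.shift 1 1), (rhfa9b2d37a6eb9326.shift 2 2)] (by decide +kernel))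
noncomputable def rhd282fb97a88b8d38 : CRef := CRef.mk (Pat.mk 0x20000000380000000200000000000000000000000000000000000000000 0x80000009e000001de000001df000003ff800001ff000003ff800000bbc000003f0000001bf00000ffe00000ffe000003fe000003f0000002f0 16 14) 0 0 (step_sound _ 197 [(rh02699a7ff7d1085c.shift 4 5), (rh475c613e85a76dc0.shift 4 5), (rh4e3ed8c1482d7e7e.shift 2 2), rh783ce1b975d04521] (by decide +kernel))
noncomputable def rh0a369f4d8ac8e01a : CRef := CRef.mk (Pat.mk 0xe0000000a0000000000000000000000000000000000000000000000000 0x400000007000000070000001be000000fe000000bf000007ee000003fc000007fe000003fc0000007800000038 16 11) 0 0 (step_sound _ 228 [(rh7fcd0c933862de81.shift 1 0), (rhaa738e8eddf7e18b.shift 3 4), (rhd5889c99d29bf7d6.shift 3 4), (rhe15c56d4137cf69b.shift 0 6)] (by decide +kernel))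
noncomputable def rh73c28a3456f46087 : CRef := CRef.mk (Pat.mk 0xa0000000a000000000000000000000000000000000 0x28000000780000007e0000017e000003ff00000ffe00000fff00001fbc000000b0000001e0000001f80000017000000050 16 13) 0 0 (step_sound _ 199 [(rh111ae6df5f4fd51e.shift 3 1), (rh38e981c4be77e5b9.shift 4 1), (rh39394771218a70a3.shift 2 0), rh6e90a4a6c59d5be1, (rh9ffcd6d8ecbc35da.shift 0 1), (rhcf8f83ff79bf9c59.shift 6 1), (rhd6bd908d2c3f307d.shift 4 1), (rhf287155d07985f5c.shift 2 0)] (by decide +kernel))
noncomputable def rh4541ba0710846fcc : CRef := CRef.mk (Pat.mk 0x80000002800000020000000000000000000000000 0x180000003c0000003d4000007ff000003fe00000fef000007fc00000fff000001af000001fc000000780000007000000050 16 12) 0 0 (step_sound _ 165 [(rh0289c84f19766124.shift 2 0), rh06f2148f998ff904, (rh0759fbafcd6f1fe3.shift 0 1), (rh1b5ebc6822297ece.shift 0 2), (rh895960a8d60b102d.shift 4 0), (rhc84dbe89ac4dad8d.shift 2 0), (rhd92a92a910a01cb4.shift 0 1)] (by decide +kernel))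
noncomputable def rh5a7f319c7f4662a1 : CRef := CRef.mk (Pat.mk 0x20000000a00000008000000000000000000000000000000000 0x540000007e00000dfe00000d3f00000ffe00000fff00000ebe000007ff00000ffe000001be0000013800000108 16 12) 0 0 (step_sound _ 133 [(rh1feee178ec91ccda.shift 2 1), (rh29d0557b54696bdd.shift 2 0), (rh2c25c289fa3fbf12.shift 2 1), (rh35a060eb829f8f0e.shift 2 1), (rh3d38f67c505fcee9.shift 2 1), (rh3f097b26678f6259.shift 1 0), (rh50a3d730c3bea5b7.shift 3 1), (rh84f031888f985ddb.shift 1 0), (rh94059c68b5383b15.shift 0 1), (rhacacbaa36c9df70d.shift 1 1), (rhcbee0be50a45b940.shift 0 1), (rhe9729a394e2406ba.shift 2 1)] (by decide +kernel))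
noncomputable def rh1fc4f2e1bb084613 : CRef := CRef.mk (Pat.mk 0x5000000050000000400000000000000000000000000000000000000000 0x800000538000007380000073800001f9f00000fff00001fff0000035f000003df000000bf00000038000000380000003800000008 16 13) 0 0 (step_sound _ 262 [(rh0363d47a46978688.shift 3 5), (rh447ac240b95e4617.shift 4 5), rh724e779e9a941882, (rhb034511df68c2fcf.shift 3 5), (rhcaac1058ec80d2f0.shift 2 0)] (by decide +kernel))
noncomputable def rhd1d295152838efef : CRef := CRef.mk (Pat.mk 0x80000002800000028000000000000000000000000000000000000000000000000 0x344000003cc000003ff000003fc000003a800000ffc000007ec00000ffc000007f4000007f00000006000000020 16 12) 0 0 (step_sound _ 291 [(rh3eb3c55f100d2131.shift 1 3), (rh4d277a950961c11c.shift 2 0), (rh60154d19a4dfb805.shift 0 4), (rh6aa5625770489e83.shift 2 4), (rh7075c9edb3fcde2e.shift 0 3)] (by decide +kernel))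
noncomputable def rh9282e6d6a86962f2 : CRef := CRef.mk (Pat.mk 0x800000009000000080000000000000000000000000 0x500000007a000001fe000001fe0000007e000001ff000000fe000001ef0000007e0000007a00000050 16 9) 0 0 (step_sound _ 133 [rh16c07f719734da24, (rh22e203964f906d4b.shift 3 3), (rh2e8efbc4684aef7b.shift 3 3), (rhabf575676fe0ef70.shift 4 3)] (by decide +kernel))
noncomputable def rh1d21f934b279285c : CRef := CRef.mk (Pat.mk 0x8000000090000000800000000000000000000000000000000000000000 0x500000007a0000007e000001ef000000fe000001ff0000007e000001fe000001fe0000007a00000050 16 9) 0 0 (step_sound _ 197 [(rh22e203964f906d4b.shift 3 5), (rh2e8efbc4684aef7b.shift 3 5), rh8f573a24ba939df7, (rhabf575676fe0ef70.shift 4 5)] (by decide +kernel))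
noncomputable def rh445ab930c10d7d50 : CRef := CRef.mk (Pat.mk 0x800000029000000080000000000000000000000000000000000000000000000000000000000 0x280000053f800007ffc000077fc0003fffe0007fffe0003f7ff0007ffff000fadff0007ffff000ff7ff0007fffe0003fffe000077fc00007ffc000073f800005280 16 20) 0 0 (step_sound _ 263 [rh0460cc49ccf78e85, (rh04bccaee5fecbab9.shift 3 3), (rh074cf8c562dab0a8.shift 2 2), (rh0e141ea6a83d024c.shift 2 5), (rh1484e75795054a44.shift 0 3), (rh18e12557badb649f.shift 3 3), (rh1cf0e97572ceddf3.shift 1 1), (rh20803af294e71d90.shift 1 1), (rh33e5dd61031cada4.shift 3 2), (rh3e6ce0ff4f1cda4a.shift 1 1), (rh402f08fa858c36dc.shift 3 3), (rh40eb28c254cb0c0c.shift 1 1), (rh4bea61c05a8805cd.shift 2 0), (rh5ee19fac3ea74d24.shift 3 4), (rh66d3c89f3ac3235e.shift 4 3), (rh6ff9e67a99342cb7.shift 2 3), (rh72477b37c0075bc2.shift 3 2), (rh789f2393c5410af8.shift 1 0), (rh8cbd521288ea35d1.shift 4 2), (rha56143a960a89461.shift 3 3), (rhb0a7ec1af7cbaae8.shift 4 4), (rhb5107e4a1c857a69.shift 2 2), (rhbfb8a22a6b7c30c0.shift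 4 3), (rhc0bba82a484a1763.shift 1 2), (rhc31ae48652048d8b.shift 1 2), (rhc71528702edcceaf.shift 1 3), (rhd02a86b58781f2a2.shift 0 1), (rhe4b25cbf4ce931d5.shift 0 1), (rhf03eb9a7eb4cf314.shift 3 2), (rhfe55801dab6fb4b4.shift 2 2)] (by decide +kernel))
noncomputable def rh87937fee75d7842a : CRef := CRef.mk (Pat.mk 0x400000014800000040000000000000000000000000000000000 0x1e0000005f800000ff800003ffe00003ffc00003fff00003bfe00003fff000017be00003fff00003bf800003fe000003fe000003980 16 14) 0 0 (step_sound _ 231 [(rh172c9ba43a404eb0.shift 4 2), (rh19e3fbee5682960b.shift 2 2), (rh1a8d27260a6043d6.shift 2 2), (rh37c9f303378a6cda.shift 5 2), (rh409748b4dc75a474.shift 5 0), (rh4246bc9ab66c7f74.shift 2 2), (rh4c888abc120c23e3.shift 4 2), (rh7a6cfd288e6f2656.shift 5 0), (rh800bcbfa49aaf30c.shift 1 1), (rh809e9caa714b7c9d.shift 6 0), (rh85fce3d0237298c3.shift 4 2), (rhb3918a02d6a608e3.shift 1 0), (rhcada519ff3555169.shift 0 2), (rhea18bfd9ddd1d7f7.shift 2 1)] (by decide +kernel))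
noncomputable def rh026919f57716346d : CRef := CRef.mk (Pat.mk 0x4000000048000000400000000000000000000000000000000000000000000000000 0x150000003f0000003f800000ffc00003bfc00001fff000005fe00001fff00003bfc00000ffc000003fc000003f0000001f0000000a0 16 14) 0 0 (step_sound _ 230 [(rh07277b6ad2605558.shift 2 2), (rh0b65479df2cf8121.shift 3 2), (rh0c531548c32716a3.shift 3 2), (rh13f890183f9f6017.shift 2 2), (rh18ea8e0e96a17ec6.shift 0 2), (rh1d46254f35a8d49b.shift 2 2), (rh2dfa27b4cb353a24.shift 2 2), (rh36cee3d3cebc33b2.shift 2 4), (rh38854dfd7f68f183.shift 2 2), (rh44cefe82c429ca04.shift 1 2), (rh5b6c7b86b9791b9c.shift 0 2), (rh6573e94c0200f909.shift 2 1), (rh67b4355c28dbf2f1.shift 2 2), (rh696bbf02178fb6cf.shift 2 2), (rh744af6b209de7c8b.shift 2 0), (rh784cca74b89e656b.shift 2 2), (rh81d684941a617d1c.shift 2 1), (rh8476891b67ee0f41.shift 2 2), (rh86099c7e90102a8d.shift 0 3), (rha185079a3fbea367.shift 2 2), (rha708958f295234db.shift 2 1), (rhac0c0342224b7200.shift 0 3), (rhb34947b0df156831.shift 0 2),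 (rhb48b6a218284a0da.shift 2 2), (rhb82135908199822d.shift 1 2), (rhc3e667dcbe21771b.shift 2 2), (rhcce058acf1498066.shift 2 2), (rhe6d760aea8f138e5.shift 2 2), (rhed481a41bd7d2998.shift 2 3), (rhf1161a4b65ae1975.shift 0 1), (rhff7b6ae849762b50.shift 2 2)] (by decide +kernel))
noncomputable def rh26c0051be48417ad : CRef := CRef.mk (Pat.mk 0x20000000a000000020000000000000001000000000000000000000000000000000000000000000000000000000 0xa0000002a0000002f000000fff000007fe00000fef000007f800000ff8000007e0000000e0000000e0000000a0 16 12) 0 0 (step_sound _ 230 [(rh1978fdf87ac449a5.shift 4 7), (rhb2e9ce1ce0249e8c.shift 1 0), (rhc7f5d4a2c67a24de.shift 0 6), (rhce7e11f9e9dfdfc3.shift 0 5)] (by decide +kernel))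
noncomputable def rh872286b9aa1e853d : CRef := CRef.mk (Pat.mk 0x20000000a0000000200000000000000010000000000000000000000000000000000000000000000000 0xa0000000ac000000ec000007ef000003fe00000fff000007fe00000ffe000007fe000000ea000000a0 16 12) 0 0 (step_sound _ 198 [(rh17c5e3caffcd5225.shift 0 2), (rh2fbcd6b2428243f2.shift 1 5), rh3e1e0b2201322650, (rh75c7d9ec1057343b.shift 3 1), (rh8bf2458b77264f10.shift 4 5), (rhce7e11f9e9dfdfc3.shift 0 4)] (by decide +kernel))
noncomputable def rh415c1bedda554a8b : CRef := CRef.mk (Pat.mk 0x1000000050000000100000000000000008000000000000000000000000000000000000000000000000000000000 0x1000000070000005f80000057e00000ffe00001efe00007fff00003ffe00007fff00003ffe00003ffe00001ff800000ff8000001e0 16 15) 0 0 (step_sound _ 199 [(rh0d1ac14bfcd7047e.shift 0 2), (rh6844381e7eaf0d50.shift 2 0), (rh68b6d9404e2b4898.shift 0 1), (rh6911b634dc2646bb.shift 3 2), (rh774b8288badee81b.shift 2 2), (rh7fc8af98a0ca76c9.shift 3 3), (rh932923e4ab6c10f3.shift 1 0), (rh9f490a61cd706980.shift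 1 1), (rha0bcb35aa2c5155a.shift 4 1), (rha888b10b4f1bf4fd.shift 2 0), (rhaee15d5b36b1a197.shift 2 0), (rhc17b47251d3df077.shift 2 0), (rhc479f4df540abbd4.shift 2 0), (rhd17650125e41506e.shift 1 1), (rhd5a09dcede2fe5e2.shift 2 3), (rhe74100c6911f0e38.shift 4 1)] (by decide +kernel))
noncomputable def rh8e8b0bd9eeb3ae3e : CRef := CRef.mk (Pat.mk 0x400000014000000040000000000000000000000000000000000000000000000000 0x204000003bc000003fc000007be000003fe0000017f00000fff00000fff0000077f000002fc000000fc0000007c00000050 16 12) 0 0 (step_sound _ 261 [rh826be98b710e5170, (rh82abd02329d24f68.shift 1 2), (rheba9ca463bb2f025.shift 0 2), (rhf9a6286f1d5377a2.shift 5 5)] (by decide +kernel))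
noncomputable def rhfc4081bb76ff65ab : CRef := CRef.mk (Pat.mk 0x600000004000000140000000000000000000000000000000000000000000000000000000000000000000000000 0x1800000298000003df0000037e000003ff0000015c00001ffc00000ff400001ff8000007f8000007f0000005f8000001c00000018000000100 16 13) 0 0 (step_sound _ 356 [(rh55bb45053f264d17.shift 0 7), (rh86230056265fd615.shift 3 0), (rha0ae8adeb1dbcf8d.shift 1 10), (rhb2afcb5db661472f.shift 1 10), (rhc92c11e8da6c894f.shift 1 10)] (by decide +kernel))
noncomputable def rhe12df9aa93a02076 : CRef := CRef.mk (Pat.mk 0x10000000c00000014000000000000000000000000000000000 0x40000000700000007300000077800001ff800000ff800000ffe000003df00000178000003bc000003b8000003b8000002a8 16 13) 0 0 (step_sound _ 133 [(rh12c474d6b14624e6.shift 2 0), (rh2b945ff47592fafe.shift 3 1), (rh59c3d3788b18e424.shift 3 1), (rh65a93ee90d12d7f5.shift 3 1), (rh6eed03288a212aed.shift 0 1), rhe6ea7ad6cbc78876, (rhf47c28ae16d4bb6d.shift 3 1), (rhf86641c749dedcc1.shift 2 0)] (by decide +kernel))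
noncomputable def rhe53caa8a0404715a : CRef := CRef.mk (Pat.mk 0x800000020000000a0000000000000000000000000000000000 0x40000000f0000005f000003df800001fff00001ffe00001fff00000bf8000009f0000001f8000001e0000000a0 16 14) 0 0 (step_sound _ 200 [(rh0b409b5c219482ee.shift 3 1), (rh171957f3ba92d85e.shift 3 0), (rh187af8ed07e6ea0e.shift 4 2), (rh35006aa2de7f2a17.shift 0 2), (rh5e3fdcacadd30225.shift 5 0), (rh6f8613430527ac9d.shift 4 1), (rh935fd30835b3bba6.shift 3 3), (rhbbc94d561fe3fb04.shift 3 0), (rhc0d3be1c9d5ae399.shift 5 1), (rhd3a1c3aacdf0cb0e.shift 3 0), (rhe1f24eb0dac8e358.shift 5 2)] (by decide +kernel))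
noncomputable def rhc67cfef7005c4f18 : CRef := CRef.mk (Pat.mk 0x10000000c000000140000000000000000000000000 0x20000000e0000000f4000007ff000007ff00003fff00001fde00001d7c0000012c0000010c00000004 16 14) 0 0 (step_sound _ 136 [rh3da23061f49c6038, (rh4303adad090fabf2.shift 5 3), (rh485547c197806ade.shift 5 3), (rhd8b43b15431aaa50.shift 5 1), (rhfc9e92fd8130681b.shift 5 1), (rhff761a6166dce01f.shift 5 1)] (by decide +kernel))
noncomputable def rh878a2f7ad9e50ddd : CRef := CRef.mk (Pat.mk 0x20000000800000028000000000000000000000000000000000 0x7000000074800001ff800003ffe00001ffe00007fff00003ff700003af000000778000007700000077000000550 16 15) 0 0 (step_sound _ 168 [rh23cc869835db62b9, (rh38c4c99863e43fe5.shift 4 1), (rhac3adebb4e8fb65f.shift 4 0), (rhc58d01c744b6f753.shift 4 1), (rhd65929238cebfd33.shift 4 2), (rhe3a81ba3cd10722b.shift 4 0), (rhef22d120caea1b0b.shift 1 1)] (by decide +kernel))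
noncomputable def rhba68df2a67bcc888 : CRef := CRef.mk (Pat.mk 0x2000000080000002800000000000000000000000000000000000000000 0x150000001d0000007fc000007fc00000fef00007ffe00003fff00003aff0000077c0000077e000007780000053800000028 16 15) 0 0 (step_sound _ 200 [(rh38c4c99863e43fe5.shift 4 2), (rh6f807b887771a630.shift 0 2), (rhac3adebb4e8fb65f.shift 4 1), (rhc58d01c744b6f753.shift 4 2), (rhd65929238cebfd33.shift 4 3), rhe0a6dfc2ae0e2e6b, (rhe3a81ba3cd10722b.shift 4 1)] (by decide +kernel))
noncomputable def rhbbdd99835a33be71 : CRef := CRef.mk (Pat.mk 0x100000004000000140000000000000000000000000 0x20000000fc000000fc000003ff000003ff00003ffe00001fff00001d70000001300000013000000030 16 14) 0 0 (step_sound _ 165 [rh2b3f8c93fd5e10bb, (rh58eccfd364e0b8e7.shift 2 2), (rh5ca668c9b4595c7e.shift 0 3), (rh83cf7799c420e5c4.shift 0 1), (rh87eaecb96fc66f30.shift 1 0), (rhaf3e8f628a573659.shift 2 0), (rhb9c993553b5c8bec.shift 0 2), (rhcf643bcefdef9265.shift 1 0), (rhefeeae490fcdea92.shift 0 2)] (by decide +kernel))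
noncomputable def rh16b496bc12fece2d : CRef := CRef.mk (Pat.mk 0x30000000400000004000000000000000000000000000000000 0x1c000000dc000007fe000001fe0000007e0000007f0000007e0000003c0000003c0000003c00000014 16 11) 0 0 (step_sound _ 165 [(rh2808a4d1ae20c761.shift 0 1), (rh50c6a6fc0d1d5a87.shift 1 1), (rh71abf70830cf5bdb.shift 2 0), (rh8890a2107ac3536f.shift 4 1), (rh8b9c126c75499bbc.shift 2 2), (rh9de7b4a9dc2d183d.shift 2 0), (rha21128819fe7cf7a.shift 1 3)] (by decide +kernel))
noncomputable def rh9389ade466f9715f : CRef := CRef.mk (Pat.mk 0x18000000200000002000000000000000000000000000000000 0x28000000780000007c000000fc000003ff000000ff00000038000000ff0000003e0000001f0000001e0000001e0000000a 16 10) 0 0 (step_sound _ 228 [(rh0188917d0a15b7ff.shift 4 4), (rh0bf5bfa2f5578922.shift 3 4), rh9c97c3ddbf2e29a8, (rhe53546a11f5dd5e0.shift 0 3), (rhff746848bf65afb6.shift 2 3)] (by decide +kernel))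
noncomputable def rh379e4bba6ba45ec5 : CRef := CRef.mk (Pat.mk 0x30000000400000014000000000000000000000000000000000 0x3800000078000003de000007fe00003ff000001ff800001d7c0000013e000001fe000000fe000001ff 16 14) 0 0 (step_sound _ 167 [(rh1327381b6fd21075.shift 4 4), (rh156eb79819174918.shift 4 2), (rh368dc3085932390d.shift 4 5), rh80e2a8b627314dfd, (rhd62c819f98783b72.shift 4 2)] (by decide +kernel))
noncomputable def rh3175afc29f208c86 : CRef := CRef.mk (Pat.mk 0x40000001000000050000000000000000000000000000000000 0x78000002f800000ff800000ff800001fff0000fffe00007fff000075f800000e7800000e6000000e2000000a00 16 16) 0 0 (step_sound _ 169 [(rh3812e2ca613a5d74.shift 4 2), (rh3abdd7875ed8a6c2.shift 0 3), (rhac3adebb4e8fb65f.shift 5 0), (rhb2cf486cd12ce9b6.shift 2 1), (rhc58d01c744b6f753.shift 5 1), (rhd65929238cebfd33.shift 5 2), (rhe3a81ba3cd10722b.shift 5 0)] (by decide +kernel))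
noncomputable def rhe6887ce57ace7fe4 : CRef := CRef.mk (Pat.mk 0x100000004000000140000000000000000000000000 0x20000000fc000000fc000001fe000007ff000003fe000003ff0000016c000003bc000003b8000002b0 16 11) 0 0 (step_sound _ 165 [rh081ea7ee9d9d9c55, (rh3867023ecac683e5.shift 1 0), (rh4b9a459a2de6a13c.shift 0 4), (rh901b8f96a95d7e23.shift 3 0), (rh9e0450982460c553.shift 2 0), (rha82ffd7a9cec8823.shift 2 0), (rhc7eaa66be03b4d04.shift 1 0), (rhffddd53683d62836.shift 1 0)] (by decide +kernel))
noncomputable def rh02a45c2281340e0b : CRef := CRef.mk (Pat.mk 0x400000010000000500000000000000000000000000000000000000000000000000 0x20000000e000000ff800000ffc00000f7c00001ffe00000ffe000005ff000004fe000007ff000000f8000000f8000000e0000000a0 16 13) 0 0 (step_sound _ 230 [(rh04c473e5015a62da.shift 1 3), (rh1e1431f923e9af50.shift 1 4), (rh2153db04e5176210.shift 1 3), (rh7b239c7a8b24cb81.shift 3 4), (rh7b790e1d308472f0.shift 1 5), (rh7e9fecab4b1e7e28.shift 3 3), (rh83235cf9e9c7ec37.shift 2 4), (rh8d31f6e5daca5edc.shift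 2 3), (rha4f51b74c278c320.shift 1 0), (rhb1fa271bafcae416.shift 3 3), (rhc1ef36db00bf57d3.shift 1 2), (rhc7f80accfd321a9a.shift 0 2)] (by decide +kernel))
noncomputable def rh78869424e5b43793 : CRef := CRef.mk (Pat.mk 0x40000001000000050000000000000000000000000000000000 0x7800001ff800000ff800003efc00001ffe00003fff000005fc00000ef800000efc00000af000000050 16 14) 0 0 (step_sound _ 199 [(rh16c9a1ce9bfb32fc.shift 3 3), (rh1e58737ec605052d.shift 2 1), (rh2325e2823094d345.shift 0 3), (rh62b5ec36185a3dc2.shift 3 0), (rh630e44cba542d3b1.shift 3 1), (rh848c41c056527a93.shift 3 1), (rhc93747d8edd0912c.shift 2 1), (rhdf5994432b0eae46.shift 2 2), (rhe7e7a57c7f82c361.shift 2 0)] (by decide +kernel))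
noncomputable def rh0210b03efc717b5a : CRef := CRef.mk (Pat.mk 0x20000000800000008000000000000000000000000000000000 0x150000001f4000001fc00000ffe00001fff00001ffe00001dff000000fe0000007e0000003e0000003800000028 16 13) 0 0 (step_sound _ 199 [(rh397bbf8a9347d422.shift 5 3), (rh4ca74b3178210d45.shift 0 2), (rh6fad4c06358c0840.shift 4 4), (rh7db974aeb6c4aa5c.shift 1 0), (rh816f850d877ed8a2.shift 5 3), (rh9184d1a3c0a2ef54.shift 0 2), (rhb6e9812c78360476.shift 1 1), (rhbe1d7a62f3ba810f.shift 1 4), (rhe3f0b9189c48765d.shift 4 3), (rhe762ac5df6378ea4.shift 4 3)] (by decide +kernel))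
noncomputable def rhb7ab02ce82cf60d7 : CRef := CRef.mk (Pat.mk 0x200000008000000280000000000000000000000000000000000000000000000000 0x140000001d0000001f0000005f000003ffe00007ffc00003fef00007fff00003aff0000077f000007fe000005f8000000780000007000000050 16 15) 0 0 (step_sound _ 263 [(rh09330b5be52b2bfa.shift 0 2), (rh1161f614e78975d1.shift 3 4), (rh397bbf8a9347d422.shift 5 5), (rh6fad4c06358c0840.shift 4 6), (rh76ba9664e3130ad3.shift 4 5), (rh816f850d877ed8a2.shift 5 5), rhaed1e669af3b84c7, (rhbb7bbcf877df717b.shift 4 3), (rhe57eb373750aec1e.shift 3 4), (rheab691478df7c07f.shift 3 3), (rhf35dc2c7f032520d.shift 3 3), (rhf3ef4eb82691f3ca.shift 3 3), (rhfcae217e8ccb62b1.shift 4 3)] (by decide +kernel))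
noncomputable def rh4fa3474360908d22 : CRef := CRef.mk (Pat.mk 0xc0000001000000050000000000000000000000000 0x4000000060000000700000007e000001fc000001fe000001fe000000ff000000ff000000fc00000050000000e0000000e0000000a0 16 9) 0 0 (step_sound _ 131 [(rh3c3e23a02e82b2ed.shift 0 4), (rh52f10003c58a24b5.shift 0 2), (rh5c5a2014709044d0.shift 0 4), (rh843b897eb249eed2.shift 0 4), (rhc469a0bc2a9d6c0a.shift 1 0)] (by decide +kernel))
noncomputable def rhb0e201be187b72a2 : CRef := CRef.mk (Pat.mk 0x40000001000000050000000000000000000000000000000000 0x20000000fc000000fc00000bfc00000ffe00000fff00001efe00000fff000005fe00000efc00000efc00000ae0000000e0 16 13) 0 0 (step_sound _ 166 [(rh041e788779b321bd.shift 2 0), (rh414d45f545981fb9.shift 2 1), (rh4bd92e6f63a12398.shift 2 0), (rh6994e8b3c8d5e919.shift 2 1), (rh711d472ff7c93540.shift 3 1), (rh86295455da48dc8c.shift 2 0), (rh95377436205a573a.shift 2 0), (rh9ff5d2d4ecc8df2e.shift 0 1), (rhb2685025749c0de8.shift 2 1), (rhbdea2099c1fd4a1f.shift 2 0), (rhce2d0367fb13c9fa.shift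 2 1), (rhcf53dccfc3041449.shift 0 2), (rhe55a0456510d726a.shift 2 2), (rhea14dd81dcbbae77.shift 1 2)] (by decide +kernel))
noncomputable def rh1229e301bd38237c : CRef := CRef.mk (Pat.mk 0x2000000020000000800000028000000000 0x34000000fc000003fe00001fff00000ffe00001fff000007bc000002a800000020 16 13) 0 0 (step_sound _ 134 [(rh7b59a2b33e6096b3.shift 1 0), (rh862ba3e0fae11091.shift 4 1), (rh9da1745a0b9c0d8a.shift 0 1), (rha8f74a977dd26e2d.shift 2 1), (rhbf71eeff4baaf4e4.shift 1 1), (rhcb84a3348035e235.shift 4 1), (rhec1c6ba57f4d2ea7.shift 0 1), (rhfb6f1d15f03e8fd0.shift 4 1), (rhfea8a32158c13e4b.shift 0 1)] (by decide +kernel))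
noncomputable def rh7ec0b3ac1a02792b : CRef := CRef.mk (Pat.mk 0x1000000010000000400000014000000000 0xa8000000f8000002f8000007ff00001ffe00000fff00001fce0000016800000128 16 13) 0 0 (step_sound _ 102 [rh6020b12fc423e06d, (rh7e9dce33488b55b9.shift 3 0), (rhbff1c37a6b1c783f.shift 1 1), (rhc4c331b0d28e6c28.shift 1 1), (rhcf0084c2c97d938a.shift 0 1), (rhf271a1f1bf9d1e78.shift 1 0), (rhf3b9ae500a25b3ec.shift 1 0)] (by decide +kernel))
noncomputable def rhd0f1bc6df334a6bb : CRef := CRef.mk (Pat.mk 0x10000000400000014000000000000000000000000000000000 0xa0000000f4000000fc000000fc000007fc000007ff000007fe0000037f0000017c000003bc000003bc000002bc00000014 16 11) 0 0 (step_sound _ 198 [(rh13e949f6725eb17b.shift 3 3), (rh2a2022ac694caa1a.shift 0 2), (rh2b0a26418625f71c.shift 0 1), (rh5140ef1f801c35a1.shift 0 1), (rh527e3b16a5bc0e81.shift 0 1), (rh5aaea85238f7030b.shift 0 1), rha6157a61cf22ba25, (rhaeedfaac42d61cf0.shift 3 3), (rhe633900e171dcc2a.shift 3 3), (rhed8e8fb4fda0cf2b.shift 4 3), (rhf11a1d70eeb96ea3.shift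 0 1)] (by decide +kernel))
noncomputable def rh3a3cbda6a04db4c3 : CRef := CRef.mk (Pat.mk 0x5000000040000000400000000000000000 0xa0000000f4000000fc000003fe000000fc000000ef000000ff000003ff0000007f0000003c0000000c 16 10) 0 0 (step_sound _ 166 [rh0eba5c5877de3f62, (rh1741680720c097b4.shift 5 2), (rh193da7fc9e1674f1.shift 5 1), (rh20966da26a1c2ae8.shift 5 1), (rh74e019ea687eafe5.shift 1 1), (rh771d065bdc85bf2d.shift 5 1), rhf2747d302aced012] (by decide +kernel))
noncomputable def rh6594333b2ad734eb : CRef := CRef.mk (Pat.mk 0x5000000040000000400000000000000000 0xa0000000f4000000fc000003fe000007fc000003ef000007ff000000df0000007f0000003c0000000c 16 11) 0 0 (step_sound _ 166 [(rh0363d47a46978688.shift 3 2), rh0eba5c5877de3f62, (rh1741680720c097b4.shift 5 2), (rh4d2a054ed6195303.shift 4 2), rhf2747d302aced012] (by decide +kernel))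
noncomputable def rh936374e69c2ea292 : CRef := CRef.mk (Pat.mk 0x10000000100000001000000000 0x80000000a8000001ff000000fe000000f70000003e0000001e0000000a 16 9) 0 0 (step_sound _ 132 [rh1d529766401666ae, (rh20966da26a1c2ae8.shift 3 0), (rh771d065bdc85bf2d.shift 3 0), (rhc85cc95794737cf7.shift 3 1)] (by decide +kernel))
noncomputable def rh4d0a944c0b539e17 : CRef := CRef.mk (Pat.mk 0x100000000400000014000000000000000000000000000000000000000000000000000000000 0x80000000dc000001f8000003fc00001d7f00000ffe00001fff000007fc000000f0000000e0000000e0000000a0 16 13) 0 0 (step_sound _ 198 [(rh1900c1bad7e860ae.shift 3 3), (rh429ecd6acbc509dc.shift 2 0), (rh5128d195d09e53e5.shift 2 3), (rh96a34bc8041ea8c5.shift 4 3), (rhb484c345c81211d1.shift 2 3), (rhc599916eec71d7ce.shift 0 3), (rhe256b8e4f83e10f2.shift 2 3), (rhf5404d7db94b7284.shift 4 0)] (by decide +kernel))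
noncomputable def rh2966dcbe2fda176a : CRef := CRef.mk (Pat.mk 0x50000000500000004000000000 0x5a0000007e0000007ef00001ffe00000ffe00001ff40000075e000007f8000000a0 16 13) 0 0 (step_sound _ 134 [(rh1741680720c097b4.shift 5 1), rh2205ddd92b4d0cef, (rh447ac240b95e4617.shift 4 1), (rha3580bf64e189116.shift 3 0), (rhdf1a34d6da0a3126.shift 3 0)] (by decide +kernel))
noncomputable def rhe43fdb5540d0e8bf : CRef := CRef.mk (Pat.mk 0x5000000050000000400000000000000000 0x5a0000007e8000007ff00001ffe00000ffe00001ff40000075e000007f8000000a800000008 16 13) 0 0 (step_sound _ 166 [(rh054f9f89b635b0dd.shift 3 0), (rh1741680720c097b4.shift 5 2), (rh447ac240b95e4617.shift 4 2), (rha3580bf64e189116.shift 3 1), (rhdf1a34d6da0a3126.shift 3 1), (rhf0583b78c890f89b.shift 0 1)] (by decide +kernel))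
noncomputable def rhf94c4aec1080b1c5 : CRef := CRef.mk (Pat.mk 0x140000001400000010000000000000000000000000000000000000000000000000 0x140000001c0000001c000000fc000001ff000001ff000001ff0000007e0000007e00000074000000160000007e0000007200000060000001f8000001f8000001f000000050 16 9) 0 0 (step_sound _ 165 [(rh1148744b53f3df58.shift 3 5), (rh5f37a847c47cc606.shift 3 0), (rh66a52cd2d27fd691.shift 0 4)] (by decide +kernel))
noncomputable def rh2e84c9006b293693 : CRef := CRef.mk (Pat.mk 0x50000000500000004000000000000000000000000000000000 0x500000007000000070000003f0000001fc000003fc000003fc000001fc000001ff000000d00000005800000078000000fc000000f8000000fc00000080 16 10) 0 0 (step_sound _ 102 [(rh20966da26a1c2ae8.shift 5 2), (rh8cdd36b03d57a2f6.shift 5 1), (rhaca7a15e78d4bcbd.shift 2 0), rhcb46bab6cdc3bf2e, (rhf3d56b0c59b0c7bb.shift 2 2)] (by decide +kernel))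
noncomputable def rha8f091c91e79261e : CRef := CRef.mk (Pat.mk 0x8000000280000002000000000000000000000000000000000000000000000000000000000 0x140000007c0000007c000000ff000000f800000028000001fe000001ff000001fc0000007400000070000000700000007000000050 16 9) 0 0 (step_sound _ 227 [(rh32ed2d9de977ab04.shift 0 4), (rh595c596967265fdd.shift 1 0), (rh9cc00362d386e667.shift 2 0), (rhb317b49921a3baad.shift 0 4), (rhc39dfeda05298619.shift 2 5), (rhdaeec8035f5ed2d7.shift 0 4), (rhecd2b5754911b5ae.shift 2 3), (rhf696348383652baf.shift 2 5)] (by decide +kernel))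
noncomputable def rh0484eaead54e1f44 : CRef := CRef.mk (Pat.mk 0x40000001400000014000000000000000000000000000000000000000000000000 0x80000000e0000000e0000000e0000000c000000d6000000fc000001ff000001fe000001ff000001fe000001fe0000007c 16 9) 0 0 (step_sound _ 101 [(rh4861e76cdfa18fc9.shift 0 2), rh91fb27395dedd2a3, (rh95c73930051883d1.shift 1 0), (rhabf098209bc321b5.shift 1 0), (rhc60096765b230a34.shift 1 0), (rhde6b75ec467a7fd8.shift 1 3), rhe87602591ce400eb, (rhff3398fbd79983b4.shift 1 2)] (by decide +kernel))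
noncomputable def rh15dc7cbbbef3f056 : CRef := CRef.mk (Pat.mk 0x80000002800000008000000000000000000000000000000000 0x40000000fe000002fc000003fe000002ff000007fe00000f7f0000057c0000057800000030 16 12) 0 0 (step_sound _ 134 [(rh12a39daf80ebf8c1.shift 1 1), (rh694811f6041544e5.shift 0 1), (rh976a48eb1c80a12f.shift 6 3), (rhceeedfb0340a3d30.shift 1 0), (rhfafeb437ceb8396d.shift 6 1)] (by decide +kernel))
noncomputable def rh5bf73937fc529dcc : CRef := CRef.mk (Pat.mk 0x20000000a0000000000000000000000000000000000000000000000000000000000000000000000000 0x5e000000ff000000ff800001ffe00003ffe00003fee00007ffe00000ebf00000fff00000fff00000fff000003fc000007fe000003fc000002f0000000e0000000a0 16 15) 0 0 (step_sound _ 359 [(rh00819540d3274264.shift 3 5), rh1cba8a38f0a497cd, rh38ffdcfee9334172, (rh3983708374ca6859.shift 1 5), (rh4ec15968a0f10ec2.shift 1 2), (rh5ddb8462e9d1d284.shift 3 6), (rh76e9f81b7dad0019.shift 0 6), (rha3e6def89ff203bd.shift 0 6), (rhaca7ca7fbb5c51eb.shift 2 7), (rhbc0e0d85af5236a6.shift 1 5),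 (rhc8c8cc136b8dc64a.shift 0 5), (rhccd54750499ce183.shift 2 5), (rhdbe3e0fd283b72e4.shift 1 6), (rhf9a91aa3f9267da3.shift 0 6)] (by decide +kernel))
noncomputable def rh8aeed4e4cf949784 : CRef := CRef.mk (Pat.mk 0x3800000000000000000000000000000000 0xf0000000f0000003ff000001fe000003ff000003be000001fc000003e8000001fc0000007c00000070 16 10) 0 0 (step_sound _ 134 [(rh01b025eb10f27f27.shift 2 0), (rh0d378fd9e8917c5a.shift 1 3), (rh31c08a50d106d488.shift 0 3), (rh45f730bcf36fcf64.shift 2 3), (rhb143c7a3e93df405.shift 3 3)] (by decide +kernel))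
noncomputable def rhea3795f155f33f0f : CRef := CRef.mk (Pat.mk 0x1c00000000000000000000000000000000000000000000000000000000000000000 0x2d0000003f0000003f0000003f0000001bc000003ff00001f7e00001fff00001ffe00003ffe000003f0000003f0000001f000000140 16 14) 0 0 (step_sound _ 232 [rh354e507db1af2c4e, (rh3918eeb6c53434d8.shift 3 7), (rh8ee80cc30e93a344.shift 5 7), (rhd90e45dcd94157a0.shift 3 3)] (by decide +kernel))
noncomputable def rha29d41dedf6d27ed : CRef := CRef.mk (Pat.mk 0x8000000000000002800000000000000000000000000000000000000000 0x78000005f8000007f8000007fe00001efe00001ffc00001fff00003bbe00001fff00003ffc00001ff0000001c000000140 17 14) 0 0 (step_sound _ 199 [(rh05241b5ba8825a10.shift 3 2), (rh0f34cb17fa1e50af.shift 5 3), (rh24e9b35ae55e2fca.shift 0 1), (rh2e172346f825f4ef.shift 4 0), (rh2f4f0731c4a86b85.shift 3 1), (rh6e93893397f42e5b.shift 3 3), (rh796fcdca949b144e.shift 1 2), (rha919389e42420d11.shift 3 2), (rhc84a1b0e90ea4f8c.shift 1 1)] (by decide +kernel))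
noncomputable def rhf2d8b96383fbcdd7 : CRef := CRef.mk (Pat.mk 0x800000008000000280000000000000000000000000000000000000000000000000000000000000000000000000 0x10000000700000007000000074000001ffc00001ff800003fb800003ef000001ff000003bb000003fff00003ffe00003fff00000ff000000ff000000ff000000b800000038000000280 17 14) 0 0 (step_sound _ 232 [(rh0e306fe20647befe.shift 2 0), (rh2ab66533f0551b9f.shift 0 2), (rh56252386d334285b.shift 7 7), (rhff763b75cad9671b.shift 6 6)] (by decide +kernel))
noncomputable def rh06108a088cce996f : CRef := CRef.mk (Pat.mk 0x2000000020000000a000000000000000000000000000000000 0x28000000fd000000ffa00001ffe00000ffe000007ff00000fbf00000fff00000eef000001be000001ff000001fe0000014a 17 13) 0 0 (step_sound _ 229 [(rh26838897263a8a1c.shift 0 1), (rh29177dc5764745da.shift 2 3), rh2eb13fac4ba6d828, (rh5ee4dc8825dcefa0.shift 2 3), rh733b8dba463a5c41, (rhc85cc95794737cf7.shift 4 4)] (by decide +kernel))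
noncomputable def rh2025a777159a5183 : CRef := CRef.mk (Pat.mk 0x100000001000000050000000000000000000000000000000000000000000000000000000000000000000000000 0x28000001f8000002f8000007d0000003f40000077400000ffe000007fe00000fff000003fe000003ff000007f0000001700000007000000050 17 12) 0 0 (step_sound _ 388 [(rh1741680720c097b4.shift 3 9), (rh5abfc4c9d959be03.shift 3 8), rha57f5b5e16aa0e55, (rhced6d86d2069808b.shift 4 8)] (by decide +kernel))
noncomputable def rhcfef04944ba5c849 : CRef := CRef.mk (Pat.mk 0xc0000000000000028000000000000000000000000000000000 0x1700000017000001f7f00000ffe00001eff000003bc000007fe000007fc000007c000000140 17 13) 0 0 (step_sound _ 197 [(rh40f7ad64495475e5.shift 1 0), (rh4c69d5f686de0454.shift 0 1), (rh5774707e4ca77b7d.shift 1 0), (rh60a2352be54698d7.shift 0 3), (rh66700a34e887219a.shift 0 1), (rh703fbc712bee9e2a.shift 1 1), (rh720b37b977103f18.shift 0 1), (rh7fea07c3a317a80e.shift 2 1), (rh9c211e958d948911.shift 2 1), (rhbd3720b905002a09.shift 3 1), (rhe85901e0da71ca27.shift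 2 1), (rhf353734b1be0f1b6.shift 1 0)] (by decide +kernel))
noncomputable def rh9418fe54cf12645d : CRef := CRef.mk (Pat.mk 0xa000000000000000a000000000 0x2800000138000001fe000003fe000007fe00000fff00000fff00000fff00001fff00000ffe00001f5f000002e0000002e0 17 13) 0 0 (step_sound _ 102 [(rh0593b8a0bb9d44b7.shift 4 0), (rh20238e41a74040ab.shift 2 2), (rh2928f4b82f641c9c.shift 1 0), (rh48927851499e239f.shift 3 0), (rh979652f9a65e0f0b.shift 0 2), rhabf538e29704b47a, (rhac49907ca77d3926.shift 1 0), (rhc2d32643e71b8709.shift 2 2)] (by decide +kernel))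
noncomputable def rhc7d12a5b6f94c34b : CRef := CRef.mk (Pat.mk 0x500000000000000050000000000000000000000000000000000 0xbc000003ff000007ff80003fffc0003fffc0003ffff0003fffe0003ffff0007fdfc0003fefc0003f7780003fe700003fe400001fe0000007a00 17 19) 0 0 (step_sound _ 234 [(rh191bc8c3b1d3238f.shift 9 1), (rh41066d0998ca6d3b.shift 6 3), (rh43fcc0a074e18aa4.shift 7 3), (rh52da1afa5ba39f7e.shift 5 0), (rh540172296628ae41.shift 7 1), (rh65b79987ca442a0a.shift 0 2), (rh6cf5bd9320f65167.shift 7 3), (rh804b308c5c0809e6.shift 7 2), (rh8895b335492ec0f7.shift 6 2), (rh9d786c652d2a3547.shift 5 1), (rhb54fa3670aac6fc0.shift 6 1), (rhc066099128559961.shift 7 1), (rhd4fcdf39a2b7005c.shift 6 3), (rhe7ef595edc57fc13.shift 9 1), (rhfdb46d24deee08c8.shift 6 2)] (by decide +kernel))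
noncomputable def rhafab77bb604ebec3 : CRef := CRef.mk (Pat.mk 0x6000000000000000a000000000000000000000000000000000 0x10000000180000007ae000003fe000007ff00000eef000007fe00000fff0000015000000040 17 12) 0 0 (step_sound _ 199 [(rh0220670dffe16ba6.shift 3 1), (rh2ff01c8a71fbee02.shift 4 2), rh43a5348663d16876, (rh4e43a430bd1e47a6.shift 3 1), (rh8c1b104b361576f9.shift 3 1), (rhb5dfd3d89e915244.shift 4 3), (rhe803dfaba74be26c.shift 0 1), (rhf7af50ec0797f3e7.shift 4 3)] (by decide +kernel))
noncomputable def rhef9bdfca2e40da33 : CRef := CRef.mk (Pat.mk 0x10000000100000005000000000000000000000000000000000000000000000000000000000 0x78000000fc000000fc000003fe000001fc000003fe000003f0000003f800000050000003fe000001fe000003ff000001fc000001fc0000015c00000004 17 10) 0 0 (step_sound _ 165 [(rh0527642580dffc14.shift 3 4), rh63ae59e05a6533da, (rh703208b3c1c4e186.shift 1 4), (rhff763b75cad9671b.shift 3 4)] (by decide +kernel))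
noncomputable def rh37894e822429bcce : CRef := CRef.mk (Pat.mk 0x100000001000000050000000000000000000000000000000000000000000000000000000000000000000000000 0x140000001f8000003fc00000ffc00000ffe00000ffc000007fe000003d0000001fc00000177000007fe000003ff000007ff000003ff000003ff000003ff000001780000007000000050 17 12) 0 0 (step_sound _ 326 [(rh02b29d775dd6a855.shift 1 4), rh514e7bb9bf0441c3, (rh59d89665a9cc36f3.shift 1 5), (rh89337efd81b50aed.shift 0 5), (rhba09d71ef41ab550.shift 0 1), (rhc140d9e7c9ac6289.shift 3 5), (rhce29daf92e0aeb41.shift 3 6), (rhdbc3d0602bf3b04a.shift 0 1), (rhe3f16015ca187741.shift 1 2)] (by decide +kernel))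
noncomputable def rh199034b87383cdb0 : CRef := CRef.mk (Pat.mk 0x5000000000000000000000000000000000000000000000000000000000 0xa0000000e0000000f4000002fe000017fe00001ffe00001fef0001ff7e0000ffff0001fffe00001fff00001ffe000017fc000007fc000001d0 17 17) 0 0 (step_sound _ 229 [(rh3d356b96b026e2be.shift 1 2), (rh453ad57f1acd219d.shift 1 2), rh81e44cf874735490, (rh89e21b9b8170dd62.shift 1 2), (rh9c35055d5c8de25f.shift 0 2), (rhae00c62f34035e04.shift 1 4), (rhe451e6b4b8e29b52.shift 0 4)] (by decide +kernel))
noncomputable def rh7a25202b9c066c7c : CRef := CRef.mk (Pat.mk 0x20000000380000000000000000000000000000000000000000000000000 0x80000009e000001de000001df000003ff800001ff800003ff800000bbc000003fe000001ff00000ffe00000fff00000ffe000003f0000002f0 17 14) 0 0 (step_sound _ 165 [(rh00371e646a926ee5.shift 4 5), (rh56d085b2f1699181.shift 3 1), (rha56d34e202d37108.shift 0 2), (rhaa580c9111ea37d9.shift 5 3), rhd282fb97a88b8d38] (by decide +kernel))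
noncomputable def rhb0f9ab9c0ed29fd2 : CRef := CRef.mk (Pat.mk 0xa0000000a0000000000000000000000000000000000000000000000000 0x400000007800000078000001ff000003fe000000bf000007ee000003fc000007fe000003fc0000007800000038 17 11) 0 0 (step_sound _ 230 [rh0a369f4d8ac8e01a, (rh2820ca9a6c4f41b4.shift 2 6), (rh47a45f5fe0ea34a3.shift 0 4), (rh480231ab31e80384.shift 4 5), (rhbcb0df43dd5050ab.shift 0 5), (rhcf82f26a8102c560.shift 0 4)] (by decide +kernel))
noncomputable def rh2c2e18de5ffc3978 : CRef := CRef.mk (Pat.mk 0xa0000000a0000000000000000000000000000000000000000000000000000000000000000000000000 0x15000000170000001f0000007be000001fe000000bf000007ee000003fc000007fe000003fc000003fc000000fc000000e0000000e0000000a0 17 11) 0 0 (step_sound _ 326 [(rh0a369f4d8ac8e01a.shift 0 3), (rh2820ca9a6c4f41b4.shift 2 9), (rh33dd60889b8b3f57.shift 2 0), (rhd8b43b15431aaa50.shift 4 7)] (by decide +kernel))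
noncomputable def rh355b3ec46f5dfaf2 : CRef := CRef.mk (Pat.mk 0x20000000a0000000800000000000000000000000000000000000000000 0x1000000a7000000e7000000e7000003f3e00001ffe00003ffe000006bf000007be000001fe000001fc000001f00000017000000010 17 14) 0 0 (step_sound _ 231 [(rh008243bd113feba2.shift 0 1), (rh06f2148f998ff904.shift 2 2), (rh0759fbafcd6f1fe3.shift 2 3), (rh1fc4f2e1bb084613.shift 1 0), (rh8e8bba0432b9a99a.shift 3 2), (rhc84dbe89ac4dad8d.shift 4 2), (rhcb570da65edee143.shift 0 1), (rhd28bfbb9eb376c7d.shift 2 2), (rhffa3797c068e6299.shift 4 2)] (by decide +kernel))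
noncomputable def rh08fe176cc7401e51 : CRef := CRef.mk (Pat.mk 0x20000000a000000080000000000000000000000000000000000000000000000000 0x5e0000007e00000dfe00000f3f00000ffe00000fff00000ebe00003fff00001fbe00003fff00001ff800001ff80000019000000080 17 14) 0 0 (step_sound _ 197 [(rh6a170a5d2b7f2b35.shift 3 1), (rh790527f8d2dcf0ea.shift 0 1), (rh89045a9c060bca53.shift 2 1), (rha592c95bd4a8bbe6.shift 0 2), (rhcbee0be50a45b940.shift 0 3), (rhd1d295152838efef.shift 2 0), (rhdeb2404550f3c7fa.shift 2 1), (rhe9729a394e2406ba.shift 2 3), (rhf408533858aa5c5a.shift 2 2)] (by decide +kernel))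
noncomputable def rhe51e244ce233971a : CRef := CRef.mk (Pat.mk 0x800000028000000080000000000000000000000000000000000000000000000000000000000 0x3c000005bf800007ffc00007ffc0003fffe0007fffe0003f7ff0007ffff000fafff0007ffff000ff7ff0007fffe0003fffe000077fc00007ffc000073f800005280 17 20) 0 0 (step_sound _ 264 [(rh026919f57716346d.shift 1 1), (rh035b244c5cf67a2c.shift 6 4), (rh1d21f934b279285c.shift 4 2), (rh2f8e450fc4f9f1d5.shift 4 3), (rh413f4d1faf833020.shift 3 3), rh445ab930c10d7d50, (rh5611b333cbe7592c.shift 5 3), (rh638da4e0e2d68f45.shift 5 3), (rh80e7e386883f3c18.shift 6 3), (rh819755fdd79e8a99.shift 3 2), (rh87937fee75d7842a.shift 1 3), (rh9282e6d6a86962f2.shift 4 4), (rh9ca2b68559278381.shift 5 3), (rhb056657b7225c303.shift 3 2), (rhb0ac2b6522a9dab6.shift 3 2), (rhbbfdbea3f054d4c9.shift 5 4), (rhd7e2b1a6f93f09c5.shift 5 4), (rhde10ff5bfdfbf4e1.shift 4 5)] (by decide +kernel))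
noncomputable def rh3dd00b541ae5344f : CRef := CRef.mk (Pat.mk 0x1000000050000000100000000000000000000000000000000000000000000000000000000000000000000000000 0x1000000070000005f80000157e00001ffe00007ffe00007fff00007ffe00007fff00007ffe00003ffe00001ff800000ff8000005e0 17 15) 0 0 (step_sound _ 231 [(rh0e3e9ea83de37ef5.shift 1 3), (rh26c0051be48417ad.shift 3 0), (rh3826d9e8c8d27811.shift 2 2), rh415c1bedda554a8b, (rh872286b9aa1e853d.shift 3 1), (rhebbfc1325fb53d6f.shift 7 6)] (by decide +kernel))
noncomputable def rh1b1c6e4d2e39e6d6 : CRef := CRef.mk (Pat.mk 0x400000004000000140000000000000000000000000000000000000000000000000000000000000000000000000 0x20000000e0000000f8000002f8000003ff0000037e000003ff0000015c00001ffc00000ff400001ff8000007f8000007f0000005f8000001c00000018000000100 17 13) 0 0 (step_sound _ 357 [(rh0a6888916bcef86b.shift 5 6), (rh37e1fa78c3e02457.shift 1 9), (rhb1a251d9bff81766.shift 5 8), rhfc4081bb76ff65ab] (by decide +kernel))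
noncomputable def rh6b0bd30db9fa553f : CRef := CRef.mk (Pat.mk 0x10000000400000014000000000000000000000000000000000 0x40000000700000007b0000007f800001ff800000fff00003ffe00001fff00001d78000003bc000003b8000003b8000002a8 17 14) 0 0 (step_sound _ 167 [(rh0a6877207bd274b3.shift 3 1), (rh2f7f02bba0fe21ac.shift 2 0), (rh36db37fbf7379d44.shift 3 1), (rh38c4c99863e43fe5.shift 3 1), (rh40de37fb19bcabdb.shift 2 1), (rh783001b007e59d41.shift 2 2), rhe12df9aa93a02076, (rhef22d120caea1b0b.shift 0 1)] (by decide +kernel))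
noncomputable def rhb30fb8c0c938e799 : CRef := CRef.mk (Pat.mk 0x10000000400000014000000000000000000000000000000000 0x20000000e0000003f4000007ff000007ff00003fff00001fff00001d7c000003be000003bc000003bc00000280 17 14) 0 0 (step_sound _ 167 [(rh2f7f02bba0fe21ac.shift 2 0), (rh352a448f430383c5.shift 0 1), (rh36db37fbf7379d44.shift 3 1), (rh38c4c99863e43fe5.shift 3 1), (rh40de37fb19bcabdb.shift 2 1), (rhac3adebb4e8fb65f.shift 3 0), (rhc67cfef7005c4f18.shift 0 1), (rhef22d120caea1b0b.shift 0 1)] (by decide +kernel))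
noncomputable def rhf7a2850b75c6fd3e : CRef := CRef.mk (Pat.mk 0x800000020000000a0000000000000000000000000000000000 0x178000007f800001ff800003ffc00003fff0001fffe0000ffff0000ebfc00001d7000001c7000001c2000001400 17 17) 0 0 (step_sound _ 170 [(rh3abdd7875ed8a6c2.shift 1 3), (rhac3adebb4e8fb65f.shift 6 0), (rhc58d01c744b6f753.shift 6 1), (rhc67cfef7005c4f18.shift 3 1), (rhd65929238cebfd33.shift 6 2), (rhdf2bd3a1f45832e1.shift 0 2), (rhe3a81ba3cd10722b.shift 6 0)] (by decide +kernel))
noncomputable def rh163cc6f219132c79 : CRef := CRef.mk (Pat.mk 0x40000001000000010000000000000000000000000000000000 0x140000003c8000003f8000007f800001ff8000007ff000001fe000007ff000001f8000000f8000000f0000000f000000050 17 13) 0 0 (step_sound _ 199 [(rh16b496bc12fece2d.shift 2 0), (rh2d5a710530336d69.shift 3 1), (rh627a20d9a2ac10a4.shift 4 1), (rh790de536f729c135.shift 0 3), (rh9389ade466f9715f.shift 3 0), (rh9ba778b0b3973bc1.shift 3 1), (rhb9c993553b5c8bec.shift 2 3), (rhefeeae490fcdea92.shift 2 3)] (by decide +kernel))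
noncomputable def rh70e735a367d7364f : CRef := CRef.mk (Pat.mk 0x40000001000000050000000000000000000000000000000000 0x88000003f8000003f800000f7800001fff0000fffe00007fff000075f8000004f8000007f8000003f8000007fc 17 16) 0 0 (step_sound _ 199 [(rh379e4bba6ba45ec5.shift 2 0), (rh83cf7799c420e5c4.shift 2 2), (rh9ba778b0b3973bc1.shift 3 1), (rhbe8ae718dc3e11fb.shift 2 3), (rhc2b48fbdc913b3de.shift 0 3), (rhe605958e9f34e55e.shift 2 3), (rhe815be5b8aed4d36.shift 0 3), (rhefeeae490fcdea92.shift 2 3), (rhf09677c576820a08.shift 0 3)] (by decide +kernel))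
noncomputable def rhaff27d78d9e33ce7 : CRef := CRef.mk (Pat.mk 0x100000004000000140000000000000000000000000 0x10000000180000001c0000001f8000007fe000007ff000007fe000007ff000003fe000003ff0000015e000003bc000003bc000002bc 17 11) 0 0 (step_sound _ 165 [(rh172f06d5c4065566.shift 1 2), (rh17a8a8fd90290efe.shift 2 2), (rh3dee67e065ea4652.shift 0 2), (rh4fa3474360908d22.shift 2 0), rh5d1d105700de61f5, (rh82bcca0cd44430e7.shift 1 3), rha0041478bcd9f01f, (rhaa14a57558906bb9.shift 1 1), (rhbe5b4e705f13e935.shift 1 2), (rhc68493420210c224.shift 0 3), (rhccdcbcae1d049860.shift 1 0), (rhdab512a3ecf33766.shift 0 3)] (by decide +kernel))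
noncomputable def rh5429fd1e0a59074d : CRef := CRef.mk (Pat.mk 0x40000001000000050000000000000000000000000000000000 0xa0000000f8000007fc000007fc00000ffe00003ffe00007ffe00003ffe00007f7f000005fe000004fe000000fc000000e8000000a0 17 15) 0 0 (step_sound _ 230 [(rh092306f72eb1f9f1.shift 2 0), (rh0fc962bc8db9c845.shift 3 0), (rh1229e301bd38237c.shift 1 3), (rh1d6e3f1b4c74e299.shift 0 1), (rh3b15a71ff28f49de.shift 1 2), (rh5c0ad11891472378.shift 1 3), (rh60b6a4f4d2ede56b.shift 3 1), (rh6dacd7938c24f329.shift 1 0), (rh6e79096ca4ed5f51.shift 1 0), (rh7ec0b3ac1a02792b.shift 2 3), (rh9e675f7cc1a1f607.shift 0 1), (rha002cfe42c8a2d9e.shift 2 0), (rha502a30ce12098de.shift 1 0), (rha8d312f43ed20fa8.shift 2 0), (rha9289a7f916323d9.shift 1 1), (rhcb9112454559f884.shift 1 3), (rhcde0a1241c598676.shift 2 1), (rhe1487edd2abffe7c.shift 2 0), (rheaad98cf2610f66b.shift 2 0), (rhfc45f1a8b4e498cf.shift 1 1), (rhfe94b271341c756b.shift 1 0)] (by decide +kernel))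
noncomputable def rh349fcd9abbc7039e : CRef := CRef.mk (Pat.mk 0x100000004000000140000000000000000000000000 0xa0000000f4000000fc000003fe000007fc000007ef00003fff00001fff00001d7f000003bc000003bc000002a0 17 14) 0 0 (step_sound _ 166 [(rh3a3cbda6a04db4c3.shift 0 1), (rh6594333b2ad734eb.shift 0 1), (rh797c456460fcf5fb.shift 4 2), (rhc10ead4194dbdc10.shift 3 2), rhd00181336fa557fc, (rhd2d8fe76ec861180.shift 1 0), (rhe7d8521cb83353ec.shift 2 0), rhf9f69220bdc91419] (by decide +kernel))
noncomputable def rh28ff8f3da2740cf5 : CRef := CRef.mk (Pat.mk 0x20000000a0000000000000000000000000 0x50000001740000017c000003ff000007ff000003fe000003ff000000bc000000f40000006000000040 17 11) 0 0 (step_sound _ 165 [rh3cb0f7f049f75c28, rh432e1b033d3677e5, (rh78541ad4025722ab.shift 1 2), (rh7987029cc7109c6c.shift 2 2), (rh879a18df9f5973ff.shift 3 2), (rh936374e69c2ea292.shift 1 2), (rha908b852050d0c33.shift 2 0), (rhaae63ed1df69e921.shift 3 2), (rhda1f1b1a92b9da8d.shift 2 1), (rhf5cf8a84631dca39.shift 1 3)] (by decide +kernel))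
noncomputable def rh1eac77a9b1d8ea15 : CRef := CRef.mk (Pat.mk 0x400000014000000000000000000000000000000000000000000000000000000000 0x28000001fe000000fe000001fe000001fdc00003ffe00001ffc00001d7f00001ffe00001fff00001ffc000002f8000002f8000000e0000000a0 17 14) 0 0 (step_sound _ 296 [(rh0a5b49ab55f46693.shift 1 2), (rh289e7b405b14ab8d.shift 1 4), (rh3208dc6222226440.shift 1 5), (rh34c5eb1c3160bc97.shift 1 4), (rh34df5c7000b49b41.shift 3 1), (rh467957ff53e9b9b2.shift 2 3), rh4d0a944c0b539e17, (rh521ba9b6c82dfda9.shift 3 3), (rh585008acb9f7fdae.shift 4 3), (rh7f5a960dd6683023.shift 1 4), (rh95f805208f57463f.shift 1 0), (rhad748197b2565801.shift 1 4), (rhcbe11adb948cf5c7.shift 2 2)] (by decide +kernel))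
noncomputable def rh5cb43e22bcb8ccf2 : CRef := CRef.mk (Pat.mk 0x100000005000000040000000000000000000000000 0x5a0000007e8000007ff00001ffe00000ffe00001ff40000075e000007f8000007fc0000078800000100 17 13) 0 0 (step_sound _ 166 [(rh14b3d737a6747454.shift 1 0), (rh159fb53796176f35.shift 3 2), (rh2966dcbe2fda176a.shift 0 2), (rh731eba44d55ff38b.shift 4 1), (rh92ed02ea8ec6a0eb.shift 1 0), (rha2f4480af80e912b.shift 2 2), (rha6f8144f891f87b0.shift 3 1), (rhd1987483140504d3.shift 2 1), (rhec7776fc1f61cf1a.shift 2 2), (rhf9b919aae37cfaf2.shift 3 1), (rhfa0ae52c89f2dc49.shift 3 1)] (by decide +kernel))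
noncomputable def rh4b60b42993e7d5e5 : CRef := CRef.mk (Pat.mk 0x100000005000000040000000000000000000000000000000000000000000000000 0x5a0000007e0000007ef00001ffe00000ffe00001ff40000075e000007f8000001f0000001e0000007e0000007e0000007c000000140 17 13) 0 0 (step_sound _ 262 [(rh159fb53796176f35.shift 3 5), (rh2966dcbe2fda176a.shift 0 5), (rh3ccedd098acf4a51.shift 4 0), (rh4c569ff3b1c25a45.shift 4 3), (rh895960a8d60b102d.shift 5 3), (rhfa0ae52c89f2dc49.shift 3 4)] (by decide +kernel))
noncomputable def rh5739efbdba859520 : CRef := CRef.mk (Pat.mk 0x100000005000000040000000000000000000000000000000000000000000000000 0x500000007000000070000003f0000007fc000007fc000007ff00001ffe00000ffe00001ff40000075e000007f8000007e8000007e8000007e0000007e0000007c000000140 17 13) 0 0 (step_sound _ 262 [(rh14b3d737a6747454.shift 1 3), (rh2b829fc43539fe53.shift 3 3), (rh3ccedd098acf4a51.shift 4 0), (rh4c569ff3b1c25a45.shift 4 3), (rh895960a8d60b102d.shift 5 3), (rh92ed02ea8ec6a0eb.shift 1 3), (rha6f8144f891f87b0.shift 3 4),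 (rhe43fdb5540d0e8bf.shift 0 4), (rhf94c4aec1080b1c5.shift 2 0), (rhf9b919aae37cfaf2.shift 3 4)] (by decide +kernel))
noncomputable def rh00c776d113b14e4e : CRef := CRef.mk (Pat.mk 0x20000000a00000008000000000000000000000000000000000 0xa0000000e0000000e8000007fe000003fe000007fe000007f8000003ff00000ffe000007e700000eb0000000f0000001f8000001f0000001f800000100 17 12) 0 0 (step_sound _ 199 [(rh159fb53796176f35.shift 4 3), (rh2b829fc43539fe53.shift 4 1), (rh2e84c9006b293693.shift 1 0), (rh4c569ff3b1c25a45.shift 5 1), (rh65eac18e8bcaaa0f.shift 3 0), (rh77ac1a57f86675c5.shift 0 1)] (by decide +kernel))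
noncomputable def rhee35e8a03bbceaf4 : CRef := CRef.mk (Pat.mk 0x80000002800000020000000000000000000000000000000000000000000000000 0x280000003800000038000001f8000003fe000003fe000003fe000001fc000003ff000003f8000003ae000003fc000003ec000003c4000003f0000003f0000003e0000000a0 17 10) 0 0 (step_sound _ 261 [(rh14b3d737a6747454.shift 0 3), (rh159fb53796176f35.shift 2 5), (rh3ccedd098acf4a51.shift 3 0), (rh43a51f0f91a7da4c.shift 2 0), (rh4e50431c63663126.shift 1 0), (rh92ed02ea8ec6a0eb.shift 0 3), (rha6f8144f891f87b0.shift 2 4), (rhdb70ec344973fff1.shift 1 5), (rhf94c4aec1080b1c5.shift 1 0), (rhfa0ae52c89f2dc49.shift 2 4)] (by decide +kernel))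
noncomputable def rh6013e9afa4c6f77e : CRef := CRef.mk (Pat.mk 0x100000005000000040000000000000000000000000000000000000000000000000 0x20000000380000003800000038000000300000035f000003fe000007ff000007f8000007fc000007f8000007f8000001f0 17 11) 0 0 (step_sound _ 196 [(rh029f82fcbdb61681.shift 3 3), (rh0484eaead54e1f44.shift 2 0), (rh16a3d43e2bff3e8c.shift 3 4), (rh1f44343b1d5b92f7.shift 3 3), (rh336e74a7680e3763.shift 1 5), (rh38259dad984bddbd.shift 0 3)] (by decide +kernel))
noncomputable def rhcabd3f366ca827f5 : CRef := CRef.mk (Pat.mk 0x8000000280000000000000000000000000000000000000000000000000 0x28000001f8000005f8000007fe000006fc000007fe000002ff00001ffe00000fff00001ffc000005f8000005f000000040 17 13) 0 0 (step_sound _ 167 [(rh0c5202c0abdd02a6.shift 3 3), (rh15dc7cbbbef3f056.shift 0 1), (rh3576bb91dd3895f7.shift 1 2), (rh49c6652189567fe5.shift 2 0), (rh5f9a9bea0aed3150.shift 3 0), (rh765ca5d4b7c90fd3.shift 3 1), (rh8b1f70e0578abaaa.shift 3 2), (rh8fe995902cc7e205.shift 3 2), (rh9640fca88c112274.shift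 3 0), (rh964c21dd7972aa0f.shift 4 3), (rhb4aeba8fa788ac13.shift 2 1)] (by decide +kernel))
noncomputable def rhd4b36b0d6159acfc : CRef := CRef.mk (Pat.mk 0x1800000000000000000000000000000000000000000000000000000000000000000 0x780000007d000001ff800000ff000001ff800001dfe00001fff00003f7e00001fff00001ffe00003ffe000007f8000007f0000001f0000001e0 17 14) 0 0 (step_sound _ 262 [(rh1a8343b65afb5669.shift 3 7), (rh3abc76457ec9a59f.shift 2 7), (rh5df34036beddf51c.shift 1 3), (rh7a435a195e91c9f3.shift 4 3), (rh8aeed4e4cf949784.shift 3 4), (rha57e12a537e1dac6.shift 2 0), rhea3795f155f33f0f, (rhf54473463aa344f1.shift 1 2)] (by decide +kernel))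
noncomputable def rh7549cf9bb1b9585f : CRef := CRef.mk (Pat.mk 0x800000000000000280000000000000000000000000000000000000000000000000000000000000000000000000 0x10000000f0000003f4000003fe800007ffc00003ff800003ffc00003efc00003ffc00003bbc00007fff00003ffe00007fff00001ff800001ff800003ff000000b800000038000000280 18 15) 0 0 (step_sound _ 327 [(rh06108a088cce996f.shift 2 5), (rh2025a777159a5183.shift 3 0), (rh4a5a2ef759174300.shift 2 0), (rh4d2799df10f0b00e.shift 3 6), (rh59313c16fb7fc68a.shift 3 8), (rhd51a10234e8a890b.shift 6 6), rhf2d8b96383fbcdd7] (by decide +kernel))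
noncomputable def rh0d9471f95aae84c3 : CRef := CRef.mk (Pat.mk 0x80000000000000028000000000000000000000000000000000 0x140000001c0000001f0000005fc000005fc00001fff00000ffe00001eff000003bc000007fe000007fc000007c000000140 18 13) 0 0 (step_sound _ 198 [rh42d2531d7b570a46, (rh5e68213bec46e2a7.shift 1 0), (rh63cef41256499e05.shift 3 1), (rh7006d034acc484f3.shift 3 1), (rh820705da90a3b0a5.shift 1 1), (rh9997595498624880.shift 3 1), (rhcb923379c24f3b6e.shift 1 1), rhcfef04944ba5c849, (rhda6b6bc60ffc8152.shift 2 3), (rhec5553bf46c8eedb.shift 3 1), (rhf5d302678a8fa0f0.shift 3 0), (rhfaaa129303f8acad.shift 2 1)] (by decide +kernel))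
noncomputable def rh0d42808f65e720a0 : CRef := CRef.mk (Pat.mk 0x100000000000000050000000000000000000000000000000000 0x14000000bc000003ff000007ff80003fffc0003fffc0003ffff0003fffe0003ffff0007fffc0003fefc0003f7780003ff700003fe400001fe0000007a00 18 19) 0 0 (step_sound _ 202 [(rh12301dadb9fda929.shift 5 1), (rh262621a11d84f4d9.shift 7 1), (rh2a71f4fe88df0ca7.shift 4 3), (rh5ff8ae99f6a2453f.shift 5 1), (rh68ca115e9f12d142.shift 5 1), (rh6f3455084c2197b0.shift 5 3), (rh84d0c0480d9cfced.shift 5 2), (rh86230bbff62ae136.shift 5 2), (rh9418fe54cf12645d.shift 3 3), (rha98e25b7e69c80f3.shift 5 2), (rhb28d4e9aa6d2fc9a.shift 7 1), rhc7d12a5b6f94c34b, (rhc89dead4efd5ae52.shift 5 2), (rhd3f2b89d94bbb9b1.shift 4 1), (rhe3eafd77196b64a0.shift 5 1), (rhe70847ca07618147.shift 5 2), (rhe71410c1df2955f8.shift 5 1), (rhf0fedc326e9d0103.shift 7 1), (rhf37057131391be0a.shift 5 1), (rhf50b3af9d4a9c3a0.shift 4 1)] (by decide +kernel))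
noncomputable def rh4e2a3d80aad23199 : CRef := CRef.mk (Pat.mk 0x2000000000000000a000000000000000000000000000000000 0xa0000002e0000003f8000003f8000003fc00000fef000007fe000007ff00000eef000007fe00000fff000001d000000040 18 12) 0 0 (step_sound _ 198 [(rh0beaa9595b28725a.shift 1 3), (rh1ed17e8b1f0b5145.shift 2 2), (rh434a3db98db458e8.shift 0 1), (rh6a928864526328c2.shift 1 1), (rh7af364d3fd790b5c.shift 1 1), (rh884cb91350a013c4.shift 1 1), (rh8afaed1a3ccb9dc6.shift 1 1), (rh90afd846fec90ac6.shift 1 1), (rh9da6c9db37b3e549.shift 0 3), (rha7951beea25aace3.shift 3 2), (rha8da8493e42cf82f.shift 1 1), rhafab77bb604ebec3, (rhb20f3fcb871b6848.shift 1 3), (rhf8ae5f363b7a872a.shift 1 1)] (by decide +kernel))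
noncomputable def rhb28b521be5d9260f : CRef := CRef.mk (Pat.mk 0x100000000000000050000000000000000000000000000000000000000000000000000000000000000000000000 0x5000000170000001f8000003fc00000ffc00000fff00000fff000007ff000003f7000003fc00000777000007fe000007ff000007ff000003ff000003ff000003ff0000017c0000007000000050 18 12) 0 0 (step_sound _ 324 [rh37894e822429bcce, (rh525719bd09809781.shift 0 8), (rh6da3e570e08afacc.shift 1 7), (rh8a43a98a0bd1d61a.shift 2 4), (rha3f396aa78ea768d.shift 0 6), (rha978dee87058679c.shift 0 1), (rhef9bdfca2e40da33.shift 0 2)] (by decide +kernel))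
noncomputable def rhc06d89d5c1ed0bc2 : CRef := CRef.mk (Pat.mk 0x5000000000000000000000000000000000000000000000000000000000 0x1d0000007fc000017fc00001ffe00001fff0001fffe0000ffff0001ff7e00001fef00001ffe000017fe000002fe000000f4000000e0000000a0 17 17) 0 0 (sym_sound rh199034b87383cdb0 _ false false true 0 14 9 (by decide +kernel))
noncomputable def rh8b64c6236251616d : CRef := CRef.mk (Pat.mk 0x380000000000000000000000000000000000000000000000000 0x8000000be000001fe000001ff000003ff800001ffc00003ff800001fbc000003fe000001ff00000ffe00000fff00000ffe000003f0000002f0 18 14) 0 0 (step_sound _ 233 [(rh77f0c65b1d51d92f.shift 2 5), rh7a25202b9c066c7c, (rh9f794965d63660e3.shift 2 1), (rhb103f40a53fe1424.shift 4 5), (rhff7d63dcb3cf9f74.shift 6 6)] (by decide +kernel))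
noncomputable def rh4152871c314c6065 : CRef := CRef.mk (Pat.mk 0x8000000280000000000000000000000000000000000000000000000000000000000000000000000000 0xa0000001e0000005f8000007f800000ffc00003ffe00003fff00007ffe00003aff00001fbc00003ff800001ffc00000ff000000ff0000003f0000003800000038000000280 18 15) 0 0 (step_sound _ 329 [(rh0511e255df884c44.shift 2 8), (rh0a8fdf80fa3c69b9.shift 5 7), (rh185d60e52c292ba9.shift 2 7), (rh2c2e18de5ffc3978.shift 2 0), (rh471a8865ff595561.shift 4 5), (rh50ed14f29fa25040.shift 4 5), (rh64dabc84f549799c.shift 0 7), (rh73c28a3456f46087.shift 2 5), (rh9612f8d150867b3a.shift 2 4), (rh99502ed2ad7a1259.shift 4 7), (rh99661dfe6522eb7e.shift 1 5), (rh9d7f1f9cea1dce6f.shift 2 0), (rhb0f9ab9c0ed29fd2.shift 2 3), (rhb280dff10aca12f0.shift 1 5)] (by decide +kernel))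
noncomputable def rhee5a0c9a98151f72 : CRef := CRef.mk (Pat.mk 0x40000001400000000000000000000000000000000000000000000000000000000000000000 0xc0000001e2000001efc00003ffc00001ffc00007f7f00003ffe00007fff00001d7e00007ffe00003ffe00007ffe00003ff800003ff0000003e0000003a000000280 18 15) 0 0 (step_sound _ 232 [(rh0142fee445e6e0cd.shift 1 2), (rh08fe176cc7401e51.shift 1 1), (rh1c45b60c76f6c673.shift 0 2), (rh1d29018a6c9d2448.shift 2 0), (rh2586d03cf07d54dd.shift 3 4), (rh2af99adc19106ce8.shift 1 2), (rh355b3ec46f5dfaf2.shift 1 2), (rh3830ccf9cdb54ce6.shift 2 0), (rh4541ba0710846fcc.shift 3 4), (rh584ffdc4bf661bdf.shift 1 3), (rh5a7f319c7f4662a1.shift 1 3), (rh759ac455a59fa409.shift 1 2), (rha1ff4fd686552a0c.shift 1 0), (rhb0bcb9c2eef4c799.shift 2 4), (rhdd35256da8c83364.shift 3 4), (rhf2676f9374e202f0.shift 2 1)] (by decide +kernel))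
noncomputable def rhdc4570ee72c941aa : CRef := CRef.mk (Pat.mk 0x8000000280000000000000000000000000000000000000000000000000000000000000000000000000000000000 0x3c000005bf800007ffc00007ffc0003fffe0007fffe0003f7ff0007ffff000fafff0007ffff000fffff0007fffe0003fffe0003fffc0003fffc0001fff80000ffc000007fc000002f00 18 20) 0 0 (step_sound _ 299 [(rh0933f4dc9f109b34.shift 6 4), (rh0e2f4d2a34cb87f9.shift 8 4), (rh1a598c67fec71314.shift 6 4), (rh3dd00b541ae5344f.shift 3 0), (rh41d395586d5e7134.shift 6 7), (rh5f25a95431013923.shift 6 6), (rh8e8b0bd9eeb3ae3e.shift 5 3), (rh96befc7c58dd8990.shift 7 4), (rha054c7a411558072.shift 3 6), (rhbd15094e215bb5d5.shift 3 6), (rhd07ab6f5a65c1e60.shift 6 4), (rhd3628a5bb7ae0d54.shift 7 4), (rhd74feaba1fc1dddc.shift 6 4), (rhe51e244ce233971a.shift 0 2), (rhe5c233d0ace34df3.shift 3 4)] (by decide +kernel))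
noncomputable def rh73832e1b48de37e2 : CRef := CRef.mk (Pat.mk 0x4000000140000000000000000000000000000000000000000000000000000000000000000000000000 0x1e000000fe000000ff000001ffc00003ffc00001fff00003ffe00001fff0000055c00001ffe00000ffc00001ffe000007fc000007fc000005f8000001c00000018000000100 18 14) 0 0 (step_sound _ 358 [rh1b1c6e4d2e39e6d6, (rh23e79447c2342a21.shift 2 9), (rh46d322ae0e89db60.shift 5 6), (rh5355bbecd4145322.shift 1 6), (rh83162a20438ec6f2.shift 0 3), (rh8d5d9b8e2e85ce75.shift 1 6), (rh953d78044b042791.shift 2 3), (rh96f77ba3682a95e9.shift 2 5)] (by decide +kernel))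
noncomputable def rh3947e647dd30591b : CRef := CRef.mk (Pat.mk 0x20000000a00000000000000000000000000000000000000000000000000 0x80000000d4000002ff000003ff800003ff80000fffc0000fffc0001ffff0001fffe0001ffff0000ebfe00001dfc00001ffe00001ff000001ff8000001e000000140 18 17) 0 0 (step_sound _ 263 [(rh0210b03efc717b5a.shift 2 2), (rh02a45c2281340e0b.shift 1 0), (rh0cc64eb16c097671.shift 3 2), (rh163cc6f219132c79.shift 1 2), (rh1af7e92538f5efab.shift 2 3), (rh241444d4c8ba0208.shift 3 2), (rh3175afc29f208c86.shift 1 2), (rh349fcd9abbc7039e.shift 3 3), (rh3e921051294793ce.shift 3 3), (rh463ee9781d4bf51a.shift 3 2), (rh4cf24ec73a1a50bd.shift 3 3), (rh5429fd1e0a59074d.shift 1 2), (rh677382b8817fddf3.shift 3 2), (rh6b0bd30db9fa553f.shift 3 2), (rh70e735a367d7364f.shift 1 2), (rh78869424e5b43793.shift 1 2), (rh847374b1bf388fcc.shift 3 2), (rh878a2f7ad9e50ddd.shift 2 2), (rh8af1dc60e709ed2a.shift 2 3), (rhaff27d78d9e33ce7.shift 3 3), (rhb0e201be187b72a2.shift 1 2), (rhb30fb8c0c938e799.shift 3 2), (rhb7ab02ce82cf60d7.shift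 2 0), (rhba68df2a67bcc888.shift 2 1), (rhbbdd99835a33be71.shift 3 3), (rhd0f1bc6df334a6bb.shift 3 2), (rhe53caa8a0404715a.shift 0 2), (rhe6887ce57ace7fe4.shift 3 3), (rhe87f7eff6a853daf.shift 2 2), (rhf1650cdac98d86c1.shift 3 2), (rhf7a2850b75c6fd3e.shift 0 2)] (by decide +kernel))
noncomputable def rh0fca6249083bfe46 : CRef := CRef.mk (Pat.mk 0x20000000a00000000000000000000000000000000000000000000000000000000000000000 0xa0000000e0000000e8000007fe00000ffe00000ffe00000ffe00003fff00001ffe00003fef00000ebf00001ffe00000fff00000ffe00000ffc00000ff800000ff0000003f000000140 18 14) 0 0 (step_sound _ 231 [(rh00c776d113b14e4e.shift 0 3), rh318f6136d75a5448, (rh44c8a7786ca63969.shift 2 4), (rh4b60b42993e7d5e5.shift 1 1), (rh4ef564f9be4005d4.shift 0 3), (rh5739efbdba859520.shift 1 1), (rh5cb43e22bcb8ccf2.shift 1 4), (rh6013e9afa4c6f77e.shift 1 1), (rh625c285462413ee6.shift 2 2), (rh663e8de657b0ce06.shift 1 1), (rh759ac455a59fa409.shift 0 2), (rha091eedde4bdaf6a.shift 1 0), (rha8f091c91e79261e.shift 2 0), (rhb97bf2de4308e75a.shift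 0 3), (rhee35e8a03bbceaf4.shift 2 1)] (by decide +kernel))
noncomputable def rh59b96b936412849c : CRef := CRef.mk (Pat.mk 0x1000000000000000000000000000000000000000000000000000000000000000000 0x40000007f000000ff000001ffc00003ffe00001ffe00003dfe00007fff00007ffe00007fff00007ffe00003ffe00001ff800001ff0000001f0000001e0 18 15) 0 0 (step_sound _ 263 [(rh014a3ce9f1bfe302.shift 2 3), (rh1ca88ca1fa5fc079.shift 2 3), (rh23c2a1602f60b87f.shift 1 3), (rh27fb3cb41c6ab9bb.shift 2 3), (rh29717fb2f25a4ae8.shift 3 3), (rh2aa87b9e474daad2.shift 2 4), (rh341d07825db058f4.shift 2 3), (rh39ed9f16237b2668.shift 2 3), (rh3a9aee6f008db732.shift 4 3), (rh46f2249100bc14f1.shift 2 2), (rh4a90ef0b22ced8b6.shift 2 5), (rh4db0ddcc2cd35aa5.shift 2 3), (rh561ef80431b75c5a.shift 2 4), (rh563a396d353210aa.shift 3 3), (rh5894ba9087399099.shift 3 3), (rh63c567ae02095111.shift 2 3), (rh66325d470cfab240.shift 2 3), (rh7b9fe817e89a051b.shift 3 3), (rh7c179dc3c92e9756.shift 2 1), (rh7c3366e11d8209e3.shift 3 3), (rh7ef715bc1346fc36.shift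 2 4), (rh8195119ea21bb86b.shift 2 3), (rh82910e9fe14fd9c6.shift 3 3), (rh849a64abca0f9810.shift 3 3), (rh91cabbea35ebf750.shift 2 3), (rh91e9311429b33ad1.shift 2 3), (rh9687a7d9f80f098a.shift 2 3), (rh9e03079b7ebff3a1.shift 3 3), (rh9e22ff90ec84213e.shift 3 3), (rh9e6c6cf8a817c1dc.shift 2 3), (rha37b97aa8a5aecd9.shift 1 3), (rha6075ef1aaeb7c07.shift 3 3), (rhb0b1ac1e5442b05e.shift 1 3), (rhb143ccd35ef8ec0a.shift 2 3), (rhb320a7c5202ed1d6.shift 3 3), (rhc58a693bf600820a.shift 2 3), (rhcfc66247a8329474.shift 3 3), rhd4b36b0d6159acfc, (rhdc4fb9aa7add82aa.shift 2 4), (rhe31d994e3800165d.shift 2 1), (rhe9f7fb4ad585b65a.shift 3 2), (rhee482d202118908e.shift 3 3), (rhfe251dcbce01b2bd.shift 2 2), (rhffde6419263aa4a6.shift 3 3)] (by decide +kernel))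
noncomputable def rh5092f82e2424cc1b : CRef := CRef.mk (Pat.mk 0x500000000000000000000000000000000000000000000000000000000000000000000000000 0x14000000fc000003ff000007ff80003fffc0003fffc0003ffff0003fffe0003ffff0007fffc0003fffe0003f77c0003fffe0003fffc0001fffe00007ff000003ff000007ff0000017c00000070000000500 19 19) 0 0 (step_sound _ 360 [(rh0d42808f65e720a0.shift 0 5), (rh0d9471f95aae84c3.shift 1 5), (rh11f6e3da6d4fa3c3.shift 5 6), (rh13eff1d4dd4e471e.shift 4 7), (rh4104495052eeb552.shift 4 6), (rh4e2a3d80aad23199.shift 3 5), (rh592ffd46a893b5e7.shift 4 6), (rh5b8cf5a43edac6d2.shift 2 5), (rh63cd0f74273dc310.shift 4 6), (rh679d16487bd7d14d.shift 3 5), (rh6cc979882aef59d3.shift 4 6), (rh7549cf9bb1b9585f.shift 1 0), (rh784c44a91e940d5d.shift 2 5), (rh7e01812e665f4f23.shift 5 6), (rh81d8067f3b976c62.shift 4 6), (rh84a9dcac785f869e.shift 4 6), (rh90ddbf2a29f2fd9f.shift 3 6), (rh971061e71a624119.shift 4 6), (rh9e095f9570707632.shift 4 6), (rha29d41dedf6d27ed.shift 1 4), (rha7fc470c3df25e98.shift 4 5),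 (rhb28b521be5d9260f.shift 4 0), (rhb7d51dcd09545ea7.shift 3 5), (rhc0fd4ee1dcd97bfd.shift 4 6), (rhc6277b6d24ad0eb2.shift 4 6), (rhc7ab2d717ac03fb6.shift 4 6), (rhcd1e4f13c210491b.shift 3 6), (rhd11382273a7e4e1b.shift 4 6), (rhda30a24dd327cd12.shift 4 6), (rhde1334193987edf1.shift 5 6), (rhea1e9661bc18230d.shift 4 5)] (by decide +kernel))
noncomputable def rhefa95415ec29693a : CRef := CRef.mk (Pat.mk 0x2800000000000000000000000000000000000000000000000000000000000000000 0x8000000be000001fe800001ff800003fff00003ffe00003fff00003fbe00000bfe0001ffff0000fffe0001ffff00003ffe00001ff800000ff0000005e000000080 19 17) 0 0 (step_sound _ 264 [(rh03f564eb89a40a0a.shift 2 1), (rh126c504fa7003926.shift 3 3), (rh1e7f89cc5fc2963e.shift 2 5), (rh3faae5ca4f30f68b.shift 2 1), (rh7a80d0ed8852bc47.shift 0 3), (rh7be3485bfcef884e.shift 4 5), (rh88b557091e20df2e.shift 2 4), (rh8b64c6236251616d.shift 0 2), (rha0a7d211dd5d626e.shift 2 1), (rhbde86d5ab60b9336.shift 2 4), (rhbed14aa0eb21e06d.shift 4 0), (rhde4a732736bf648f.shift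 3 2), (rhed3884e19bcfa874.shift 2 2)] (by decide +kernel))
noncomputable def rh6e46ba717a6ec796 : CRef := CRef.mk (Pat.mk 0x280000000000000000000000000000000000000000000000000000000000000000000000000000000000 0x280000003d000001bfc00003fff80003fffc0007fffc0007fffe000ffffe000fffff001fffff000fafff000fffff000fffff000ffffe0007fffe0007fffc0003fffc0001fff80000ffc000007fc000002f00 19 21) 0 0 (step_sound _ 363 [(rh0fca6249083bfe46.shift 6 2), (rh1eac77a9b1d8ea15.shift 5 3), (rh28ff8f3da2740cf5.shift 6 7), (rh3947e647dd30591b.shift 2 4), (rh3f736cd3a1d17b9c.shift 7 6), (rh4152871c314c6065.shift 4 1), (rh5aa16cab95850379.shift 7 7), (rh5bf73937fc529dcc.shift 6 1), (rh64d8d970790ac0be.shift 7 6), (rh73832e1b48de37e2.shift 5 1), (rh9a872861e7d80c75.shift 7 6), (rha34241ecea8f567c.shift 7 6), (rha4230e6f3a1b1f69.shift 8 6), (rhad83dcf0835dab35.shift 7 6), (rhcabd3f366ca827f5.shift 4 4), (rhccb99702601551db.shift 7 7), (rhdb81571747dd5ddb.shift 8 6), rhdc4570ee72c941aa, (rhee5a0c9a98151f72.shift 5 2), (rhf3767ec3d1ae02ac.shift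 7 6)] (by decide +kernel))
noncomputable def rh0669b2dce9693852 : CRef := CRef.mk (Pat.mk 0x4000000000000000000000000000000000000000000000000000000000 0x3c0000007c0000007fc00000ffc00003ffe00003fff00007fff00003fff00007fff00003fde00003ffc00003ffe00001ffc000007f8000007f000000100 18 15) 0 0 (sym_sound rh59b96b936412849c _ false true true 14 15 9 (by decide +kernel))
noncomputable def rh4a31d32e296239dc : CRef := CRef.mk (Pat.mk 0x400000000000000000000000000000000000000000000000000000000000000000 0x100000007f0000007f800001ffc00003ffe00003ffc00003fde00007fff00003fff00007fff00003fff00003ffe00000ffc000007fc000007c0000003c0 18 15) 0 0 (sym_sound rh59b96b936412849c _ false true false 14 0 9 (by decide +kernel))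
noncomputable def rhcb1c456ee1748318 : CRef := CRef.mk (Pat.mk 0x10000000000000000000000000000000000000000000000000000000000 0x1e0000001f000001ff000001ff800003ffe00007ffe00007fff00007ffe00007fff00003dfe00001ffe00003ffe00001ffc00000ff0000007f000000040 18 15) 0 0 (sym_sound rh59b96b936412849c _ false false true 0 15 9 (by decide +kernel))
noncomputable def rhc82900c50165bf06 : CRef := CRef.mk (Pat.mk 0x2800000000000000000000000000000000000000000000000000000000000000000 0x80000005e000000ff000001ff800003ffe0001ffff0000fffe0001ffff00000bfe00003fbe00003fff00003ffe00003fff00001ff800001fe800000be000000080 19 17) 0 0 (sym_sound rhefa95415ec29693a _ false false true 0 16 10 (by decide +kernel))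
noncomputable def rh09fdb5dfd0554e77 : CRef := CRef.mk (Pat.mk 0x200000000000000000000000000000000000000000000000000000000000000000000000000000000000 0xa0000007e000001ff800003ffc0001ffff8001ffffc001ffffc001ffffe001ffffe00ffffff007fffff00ffbfff007fffff00ffffff001ffffe000ffffe000ffffc0003fffc0001fff80000ffc000007fc000002f00 20 24) 0 0 (step_sound _ 331 [(rh0f9a37fb267f450f.shift 6 5), (rh110edab1e9428c6a.shift 6 4), (rh14b5d819fd105ae4.shift 6 4), (rh15b82e51a95e7a73.shift 7 4), (rh166a695f7bce81c9.shift 6 4), (rh199034b87383cdb0.shift 7 3), (rh1b5ed42f1e3622b5.shift 6 5), (rh1dc562cb4d2e53fa.shift 6 5), (rh204a7836cf517501.shift 6 5), (rh25b1a1d3b1a93501.shift 6 4), (rh26802162024afe7f.shift 6 4), (rh27044ba91fe89af6.shift 6 5), (rh27da303b253e2225.shift 6 4), (rh2a2dec1b352ce2ce.shift 7 4), (rh2d8b7c38cf4da27e.shift 6 5), (rh2e84441707eafe07.shift 6 4), (rh2eb149c13ec3bfc7.shift 6 4), (rh324c11900462da04.shift 6 5), (rh32ffff61a5ff7492.shift 4 4), (rh3847377f3f41f3ae.shift 6 5), (rh3c749562511b2e11.shift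 6 4), (rh3eb8bd9a20937a4e.shift 6 5), (rh45ba8b7bb5caf91a.shift 4 3), (rh4c06e598cbded130.shift 6 5), (rh4d87b9b56bca6d6e.shift 6 5), (rh5092f82e2424cc1b.shift 3 1), (rh519f3d9ca15bd42a.shift 7 4), (rh53f4b000ee9d195a.shift 6 4), (rh54e8b3c7ef88e22c.shift 6 4), (rh558c411955aaea96.shift 6 4), (rh56de56d3ecf0e352.shift 6 5), (rh571462f29d2a4d21.shift 7 4), (rh57259f2dc8be5b70.shift 6 4), (rh59f60fcc888c08ce.shift 6 4), (rh5a519f420512a122.shift 6 4), (rh622cbfa9f84f4947.shift 6 5), (rh62933cd45772bb98.shift 6 4), (rh63b13ad9fe70d776.shift 6 4), (rh63bceba3d1fa3cdf.shift 5 5), (rh63f63d905214a39d.shift 6 5), (rh6434586b73f267ee.shift 6 4), (rh66455cffe3ab5179.shift 6 5), (rh6920db6ec417d333.shift 7 5), (rh6920fe112058ae54.shift 6 4), (rh6bfeb39e04f3d83a.shift 5 5), rh6e46ba717a6ec796, (rh7438bb26112e31da.shift 7 4), (rh776ddf36e776b9f5.shift 6 5), (rh7d260369e8ca66a9.shift 7 5), (rh8344b2eda0ebdd58.shift 6 5), (rh85311b5e9e234f43.shift 6 5), (rh9040280f9c9d19e2.shift 6 4), (rh94bfd42528744d75.shift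 6 5), (rh96936d01d9435dab.shift 5 5), (rh98b80fcad205ecde.shift 6 4), (rha3cbcd3c91b9bdc7.shift 6 4), (rha53471a23a3373a2.shift 6 4), (rha5646e628dc1f128.shift 6 4), (rha6f7af8e86d12d0c.shift 6 5), (rhacdd7401067b8ace.shift 8 4), (rhb47a8a2b8f4ba4f3.shift 6 5), (rhb5cbd7efab16a571.shift 6 4), (rhb693b871be34ccde.shift 6 4), (rhb8b1fa15278f7571.shift 6 4), (rhbfad931998edf241.shift 5 5), (rhc06d89d5c1ed0bc2.shift 7 3), (rhc467f8d7638ba227.shift 7 5), (rhc4abf567ca9f6be9.shift 7 3), (rhc6ac8f551c848eb8.shift 6 6), (rhc82900c50165bf06.shift 4 2), (rhd7e7cb8ec105a7f8.shift 6 4), (rhd8626d1bb98d8503.shift 7 4), (rhdc3f6da6fc973e7f.shift 6 4), (rhe1452de3e487eb11.shift 6 5), (rhe26b866673be66cb.shift 6 4), (rhe30ea4a660321d8e.shift 8 4), (rhe6babdac65f6b398.shift 5 5), (rhe75de8ae4fe0415d.shift 6 5), (rhef2dead90dd1b977.shift 6 4), (rhefa95415ec29693a.shift 4 2), (rhf4571e82d6118a78.shift 6 4), (rhf85123fc74293ed6.shift 5 4), (rhf886798b0a44285d.shift 6 5), (rhffb1d5163e0ef8fb.shift 6 4)] (by decide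 +kernel))
noncomputable def rhf656d6a7840c04e5 : CRef := CRef.mk (Pat.mk 0x40000000000000000000000000000000000000000000000000000000000000000000000000000000000 0x1f0000007fc00001fff00003fff80003fff80003fff80007fffe000ffffe000fffff003fffff001fffff003fffff001ffffe001fffff001ffbfe000ffffc000ffff80007fff00003ffe00003ffe00003ff8000001f0000001f0000001500 20 22) 0 0 (sym_sound rh09fdb5dfd0554e77 _ true false true 0 23 10 (by decide +kernel))
noncomputable def rh75357338072f5912 : CRef := CRef.mk (Pat.mk 0x40000000000000000000000000000000000000000000000000000000000000000000000000000000000000000000000000000000000 0x150000001f0000001f000003ff800003ffe00003ffe00007fff0000ffff8000ffffc001ffbfe001fffff001ffffe003fffff001fffff003fffff000fffff000ffffe0007fffe0003fff80003fff80003fff80001fff000007fc000001f00 20 22) 0 0 (sym_sound rh09fdb5dfd0554e77 _ true false false 0 0 10 (by decide +kernel))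
noncomputable def rh8d93dc7a488584c1 : CRef := CRef.mk (Pat.mk 0x40000000000000000000000000000000000000000000000000000000000000000000000000000000000 0x500000007e000001ff800003ffc0001ffff8003ffff8003ffff8007ffff8007ffff800ffffff00fffffe00fffdff00fffffe00ffffff007ffff8007ffff0003ffff0003fffc0001fff800003ff000003fe000000f400 20 24) 0 0 (sym_sound rh09fdb5dfd0554e77 _ false true false 23 0 10 (by decide +kernel))
noncomputable def rh772fbd407220e1be : CRef := CRef.mk (Pat.mk 0x0 0xf8000003fe00000fff80001fffc0001fffc0001fffc000fffff801fffffc01fffffc03fffffe03fffffe07ffffff07ffffff07ffffff07ffffff07ffffff03fffffe03fffffe01fffffc01fffffc00fffff8001fffc0001fffc0001fffc0000fff800003fe000000f800 21 27) 0 0 (step_sound _ 429 [(rh019b1c83ec983d9f.shift 7 5), (rh0459d162b5b0ea65.shift 5 6), (rh055da141b1b445aa.shift 6 8), (rh0669b2dce9693852.shift 7 6), (rh07425e9f6fd95575.shift 5 6), (rh09fdb5dfd0554e77.shift 0 3), (rh0cb3a792f49601b1.shift 6 7), (rh0e16fc4d0957e0d4.shift 7 5), (rh146d4d5dd1f0a47e.shift 5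 7), (rh1ac95954e8c93f3c.shift 6 5), (rh1c64f9aa9402c763.shift 7 6), (rh1ce66400dbe148a6.shift 6 5), (rh1eca38855a6199e8.shift 6 5), (rh1edd003a9f13d4d2.shift 5 7), (rh219bda5501eb897d.shift 5 6), (rh25c9144a8e50fa58.shift 7 6), (rh2e0d853048d38302.shift 5 6), (rh31e5aa8ec3b42830.shift 5 7), (rh361953ff9a19d19c.shift 6 6), (rh375a34024582fac5.shift 6 7), (rh3af7e1a15689fff1.shift 7 6), (rh416c95b03274f3ed.shift 6 6), (rh4747da24e17b7103.shift 6 7), (rh4a31d32e296239dc.shift 7 5), (rh4b4af9183d7a038a.shift 7 6), (rh4b8244e00b031db9.shift 8 8), (rh4da07a4f6d5a0f20.shift 7 8), (rh4f800a4000c8fcb8.shift 7 5), (rh57123f09106659c0.shift 7 7), (rh59b96b936412849c.shift 5 5), (rh5d009c6f04a5fe3c.shift 6 5), (rh70deb1a07560a220.shift 5 6), (rh75357338072f5912.shift 3 0), (rh7c01314be0f2d3c6.shift 6 6), (rh8258f260082cb6d7.shift 6 7), (rh8733a1739c254c7b.shift 7 7), (rh8ca189c8b8732476.shift 5 5), (rh8d93dc7a488584c1.shift 3 3), (rh941c651e16c5a742.shift 5 5), (rh9d9a972f7e9c8fc3.shift 5 5), (rha649437d4a2ca7a8.shift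 6 7), (rhad0e22c676d932bf.shift 7 6), (rhaea43e3d534e903e.shift 5 7), (rhb4293e3cb28dacbf.shift 8 6), (rhb651b7eb7fc2e711.shift 7 5), (rhbcb3726af04e7ae8.shift 7 7), (rhc1c60db8d3caf6aa.shift 6 6), (rhc2896a2d5d9f9f9c.shift 7 7), (rhc5a0b332d22ecdd8.shift 6 7), (rhcb1c456ee1748318.shift 5 6), (rhdc2c14d75ea4ef5b.shift 8 7), (rhdde84d3c62b80de7.shift 6 5), (rhde57885e798ba98a.shift 5 6), (rhdfba28083d63b38f.shift 5 5), (rhe3b502ce23d5acd7.shift 7 6), (rhf37c4885b9b20e35.shift 7 5), (rhf49fd59caa99918e.shift 7 7), (rhf53064c53802cc37.shift 8 8), (rhf656d6a7840c04e5.shift 3 3), (rhfece1831872934ab.shift 7 6)] (by decide +kernel))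
end Crest.Agent.S0047.Helper85.Cert
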