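import Crest.Agent.Lib.S0047.Helper85CertPL0F0
set_option autoImplicit false
set_option linter.all false
set_option Elab.async false
namespace Crest.Agent.S0047.Helper85.Cert
open Crest.Agent.S0047.Helper85

noncomputable def rhd29a1fb688eae70f : CRef := CRef.mk (Pat.mk 0x10000000100000001000000010000000100000000 0x10000000100000001000000030000000300000002 2 2) 0 0 (step_sound _ 33 [rh55afc6a59410cf00, (rhd3458b32566d63f7.shift 0 1)] (by decide +kernel))
noncomputable def rheae1728ff4a56756 : CRef := CRef.mk (Pat.mk 0x3e00000000 0x3e00000007 2 6) 0 0 (step_sound _ 1 [(rh80fcd6d0a18cb2dd.shift 1 0), rheb0810cc63b001d8] (by decide +kernel))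
noncomputable def rh7928877f9bf74a91 : CRef := CRef.mk (Pat.mk 0x20000000200000002000000020000000200000000 0x20000000200000002000000030000000300000001 2 2) 0 0 (step_sound _ 32 [(rh79877ebd3ef475dd.shift 0 1), rh932754581e0f4330] (by decide +kernel))
noncomputable def rh3ca48e2a6d60153d : CRef := CRef.mk (Pat.mk 0x200000002000000020000000200000002 0x10000000300000003000000020000000200000002 2 2) 0 0 (step_sound _ 128 [(rh50fbb5868c909700.shift 0 1), rhffd04209dc8ea796] (by decide +kernel))
noncomputable def rh3e595262c1b737ad : CRef := CRef.mk (Pat.mk 0x1000000030000000300000000 0x10000000100000001000000030000000300000002 2 2) 0 0 (step_sound _ 128 [(rh2145e1d24b96a57e.shift 0 1), rh55afc6a59410cf00] (by decide +kernel))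
noncomputable def rha03f6e28ea70fc7d : CRef := CRef.mk (Pat.mk 0x1e00000008 0x1f00000038 2 6) 0 0 (step_sound _ 4 [rhb739f4f82bb681b4, (rhe25b0a99195a5d59.shift 1 0)] (by decide +kernel))
noncomputable def rh4dc133ee0ba1420a : CRef := CRef.mk (Pat.mk 0x1c0000000c 0x3c0000000f 2 6) 0 0 (step_sound _ 1 [(rh18965a982d73c794.shift 1 0), rh53b3c253cb0c65f4] (by decide +kernel))
noncomputable def rhf5094ad2a427d4d3 : CRef := CRef.mk (Pat.mk 0x4000000040000001c0000000c00000000 0x4000000040000001c0000000f00000002 2 5) 0 0 (step_sound _ 33 [(rh53b3c253cb0c65f4.shift 0 1), (rh932754581e0f4330.shift 1 0)] (by decide +kernel))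
noncomputable def rhbf14f049e425ac01 : CRef := CRef.mk (Pat.mk 0x1a00000012 0x1e00000033 2 6) 0 0 (step_sound _ 34 [(rhe25b0a99195a5d59.shift 1 0), rheb0810cc63b001d8] (by decide +kernel))
noncomputable def rh6292bd8784ece55f : CRef := CRef.mk (Pat.mk 0xe0000000c 0xf0000003c 2 6) 0 0 (step_sound _ 4 [rhb739f4f82bb681b4, (rhf48373e13d2bc128.shift 1 0)] (by decide +kernel))
noncomputable def rhdbcea10a0fbe5ba6 : CRef := CRef.mk (Pat.mk 0xc00000038 0xf0000003c 2 6) 0 0 (step_sound _ 33 [(rh09d4dfe75d4407d6.shift 1 0), rhb739f4f82bb681b4] (by decide +kernel))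
noncomputable def rh8d917b916e5f3510 : CRef := CRef.mk (Pat.mk 0x180000001c00000020 0x180000001f00000030 2 6) 0 0 (step_sound _ 33 [(rh53b3c253cb0c65f4.shift 0 1), (rh96851dee118c1ba3.shift 1 0)] (by decide +kernel))
noncomputable def rh44f453b84f013105 : CRef := CRef.mk (Pat.mk 0x100000001000000010000000100000001 0x20000000300000003000000010000000100000001 2 2) 0 0 (step_sound _ 129 [(rh2f68792b6b779e96.shift 0 1), rhbaefcd01e0a8bca3] (by decide +kernel))
noncomputable def rh4ad5fc38f1b69f65 : CRef := CRef.mk (Pat.mk 0x1f00000000 0x1f00000038 2 6) 0 0 (step_sound _ 4 [rh96851dee118c1ba3, (rhe25b0a99195a5d59.shift 1 0)] (by decide +kernel))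
noncomputable def rh572132728df34c43 : CRef := CRef.mk (Pat.mk 0xc00000007 0x3c0000000f 2 6) 0 0 (step_sound _ 36 [(rh18965a982d73c794.shift 1 0), rh3fc040e777f1679e] (by decide +kernel))
noncomputable def rh80f90a60d87caa0d : CRef := CRef.mk (Pat.mk 0xc00000007 0x3e00000007 2 6) 0 0 (step_sound _ 36 [(rh18965a982d73c794.shift 1 0), rhca9569cc80abfe76] (by decide +kernel))
noncomputable def rhd5eb272e07a4e288 : CRef := CRef.mk (Pat.mk 0x3e 0x70000003e 2 6) 0 0 (step_sound _ 33 [rh3244c3cc8379b070, (rh3f8766e6ecb455ce.shift 1 0)] (by decide +kernel))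
noncomputable def rh2612b4f73ba7c3b3 : CRef := CRef.mk (Pat.mk 0xe00000006 0x3e00000007 2 6) 0 0 (step_sound _ 36 [(rh18965a982d73c794.shift 1 0), rheb0810cc63b001d8] (by decide +kernel))
noncomputable def rh63bb75a038171f49 : CRef := CRef.mk (Pat.mk 0xf000000040000000000000004 0x180000000f000000040000000400000004 2 5) 0 0 (step_sound _ 131 [(rh33e738c4ed385b9f.shift 0 3), (rh9e3edb185cc347de.shift 2 0)] (by decide +kernel))
noncomputable def rhe41609ae3e02089b : CRef := CRef.mk (Pat.mk 0x1e0000001800000030 0x1e0000001f00000030 2 6) 0 0 (step_sound _ 33 [(rhab22b5b56e7b3243.shift 1 0), (rheb0810cc63b001d8.shift 0 1)] (by decide +kernel))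
noncomputable def rh9890f9d77740bbed : CRef := CRef.mk (Pat.mk 0x1f 0x380000001f 2 6) 0 0 (step_sound _ 36 [(rh33e738c4ed385b9f.shift 1 0), rh428265de8cd3cd2d] (by decide +kernel))
noncomputable def rhbfb5770941270498 : CRef := CRef.mk (Pat.mk 0x2000000030000000100000001 0x20000000200000003000000030000000100000001 2 2) 0 0 (step_sound _ 129 [rh1006c02ae4212ff0, (rh5c5e593799055d58.shift 0 1)] (by decide +kernel))
noncomputable def rh6870ff15d3813450 : CRef := CRef.mk (Pat.mk 0xa00000007 0x1e0000000f 2 5) 0 0 (step_sound _ 36 [rh3fc040e777f1679e, rhb2a0b9ccfb5cecd5] (by decide +kernel))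
noncomputable def rhc02b3aee7ab87ee1 : CRef := CRef.mk (Pat.mk 0xc00000038 0x1f00000038 2 6) 0 0 (step_sound _ 33 [rhb739f4f82bb681b4, (rhd6e447e81774439e.shift 1 0)] (by decide +kernel))
noncomputable def rh89ade209b3e28f13 : CRef := CRef.mk (Pat.mk 0x70000000c 0x70000003e 2 6) 0 0 (step_sound _ 4 [rh09d4dfe75d4407d6, (rhf48373e13d2bc128.shift 1 0)] (by decide +kernel))
noncomputable def rh1ed7a3503fa50fc8 : CRef := CRef.mk (Pat.mk 0x380000000c 0x3c0000000f 2 6) 0 0 (step_sound _ 1 [rh53b3c253cb0c65f4, (rhca9569cc80abfe76.shift 1 0)] (by decide +kernel))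
noncomputable def rh464bab2e226d0259 : CRef := CRef.mk (Pat.mk 0xe00000010000000100000001000000000 0xf00000018000000100000001000000010 2 5) 0 0 (step_sound _ 99 [(rh7b1f1fb55310c477.shift 3 0), (rhb739f4f82bb681b4.shift 0 3)] (by decide +kernel))
noncomputable def rh42afa1af9fffa0e1 : CRef := CRef.mk (Pat.mk 0x400000004000000070000000600000000 0x400000004000000070000001e00000008 2 5) 0 0 (step_sound _ 35 [(rh55afc6a59410cf00.shift 2 0), (rhf48373e13d2bc128.shift 0 1)] (by decide +kernel))
noncomputable def rh3245c175135a884b : CRef := CRef.mk (Pat.mk 0x100000001e000000100000001000000000 0x180000001f000000100000001000000010 2 5) 0 0 (step_sound _ 131 [(rh53b3c253cb0c65f4.shift 0 3), (rh7b1f1fb55310c477.shift 3 0)] (by decide +kernel))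
noncomputable def rh69755ef358ebfd54 : CRef := CRef.mk (Pat.mk 0x2000000030000000100000001 0x20000000200000002000000030000000300000001 2 2) 0 0 (step_sound _ 129 [(rh5c5e593799055d58.shift 0 1), rheea67dfebd0f8008] (by decide +kernel))
noncomputable def rhad5d8fc3675c15dd : CRef := CRef.mk (Pat.mk 0x1c00000018 0x1f00000038 2 6) 0 0 (step_sound _ 33 [rhb739f4f82bb681b4, (rhe25b0a99195a5d59.shift 1 0)] (by decide +kernel))
noncomputable def rhe072fffdd2fccf38 : CRef := CRef.mk (Pat.mk 0x1000000030000000200000002 0x10000000100000001000000030000000300000002 2 2) 0 0 (step_sound _ 128 [(rh2145e1d24b96a57e.shift 0 1), rhbe0e43a3bc50a43f] (by decide +kernel))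
noncomputable def rhb762f327c85d41a0 : CRef := CRef.mk (Pat.mk 0x20000000e00000006 0x30000003e00000006 2 6) 0 0 (step_sound _ 36 [(rh18965a982d73c794.shift 1 0), (rh3244c3cc8379b070.shift 0 1)] (by decide +kernel))
noncomputable def rhba65360472489f45 : CRef := CRef.mk (Pat.mk 0xe00000028 0xf0000003c 2 6) 0 0 (step_sound _ 4 [(rh09d4dfe75d4407d6.shift 1 0), rhb739f4f82bb681b4] (by decide +kernel))
noncomputable def rh84d1c02a8954c6a8 : CRef := CRef.mk (Pat.mk 0x3000000030000000100000000 0x20000000200000003000000030000000100000001 2 2) 0 0 (step_sound _ 129 [(rh5c5e593799055d58.shift 0 1), rh71222050f2c63a3a] (by decide +kernel))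
noncomputable def rhe28dc3223a412fc9 : CRef := CRef.mk (Pat.mk 0x700000014 0xf0000001e 2 5) 0 0 (step_sound _ 3 [rh09d4dfe75d4407d6, rhd6e447e81774439e] (by decide +kernel))
noncomputable def rh03dfdf12d5937476 : CRef := CRef.mk (Pat.mk 0x200000002000000030000000200000000 0x20000000200000002000000030000000300000001 2 2) 0 0 (step_sound _ 32 [(rh5c5e593799055d58.shift 0 1), rh932754581e0f4330] (by decide +kernel))
noncomputable def rh08edf065357d68e5 : CRef := CRef.mk (Pat.mk 0x10000000100000003000000020000000000000000 0x10000000300000003000000020000000200000002 2 2) 0 0 (step_sound _ 33 [rh7b1f1fb55310c477, (rhcfdf45280693d3da.shift 0 1)] (by decide +kernel))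
noncomputable def rh5ec015d369888aae : CRef := CRef.mk (Pat.mk 0x120000000e 0x330000001e 2 6) 0 0 (step_sound _ 4 [rh3244c3cc8379b070, (rh33e738c4ed385b9f.shift 1 0)] (by decide +kernel))
noncomputable def rh1df1df71a80a171b : CRef := CRef.mk (Pat.mk 0xa0000000b0000000800000008 0x100000001e0000000b0000000800000008 2 5) 0 0 (step_sound _ 100 [(rh2f68792b6b779e96.shift 3 0), (rhb2a0b9ccfb5cecd5.shift 0 2)] (by decide +kernel))
noncomputable def rh62d5089427e66445 : CRef := CRef.mk (Pat.mk 0x500000007000000060000000000000000 0x40000000500000007000000060000000200000002 2 3) 0 0 (step_sound _ 33 [(rh5c5e593799055d58.shift 1 1), rh7b1f1fb55310c477] (by decide +kernel))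
noncomputable def rh5fc67bac28a8b5bb : CRef := CRef.mk (Pat.mk 0x5000000050000000700000000 0x500000005000000050000000700000002 2 3) 0 0 (step_sound _ 1 [rh2145e1d24b96a57e, (rh5c5e593799055d58.shift 1 0)] (by decide +kernel))
noncomputable def rhc50a9cb3b374a536 : CRef := CRef.mk (Pat.mk 0x5000000050000000500000002 0x500000005000000050000000700000002 2 3) 0 0 (step_sound _ 33 [rh2145e1d24b96a57e, (rh5c5e593799055d58.shift 1 0)] (by decide +kernel))
noncomputable def rhdd25e32394858bbd : CRef := CRef.mk (Pat.mk 0x10000000200000002000000020000000400000000 0x10000000300000002000000020000000600000004 2 3) 0 0 (step_sound _ 33 [(rh55afc6a59410cf00.shift 1 0), (rhffd04209dc8ea796.shift 0 1)] (by decide +kernel))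
noncomputable def rhe3060b190bc0bc78 : CRef := CRef.mk (Pat.mk 0x40000001e 0x70000003e 2 6) 0 0 (step_sound _ 33 [rh3244c3cc8379b070, (rhf48373e13d2bc128.shift 1 0)] (by decide +kernel))
noncomputable def rhddcd04bb31546311 : CRef := CRef.mk (Pat.mk 0x80000000b0000000800000008 0x10000000180000000f0000000800000008 2 5) 0 0 (step_sound _ 100 [(rh1c62b6193297d9e3.shift 0 2), (rh2f68792b6b779e96.shift 3 0)] (by decide +kernel))
noncomputable def rh61737549170b20ff : CRef := CRef.mk (Pat.mk 0x10000000200000002000000000000000600000000 0x10000000300000002000000020000000600000004 2 3) 0 0 (step_sound _ 65 [(rh55afc6a59410cf00.shift 1 0), (rhffd04209dc8ea796.shift 0 1)] (by decide +kernel))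
noncomputable def rhaf9f2efc81a8312b : CRef := CRef.mk (Pat.mk 0x1e00000004 0x3e00000007 2 6) 0 0 (step_sound _ 1 [(rh18965a982d73c794.shift 1 0), rheb0810cc63b001d8] (by decide +kernel))
noncomputable def rhe3bc8ed3804367dd : CRef := CRef.mk (Pat.mk 0x800000007000000040000000400000000 0x180000000f000000040000000400000004 2 5) 0 0 (step_sound _ 99 [(rh33e738c4ed385b9f.shift 0 3), (rh71222050f2c63a3a.shift 2 0)] (by decide +kernel))
noncomputable def rhda02c4ce0b224328 : CRef := CRef.mk (Pat.mk 0x1a0000000a 0x1e0000000f 2 5) 0 0 (step_sound _ 0 [rh1c62b6193297d9e3, rhb2a0b9ccfb5cecd5] (by decide +kernel))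
noncomputable def rha6816dee951f7ee6 : CRef := CRef.mk (Pat.mk 0xb0000000a 0xf0000001e 2 5) 0 0 (step_sound _ 4 [rh5419adcd928dba20, rhc10214bf3fe8094a] (by decide +kernel))
noncomputable def rhc89253ff58c66167 : CRef := CRef.mk (Pat.mk 0x1000000030000000200000002 0x10000000100000003000000030000000200000002 2 2) 0 0 (step_sound _ 128 [(rh2145e1d24b96a57e.shift 0 1), rhcfdf45280693d3da] (by decide +kernel))
noncomputable def rhefd5860131e7d276 : CRef := CRef.mk (Pat.mk 0x100000001f000000000000000800000000 0x100000001f000000180000000800000008 2 5) 0 0 (step_sound _ 67 [(rh71222050f2c63a3a.shift 3 0), (rhe25b0a99195a5d59.shift 0 2)] (by decide +kernel))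
noncomputable def rh5710f30ba40ee3ec : CRef := CRef.mk (Pat.mk 0x2000000020000001a0000000200000000 0x2000000020000001e0000000300000001 2 5) 0 0 (step_sound _ 32 [rh932754581e0f4330, (rhb2a0b9ccfb5cecd5.shift 0 1)] (by decide +kernel))
noncomputable def rhd4b4beefcd67f51e : CRef := CRef.mk (Pat.mk 0x100000001000000030000000100000000 0x10000000100000001000000030000000300000002 2 2) 0 0 (step_sound _ 33 [(rh2145e1d24b96a57e.shift 0 1), rh55afc6a59410cf00] (by decide +kernel))
noncomputable def rh4a0b10776449c3e9 : CRef := CRef.mk (Pat.mk 0x70000000c 0xf0000003c 2 6) 0 0 (step_sound _ 4 [rhd6e447e81774439e, (rhf48373e13d2bc128.shift 1 0)] (by decide +kernel))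
noncomputable def rh075211c3608a5a57 : CRef := CRef.mk (Pat.mk 0xa00000038 0x1f00000038 2 6) 0 0 (step_sound _ 34 [rhb739f4f82bb681b4, (rhd6e447e81774439e.shift 1 0)] (by decide +kernel))
noncomputable def rh92d527fd57e151ef : CRef := CRef.mk (Pat.mk 0x100000000000000030000000200000002 0x100000003000000030000000300000002 2 2) 0 0 (step_sound _ 96 [rhbe0e43a3bc50a43f, rhcfdf45280693d3da] (by decide +kernel))
noncomputable def rhf4bcdf19b6922e31 : CRef := CRef.mk (Pat.mk 0x100000000000000030000000200000002 0x10000000100000003000000030000000200000002 2 2) 0 0 (step_sound _ 96 [(rh2145e1d24b96a57e.shift 0 1), rhcfdf45280693d3da] (by decide +kernel))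
noncomputable def rhdf6eda84f2eabc48 : CRef := CRef.mk (Pat.mk 0x100000000000000030000000200000002 0x10000000100000001000000030000000300000002 2 2) 0 0 (step_sound _ 96 [(rh2145e1d24b96a57e.shift 0 1), rhbe0e43a3bc50a43f] (by decide +kernel))
noncomputable def rh503dd4575245365b : CRef := CRef.mk (Pat.mk 0x2000000030000000300000000 0x20000000200000002000000030000000300000001 2 2) 0 0 (step_sound _ 129 [(rh5c5e593799055d58.shift 0 1), rh932754581e0f4330] (by decide +kernel))
noncomputable def rheb0faeae83dce3df : CRef := CRef.mk (Pat.mk 0x400000004000000050000000e 0x40000000400000004000000070000001e 2 5) 0 0 (step_sound _ 33 [(rh5c5e593799055d58.shift 1 0), rhf48373e13d2bc128] (by decide +kernel))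
noncomputable def rha3df16ea9c8576c8 : CRef := CRef.mk (Pat.mk 0x1000000030000000200000002 0x100000003000000030000000300000002 2 2) 0 0 (step_sound _ 128 [rhbe0e43a3bc50a43f, rhcfdf45280693d3da] (by decide +kernel))
noncomputable def rhf11a656c4019127b : CRef := CRef.mk (Pat.mk 0x100000001000000010000000900000018 0x100000001000000010000000f0000001a 2 5) 0 0 (step_sound _ 33 [rh55afc6a59410cf00, rhc10214bf3fe8094a] (by decide +kernel))
noncomputable def rha707fb719e87fe6e : CRef := CRef.mk (Pat.mk 0x100000003000000010000000100000000 0x20000000300000003000000010000000100000001 2 2) 0 0 (step_sound _ 129 [(rh2f68792b6b779e96.shift 0 1), rh71222050f2c63a3a] (by decide +kernel))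
noncomputable def rh086f6046fa319626 : CRef := CRef.mk (Pat.mk 0x1a0000001a 0x1f0000001b 2 5) 0 0 (step_sound _ 34 [rhb739f4f82bb681b4, rheb0810cc63b001d8] (by decide +kernel))
noncomputable def rh61975bc3e9724afc : CRef := CRef.mk (Pat.mk 0x2000000020000001a0000000600000000 0x2000000020000001a0000000f00000001 2 5) 0 0 (step_sound _ 32 [(rh3fc040e777f1679e.shift 0 1), rh932754581e0f4330] (by decide +kernel))
noncomputable def rh79ad7b82ec8c35e2 : CRef := CRef.mk (Pat.mk 0x10000000100000003000000020000000000000000 0x10000000100000003000000030000000200000002 2 2) 0 0 (step_sound _ 33 [rh7b1f1fb55310c477, (rhbe0e43a3bc50a43f.shift 0 1)] (by decide +kernel))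
noncomputable def rh7e2297059c77b3a4 : CRef := CRef.mk (Pat.mk 0x1a00000016 0x1b0000001f 2 5) 0 0 (step_sound _ 3 [rh3244c3cc8379b070, rh53b3c253cb0c65f4] (by decide +kernel))
noncomputable def rh9a8c4a319e3e8680 : CRef := CRef.mk (Pat.mk 0x200000000000000010000000300000001 0x200000003000000030000000300000001 2 2) 0 0 (step_sound _ 97 [rh1006c02ae4212ff0, rh3c88ce959c0e423f] (by decide +kernel))
noncomputable def rhef77c6b312a36259 : CRef := CRef.mk (Pat.mk 0x2000000020000001a0000000300000000 0x2000000020000001a0000000f00000004 2 5) 0 0 (step_sound _ 34 [(rh3fc040e777f1679e.shift 0 1), (rh55afc6a59410cf00.shift 1 0)] (by decide +kernel))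
noncomputable def rhfb55dd75ab83ac48 : CRef := CRef.mk (Pat.mk 0x110000000e 0x330000001e 2 6) 0 0 (step_sound _ 4 [(rh33e738c4ed385b9f.shift 1 0), rh3f8766e6ecb455ce] (by decide +kernel))
noncomputable def rh4b858afe2cb38247 : CRef := CRef.mk (Pat.mk 0x50000001c 0xf0000001e 2 5) 0 0 (step_sound _ 33 [rh09d4dfe75d4407d6, rhd6e447e81774439e] (by decide +kernel))
noncomputable def rh7174a5174d2fbf5b : CRef := CRef.mk (Pat.mk 0x20000001a00000010 0x30000001e00000030 2 6) 0 0 (step_sound _ 34 [(rh3244c3cc8379b070.shift 0 1), (rhe25b0a99195a5d59.shift 1 0)] (by decide +kernel))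
noncomputable def rhec46bd5500c722c9 : CRef := CRef.mk (Pat.mk 0x80000001e 0x380000001f 2 6) 0 0 (step_sound _ 36 [(rh33e738c4ed385b9f.shift 1 0), rh53b3c253cb0c65f4] (by decide +kernel))
noncomputable def rh0f44c1a6727bd1c4 : CRef := CRef.mk (Pat.mk 0x1e000000010000000100000001 0x30000001f000000010000000100000001 2 5) 0 0 (step_sound _ 129 [rh1006c02ae4212ff0, (rh3244c3cc8379b070.shift 0 3)] (by decide +kernel))
noncomputable def rha9e1a5d55b907abf : CRef := CRef.mk (Pat.mk 0x60000000e00000002 0x60000003e00000003 2 6) 0 0 (step_sound _ 36 [rheb0810cc63b001d8, (rhf48373e13d2bc128.shift 1 1)] (by decide +kernel))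
noncomputable def rh79b3c29022acbdf3 : CRef := CRef.mk (Pat.mk 0x60000000e 0x70000003e 2 6) 0 0 (step_sound _ 4 [rh3244c3cc8379b070, (rhf48373e13d2bc128.shift 1 0)] (by decide +kernel))
noncomputable def rhab2ad169e49f9c5e : CRef := CRef.mk (Pat.mk 0x180000001c 0x380000001f 2 6) 0 0 (step_sound _ 1 [(rh33e738c4ed385b9f.shift 1 0), rh53b3c253cb0c65f4] (by decide +kernel))
noncomputable def rhda6cc5da102e1723 : CRef := CRef.mk (Pat.mk 0x100000000000000030000000300000000 0x10000000100000001000000030000000300000002 2 2) 0 0 (step_sound _ 96 [(rh2145e1d24b96a57e.shift 0 1), rh55afc6a59410cf00] (by decide +kernel))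
noncomputable def rh9c40a739b57d6d20 : CRef := CRef.mk (Pat.mk 0x4000000060000001e0000000000000000 0x4000000060000001e0000000300000002 2 5) 0 0 (step_sound _ 33 [(rh71222050f2c63a3a.shift 1 0), (rheb0810cc63b001d8.shift 0 1)] (by decide +kernel))
noncomputable def rh9b4df57cddcda711 : CRef := CRef.mk (Pat.mk 0x300000003000000010000000200000000 0x300000003000000010000000300000003 2 2) 0 0 (step_sound _ 32 [rh55afc6a59410cf00, rh71222050f2c63a3a] (by decide +kernel))
noncomputable def rhea7a1800d6f053bd : CRef := CRef.mk (Pat.mk 0x300000003000000010000000000000000 0x20000000300000003000000010000000100000001 2 2) 0 0 (step_sound _ 32 [(rh2f68792b6b779e96.shift 0 1), rh71222050f2c63a3a] (by decide +kernel))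
noncomputable def rh6765e7960b108c8d : CRef := CRef.mk (Pat.mk 0x80000000e00000010 0x180000000f00000018 2 5) 0 0 (step_sound _ 32 [(rh33e738c4ed385b9f.shift 0 1), rh96851dee118c1ba3] (by decide +kernel))
noncomputable def rh316d0c7c5292e4bb : CRef := CRef.mk (Pat.mk 0x400000004000000000000001e00000000 0x400000004000000040000001e00000003 2 5) 0 0 (step_sound _ 1 [(rh3c88ce959c0e423f.shift 1 0), rheb0810cc63b001d8] (by decide +kernel))
noncomputable def rh9f32f2f1e08a19a8 : CRef := CRef.mk (Pat.mk 0x20000001a0000000100000001 0x2000000020000001e0000000300000001 2 5) 0 0 (step_sound _ 33 [rh5c5e593799055d58, (rhb2a0b9ccfb5cecd5.shift 0 1)] (by decide +kernel))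
noncomputable def rh9cfaec6636b11295 : CRef := CRef.mk (Pat.mk 0x200000003f000000000000001000000000 0x200000003f000000180000001000000010 2 6) 0 0 (step_sound _ 68 [(rh71222050f2c63a3a.shift 4 0), (rh96851dee118c1ba3.shift 0 2)] (by decide +kernel))
noncomputable def rh3ea8f185d13574b4 : CRef := CRef.mk (Pat.mk 0x40000001e000000000000000200000000 0x40000001e000000030000000200000002 2 5) 0 0 (step_sound _ 65 [(rh71222050f2c63a3a.shift 1 0), (rheb0810cc63b001d8.shift 0 2)] (by decide +kernel))
noncomputable def rh47688a8720dc0294 : CRef := CRef.mk (Pat.mk 0xe00000028 0x1f00000038 2 6) 0 0 (step_sound _ 4 [rhb739f4f82bb681b4, (rhd6e447e81774439e.shift 1 0)] (by decide +kernel))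
noncomputable def rhcf86d050071af9b3 : CRef := CRef.mk (Pat.mk 0x80000000e00000008 0x180000000f00000018 2 5) 0 0 (step_sound _ 32 [(rh33e738c4ed385b9f.shift 0 1), rhe25b0a99195a5d59] (by decide +kernel))
noncomputable def rheea1a90336e79c71 : CRef := CRef.mk (Pat.mk 0x380000000c 0x380000001f 2 6) 0 0 (step_sound _ 1 [(rh3fc040e777f1679e.shift 1 0), rh53b3c253cb0c65f4] (by decide +kernel))
noncomputable def rh68691964b29f233d : CRef := CRef.mk (Pat.mk 0x700000014 0x70000003e 2 6) 0 0 (step_sound _ 3 [rh09d4dfe75d4407d6, (rhf48373e13d2bc128.shift 1 0)] (by decide +kernel))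
noncomputable def rh42548283029e2a39 : CRef := CRef.mk (Pat.mk 0x20000000200000003000000010000000000000000 0x20000000200000003000000030000000100000001 2 2) 0 0 (step_sound _ 32 [rh71222050f2c63a3a, (rheea67dfebd0f8008.shift 0 1)] (by decide +kernel))
noncomputable def rh3f9dabd3a98bcc1c : CRef := CRef.mk (Pat.mk 0x180000000b0000000800000008 0x40000001e0000000b0000000800000008 2 5) 0 0 (step_sound _ 98 [(rh50fbb5868c909700.shift 2 0), (rhca9569cc80abfe76.shift 0 2)] (by decide +kernel))
noncomputable def rh49bdc49f6b132823 : CRef := CRef.mk (Pat.mk 0x400000004000000000000000f00000000 0x400000004000000040000000f00000018 2 5) 0 0 (step_sound _ 3 [rhe25b0a99195a5d59, (rhff0f29cb645b05f7.shift 2 0)] (by decide +kernel))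
noncomputable def rhf9d36e158778ce35 : CRef := CRef.mk (Pat.mk 0xc0000000e 0x3c0000000f 2 6) 0 0 (step_sound _ 36 [(rh18965a982d73c794.shift 1 0), rh53b3c253cb0c65f4] (by decide +kernel))
noncomputable def rh71b06adb1bde91cb : CRef := CRef.mk (Pat.mk 0x20000000200000002000000000000000700000000 0x20000000200000002000000030000000700000004 2 3) 0 0 (step_sound _ 65 [(rh55afc6a59410cf00.shift 1 0), (rh79877ebd3ef475dd.shift 0 1)] (by decide +kernel))
noncomputable def rhd6823224e710b448 : CRef := CRef.mk (Pat.mk 0x8000000000000001f00000010 0x800000008000000180000001f00000010 2 5) 0 0 (step_sound _ 67 [(rh2145e1d24b96a57e.shift 3 0), (rh33e738c4ed385b9f.shift 0 1)] (by decide +kernel))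
noncomputable def rhe437f081bfcdb831 : CRef := CRef.mk (Pat.mk 0x300000003000000020000000100000000 0x300000003000000020000000300000003 2 2) 0 0 (step_sound _ 33 [rh7b1f1fb55310c477, rh932754581e0f4330] (by decide +kernel))
noncomputable def rh5f11ee373cbffcaa : CRef := CRef.mk (Pat.mk 0x8000000080000000b0000000800000000 0x8000000080000000f0000001800000010 2 5) 0 0 (step_sound _ 36 [(rh55afc6a59410cf00.shift 3 0), (rhc10214bf3fe8094a.shift 0 1)] (by decide +kernel))
noncomputable def rh343a5d3670c5295a : CRef := CRef.mk (Pat.mk 0x20000000200000002000000000000000300000000 0x20000000200000002000000030000000300000001 2 2) 0 0 (step_sound _ 65 [(rh79877ebd3ef475dd.shift 0 1), rh932754581e0f4330] (by decide +kernel))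
noncomputable def rh84f01cf2134210c0 : CRef := CRef.mk (Pat.mk 0x200000002000000160000000200000000 0x2000000020000001e0000000300000001 2 5) 0 0 (step_sound _ 32 [(rh361cc68994bd8a63.shift 0 1), rh932754581e0f4330] (by decide +kernel))
noncomputable def rh55a1f6c57a317ce6 : CRef := CRef.mk (Pat.mk 0x100000003000000030000000000000000 0x10000000100000003000000030000000200000002 2 2) 0 0 (step_sound _ 33 [(rh2145e1d24b96a57e.shift 0 1), rh7b1f1fb55310c477] (by decide +kernel))
noncomputable def rh4baa30ac13a5afd1 : CRef := CRef.mk (Pat.mk 0x200000001c00000018 0x300000001f00000018 2 6) 0 0 (step_sound _ 33 [(rh428265de8cd3cd2d.shift 1 1), rhb739f4f82bb681b4] (by decide +kernel))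
noncomputable def rhc49ca0b9223e2b96 : CRef := CRef.mk (Pat.mk 0xe0000000a0000000800000008 0x100000001e0000000b0000000800000008 2 5) 0 0 (step_sound _ 100 [(rh2f68792b6b779e96.shift 3 0), (rheb0810cc63b001d8.shift 0 2)] (by decide +kernel))
noncomputable def rhe286c75f2739cce2 : CRef := CRef.mk (Pat.mk 0x200000003000000020000000200000000 0x10000000300000003000000020000000200000002 2 2) 0 0 (step_sound _ 128 [(rh50fbb5868c909700.shift 0 1), rh7b1f1fb55310c477] (by decide +kernel))
noncomputable def rh5a4df29f20c07a62 : CRef := CRef.mk (Pat.mk 0x7000000000000000200000002 0x500000007000000020000000200000002 2 3) 0 0 (step_sound _ 65 [(rh2f68792b6b779e96.shift 1 0), rh50fbb5868c909700] (by decide +kernel))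
noncomputable def rh9f67957f47428996 : CRef := CRef.mk (Pat.mk 0x200000002000000020000000e00000008 0x200000002000000020000000f00000019 2 5) 0 0 (step_sound _ 32 [rh932754581e0f4330, rhe25b0a99195a5d59] (by decide +kernel))
noncomputable def rh990f63a9b2e2f427 : CRef := CRef.mk (Pat.mk 0x700000000000000020000000200000002 0x10000000700000006000000020000000200000002 2 3) 0 0 (step_sound _ 97 [(rh50fbb5868c909700.shift 0 1), (rhbaefcd01e0a8bca3.shift 1 0)] (by decide +kernel))
noncomputable def rhfc7c29d8e65d775f : CRef := CRef.mk (Pat.mk 0x3000000030000000200000000 0x10000000100000003000000030000000200000002 2 2) 0 0 (step_sound _ 128 [(rh2145e1d24b96a57e.shift 0 1), rh7b1f1fb55310c477] (by decide +kernel))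
noncomputable def rh8c06fcaa7889ed14 : CRef := CRef.mk (Pat.mk 0x1c00000009000000080000000800000000 0x1c0000000f000000080000000800000008 2 5) 0 0 (step_sound _ 98 [(rh24ae073cf30720c4.shift 0 3), (rh7b1f1fb55310c477.shift 2 0)] (by decide +kernel))
noncomputable def rh47cbca82c94c0c1a : CRef := CRef.mk (Pat.mk 0x300000000000000010000000100000001 0x20000000300000003000000010000000100000001 2 2) 0 0 (step_sound _ 96 [(rh2f68792b6b779e96.shift 0 1), rhbaefcd01e0a8bca3] (by decide +kernel))
noncomputable def rheff610e725081997 : CRef := CRef.mk (Pat.mk 0xb00000007 0x1b0000001f 2 5) 0 0 (step_sound _ 3 [rh33e738c4ed385b9f, rhf48373e13d2bc128] (by decide +kernel))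
noncomputable def rhf56e6bc5d2f7fe77 : CRef := CRef.mk (Pat.mk 0x180000001c00000010 0x180000001f00000030 2 6) 0 0 (step_sound _ 33 [(rh53b3c253cb0c65f4.shift 0 1), (rhe25b0a99195a5d59.shift 1 0)] (by decide +kernel))
noncomputable def rh78974448101547fe : CRef := CRef.mk (Pat.mk 0x40000000c0000000f0000000000000000 0x40000000c0000000f0000001800000008 2 5) 0 0 (step_sound _ 35 [(rh7b1f1fb55310c477.shift 2 0), (rhe25b0a99195a5d59.shift 0 1)] (by decide +kernel))
noncomputable def rh9d1165924047d7d0 : CRef := CRef.mk (Pat.mk 0x20000000200000001000000010000000100000000 0x2000000020000000200000003000000010000000100000001 2 2) 0 0 (step_sound _ 97 [(rh5c5e593799055d58.shift 0 2), rh71222050f2c63a3a] (by decide +kernel))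
noncomputable def rh88ff8f7539aa90a1 : CRef := CRef.mk (Pat.mk 0x200000002000000010000000100000001 0x20000000200000002000000030000000300000001 2 2) 0 0 (step_sound _ 65 [(rh5c5e593799055d58.shift 0 1), rheea67dfebd0f8008] (by decide +kernel))
noncomputable def rh488955a31400a0ac : CRef := CRef.mk (Pat.mk 0x20000000200000001000000010000000100000000 0x20000000200000003000000030000000100000001 2 2) 0 0 (step_sound _ 97 [rh71222050f2c63a3a, (rheea67dfebd0f8008.shift 0 1)] (by decide +kernel))
noncomputable def rh31c4a1fa6139236a : CRef := CRef.mk (Pat.mk 0x100000001000000010000000200000002 0x10000000100000003000000030000000200000002 2 2) 0 0 (step_sound _ 65 [(rh2145e1d24b96a57e.shift 0 1), rhcfdf45280693d3da] (by decide +kernel))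
noncomputable def rha47ad4ccca5a74e7 : CRef := CRef.mk (Pat.mk 0x20000000200000002000000010000000100000000 0x20000000300000003000000010000000100000001 2 2) 0 0 (step_sound _ 96 [(rh1006c02ae4212ff0.shift 0 1), rh71222050f2c63a3a] (by decide +kernel))
noncomputable def rha5c1ac488360e009 : CRef := CRef.mk (Pat.mk 0x20000000000000003000000010000000100000000 0x2000000020000000200000003000000010000000100000001 2 2) 0 0 (step_sound _ 129 [(rh5c5e593799055d58.shift 0 2), rh71222050f2c63a3a] (by decide +kernel))
noncomputable def rh481f8e6e6b31660c : CRef := CRef.mk (Pat.mk 0x800000000000000080000000700000004 0x800000008000000180000000f00000004 2 5) 0 0 (step_sound _ 35 [(rh33e738c4ed385b9f.shift 0 1), (rhee230b994cc8b773.shift 2 0)] (by decide +kernel))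
noncomputable def rh7e143111a189f2ad : CRef := CRef.mk (Pat.mk 0x80000000d0000000800000008 0x10000000180000000f0000000800000008 2 5) 0 0 (step_sound _ 100 [(rh24ae073cf30720c4.shift 0 2), (rh2f68792b6b779e96.shift 3 0)] (by decide +kernel))
noncomputable def rh6e1685e3533aff0e : CRef := CRef.mk (Pat.mk 0x1a0000001a 0x1b0000001f 2 5) 0 0 (step_sound _ 2 [rh3244c3cc8379b070, rh53b3c253cb0c65f4] (by decide +kernel))
noncomputable def rha3d4138a5939a4eb : CRef := CRef.mk (Pat.mk 0x400000004000000000000001e00000002 0x400000006000000030000001e00000002 2 5) 0 0 (step_sound _ 65 [(rh1006c02ae4212ff0.shift 1 0), (rh3244c3cc8379b070.shift 0 1)] (by decide +kernel))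
noncomputable def rh993fdb6c3ac61b99 : CRef := CRef.mk (Pat.mk 0x200000002000000000000001e00000000 0x200000002000000030000001e00000004 2 5) 0 0 (step_sound _ 65 [(rh3244c3cc8379b070.shift 0 1), (rh55afc6a59410cf00.shift 1 0)] (by decide +kernel))
noncomputable def rh39f426ebe0691969 : CRef := CRef.mk (Pat.mk 0x180000001a00000010 0x180000001f00000030 2 6) 0 0 (step_sound _ 34 [(rh53b3c253cb0c65f4.shift 0 1), (rhe25b0a99195a5d59.shift 1 0)] (by decide +kernel))
noncomputable def rhb26c4cb6e324606a : CRef := CRef.mk (Pat.mk 0x300000000e 0x780000000f 2 7) 0 0 (step_sound _ 35 [(rh18965a982d73c794.shift 2 0), rh53b3c253cb0c65f4] (by decide +kernel))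
noncomputable def rh3cffad1d01f3c270 : CRef := CRef.mk (Pat.mk 0x1000000160000000200000002 0x1000000030000001e0000000200000002 2 5) 0 0 (step_sound _ 97 [(rh2fe78cc5ca4405d8.shift 0 2), rh50fbb5868c909700] (by decide +kernel))
noncomputable def rh76470ef0e61bbc2e : CRef := CRef.mk (Pat.mk 0xf000000080000000400000004 0x180000000f000000080000000c00000004 2 5) 0 0 (step_sound _ 131 [(rh33e738c4ed385b9f.shift 0 3), (rheea67dfebd0f8008.shift 2 0)] (by decide +kernel))
noncomputable def rh4fc80024ed3db095 : CRef := CRef.mk (Pat.mk 0xf000000000000000400000004 0x180000000f000000040000000400000004 2 5) 0 0 (step_sound _ 131 [(rh04253f50b6dd0619.shift 2 0), (rh33e738c4ed385b9f.shift 0 3)] (by decide +kernel))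
noncomputable def rhe383b718e2292d99 : CRef := CRef.mk (Pat.mk 0x20000000200000002000000010000000100000000 0x2000000020000000200000003000000010000000100000001 2 2) 0 0 (step_sound _ 96 [(rh5c5e593799055d58.shift 0 2), rh71222050f2c63a3a] (by decide +kernel))
noncomputable def rhf9af042da61fc652 : CRef := CRef.mk (Pat.mk 0x20000000200000003000000010000000000000000 0x20000000300000003000000010000000100000001 2 2) 0 0 (step_sound _ 32 [(rh1006c02ae4212ff0.shift 0 1), rh71222050f2c63a3a] (by decide +kernel))
noncomputable def rha083a0278e51c6da : CRef := CRef.mk (Pat.mk 0x3000000180000000c00000004 0x80000000f000000180000000c00000004 2 5) 0 0 (step_sound _ 99 [(rh5c5e593799055d58.shift 2 0), (rhc10214bf3fe8094a.shift 0 2)] (by decide +kernel))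
noncomputable def rhcaa7ba44a31c4370 : CRef := CRef.mk (Pat.mk 0x1600000012 0x1e00000033 2 6) 0 0 (step_sound _ 35 [(rhe25b0a99195a5d59.shift 1 0), rheb0810cc63b001d8] (by decide +kernel))
noncomputable def rh2429dd5fedec43ba : CRef := CRef.mk (Pat.mk 0x400000004000000060000001c 0x40000000400000004000000070000001e 2 5) 0 0 (step_sound _ 1 [rh3244c3cc8379b070, (rh5c5e593799055d58.shift 1 0)] (by decide +kernel))
noncomputable def rh7b39ca72a85b3dac : CRef := CRef.mk (Pat.mk 0x10000000200000002000000020000000100000000 0x10000000300000002000000020000000300000001 2 2) 0 0 (step_sound _ 33 [rh932754581e0f4330, (rhffd04209dc8ea796.shift 0 1)] (by decide +kernel))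
noncomputable def rh26296021211e31e0 : CRef := CRef.mk (Pat.mk 0x4000000040000000e00000010 0x400000004000000040000000f00000018 2 5) 0 0 (step_sound _ 3 [(rh2145e1d24b96a57e.shift 2 0), rhb739f4f82bb681b4] (by decide +kernel))
noncomputable def rh571950d89739e871 : CRef := CRef.mk (Pat.mk 0x2000000030000000700000000 0x20000000200000002000000030000000700000004 2 3) 0 0 (step_sound _ 129 [(rh55afc6a59410cf00.shift 1 0), (rh5c5e593799055d58.shift 0 1)] (by decide +kernel))
noncomputable def rha5e792840d70b272 : CRef := CRef.mk (Pat.mk 0x160000000a0000000800000008 0x100000001e0000000b0000000800000008 2 5) 0 0 (step_sound _ 99 [(rh2f68792b6b779e96.shift 3 0), (rheb0810cc63b001d8.shift 0 2)] (by decide +kernel))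
noncomputable def rh8b14df1b185c100a : CRef := CRef.mk (Pat.mk 0x2000000050000000500000005 0x200000007000000050000000500000005 2 3) 0 0 (step_sound _ 129 [rh1006c02ae4212ff0, (rhcfdf45280693d3da.shift 1 0)] (by decide +kernel))
noncomputable def rh602fc714717c5492 : CRef := CRef.mk (Pat.mk 0x700000008000000080000000800000008 0x1f00000018000000080000000800000008 2 5) 0 0 (step_sound _ 100 [(rh2f68792b6b779e96.shift 3 0), (rhd6e447e81774439e.shift 0 3)] (by decide +kernel))
noncomputable def rhf2348089b610990c : CRef := CRef.mk (Pat.mk 0x20000000000000001000000010000000100000001 0x20000000300000003000000010000000100000001 2 2) 0 0 (step_sound _ 129 [(rh1006c02ae4212ff0.shift 0 1), rhbaefcd01e0a8bca3] (by decide +kernel))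
noncomputable def rh7c22db35c48b205c : CRef := CRef.mk (Pat.mk 0x300000012000000080000000800000008 0x130000001e000000080000000800000008 2 5) 0 0 (step_sound _ 99 [(rh2f68792b6b779e96.shift 3 0), (rh5419adcd928dba20.shift 0 3)] (by decide +kernel))
noncomputable def rh8284118167888cf9 : CRef := CRef.mk (Pat.mk 0x80000000700000003 0x180000001f00000003 2 5) 0 0 (step_sound _ 35 [rh18965a982d73c794, (rh33e738c4ed385b9f.shift 0 1)] (by decide +kernel))
noncomputable def rhee0891bc88ee3f94 : CRef := CRef.mk (Pat.mk 0x100000000e00000002 0x300000001e00000003 2 6) 0 0 (step_sound _ 36 [(rh33e738c4ed385b9f.shift 1 1), rheb0810cc63b001d8] (by decide +kernel))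
noncomputable def rh712526e472efe489 : CRef := CRef.mk (Pat.mk 0x6000000070000000400000004 0x80000001e000000070000000400000004 2 5) 0 0 (step_sound _ 99 [(rh18965a982d73c794.shift 0 2), (rh2f68792b6b779e96.shift 2 0)] (by decide +kernel))
noncomputable def rh206c5e04f2281389 : CRef := CRef.mk (Pat.mk 0x800000007000000000000000400000004 0x180000000f000000040000000400000004 2 5) 0 0 (step_sound _ 99 [(rh04253f50b6dd0619.shift 2 0), (rh33e738c4ed385b9f.shift 0 3)] (by decide +kernel))
noncomputable def rhb5e747220bd827fa : CRef := CRef.mk (Pat.mk 0x80000000f000000000000000400000004 0x80000000f000000180000000c00000004 2 5) 0 0 (step_sound _ 67 [(rhe25b0a99195a5d59.shift 0 2), (rheea67dfebd0f8008.shift 2 0)] (by decide +kernel))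
noncomputable def rhcf9240a90a4519c3 : CRef := CRef.mk (Pat.mk 0xf000000080000000800000004 0x180000000f000000080000000c00000004 2 5) 0 0 (step_sound _ 131 [(rh33e738c4ed385b9f.shift 0 3), (rh79877ebd3ef475dd.shift 2 0)] (by decide +kernel))
noncomputable def rhe2b63c00a3d7bb73 : CRef := CRef.mk (Pat.mk 0xc0000001c 0xf0000003c 2 6) 0 0 (step_sound _ 33 [rhb739f4f82bb681b4, (rhf48373e13d2bc128.shift 1 0)] (by decide +kernel))
noncomputable def rh904f7fcbaab6c494 : CRef := CRef.mk (Pat.mk 0x1c00000022 0x1e00000033 2 6) 0 0 (step_sound _ 33 [(rh96851dee118c1ba3.shift 1 0), rheb0810cc63b001d8] (by decide +kernel))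
noncomputable def rhb009278fdd334770 : CRef := CRef.mk (Pat.mk 0x200000000000000030000000100000001 0x20000000200000002000000030000000300000001 2 2) 0 0 (step_sound _ 97 [(rh5c5e593799055d58.shift 0 1), rheea67dfebd0f8008] (by decide +kernel))
noncomputable def rh2f6cd3183cec8379 : CRef := CRef.mk (Pat.mk 0x2000000020000000200000005 0x200000002000000020000000700000005 2 3) 0 0 (step_sound _ 129 [rh79877ebd3ef475dd, (rhd3458b32566d63f7.shift 1 0)] (by decide +kernel))
noncomputable def rh62ee6b8370225d67 : CRef := CRef.mk (Pat.mk 0xe0000000c00000006 0xf0000003c00000006 2 6) 0 0 (step_sound _ 36 [(rh18965a982d73c794.shift 1 0), (rhb739f4f82bb681b4.shift 0 1)] (by decide +kernel))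
noncomputable def rh05fc677417852bbe : CRef := CRef.mk (Pat.mk 0x700000010000000080000000800000008 0x1f00000018000000080000000800000008 2 5) 0 0 (step_sound _ 99 [(rh2f68792b6b779e96.shift 3 0), (rhd6e447e81774439e.shift 0 3)] (by decide +kernel))
noncomputable def rhde10baa3043a2b46 : CRef := CRef.mk (Pat.mk 0x2000000020000000700000000 0x200000002000000020000000700000005 2 3) 0 0 (step_sound _ 129 [(rh55afc6a59410cf00.shift 1 0), rh932754581e0f4330] (by decide +kernel))
noncomputable def rh95ea0015722389b9 : CRef := CRef.mk (Pat.mk 0x100000001000000030000000200000000 0x100000003000000030000000300000002 2 2) 0 0 (step_sound _ 1 [rhbe0e43a3bc50a43f, rhcfdf45280693d3da] (by decide +kernel))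
noncomputable def rhe410088c7bc5bca8 : CRef := CRef.mk (Pat.mk 0x10000000100000001000000010000000000000002 0x10000000100000001000000030000000300000002 2 2) 0 0 (step_sound _ 33 [rhbe0e43a3bc50a43f, (rhd3458b32566d63f7.shift 0 1)] (by decide +kernel))
noncomputable def rh52dc0b448901c5de : CRef := CRef.mk (Pat.mk 0x2000000160000000200000002 0x1000000030000001e0000000200000002 2 5) 0 0 (step_sound _ 96 [(rh2fe78cc5ca4405d8.shift 0 2), rh50fbb5868c909700] (by decide +kernel))
noncomputable def rhcda1a83d49cc23b4 : CRef := CRef.mk (Pat.mk 0x100000007e 0x1c0000007f 2 7) 0 0 (step_sound _ 35 [(rh3244c3cc8379b070.shift 2 0), rh53b3c253cb0c65f4] (by decide +kernel))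
noncomputable def rh34517e326ddb5b25 : CRef := CRef.mk (Pat.mk 0x100000001c00000018 0x300000001f00000018 2 6) 0 0 (step_sound _ 33 [(rh33e738c4ed385b9f.shift 1 1), rhb739f4f82bb681b4] (by decide +kernel))
noncomputable def rh2bbc4934553ffbfd : CRef := CRef.mk (Pat.mk 0x40000000f000000000000000800000000 0x40000000f000000180000000800000008 2 5) 0 0 (step_sound _ 67 [(rh7b1f1fb55310c477.shift 2 0), (rhe25b0a99195a5d59.shift 0 2)] (by decide +kernel))
noncomputable def rh2e02ae96d64880aa : CRef := CRef.mk (Pat.mk 0x500000002000000020000000200000000 0x500000007000000020000000200000002 2 3) 0 0 (step_sound _ 1 [(rhbaefcd01e0a8bca3.shift 1 0), rhffd04209dc8ea796] (by decide +kernel))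
noncomputable def rhc5a4e22e386e96c0 : CRef := CRef.mk (Pat.mk 0x2000000020000000f0000000100000000 0x2000000030000001f0000000100000001 2 5) 0 0 (step_sound _ 96 [rh71222050f2c63a3a, (rhf48373e13d2bc128.shift 0 2)] (by decide +kernel))
noncomputable def rh7b030ba967bf927e : CRef := CRef.mk (Pat.mk 0x20000000e00000001 0x30000001e00000003 2 5) 0 0 (step_sound _ 36 [(rh3244c3cc8379b070.shift 0 1), rh80fcd6d0a18cb2dd] (by decide +kernel))
noncomputable def rhddb24c61d0a0d35a : CRef := CRef.mk (Pat.mk 0x280000000e 0x380000001f 2 6) 0 0 (step_sound _ 36 [(rh3fc040e777f1679e.shift 1 0), rh53b3c253cb0c65f4] (by decide +kernel))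
noncomputable def rhdd1b84382d19bcbb : CRef := CRef.mk (Pat.mk 0x300000003000000000000000200000000 0x10000000300000003000000020000000200000002 2 2) 0 0 (step_sound _ 65 [(rh50fbb5868c909700.shift 0 1), rh7b1f1fb55310c477] (by decide +kernel))
noncomputable def rh8797c67fe3ac847a : CRef := CRef.mk (Pat.mk 0xa000000030000000200000002 0x40000001e000000030000000200000002 2 5) 0 0 (step_sound _ 98 [(rh18965a982d73c794.shift 0 2), (rh2f68792b6b779e96.shift 1 0)] (by decide +kernel))
noncomputable def rh309fd0c3d364cd61 : CRef := CRef.mk (Pat.mk 0x1e0000000600000004 0x2000000030000001e0000000600000004 2 5) 0 0 (step_sound _ 97 [(rh2145e1d24b96a57e.shift 1 0), (rh3244c3cc8379b070.shift 0 2)] (by decide +kernel))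
noncomputable def rh261f868a429ae0e3 : CRef := CRef.mk (Pat.mk 0x7000000020000000200000000 0x500000007000000020000000200000002 2 3) 0 0 (step_sound _ 1 [(rh2f68792b6b779e96.shift 1 0), rh50fbb5868c909700] (by decide +kernel))
noncomputable def rh5360fcf49c083c33 : CRef := CRef.mk (Pat.mk 0x180000001600000010 0x180000001f00000030 2 6) 0 0 (step_sound _ 35 [(rh53b3c253cb0c65f4.shift 0 1), (rhe25b0a99195a5d59.shift 1 0)] (by decide +kernel))
noncomputable def rh277b01412deaec89 : CRef := CRef.mk (Pat.mk 0xc0000001c0000000400000004 0x20000000f0000001c0000000400000004 2 5) 0 0 (step_sound _ 97 [(rh50fbb5868c909700.shift 1 0), (rhb739f4f82bb681b4.shift 0 2)] (by decide +kernel))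
noncomputable def rh2fa8d21c5aa19bed : CRef := CRef.mk (Pat.mk 0x700000012000000020000000200000000 0x70000001e000000020000000200000002 2 5) 0 0 (step_sound _ 98 [(rh2fe78cc5ca4405d8.shift 0 3), (rh71222050f2c63a3a.shift 1 0)] (by decide +kernel))
noncomputable def rh432c477e19b8a62d : CRef := CRef.mk (Pat.mk 0x80000001e0000001000000010 0x8000000180000001f0000001000000010 2 5) 0 0 (step_sound _ 100 [(rh50fbb5868c909700.shift 3 0), (rh53b3c253cb0c65f4.shift 0 2)] (by decide +kernel))
noncomputable def rhcb763b151dc90fdc : CRef := CRef.mk (Pat.mk 0x20000001c00000002 0x30000001e00000003 2 5) 0 0 (step_sound _ 33 [(rh3244c3cc8379b070.shift 0 1), rheb0810cc63b001d8] (by decide +kernel))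
noncomputable def rh6435f49d52942911 : CRef := CRef.mk (Pat.mk 0x1000000000000000100000002000000020000000200000000 0x1000000010000000100000003000000020000000200000002 2 2) 0 0 (step_sound _ 96 [(rh6f1cbe15c631ee70.shift 0 2), rh7b1f1fb55310c477] (by decide +kernel))
noncomputable def rh68f8892967f6a502 : CRef := CRef.mk (Pat.mk 0x800000007000000040000000000000004 0x180000000f000000040000000400000004 2 5) 0 0 (step_sound _ 99 [(rh33e738c4ed385b9f.shift 0 3), (rh9e3edb185cc347de.shift 2 0)] (by decide +kernel))
noncomputable def rhc09e660f269c5d72 : CRef := CRef.mk (Pat.mk 0x20000001f000000000000000000000001 0x20000001f000000030000000100000001 2 5) 0 0 (step_sound _ 64 [(rh80fcd6d0a18cb2dd.shift 0 2), rh9e3edb185cc347de] (by decide +kernel))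
noncomputable def rh1b8d735d1ec00cd4 : CRef := CRef.mk (Pat.mk 0x400000007000000080000000800000000 0x40000000f000000180000000800000008 2 5) 0 0 (step_sound _ 99 [(rh7b1f1fb55310c477.shift 2 0), (rhe25b0a99195a5d59.shift 0 2)] (by decide +kernel))
noncomputable def rh0da3f8d18d3a0dfd : CRef := CRef.mk (Pat.mk 0x1e000000040000000000000004 0x30000001e000000040000000400000004 2 5) 0 0 (step_sound _ 129 [(rh3244c3cc8379b070.shift 0 3), (rh9e07f76261b05888.shift 1 0)] (by decide +kernel))
noncomputable def rhd02f44a45c1a55c1 : CRef := CRef.mk (Pat.mk 0x700000003000000000000000200000000 0x40000000700000003000000020000000200000002 2 3) 0 0 (step_sound _ 65 [(rh2f68792b6b779e96.shift 1 1), rh7b1f1fb55310c477] (by decide +kernel))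
noncomputable def rh30f28c240d9ae43e : CRef := CRef.mk (Pat.mk 0x100000003000000010000000000000002 0x100000003000000030000000300000002 2 2) 0 0 (step_sound _ 33 [rh2613c889e411427e, rhbe0e43a3bc50a43f] (by decide +kernel))
noncomputable def rh5421160f8e9bcf07 : CRef := CRef.mk (Pat.mk 0xf0000000c00000004 0x8000000180000000f0000000c00000004 2 5) 0 0 (step_sound _ 99 [(rh33e738c4ed385b9f.shift 0 2), (rh5c5e593799055d58.shift 2 0)] (by decide +kernel))
noncomputable def rh16567ae718d9fd54 : CRef := CRef.mk (Pat.mk 0x1000000020000000300000003 0x300000003000000020000000300000003 2 2) 0 0 (step_sound _ 97 [rh50fbb5868c909700, rh5c5e593799055d58] (by decide +kernel))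
noncomputable def rh3098af7943687178 : CRef := CRef.mk (Pat.mk 0x400000000000000040000000f00000000 0x400000004000000040000000f00000018 2 5) 0 0 (step_sound _ 3 [(rh6f1cbe15c631ee70.shift 2 0), rhe25b0a99195a5d59] (by decide +kernel))
noncomputable def rh8c2ed6f91ff57e60 : CRef := CRef.mk (Pat.mk 0xf000000000000000c00000004 0x80000000f000000180000000c00000004 2 5) 0 0 (step_sound _ 67 [(rh5c5e593799055d58.shift 2 0), (rhe25b0a99195a5d59.shift 0 2)] (by decide +kernel))
noncomputable def rh738bf2a8dabcdb1a : CRef := CRef.mk (Pat.mk 0x20000001c000000040000000000000004 0x30000001e000000040000000400000004 2 5) 0 0 (step_sound _ 97 [(rh3244c3cc8379b070.shift 0 3), (rh9e07f76261b05888.shift 1 0)] (by decide +kernel))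
noncomputable def rhc93583770a36d0f1 : CRef := CRef.mk (Pat.mk 0x700000006000000000000000200000000 0x10000000700000006000000020000000200000002 2 3) 0 0 (step_sound _ 65 [(rh50fbb5868c909700.shift 0 1), (rh71222050f2c63a3a.shift 1 0)] (by decide +kernel))
noncomputable def rh35ab8589afe62dd0 : CRef := CRef.mk (Pat.mk 0x6000000070000000500000000 0x20000000200000006000000070000000500000004 2 3) 0 0 (step_sound _ 129 [(rh5c5e593799055d58.shift 0 1), (rh7b1f1fb55310c477.shift 1 0)] (by decide +kernel))
noncomputable def rh710860539a4c4362 : CRef := CRef.mk (Pat.mk 0x1c0000001a 0x1f0000001b 2 5) 0 0 (step_sound _ 33 [rhb739f4f82bb681b4, rheb0810cc63b001d8] (by decide +kernel))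
noncomputable def rh43c8f812062765a8 : CRef := CRef.mk (Pat.mk 0x20000000100000001000000010000000000000002 0x20000000300000001000000010000000300000002 2 2) 0 0 (step_sound _ 32 [(rhbaefcd01e0a8bca3.shift 0 1), rhd3458b32566d63f7] (by decide +kernel))
noncomputable def rh9b32778d424b58d6 : CRef := CRef.mk (Pat.mk 0x200000000000000020000000700000000 0x200000002000000020000000700000005 2 3) 0 0 (step_sound _ 97 [(rh55afc6a59410cf00.shift 1 0), rh932754581e0f4330] (by decide +kernel))
noncomputable def rh51246ab843efda05 : CRef := CRef.mk (Pat.mk 0x20000001600000002 0x30000001e00000003 2 5) 0 0 (step_sound _ 35 [(rh3244c3cc8379b070.shift 0 1), rheb0810cc63b001d8] (by decide +kernel))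
noncomputable def rhfc72877972d3f83f : CRef := CRef.mk (Pat.mk 0x10000000200000002000000020000000000000004 0x10000000300000002000000020000000600000004 2 3) 0 0 (step_sound _ 33 [(rhd3458b32566d63f7.shift 1 0), (rhffd04209dc8ea796.shift 0 1)] (by decide +kernel))
noncomputable def rh756bf0ac35c4fb2d : CRef := CRef.mk (Pat.mk 0x2000000000000001e00000004 0x200000002000000030000001e00000004 2 5) 0 0 (step_sound _ 65 [(rh2145e1d24b96a57e.shift 1 0), (rh3244c3cc8379b070.shift 0 1)] (by decide +kernel))
noncomputable def rha25c0e62bb8d55c9 : CRef := CRef.mk (Pat.mk 0x1e000000020000000200000002 0x30000001f000000020000000200000002 2 5) 0 0 (step_sound _ 128 [(rh3f8766e6ecb455ce.shift 0 3), rhffd04209dc8ea796] (by decide +kernel))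
noncomputable def rh664c8f4d02ce4add : CRef := CRef.mk (Pat.mk 0xf000000080000000c00000000 0x180000000f000000080000000c00000004 2 5) 0 0 (step_sound _ 131 [(rh33e738c4ed385b9f.shift 0 3), (rh932754581e0f4330.shift 2 0)] (by decide +kernel))
noncomputable def rh82bd946b1709a78e : CRef := CRef.mk (Pat.mk 0x2000000010000000300000003 0x300000003000000010000000300000003 2 2) 0 0 (step_sound _ 96 [rh2145e1d24b96a57e, rh2f68792b6b779e96] (by decide +kernel))
noncomputable def rhd8be3b7ca6adb62f : CRef := CRef.mk (Pat.mk 0xa0000001a 0xf0000001e 2 5) 0 0 (step_sound _ 32 [rh5419adcd928dba20, rhc10214bf3fe8094a] (by decide +kernel))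
noncomputable def rhd1f9989d6034576a : CRef := CRef.mk (Pat.mk 0x7000000020000000000000002 0x500000007000000020000000200000002 2 3) 0 0 (step_sound _ 33 [(rh2f68792b6b779e96.shift 1 0), rh50fbb5868c909700] (by decide +kernel))
noncomputable def rhdb89fb63ff941e36 : CRef := CRef.mk (Pat.mk 0x40000000f000000000000000000000008 0x40000000f000000180000000800000008 2 5) 0 0 (step_sound _ 67 [(rh9e07f76261b05888.shift 2 0), (rhe25b0a99195a5d59.shift 0 2)] (by decide +kernel))
noncomputable def rh3b5346b2e316d790 : CRef := CRef.mk (Pat.mk 0x10000000100000003000000000000000200000000 0x10000000300000003000000020000000200000002 2 2) 0 0 (step_sound _ 65 [rh7b1f1fb55310c477, (rhcfdf45280693d3da.shift 0 1)] (by decide +kernel))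
noncomputable def rh2818863d77d69ed0 : CRef := CRef.mk (Pat.mk 0x200000002000000020000000500000000 0x200000002000000020000000700000005 2 3) 0 0 (step_sound _ 33 [(rh55afc6a59410cf00.shift 1 0), rh932754581e0f4330] (by decide +kernel))
noncomputable def rh54abdced1742da06 : CRef := CRef.mk (Pat.mk 0x100000001000000030000000000000002 0x10000000100000001000000030000000300000002 2 2) 0 0 (step_sound _ 33 [(rh2145e1d24b96a57e.shift 0 1), rhbe0e43a3bc50a43f] (by decide +kernel))
noncomputable def rh0a35b857afa49c0f : CRef := CRef.mk (Pat.mk 0x1a00000022 0x1e00000033 2 6) 0 0 (step_sound _ 34 [(rh96851dee118c1ba3.shift 1 0), rheb0810cc63b001d8] (by decide +kernel))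
noncomputable def rh0685793aeb58379e : CRef := CRef.mk (Pat.mk 0xe0000000d00000010 0x1e0000000f00000018 2 5) 0 0 (step_sound _ 33 [(rh18965a982d73c794.shift 0 1), rh96851dee118c1ba3] (by decide +kernel))
noncomputable def rh48864364f4a2304e : CRef := CRef.mk (Pat.mk 0x8000000080000000b00000004 0x800000008000000180000000f00000004 2 5) 0 0 (step_sound _ 34 [(rh33e738c4ed385b9f.shift 0 1), (rh5c5e593799055d58.shift 2 0)] (by decide +kernel))
noncomputable def rh6da1cd319b2afcb1 : CRef := CRef.mk (Pat.mk 0x100000001000000020000000200000002 0x10000000100000001000000030000000300000002 2 2) 0 0 (step_sound _ 64 [(rh2145e1d24b96a57e.shift 0 1), rhbe0e43a3bc50a43f] (by decide +kernel))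
noncomputable def rh9f2591205204f08d : CRef := CRef.mk (Pat.mk 0xa0000000b 0x1e0000000f 2 5) 0 0 (step_sound _ 36 [rh1c62b6193297d9e3, rhb2a0b9ccfb5cecd5] (by decide +kernel))
noncomputable def rh55cb5b5f992d4e9d : CRef := CRef.mk (Pat.mk 0x80000000e0000001000000010 0x8000000080000000f0000001800000010 2 5) 0 0 (step_sound _ 35 [(rh2145e1d24b96a57e.shift 3 0), (rhb739f4f82bb681b4.shift 0 1)] (by decide +kernel))
noncomputable def rhbd55d8419891313d : CRef := CRef.mk (Pat.mk 0x4000000020000000300000003 0x600000006000000020000000300000003 2 3) 0 0 (step_sound _ 97 [(rh2f68792b6b779e96.shift 1 0), rh5c5e593799055d58] (by decide +kernel))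
noncomputable def rh2d65c91b9f714cee : CRef := CRef.mk (Pat.mk 0x8000000080000000d0000000800000000 0x8000000080000000f0000001800000010 2 5) 0 0 (step_sound _ 36 [(rh55afc6a59410cf00.shift 3 0), (rhab22b5b56e7b3243.shift 0 1)] (by decide +kernel))
noncomputable def rhae2edff970a530ce : CRef := CRef.mk (Pat.mk 0x70000000c 0xf0000001e 2 5) 0 0 (step_sound _ 4 [rh09d4dfe75d4407d6, rhd6e447e81774439e] (by decide +kernel))
noncomputable def rh6a56790be92093bf : CRef := CRef.mk (Pat.mk 0x200000002000000030000000a00000000 0x200000002000000030000001e00000004 2 5) 0 0 (step_sound _ 34 [(rh55afc6a59410cf00.shift 1 0), (rhf48373e13d2bc128.shift 0 1)] (by decide +kernel))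
noncomputable def rhbdd4e349c1dde679 : CRef := CRef.mk (Pat.mk 0x100000002000000020000000300000000 0x10000000300000002000000020000000300000001 2 2) 0 0 (step_sound _ 129 [(rh50fbb5868c909700.shift 0 1), rh932754581e0f4330] (by decide +kernel))
noncomputable def rhc0daf918bbfda8d7 : CRef := CRef.mk (Pat.mk 0xc0000000b0000000800000008 0x100000001e0000000b0000000800000008 2 5) 0 0 (step_sound _ 100 [(rh2f68792b6b779e96.shift 3 0), (rhca9569cc80abfe76.shift 0 2)] (by decide +kernel))
noncomputable def rh1f1e441d7d62538e : CRef := CRef.mk (Pat.mk 0x10000000100000001000000020000000200000000 0x10000000300000003000000020000000200000002 2 2) 0 0 (step_sound _ 97 [rh7b1f1fb55310c477, (rhcfdf45280693d3da.shift 0 1)] (by decide +kernel))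
noncomputable def rh2c7fc7a7cc8a47be : CRef := CRef.mk (Pat.mk 0x300000003000000000000000100000000 0x20000000300000003000000010000000100000001 2 2) 0 0 (step_sound _ 64 [(rh2f68792b6b779e96.shift 0 1), rh71222050f2c63a3a] (by decide +kernel))
noncomputable def rhbca71ab025ef4262 : CRef := CRef.mk (Pat.mk 0x70000000b 0x1f0000001b 2 5) 0 0 (step_sound _ 35 [rh18965a982d73c794, rhe25b0a99195a5d59] (by decide +kernel))
noncomputable def rh47ab86d89ce68610 : CRef := CRef.mk (Pat.mk 0x200000001000000010000000100000002 0x20000000300000001000000010000000300000002 2 2) 0 0 (step_sound _ 128 [(rh2f68792b6b779e96.shift 0 1), rhd3458b32566d63f7] (by decide +kernel))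
noncomputable def rh5ddbeed5d869bf16 : CRef := CRef.mk (Pat.mk 0x200000003000000020000000100000000 0x200000003000000030000000300000001 2 2) 0 0 (step_sound _ 0 [rh04253f50b6dd0619, rheea67dfebd0f8008] (by decide +kernel))
noncomputable def rhf48d93cb7a9e42c5 : CRef := CRef.mk (Pat.mk 0x20000000100000001000000010000000200000000 0x20000000300000001000000010000000300000002 2 2) 0 0 (step_sound _ 32 [rh55afc6a59410cf00, (rhbaefcd01e0a8bca3.shift 0 1)] (by decide +kernel))
noncomputable def rh80c59fdbc00f388c : CRef := CRef.mk (Pat.mk 0x300000002000000000000000600000000 0x10000000300000002000000020000000600000004 2 3) 0 0 (step_sound _ 65 [(rh50fbb5868c909700.shift 0 1), (rh55afc6a59410cf00.shift 1 0)] (by decide +kernel))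
noncomputable def rh6279f4d0e372f7fa : CRef := CRef.mk (Pat.mk 0x10000000e0000000200000002 0x1000000030000001e0000000200000002 2 5) 0 0 (step_sound _ 97 [rh50fbb5868c909700, (rhf48373e13d2bc128.shift 0 2)] (by decide +kernel))
noncomputable def rh3ac9195fb39bb3df : CRef := CRef.mk (Pat.mk 0x2000000020000000200000003000000020000000200000000 0x200000002000000020000000300000003000000020000000200000002 2 2) 0 0 (step_sound _ 128 [(rh5c5e593799055d58.shift 0 3), rh7b1f1fb55310c477] (by decide +kernel))
noncomputable def rh3cb04db3dd2b6a55 : CRef := CRef.mk (Pat.mk 0x300000003000000020000000000000000 0x10000000300000003000000020000000200000002 2 2) 0 0 (step_sound _ 33 [(rh50fbb5868c909700.shift 0 1), rh7b1f1fb55310c477] (by decide +kernel))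
noncomputable def rh78eadeed1cc7dfb8 : CRef := CRef.mk (Pat.mk 0xf00000004000000040000000400000000 0xf0000001c000000040000000400000004 2 5) 0 0 (step_sound _ 99 [(rh71222050f2c63a3a.shift 2 0), (rhe25b0a99195a5d59.shift 0 3)] (by decide +kernel))
noncomputable def rhf287f34f3759fe93 : CRef := CRef.mk (Pat.mk 0xe00000005000000040000000400000000 0x1e00000007000000040000000400000004 2 5) 0 0 (step_sound _ 97 [(rh18965a982d73c794.shift 0 3), (rh7b1f1fb55310c477.shift 1 0)] (by decide +kernel))
noncomputable def rh09a6fa4a6e52d577 : CRef := CRef.mk (Pat.mk 0x80000000700000010 0x180000000f00000018 2 5) 0 0 (step_sound _ 35 [(rh33e738c4ed385b9f.shift 0 1), rh96851dee118c1ba3] (by decide +kernel))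
noncomputable def rhb0914cf7a5069272 : CRef := CRef.mk (Pat.mk 0x400000006000000060000000700000000 0x20000000600000006000000060000000700000001 2 3) 0 0 (step_sound _ 129 [(rh50fbb5868c909700.shift 1 1), rh932754581e0f4330] (by decide +kernel))
noncomputable def rhca8ff71e16afefc5 : CRef := CRef.mk (Pat.mk 0x600000006000000040000000300000000 0x40000000600000006000000060000000300000001 2 3) 0 0 (step_sound _ 65 [(rh5c5e593799055d58.shift 1 1), rh932754581e0f4330] (by decide +kernel))
noncomputable def rhe3dc93746cbe6e7c : CRef := CRef.mk (Pat.mk 0x100000000e00000008 0x180000000f00000018 2 5) 0 0 (step_sound _ 32 [(rh428265de8cd3cd2d.shift 0 1), rhe25b0a99195a5d59] (by decide +kernel))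
noncomputable def rh5c17f1e02606ae02 : CRef := CRef.mk (Pat.mk 0x7000000060000000400000002 0x500000007000000060000000600000002 2 3) 0 0 (step_sound _ 33 [rh50fbb5868c909700, (rh5c5e593799055d58.shift 1 0)] (by decide +kernel))
noncomputable def rh132698b7c3848060 : CRef := CRef.mk (Pat.mk 0x3000000060000001e 0x30000003e0000001e 2 6) 0 0 (step_sound _ 36 [(rh2fe78cc5ca4405d8.shift 0 1), (rh33e738c4ed385b9f.shift 1 0)] (by decide +kernel))
noncomputable def rh6fcba015dedda42d : CRef := CRef.mk (Pat.mk 0x3000000020000001e00000000 0x100000003000000020000001e00000003 2 5) 0 0 (step_sound _ 1 [rh50fbb5868c909700, rheb0810cc63b001d8] (by decide +kernel))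
noncomputable def rhf221129318455305 : CRef := CRef.mk (Pat.mk 0x100000002000000020000001e00000000 0x100000003000000020000001e00000003 2 5) 0 0 (step_sound _ 1 [rheb0810cc63b001d8, rhffd04209dc8ea796] (by decide +kernel))
noncomputable def rhc29273f1bf96f971 : CRef := CRef.mk (Pat.mk 0x700000012 0xf0000001e 2 5) 0 0 (step_sound _ 3 [rh5419adcd928dba20, rhd6e447e81774439e] (by decide +kernel))
noncomputable def rh6835955021d3aba9 : CRef := CRef.mk (Pat.mk 0x100000000e0000000800000008 0x10000000180000000f0000000800000008 2 5) 0 0 (step_sound _ 99 [(rh2f68792b6b779e96.shift 3 0), (rh53b3c253cb0c65f4.shift 0 2)] (by decide +kernel))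
noncomputable def rh1e309b005ffa1b36 : CRef := CRef.mk (Pat.mk 0x200000003000000030000000000000000 0x20000000200000003000000030000000100000001 2 2) 0 0 (step_sound _ 32 [(rh5c5e593799055d58.shift 0 1), rh71222050f2c63a3a] (by decide +kernel))
noncomputable def rh5ef6dfbd1c7ee9de : CRef := CRef.mk (Pat.mk 0x400000004000000080000000f00000000 0x40000000c000000080000000f00000018 2 5) 0 0 (step_sound _ 3 [(rhcfdf45280693d3da.shift 2 0), rhe25b0a99195a5d59] (by decide +kernel))
noncomputable def rh1ae4704ae86cb9a8 : CRef := CRef.mk (Pat.mk 0x4000000040000001e00000000 0x400000004000000040000001e00000003 2 5) 0 0 (step_sound _ 1 [(rh5c5e593799055d58.shift 1 0), rheb0810cc63b001d8] (by decide +kernel))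
noncomputable def rh0caf077b5a27aa2e : CRef := CRef.mk (Pat.mk 0x200000000000000050000000500000005 0x200000007000000050000000500000005 2 3) 0 0 (step_sound _ 97 [rh1006c02ae4212ff0, (rhcfdf45280693d3da.shift 1 0)] (by decide +kernel))
noncomputable def rh6d571b54e8dd9e33 : CRef := CRef.mk (Pat.mk 0x180000001a 0x380000001f 2 6) 0 0 (step_sound _ 2 [(rh33e738c4ed385b9f.shift 1 0), rh53b3c253cb0c65f4] (by decide +kernel))
noncomputable def rhd477b85b65fed04a : CRef := CRef.mk (Pat.mk 0x3c00000001 0x3e00000007 2 6) 0 0 (step_sound _ 1 [(rh80fcd6d0a18cb2dd.shift 1 0), rhca9569cc80abfe76] (by decide +kernel))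
noncomputable def rh8249296aae70fe02 : CRef := CRef.mk (Pat.mk 0x1000000008000000080000000f00000000 0x1000000018000000080000000f00000018 2 5) 0 0 (step_sound _ 3 [(rhbaefcd01e0a8bca3.shift 3 0), rhe25b0a99195a5d59] (by decide +kernel))
noncomputable def rh795d3e5d420177aa : CRef := CRef.mk (Pat.mk 0x10000000e00000002 0x30000001e00000003 2 5) 0 0 (step_sound _ 36 [(rh3f8766e6ecb455ce.shift 0 1), rheb0810cc63b001d8] (by decide +kernel))
noncomputable def rh63bb60019a439056 : CRef := CRef.mk (Pat.mk 0x400000000000000040000001c00000002 0x400000004000000040000001e00000003 2 5) 0 0 (step_sound _ 33 [rheb0810cc63b001d8, (rhee230b994cc8b773.shift 1 0)] (by decide +kernel))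
noncomputable def rhe1a85963a7a8727e : CRef := CRef.mk (Pat.mk 0x1e000000000000000200000002 0x40000001e000000030000000200000002 2 5) 0 0 (step_sound _ 65 [(rh2f68792b6b779e96.shift 1 0), (rheb0810cc63b001d8.shift 0 2)] (by decide +kernel))
noncomputable def rh0c1db84848fdfb70 : CRef := CRef.mk (Pat.mk 0x4000000040000001c00000002 0x400000004000000040000001e00000003 2 5) 0 0 (step_sound _ 33 [(rh5c5e593799055d58.shift 1 0), rheb0810cc63b001d8] (by decide +kernel))
noncomputable def rha4720fb45e70ffc3 : CRef := CRef.mk (Pat.mk 0x1e00000000000000020000000600000000 0x1e00000003000000020000000600000004 2 5) 0 0 (step_sound _ 97 [(rh55afc6a59410cf00.shift 1 0), (rheb0810cc63b001d8.shift 0 3)] (by decide +kernel))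
noncomputable def rh8ddb7009c5639c8a : CRef := CRef.mk (Pat.mk 0x30000001a0000000200000002 0x40000000f0000001a0000000200000002 2 5) 0 0 (step_sound _ 98 [(rh2f68792b6b779e96.shift 1 0), (rhd6e447e81774439e.shift 0 2)] (by decide +kernel))
noncomputable def rh0102e0f3a8fa944d : CRef := CRef.mk (Pat.mk 0x1a000000020000000200000002 0x40000001e000000030000000200000002 2 5) 0 0 (step_sound _ 98 [(rh2f68792b6b779e96.shift 1 0), (rheb0810cc63b001d8.shift 0 2)] (by decide +kernel))
noncomputable def rhaa4f9b3b68e101c3 : CRef := CRef.mk (Pat.mk 0x1e00000010000000080000000800000000 0x1f00000018000000080000000800000008 2 5) 0 0 (step_sound _ 99 [(rh71222050f2c63a3a.shift 3 0), (rhb739f4f82bb681b4.shift 0 3)] (by decide +kernel))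
noncomputable def rheda2b94d1e8eeca0 : CRef := CRef.mk (Pat.mk 0x1e00000000000000040000000400000004 0x1e00000007000000040000000400000004 2 5) 0 0 (step_sound _ 97 [(rhcfdf45280693d3da.shift 1 0), (rheb0810cc63b001d8.shift 0 3)] (by decide +kernel))
noncomputable def rhb782824a29123179 : CRef := CRef.mk (Pat.mk 0x300000000000000020000000200000002 0x10000000300000003000000020000000200000002 2 2) 0 0 (step_sound _ 97 [(rh50fbb5868c909700.shift 0 1), rhffd04209dc8ea796] (by decide +kernel))
noncomputable def rhea1977e228a6d74a : CRef := CRef.mk (Pat.mk 0x1e000000000000000400000004 0x30000001e000000040000000400000004 2 5) 0 0 (step_sound _ 129 [(rh2613c889e411427e.shift 1 0), (rh3244c3cc8379b070.shift 0 3)] (by decide +kernel))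
noncomputable def rh750ebacf582109c4 : CRef := CRef.mk (Pat.mk 0x40000000600000000000000000000001e 0x40000000600000002000000030000001e 2 5) 0 0 (step_sound _ 33 [(rh04253f50b6dd0619.shift 1 0), rh3244c3cc8379b070] (by decide +kernel))
noncomputable def rhbbc353da154e327d : CRef := CRef.mk (Pat.mk 0x300000012000000100000001000000010 0xb0000001e000000100000001000000010 2 5) 0 0 (step_sound _ 99 [(rh50fbb5868c909700.shift 3 0), (rh5419adcd928dba20.shift 0 3)] (by decide +kernel))
noncomputable def rh6e1f502161d2d285 : CRef := CRef.mk (Pat.mk 0x4000000040000000700000008 0x400000004000000040000000f00000018 2 5) 0 0 (step_sound _ 35 [(rh2145e1d24b96a57e.shift 2 0), rhe25b0a99195a5d59] (by decide +kernel))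
noncomputable def rhbf726fa7097229f2 : CRef := CRef.mk (Pat.mk 0x200000002000000000000000700000000 0x200000002000000020000000700000005 2 3) 0 0 (step_sound _ 65 [(rh55afc6a59410cf00.shift 1 0), rh932754581e0f4330] (by decide +kernel))
noncomputable def rhb4edb45e9f1718ed : CRef := CRef.mk (Pat.mk 0x400000004000000040000001e 0x40000000400000004000000070000001e 2 5) 0 0 (step_sound _ 33 [rh3244c3cc8379b070, (rh5c5e593799055d58.shift 1 0)] (by decide +kernel))
noncomputable def rh5262efde5ab13f6e : CRef := CRef.mk (Pat.mk 0x100000000000000010000001f00000000 0x100000001000000010000001f00000003 2 5) 0 0 (step_sound _ 1 [rh6f1cbe15c631ee70, rheb0810cc63b001d8] (by decide +kernel))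
noncomputable def rhba7137a6404ea089 : CRef := CRef.mk (Pat.mk 0x1b0000000a 0x1b0000001f 2 5) 0 0 (step_sound _ 2 [rh53b3c253cb0c65f4, rhf48373e13d2bc128] (by decide +kernel))
noncomputable def rh85e0f5cc78e9cbe0 : CRef := CRef.mk (Pat.mk 0x300000000000000010000000300000000 0x20000000300000001000000010000000300000002 2 2) 0 0 (step_sound _ 96 [(rh2f68792b6b779e96.shift 0 1), rh55afc6a59410cf00] (by decide +kernel))
noncomputable def rh82be616e028c1db2 : CRef := CRef.mk (Pat.mk 0x400000000000000040000000700000008 0x400000004000000040000000f00000018 2 5) 0 0 (step_sound _ 35 [(rh6f1cbe15c631ee70.shift 2 0), rhe25b0a99195a5d59] (by decide +kernel))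
noncomputable def rhfd0f316c42bbba52 : CRef := CRef.mk (Pat.mk 0x600000016 0x70000003e 2 6) 0 0 (step_sound _ 3 [rh3244c3cc8379b070, (rhf48373e13d2bc128.shift 1 0)] (by decide +kernel))
noncomputable def rheaa91b92daf0efc8 : CRef := CRef.mk (Pat.mk 0xf00000020 0x1f00000038 2 6) 0 0 (step_sound _ 4 [rh96851dee118c1ba3, (rhd6e447e81774439e.shift 1 0)] (by decide +kernel))
noncomputable def rh61bed84536fd27bf : CRef := CRef.mk (Pat.mk 0x300000018000000100000001000000000 0xf00000018000000100000001000000010 2 5) 0 0 (step_sound _ 131 [(rh7b1f1fb55310c477.shift 3 0), (rhc10214bf3fe8094a.shift 0 3)] (by decide +kernel))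
noncomputable def rh66845b7b577256ef : CRef := CRef.mk (Pat.mk 0x10000000100000003000000000000000000000002 0x1000000010000000100000003000000020000000200000002 2 2) 0 0 (step_sound _ 65 [(rh2145e1d24b96a57e.shift 0 2), rh9e07f76261b05888] (by decide +kernel))
noncomputable def rh81076d3993588649 : CRef := CRef.mk (Pat.mk 0x1c00000009 0x1e0000000f 2 5) 0 0 (step_sound _ 1 [rh1c62b6193297d9e3, rhca9569cc80abfe76] (by decide +kernel))
noncomputable def rh5082b4dfde227d32 : CRef := CRef.mk (Pat.mk 0x100000001f000000000000000000000008 0x100000001f000000180000000800000008 2 5) 0 0 (step_sound _ 67 [(rh9e3edb185cc347de.shift 3 0), (rhe25b0a99195a5d59.shift 0 2)] (by decide +kernel))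
noncomputable def rh38e0f9af9c934a77 : CRef := CRef.mk (Pat.mk 0x400000007000000080000000000000008 0x40000000f000000180000000800000008 2 5) 0 0 (step_sound _ 99 [(rh9e07f76261b05888.shift 2 0), (rhe25b0a99195a5d59.shift 0 2)] (by decide +kernel))
noncomputable def rheca207e390c8f755 : CRef := CRef.mk (Pat.mk 0xb000000080000000800000008 0x40000000f000000180000000800000008 2 5) 0 0 (step_sound _ 98 [(rh50fbb5868c909700.shift 2 0), (rhe25b0a99195a5d59.shift 0 2)] (by decide +kernel))
noncomputable def rhd8e3ec04df043c57 : CRef := CRef.mk (Pat.mk 0x300000002000000000000000300000000 0x10000000300000002000000020000000300000001 2 2) 0 0 (step_sound _ 65 [(rh50fbb5868c909700.shift 0 1), rh932754581e0f4330] (by decide +kernel))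
noncomputable def rh8419e81d3e2ed573 : CRef := CRef.mk (Pat.mk 0x3000000180000001800000010 0x80000000f000000180000001800000010 2 5) 0 0 (step_sound _ 99 [(rh2145e1d24b96a57e.shift 3 0), (rhc10214bf3fe8094a.shift 0 2)] (by decide +kernel))
noncomputable def rh0559d70eb713ce2d : CRef := CRef.mk (Pat.mk 0x30000000c000000080000000800000008 0x130000001e000000080000000800000008 2 5) 0 0 (step_sound _ 100 [(rh09d4dfe75d4407d6.shift 0 3), (rh2f68792b6b779e96.shift 3 0)] (by decide +kernel))
noncomputable def rh54c49bb299227e8d : CRef := CRef.mk (Pat.mk 0xa0000001c 0xf0000001e 2 5) 0 0 (step_sound _ 32 [rh09d4dfe75d4407d6, rhc10214bf3fe8094a] (by decide +kernel))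
noncomputable def rha358927870346b7d : CRef := CRef.mk (Pat.mk 0xa0000001c0000000400000004 0x20000000f0000001c0000000400000004 2 5) 0 0 (step_sound _ 98 [(rh50fbb5868c909700.shift 1 0), (rhb739f4f82bb681b4.shift 0 2)] (by decide +kernel))
noncomputable def rh616c75d1b5542aee : CRef := CRef.mk (Pat.mk 0x1000000020000000300000002 0x100000003000000030000000300000002 2 2) 0 0 (step_sound _ 128 [rhcfdf45280693d3da, rhff0f29cb645b05f7] (by decide +kernel))
noncomputable def rh8440640876951545 : CRef := CRef.mk (Pat.mk 0x20000001c0000000600000004 0x2000000030000001e0000000600000004 2 5) 0 0 (step_sound _ 65 [(rh2145e1d24b96a57e.shift 1 0), (rh3244c3cc8379b070.shift 0 2)] (by decide +kernel))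
noncomputable def rh8bba9c09a1e3aa82 : CRef := CRef.mk (Pat.mk 0xf000000000000000c00000004 0x180000000f000000080000000c00000004 2 5) 0 0 (step_sound _ 131 [(rh33e738c4ed385b9f.shift 0 3), (rh3c88ce959c0e423f.shift 2 0)] (by decide +kernel))
noncomputable def rh54e2670cb103b129 : CRef := CRef.mk (Pat.mk 0x1e000000020000000200000004 0x30000001e000000020000000600000004 2 5) 0 0 (step_sound _ 129 [(rh3244c3cc8379b070.shift 0 3), (rhd3458b32566d63f7.shift 1 0)] (by decide +kernel))
noncomputable def rh04e571695666b5c1 : CRef := CRef.mk (Pat.mk 0x12000000030000000200000002 0x40000001e000000030000000200000002 2 5) 0 0 (step_sound _ 98 [(rh2f68792b6b779e96.shift 1 0), (rh361cc68994bd8a63.shift 0 2)] (by decide +kernel))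
noncomputable def rh0b47df1f5df91fea : CRef := CRef.mk (Pat.mk 0x20000000000000001000000010000000300000000 0x20000000300000001000000010000000300000002 2 2) 0 0 (step_sound _ 128 [rh55afc6a59410cf00, (rhbaefcd01e0a8bca3.shift 0 1)] (by decide +kernel))
noncomputable def rh3d5d828ac8ab1bfc : CRef := CRef.mk (Pat.mk 0x100000001e0000001000000010 0x8000000180000001f0000001000000010 2 5) 0 0 (step_sound _ 99 [(rh50fbb5868c909700.shift 3 0), (rh53b3c253cb0c65f4.shift 0 2)] (by decide +kernel))
noncomputable def rh763788a68c67bc0c : CRef := CRef.mk (Pat.mk 0xf000000080000000800000008 0x180000001f000000080000000800000008 2 5) 0 0 (step_sound _ 132 [(rh428265de8cd3cd2d.shift 0 3), (rhbaefcd01e0a8bca3.shift 3 0)] (by decide +kernel))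
noncomputable def rhf125bcd6a8e76387 : CRef := CRef.mk (Pat.mk 0x80000000f0000000400000004 0x8000000080000000f0000001c00000004 2 5) 0 0 (step_sound _ 35 [(rh5c5e593799055d58.shift 2 0), (rhe25b0a99195a5d59.shift 0 1)] (by decide +kernel))
noncomputable def rhc2d24113d3d71f9b : CRef := CRef.mk (Pat.mk 0x300000004000000060000000600000000 0x10000000300000006000000060000000600000004 2 3) 0 0 (step_sound _ 97 [(rh50fbb5868c909700.shift 0 1), (rh7b1f1fb55310c477.shift 1 0)] (by decide +kernel))
noncomputable def rhcd6baf37b3e5de21 : CRef := CRef.mk (Pat.mk 0x1a00000018 0x1f00000038 2 6) 0 0 (step_sound _ 34 [rhb739f4f82bb681b4, (rhe25b0a99195a5d59.shift 1 0)] (by decide +kernel))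
noncomputable def rhc628f7de140e299c : CRef := CRef.mk (Pat.mk 0x70000000c00000006 0xf0000003c00000006 2 6) 0 0 (step_sound _ 36 [(rh18965a982d73c794.shift 1 0), (rhd6e447e81774439e.shift 0 1)] (by decide +kernel))
noncomputable def rh151655600199b49f : CRef := CRef.mk (Pat.mk 0xe0000000a000000080000000800000008 0x1e0000001b000000080000000800000008 2 5) 0 0 (step_sound _ 132 [(rhbaefcd01e0a8bca3.shift 3 0), (rheb0810cc63b001d8.shift 0 3)] (by decide +kernel))
noncomputable def rhd11a856664bceb7a : CRef := CRef.mk (Pat.mk 0x100000000000000020000000300000002 0x100000003000000030000000300000002 2 2) 0 0 (step_sound _ 96 [rhcfdf45280693d3da, rhff0f29cb645b05f7] (by decide +kernel))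
noncomputable def rh5eef509b89b7828e : CRef := CRef.mk (Pat.mk 0x100000001e000000100000000000000008 0x100000001f000000180000000800000008 2 5) 0 0 (step_sound _ 67 [(rh9e3edb185cc347de.shift 3 0), (rhb739f4f82bb681b4.shift 0 2)] (by decide +kernel))
noncomputable def rhf9582ff5662029e8 : CRef := CRef.mk (Pat.mk 0x200000003000000020000000000000001 0x200000003000000030000000300000001 2 2) 0 0 (step_sound _ 32 [rh04253f50b6dd0619, rheea67dfebd0f8008] (by decide +kernel))
noncomputable def rhb84914a016f5e3ef : CRef := CRef.mk (Pat.mk 0x1600000002000000020000000200000002 0x1f00000003000000020000000200000002 2 5) 0 0 (step_sound _ 96 [(rh361cc68994bd8a63.shift 0 3), rh50fbb5868c909700] (by decide +kernel))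
noncomputable def rhd1cdfc824da1516c : CRef := CRef.mk (Pat.mk 0x300000018000000080000000800000008 0xf0000001c000000080000000800000008 2 5) 0 0 (step_sound _ 130 [(rhd6e447e81774439e.shift 0 3), (rhffd04209dc8ea796.shift 2 0)] (by decide +kernel))
noncomputable def rhcd4067ca8ca5d45b : CRef := CRef.mk (Pat.mk 0xe000000120000001000000010 0x80000001e000000130000001000000010 2 5) 0 0 (step_sound _ 100 [(rh50fbb5868c909700.shift 3 0), (rheb0810cc63b001d8.shift 0 2)] (by decide +kernel))
noncomputable def rhabf575676fe0ef70 : CRef := CRef.mk (Pat.mk 0x80000000b00000008 0x180000000f00000018 2 5) 0 0 (step_sound _ 34 [(rh33e738c4ed385b9f.shift 0 1), rhe25b0a99195a5d59] (by decide +kernel))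
noncomputable def rh1dc3e866f7ab4752 : CRef := CRef.mk (Pat.mk 0x100000001600000002 0x300000001e00000003 2 6) 0 0 (step_sound _ 35 [(rh33e738c4ed385b9f.shift 1 1), rheb0810cc63b001d8] (by decide +kernel))
noncomputable def rhd5b731d5aad98dec : CRef := CRef.mk (Pat.mk 0x800000008000000000000000f00000000 0x800000008000000180000000f00000004 2 5) 0 0 (step_sound _ 67 [(rh33e738c4ed385b9f.shift 0 1), (rh932754581e0f4330.shift 2 0)] (by decide +kernel))
noncomputable def rhb5df3e7f22ccacad : CRef := CRef.mk (Pat.mk 0x400000004000000000000000f00000008 0x40000000c000000180000000f00000008 2 5) 0 0 (step_sound _ 67 [(rh33e738c4ed385b9f.shift 0 1), (rhcfdf45280693d3da.shift 2 0)] (by decide +kernel))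
noncomputable def rh237041c41aecf93d : CRef := CRef.mk (Pat.mk 0x1000000010000000100000003000000010000000100000000 0x100000001000000010000000300000003000000010000000100000001 2 2) 0 0 (step_sound _ 129 [(rh2145e1d24b96a57e.shift 0 3), rh71222050f2c63a3a] (by decide +kernel))
noncomputable def rhdad6fb8687a5e7f2 : CRef := CRef.mk (Pat.mk 0xf000000000000000800000008 0x40000000f000000180000000800000008 2 5) 0 0 (step_sound _ 67 [(rh50fbb5868c909700.shift 2 0), (rhe25b0a99195a5d59.shift 0 2)] (by decide +kernel))
noncomputable def rh1ad83ca1ae0bac62 : CRef := CRef.mk (Pat.mk 0x80000000800000008000000080000000d 0x80000000800000008000000180000001f 2 5) 0 0 (step_sound _ 36 [rh24ae073cf30720c4, (rh55afc6a59410cf00.shift 3 0)] (by decide +kernel))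
noncomputable def rh669c503fc29231eb : CRef := CRef.mk (Pat.mk 0x800000008000000180000000900000000 0x800000008000000180000000f00000004 2 5) 0 0 (step_sound _ 34 [(rh24ae073cf30720c4.shift 0 1), (rh932754581e0f4330.shift 2 0)] (by decide +kernel))
noncomputable def rhe1b7f43db1d371d3 : CRef := CRef.mk (Pat.mk 0x8000000080000000d0000001000000000 0x8000000080000000f0000001800000010 2 5) 0 0 (step_sound _ 35 [(rh55afc6a59410cf00.shift 3 0), (rhab22b5b56e7b3243.shift 0 1)] (by decide +kernel))
noncomputable def rh0ea7de2da709317e : CRef := CRef.mk (Pat.mk 0x20000001a00000006 0x30000003e00000006 2 6) 0 0 (step_sound _ 34 [(rh18965a982d73c794.shift 1 0), (rh3244c3cc8379b070.shift 0 1)] (by decide +kernel))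
noncomputable def rhf8edb192cdea7ada : CRef := CRef.mk (Pat.mk 0x200000002000000030000001200000000 0x200000002000000030000001e00000004 2 5) 0 0 (step_sound _ 34 [(rh2fe78cc5ca4405d8.shift 0 1), (rh55afc6a59410cf00.shift 1 0)] (by decide +kernel))
noncomputable def rh665fa2b016ee28ae : CRef := CRef.mk (Pat.mk 0x20000001600000010 0x30000001e00000030 2 6) 0 0 (step_sound _ 35 [(rh3244c3cc8379b070.shift 0 1), (rhe25b0a99195a5d59.shift 1 0)] (by decide +kernel))
noncomputable def rh6493ceb007f59211 : CRef := CRef.mk (Pat.mk 0x20000001600000006 0x30000003e00000006 2 6) 0 0 (step_sound _ 35 [(rh18965a982d73c794.shift 1 0), (rh3244c3cc8379b070.shift 0 1)] (by decide +kernel))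
noncomputable def rhd06dd3691c96d7cc : CRef := CRef.mk (Pat.mk 0x800000000000000100000001e00000010 0x800000008000000180000001f00000010 2 5) 0 0 (step_sound _ 67 [(rh53b3c253cb0c65f4.shift 0 1), (rh6f1cbe15c631ee70.shift 3 0)] (by decide +kernel))
noncomputable def rha1c7cefca69aa45b : CRef := CRef.mk (Pat.mk 0x20000001a0000000200000001 0x2000000020000001e0000000300000001 2 5) 0 0 (step_sound _ 32 [rh5c5e593799055d58, (rhb2a0b9ccfb5cecd5.shift 0 1)] (by decide +kernel))
noncomputable def rh01e48cd9f335aa73 : CRef := CRef.mk (Pat.mk 0x20000001a00000002 0x30000001e00000003 2 5) 0 0 (step_sound _ 34 [(rh3244c3cc8379b070.shift 0 1), rheb0810cc63b001d8] (by decide +kernel))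
noncomputable def rh599ad1a27924c7d1 : CRef := CRef.mk (Pat.mk 0x40000000200000002000000020000000100000000 0x40000000600000002000000020000000300000001 2 3) 0 0 (step_sound _ 33 [rh932754581e0f4330, (rhbaefcd01e0a8bca3.shift 1 1)] (by decide +kernel))
noncomputable def rhc01297d01040f971 : CRef := CRef.mk (Pat.mk 0x4000000040000001400000003 0x400000004000000040000001e00000003 2 5) 0 0 (step_sound _ 33 [rh361cc68994bd8a63, (rh5c5e593799055d58.shift 1 0)] (by decide +kernel))
noncomputable def rha3c02ab1a397c44e : CRef := CRef.mk (Pat.mk 0x300000002000000020000000100000000 0x10000000300000002000000020000000300000001 2 2) 0 0 (step_sound _ 33 [(rh50fbb5868c909700.shift 0 1), rh932754581e0f4330] (by decide +kernel))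
noncomputable def rh4fd54f6717f3e7ac : CRef := CRef.mk (Pat.mk 0x1400000007 0x3e00000007 2 6) 0 0 (step_sound _ 35 [(rh18965a982d73c794.shift 1 0), rhca9569cc80abfe76] (by decide +kernel))
noncomputable def rh55c8fae470e8430a : CRef := CRef.mk (Pat.mk 0x200000001000000010000000300000000 0x20000000300000001000000010000000300000002 2 2) 0 0 (step_sound _ 128 [(rh2f68792b6b779e96.shift 0 1), rh55afc6a59410cf00] (by decide +kernel))
noncomputable def rh0ded9cf36d1984b9 : CRef := CRef.mk (Pat.mk 0x1c00000011 0x1e00000033 2 6) 0 0 (step_sound _ 33 [rh80fcd6d0a18cb2dd, (rhe25b0a99195a5d59.shift 1 0)] (by decide +kernel))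
noncomputable def rhcd8dbd089a9338ee : CRef := CRef.mk (Pat.mk 0x100000001000000190000000500000000 0x100000001000000190000000f00000002 2 5) 0 0 (step_sound _ 33 [(rh3fc040e777f1679e.shift 0 1), rh55afc6a59410cf00] (by decide +kernel))
noncomputable def rh9c0ab0af19c4d8a6 : CRef := CRef.mk (Pat.mk 0x1c00000005 0x3e00000007 2 6) 0 0 (step_sound _ 1 [(rh18965a982d73c794.shift 1 0), rhca9569cc80abfe76] (by decide +kernel))
noncomputable def rhc9ca25976740a074 : CRef := CRef.mk (Pat.mk 0x100000001000000010000000e 0x10000000100000001000000030000001e 2 5) 0 0 (step_sound _ 33 [rh2145e1d24b96a57e, rhf48373e13d2bc128] (by decide +kernel))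
noncomputable def rhd11dc6dd83191698 : CRef := CRef.mk (Pat.mk 0x1600000006 0x3e00000007 2 6) 0 0 (step_sound _ 35 [(rh18965a982d73c794.shift 1 0), rheb0810cc63b001d8] (by decide +kernel))
noncomputable def rh3e6404e642728526 : CRef := CRef.mk (Pat.mk 0x200000001c00000001 0x300000001e00000003 2 6) 0 0 (step_sound _ 33 [(rh428265de8cd3cd2d.shift 1 1), rh80fcd6d0a18cb2dd] (by decide +kernel))
noncomputable def rh01f3f9b1b4af75f2 : CRef := CRef.mk (Pat.mk 0x100000001b 0x380000001f 2 6) 0 0 (step_sound _ 2 [(rh33e738c4ed385b9f.shift 1 0), rh428265de8cd3cd2d] (by decide +kernel))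
noncomputable def rh4176b1306bc070ea : CRef := CRef.mk (Pat.mk 0x300000000000000020000000300000000 0x10000000300000002000000020000000300000001 2 2) 0 0 (step_sound _ 97 [(rh50fbb5868c909700.shift 0 1), rh932754581e0f4330] (by decide +kernel))
noncomputable def rhfc73b9f9592b9946 : CRef := CRef.mk (Pat.mk 0x400000008000000080000000f00000000 0x40000000c000000080000000f00000018 2 5) 0 0 (step_sound _ 3 [rhe25b0a99195a5d59, (rhffd04209dc8ea796.shift 2 0)] (by decide +kernel))
noncomputable def rh7e2967714be94ca8 : CRef := CRef.mk (Pat.mk 0xf000000080000001800000000 0x180000000f000000080000001800000010 2 5) 0 0 (step_sound _ 131 [(rh33e738c4ed385b9f.shift 0 3), (rh55afc6a59410cf00.shift 3 0)] (by decide +kernel))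
noncomputable def rhef7515d0e7cb1d2b : CRef := CRef.mk (Pat.mk 0x100000000e00000010 0x180000000f00000018 2 5) 0 0 (step_sound _ 32 [(rh428265de8cd3cd2d.shift 0 1), rh96851dee118c1ba3] (by decide +kernel))
noncomputable def rh5bb78067c54b222b : CRef := CRef.mk (Pat.mk 0xe00000048 0xf00000078 2 7) 0 0 (step_sound _ 4 [(rh2fe78cc5ca4405d8.shift 2 0), rhb739f4f82bb681b4] (by decide +kernel))
noncomputable def rh6a0b6121ea56bdf6 : CRef := CRef.mk (Pat.mk 0x1c000000050000001c 0x1e000000070000003c 2 6) 0 0 (step_sound _ 33 [(rhca9569cc80abfe76.shift 0 1), (rhf48373e13d2bc128.shift 1 0)] (by decide +kernel))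
noncomputable def rh408bd6d6e2c43300 : CRef := CRef.mk (Pat.mk 0x10000000000000002000000020000000200000002 0x10000000300000003000000020000000200000002 2 2) 0 0 (step_sound _ 128 [(rhcfdf45280693d3da.shift 0 1), rhffd04209dc8ea796] (by decide +kernel))
noncomputable def rh760717e835f8c2f3 : CRef := CRef.mk (Pat.mk 0x100000001a00000002 0x300000001e00000003 2 6) 0 0 (step_sound _ 34 [(rh33e738c4ed385b9f.shift 1 1), rheb0810cc63b001d8] (by decide +kernel))
noncomputable def rhc13e87f7835e0776 : CRef := CRef.mk (Pat.mk 0x1700000010 0x1f00000038 2 6) 0 0 (step_sound _ 35 [rh96851dee118c1ba3, (rhe25b0a99195a5d59.shift 1 0)] (by decide +kernel))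
noncomputable def rh0fcc3ef75049478a : CRef := CRef.mk (Pat.mk 0x90000001d 0x1b0000001f 2 5) 0 0 (step_sound _ 1 [rh33e738c4ed385b9f, rh3f8766e6ecb455ce] (by decide +kernel))
noncomputable def rh2ce0f2b595a365d2 : CRef := CRef.mk (Pat.mk 0x10000000100000001000000090000000d 0x100000001000000010000001b0000000f 2 5) 0 0 (step_sound _ 1 [rh33e738c4ed385b9f, rhd3458b32566d63f7] (by decide +kernel))
noncomputable def rh3a5ef914c1f22b95 : CRef := CRef.mk (Pat.mk 0x1b00000010 0x1f00000038 2 6) 0 0 (step_sound _ 34 [rh96851dee118c1ba3, (rhe25b0a99195a5d59.shift 1 0)] (by decide +kernel))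
noncomputable def rhe5908d035b5e6363 : CRef := CRef.mk (Pat.mk 0x800000008000000080000001d 0x80000000800000008000000180000001f 2 5) 0 0 (step_sound _ 36 [(rh2145e1d24b96a57e.shift 3 0), rh24ae073cf30720c4] (by decide +kernel))
noncomputable def rh493ba90d7b88e72e : CRef := CRef.mk (Pat.mk 0x2000000030000000300000004 0x20000000200000002000000030000000700000004 2 3) 0 0 (step_sound _ 129 [(rh5c5e593799055d58.shift 0 1), (rhd3458b32566d63f7.shift 1 0)] (by decide +kernel))
noncomputable def rh6ba37bc3548d13d1 : CRef := CRef.mk (Pat.mk 0xf000000100000001000000010 0x180000001f000000100000001000000010 2 5) 0 0 (step_sound _ 131 [(rh33e738c4ed385b9f.shift 0 3), (rhcfdf45280693d3da.shift 3 0)] (by decide +kernel))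
noncomputable def rhd649337939d95a05 : CRef := CRef.mk (Pat.mk 0x80000000f000000000000000c00000000 0x80000000f000000180000000c00000004 2 5) 0 0 (step_sound _ 67 [(rh932754581e0f4330.shift 2 0), (rhe25b0a99195a5d59.shift 0 2)] (by decide +kernel))
noncomputable def rh2e0ab4c6ccd906b7 : CRef := CRef.mk (Pat.mk 0x800000008000000080000000700000000 0x800000008000000180000000f00000004 2 5) 0 0 (step_sound _ 35 [(rh33e738c4ed385b9f.shift 0 1), (rh932754581e0f4330.shift 2 0)] (by decide +kernel))
noncomputable def rhd8a13c7f042cc6ea : CRef := CRef.mk (Pat.mk 0x7000000050000000500000000 0x200000007000000050000000500000005 2 3) 0 0 (step_sound _ 129 [rh71222050f2c63a3a, (rh7b1f1fb55310c477.shift 1 0)] (by decide +kernel))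
noncomputable def rhfc6b135d51459869 : CRef := CRef.mk (Pat.mk 0x1c0000000500000034 0x1e000000070000003c 2 6) 0 0 (step_sound _ 33 [(rh5419adcd928dba20.shift 1 0), (rhca9569cc80abfe76.shift 0 1)] (by decide +kernel))
noncomputable def rh2b724a2e7de4dbca : CRef := CRef.mk (Pat.mk 0x100000001c00000001 0x300000001e00000003 2 6) 0 0 (step_sound _ 33 [(rh33e738c4ed385b9f.shift 1 1), rh80fcd6d0a18cb2dd] (by decide +kernel))
noncomputable def rh83b5fed75f19d7cc : CRef := CRef.mk (Pat.mk 0x3000000120000000e 0x30000001e0000000f 2 5) 0 0 (step_sound _ 35 [rh53b3c253cb0c65f4, (rh5419adcd928dba20.shift 0 1)] (by decide +kernel))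
noncomputable def rhdab32775f5c78fcf : CRef := CRef.mk (Pat.mk 0x80000000e0000000800000008 0x10000000180000000f0000000800000008 2 5) 0 0 (step_sound _ 100 [(rh2f68792b6b779e96.shift 3 0), (rh53b3c253cb0c65f4.shift 0 2)] (by decide +kernel))
noncomputable def rh92849c133feb679d : CRef := CRef.mk (Pat.mk 0x30000000a000000080000000800000008 0x130000001e000000080000000800000008 2 5) 0 0 (step_sound _ 100 [(rh2f68792b6b779e96.shift 3 0), (rh5419adcd928dba20.shift 0 3)] (by decide +kernel))
noncomputable def rhe09b055da6de5a35 : CRef := CRef.mk (Pat.mk 0x500000005000000010000000600000000 0x500000005000000050000000700000002 2 3) 0 0 (step_sound _ 1 [(rh3c88ce959c0e423f.shift 1 0), rhbe0e43a3bc50a43f] (by decide +kernel))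
noncomputable def rh54d1d3f05f0ed5a2 : CRef := CRef.mk (Pat.mk 0x2000000020000000e0000000100000000 0x2000000020000001e0000000300000001 2 5) 0 0 (step_sound _ 33 [(rh18965a982d73c794.shift 0 1), rh932754581e0f4330] (by decide +kernel))
noncomputable def rhb2c64de0843f272c : CRef := CRef.mk (Pat.mk 0xf000000080000000800000010 0x180000000f000000080000001800000010 2 5) 0 0 (step_sound _ 131 [(rh33e738c4ed385b9f.shift 0 3), (rhd3458b32566d63f7.shift 3 0)] (by decide +kernel))
noncomputable def rha37779f9238271b6 : CRef := CRef.mk (Pat.mk 0x200000002000000020000001e00000000 0x200000002000000020000001f00000003 2 5) 0 0 (step_sound _ 0 [rh79877ebd3ef475dd, rh80fcd6d0a18cb2dd] (by decide +kernel))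
noncomputable def rhc6055bb2ecf924ac : CRef := CRef.mk (Pat.mk 0x20000001c00000010 0x30000001e00000030 2 6) 0 0 (step_sound _ 33 [(rh3244c3cc8379b070.shift 0 1), (rhe25b0a99195a5d59.shift 1 0)] (by decide +kernel))
noncomputable def rh157b220518f94713 : CRef := CRef.mk (Pat.mk 0x2000000020000000e0000000200000000 0x2000000020000001e0000000300000001 2 5) 0 0 (step_sound _ 32 [(rh18965a982d73c794.shift 0 1), rh932754581e0f4330] (by decide +kernel))
noncomputable def rh6b86f2178b913204 : CRef := CRef.mk (Pat.mk 0x10000000e00000010 0x30000001e00000030 2 6) 0 0 (step_sound _ 36 [(rh3f8766e6ecb455ce.shift 0 1), (rhe25b0a99195a5d59.shift 1 0)] (by decide +kernel))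
noncomputable def rhd9106766b9ff53c0 : CRef := CRef.mk (Pat.mk 0x20000000e00000002 0x30000001e00000003 2 5) 0 0 (step_sound _ 36 [(rh3244c3cc8379b070.shift 0 1), rheb0810cc63b001d8] (by decide +kernel))
noncomputable def rh4c61a8d65f05c464 : CRef := CRef.mk (Pat.mk 0x3000000000000000300000003 0x300000003000000020000000300000003 2 2) 0 0 (step_sound _ 65 [rh50fbb5868c909700, rh5c5e593799055d58] (by decide +kernel))
noncomputable def rh7344b4efa7925350 : CRef := CRef.mk (Pat.mk 0xe00000014 0xf0000003c 2 6) 0 0 (step_sound _ 3 [rhb739f4f82bb681b4, (rhf48373e13d2bc128.shift 1 0)] (by decide +kernel))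
noncomputable def rhade2633559ae44b2 : CRef := CRef.mk (Pat.mk 0x20000000200000002000000020000000e00000008 0x20000000200000002000000030000000f00000018 2 5) 0 0 (step_sound _ 32 [(rh79877ebd3ef475dd.shift 0 1), rhe25b0a99195a5d59] (by decide +kernel))
noncomputable def rhd6f64f2d70aac170 : CRef := CRef.mk (Pat.mk 0x200000001c00000002 0x300000001e00000003 2 6) 0 0 (step_sound _ 33 [(rh428265de8cd3cd2d.shift 1 1), rheb0810cc63b001d8] (by decide +kernel))
noncomputable def rh0e40e213923dfc13 : CRef := CRef.mk (Pat.mk 0xc000000030000000600000004 0x20000001e000000030000000600000004 2 5) 0 0 (step_sound _ 97 [(rh18965a982d73c794.shift 0 2), (rh2145e1d24b96a57e.shift 1 0)] (by decide +kernel))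
noncomputable def rh79dc0c3e8356dae3 : CRef := CRef.mk (Pat.mk 0xe0000001400000030 0xf0000001e00000030 2 6) 0 0 (step_sound _ 35 [(rhb739f4f82bb681b4.shift 0 1), (rhb739f4f82bb681b4.shift 1 0)] (by decide +kernel))
noncomputable def rhdf8f7a92a2d46ec7 : CRef := CRef.mk (Pat.mk 0xe0000000a00000003 0xf0000001e00000003 2 5) 0 0 (step_sound _ 36 [rhb2a0b9ccfb5cecd5, (rhb739f4f82bb681b4.shift 0 1)] (by decide +kernel))
noncomputable def rha844442475d131dc : CRef := CRef.mk (Pat.mk 0x30000000a00000018 0x30000001f00000018 2 5) 0 0 (step_sound _ 34 [rhb739f4f82bb681b4, (rhf48373e13d2bc128.shift 0 1)] (by decide +kernel))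
noncomputable def rhf9a329cc68aa610c : CRef := CRef.mk (Pat.mk 0x200000002000000020000000a00000018 0x200000002000000020000000f00000019 2 5) 0 0 (step_sound _ 32 [rh932754581e0f4330, rhc10214bf3fe8094a] (by decide +kernel))
noncomputable def rh5586a945ecc7b9b6 : CRef := CRef.mk (Pat.mk 0x30000000d00000008 0x30000001f00000018 2 5) 0 0 (step_sound _ 33 [rhe25b0a99195a5d59, (rhf48373e13d2bc128.shift 0 1)] (by decide +kernel))
noncomputable def rhd98729bc66308eae : CRef := CRef.mk (Pat.mk 0x100000002000000020000000200000001 0x10000000300000002000000020000000300000001 2 2) 0 0 (step_sound _ 129 [(rh50fbb5868c909700.shift 0 1), rh79877ebd3ef475dd] (by decide +kernel))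
noncomputable def rh3553f66ad66bb717 : CRef := CRef.mk (Pat.mk 0x20000000200000002000000030000000200000002 0x2000000020000000300000003000000030000000200000002 2 2) 0 0 (step_sound _ 96 [rh50fbb5868c909700, (rh5c5e593799055d58.shift 0 2)] (by decide +kernel))
noncomputable def rh065df6eed977da83 : CRef := CRef.mk (Pat.mk 0x20000001e000000000000000400000004 0x20000001e000000030000000600000004 2 5) 0 0 (step_sound _ 65 [(rhbe0e43a3bc50a43f.shift 1 0), (rheb0810cc63b001d8.shift 0 2)] (by decide +kernel))
noncomputable def rh8c01e5409b730b8b : CRef := CRef.mk (Pat.mk 0x600000002000000020000000100000000 0x40000000600000002000000020000000300000001 2 3) 0 0 (step_sound _ 33 [(rh2f68792b6b779e96.shift 1 1), rh932754581e0f4330] (by decide +kernel))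
noncomputable def rhaa6d4bfa0373ba53 : CRef := CRef.mk (Pat.mk 0x2000000020000001a00000004 0x200000002000000030000001e00000004 2 5) 0 0 (step_sound _ 34 [(rh2145e1d24b96a57e.shift 1 0), (rh3244c3cc8379b070.shift 0 1)] (by decide +kernel))
noncomputable def rh5e05da03898e7023 : CRef := CRef.mk (Pat.mk 0x20000001a0000000200000002 0x1000000030000001e0000000200000002 2 5) 0 0 (step_sound _ 96 [rh50fbb5868c909700, (rh5419adcd928dba20.shift 0 2)] (by decide +kernel))
noncomputable def rh06181a2dc624c6f8 : CRef := CRef.mk (Pat.mk 0x200000002000000030000000000000001 0x200000003000000030000000300000001 2 2) 0 0 (step_sound _ 32 [rh1006c02ae4212ff0, rheea67dfebd0f8008] (by decide +kernel))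
noncomputable def rh5c36e97be8af272f : CRef := CRef.mk (Pat.mk 0x1a0000001c 0x1b0000001f 2 5) 0 0 (step_sound _ 1 [rh3244c3cc8379b070, rh53b3c253cb0c65f4] (by decide +kernel))
noncomputable def rh086172e1ea5e5fe6 : CRef := CRef.mk (Pat.mk 0x100000001600000018 0x300000001f00000018 2 6) 0 0 (step_sound _ 35 [(rh33e738c4ed385b9f.shift 1 1), rhb739f4f82bb681b4] (by decide +kernel))
noncomputable def rh7dcc577706dd2abd : CRef := CRef.mk (Pat.mk 0x100000001a00000018 0x300000001f00000018 2 6) 0 0 (step_sound _ 34 [(rh33e738c4ed385b9f.shift 1 1), rhb739f4f82bb681b4] (by decide +kernel))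
noncomputable def rh1412c03c5f53fc87 : CRef := CRef.mk (Pat.mk 0x1000000010000000f00000001 0x100000001000000010000001f00000003 2 5) 0 0 (step_sound _ 1 [rh18965a982d73c794, rh2145e1d24b96a57e] (by decide +kernel))
noncomputable def rh09ced72df2b1bc7b : CRef := CRef.mk (Pat.mk 0xe0000000a00000018 0x1e0000000f00000018 2 5) 0 0 (step_sound _ 32 [(rh18965a982d73c794.shift 0 1), rhc10214bf3fe8094a] (by decide +kernel))
noncomputable def rh3ad0b3cef4b45dca : CRef := CRef.mk (Pat.mk 0x80000000a0000000e00000010 0x8000000080000000b0000001e00000010 2 5) 0 0 (step_sound _ 36 [(rh2145e1d24b96a57e.shift 3 0), (rh3244c3cc8379b070.shift 0 1)] (by decide +kernel))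
noncomputable def rhc5351dabd90740aa : CRef := CRef.mk (Pat.mk 0x300000000000000020000000600000000 0x10000000300000002000000020000000600000004 2 3) 0 0 (step_sound _ 97 [(rh50fbb5868c909700.shift 0 1), (rh55afc6a59410cf00.shift 1 0)] (by decide +kernel))
noncomputable def rhae2546727623c072 : CRef := CRef.mk (Pat.mk 0xf00000000000000000000000c00000004 0xf00000018000000080000000c00000004 2 5) 0 0 (step_sound _ 99 [(rh3c88ce959c0e423f.shift 2 0), (rhe25b0a99195a5d59.shift 0 3)] (by decide +kernel))
noncomputable def rhc924e5f7a4031fcc : CRef := CRef.mk (Pat.mk 0x80000000d00000008 0x180000000f00000018 2 5) 0 0 (step_sound _ 33 [(rh33e738c4ed385b9f.shift 0 1), rhe25b0a99195a5d59] (by decide +kernel))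
noncomputable def rhaeb617a54744e672 : CRef := CRef.mk (Pat.mk 0x9000000180000000800000008 0x40000000f000000180000000800000008 2 5) 0 0 (step_sound _ 98 [(rh50fbb5868c909700.shift 2 0), (rhab22b5b56e7b3243.shift 0 2)] (by decide +kernel))
noncomputable def rh85e7edab4b05d258 : CRef := CRef.mk (Pat.mk 0x1c00000019 0x1f0000001b 2 5) 0 0 (step_sound _ 33 [rh80fcd6d0a18cb2dd, rhb739f4f82bb681b4] (by decide +kernel))
noncomputable def rh3f2340e00dbd80d3 : CRef := CRef.mk (Pat.mk 0x190000001c 0x1b0000001f 2 5) 0 0 (step_sound _ 1 [rh3f8766e6ecb455ce, rh53b3c253cb0c65f4] (by decide +kernel))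
noncomputable def rh88333dd5482f2e1a : CRef := CRef.mk (Pat.mk 0x1f00000006 0x1f0000003e 2 6) 0 0 (step_sound _ 4 [rh2fe78cc5ca4405d8, (rhe25b0a99195a5d59.shift 1 0)] (by decide +kernel))
noncomputable def rhb734fd1d7084f3d7 : CRef := CRef.mk (Pat.mk 0x1000000010000000d0000000a 0x100000001000000010000000f0000001a 2 5) 0 0 (step_sound _ 33 [rh2145e1d24b96a57e, rhe25b0a99195a5d59] (by decide +kernel))
noncomputable def rh7d7eaefe27cdd7b0 : CRef := CRef.mk (Pat.mk 0x3000000000000000300000001 0x200000003000000030000000300000001 2 2) 0 0 (step_sound _ 129 [rh04253f50b6dd0619, rh3c88ce959c0e423f] (by decide +kernel))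
noncomputable def rhb4dc27738f3ce342 : CRef := CRef.mk (Pat.mk 0xa0000001b 0x1f0000001b 2 5) 0 0 (step_sound _ 34 [rh18965a982d73c794, rhb739f4f82bb681b4] (by decide +kernel))
noncomputable def rh5db08fca7648325c : CRef := CRef.mk (Pat.mk 0x60000001a 0x70000003e 2 6) 0 0 (step_sound _ 2 [rh3244c3cc8379b070, (rhf48373e13d2bc128.shift 1 0)] (by decide +kernel))
noncomputable def rhbda9a27163266cd1 : CRef := CRef.mk (Pat.mk 0x30000001c 0xf0000003c 2 6) 0 0 (step_sound _ 34 [rhd6e447e81774439e, (rhf48373e13d2bc128.shift 1 0)] (by decide +kernel))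
noncomputable def rh43cbe8b40a1a7398 : CRef := CRef.mk (Pat.mk 0x60000001a 0xf0000001e 2 5) 0 0 (step_sound _ 32 [rh5419adcd928dba20, rhd6e447e81774439e] (by decide +kernel))
noncomputable def rh05f74740d3e7310b : CRef := CRef.mk (Pat.mk 0x800000008000000080000000c00000003 0x800000008000000080000001e00000013 2 5) 0 0 (step_sound _ 36 [(rh55afc6a59410cf00.shift 3 0), rhca9569cc80abfe76] (by decide +kernel))
noncomputable def rh2ed427353258d8dd : CRef := CRef.mk (Pat.mk 0x1c0000000c00000018 0x3c0000000f00000018 2 6) 0 0 (step_sound _ 33 [(rh18965a982d73c794.shift 1 1), rhb739f4f82bb681b4] (by decide +kernel))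
noncomputable def rh7ab04f71adbcadbe : CRef := CRef.mk (Pat.mk 0x60000000b0000000c00000004 0x80000001e0000000b0000000c00000004 2 5) 0 0 (step_sound _ 99 [(rh18965a982d73c794.shift 0 2), (rh5c5e593799055d58.shift 2 0)] (by decide +kernel))
noncomputable def rhfe82b29a01fedb14 : CRef := CRef.mk (Pat.mk 0x60000001a0000000200000002 0x10000000f0000001a0000000200000002 2 5) 0 0 (step_sound _ 96 [rh50fbb5868c909700, (rhd6e447e81774439e.shift 0 2)] (by decide +kernel))
noncomputable def rh6264ccdfbfcaa8f6 : CRef := CRef.mk (Pat.mk 0x600000003000000100000001800000008 0x1e00000013000000100000001800000008 2 5) 0 0 (step_sound _ 132 [(rh361cc68994bd8a63.shift 0 3), (rhee230b994cc8b773.shift 3 0)] (by decide +kernel))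
noncomputable def rhd5041491555e8d86 : CRef := CRef.mk (Pat.mk 0x70000000a 0xf0000001e 2 5) 0 0 (step_sound _ 4 [rh5419adcd928dba20, rhd6e447e81774439e] (by decide +kernel))
noncomputable def rh5a72116368e114e5 : CRef := CRef.mk (Pat.mk 0x20000000200000002000000030000000a 0x20000000200000002000000070000001e 2 5) 0 0 (step_sound _ 2 [(rhd3458b32566d63f7.shift 1 0), rhf48373e13d2bc128] (by decide +kernel))
noncomputable def rhfca48bdea898f94b : CRef := CRef.mk (Pat.mk 0x800000000000000000000000f00000004 0x800000008000000180000000f00000004 2 5) 0 0 (step_sound _ 67 [(rh33e738c4ed385b9f.shift 0 1), (rhee230b994cc8b773.shift 2 0)] (by decide +kernel))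
noncomputable def rhd932d223c9e56252 : CRef := CRef.mk (Pat.mk 0x200000000000000030000000100000001 0x20000000200000003000000030000000100000001 2 2) 0 0 (step_sound _ 97 [rh1006c02ae4212ff0, (rh5c5e593799055d58.shift 0 1)] (by decide +kernel))
noncomputable def rh5acb6dc3b47c700e : CRef := CRef.mk (Pat.mk 0x1400000007 0x3c0000000f 2 6) 0 0 (step_sound _ 35 [(rh18965a982d73c794.shift 1 0), rh3fc040e777f1679e] (by decide +kernel))
noncomputable def rh84704cbf4ecfb89e : CRef := CRef.mk (Pat.mk 0x40000000700000003000000010000000100000000 0x40000000700000003000000030000000300000002 2 3) 0 0 (step_sound _ 33 [rh55afc6a59410cf00, (rh9e3edb185cc347de.shift 1 1)] (by decide +kernel))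
noncomputable def rh4d4e586abdf65d17 : CRef := CRef.mk (Pat.mk 0x80000000e000000020000000200000002 0x190000000f000000020000000200000002 2 5) 0 0 (step_sound _ 96 [(rh33e738c4ed385b9f.shift 0 3), rh50fbb5868c909700] (by decide +kernel))
noncomputable def rhd9892b94547901dd : CRef := CRef.mk (Pat.mk 0xe000000090000000800000008 0x100000001e0000000b0000000800000008 2 5) 0 0 (step_sound _ 100 [(rh2f68792b6b779e96.shift 3 0), (rh80fcd6d0a18cb2dd.shift 0 2)] (by decide +kernel))
noncomputable def rhd5b1a91e1b03cfdf : CRef := CRef.mk (Pat.mk 0x70000000c0000000400000004 0x80000000f0000001c0000000400000004 2 5) 0 0 (step_sound _ 99 [(rh2f68792b6b779e96.shift 2 0), (rhe25b0a99195a5d59.shift 0 2)] (by decide +kernel))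
noncomputable def rhe9d682012dbceb06 : CRef := CRef.mk (Pat.mk 0x10000000e00000001 0x30000001e00000003 2 5) 0 0 (step_sound _ 36 [(rh3f8766e6ecb455ce.shift 0 1), rh80fcd6d0a18cb2dd] (by decide +kernel))
noncomputable def rha1c46167a1310ec1 : CRef := CRef.mk (Pat.mk 0x10000000f0000000100000001 0x2000000030000001f0000000100000001 2 5) 0 0 (step_sound _ 97 [rh2f68792b6b779e96, (rhf48373e13d2bc128.shift 0 2)] (by decide +kernel))
noncomputable def rh9ce9666211d7d662 : CRef := CRef.mk (Pat.mk 0x120000001a 0x330000001e 2 6) 0 0 (step_sound _ 2 [rh3244c3cc8379b070, (rh33e738c4ed385b9f.shift 1 0)] (by decide +kernel))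
noncomputable def rh50457521e58be46d : CRef := CRef.mk (Pat.mk 0xc000000070000000400000004 0x20000001e000000070000000400000004 2 5) 0 0 (step_sound _ 97 [(rh18965a982d73c794.shift 0 2), (rh50fbb5868c909700.shift 1 0)] (by decide +kernel))
noncomputable def rh47b6dad44b634851 : CRef := CRef.mk (Pat.mk 0x10000000f000000010000000000000002 0x10000001f000000030000000200000002 2 5) 0 0 (step_sound _ 65 [(rh18965a982d73c794.shift 0 2), rh9e07f76261b05888] (by decide +kernel))
noncomputable def rh09fecbf45ebb0375 : CRef := CRef.mk (Pat.mk 0x10000000e00000020 0x30000001e00000030 2 6) 0 0 (step_sound _ 36 [(rh3f8766e6ecb455ce.shift 0 1), (rh96851dee118c1ba3.shift 1 0)] (by decide +kernel))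
noncomputable def rhf4585caa3b13e38a : CRef := CRef.mk (Pat.mk 0x280000000e 0x3c0000000f 2 6) 0 0 (step_sound _ 36 [rh53b3c253cb0c65f4, (rhca9569cc80abfe76.shift 1 0)] (by decide +kernel))
noncomputable def rh4503a2d502ef3aef : CRef := CRef.mk (Pat.mk 0xe000000080000001e 0xf000000380000001e 2 6) 0 0 (step_sound _ 36 [(rh33e738c4ed385b9f.shift 1 0), (rhb739f4f82bb681b4.shift 0 1)] (by decide +kernel))
noncomputable def rh852b5c206ef1ef98 : CRef := CRef.mk (Pat.mk 0x2000000020000000200000003000000020000000000000002 0x200000002000000020000000300000003000000020000000200000002 2 2) 0 0 (step_sound _ 128 [(rh5c5e593799055d58.shift 0 3), rh9e07f76261b05888] (by decide +kernel))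
noncomputable def rhcf54373e383838fa : CRef := CRef.mk (Pat.mk 0x2000000020000000a0000000d00000000 0x2000000020000001a0000000f00000001 2 5) 0 0 (step_sound _ 33 [(rh33e738c4ed385b9f.shift 0 1), rh932754581e0f4330] (by decide +kernel))
noncomputable def rhc8b21ffc3825c72d : CRef := CRef.mk (Pat.mk 0x1c00000012 0x1e00000033 2 6) 0 0 (step_sound _ 33 [(rhe25b0a99195a5d59.shift 1 0), rheb0810cc63b001d8] (by decide +kernel))
noncomputable def rh85432018c7d7e334 : CRef := CRef.mk (Pat.mk 0x1c000000020000000200000002 0x40000001e000000030000000200000002 2 5) 0 0 (step_sound _ 97 [(rh2f68792b6b779e96.shift 1 0), (rheb0810cc63b001d8.shift 0 2)] (by decide +kernel))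
noncomputable def rhd4d36b4007f546b1 : CRef := CRef.mk (Pat.mk 0xf000000040000000400000000 0x180000000f000000040000000400000004 2 5) 0 0 (step_sound _ 131 [(rh33e738c4ed385b9f.shift 0 3), (rh71222050f2c63a3a.shift 2 0)] (by decide +kernel))
noncomputable def rhdb2909ac5c854515 : CRef := CRef.mk (Pat.mk 0x3000000000000000300000002 0x100000003000000030000000300000002 2 2) 0 0 (step_sound _ 128 [rh2613c889e411427e, rhff0f29cb645b05f7] (by decide +kernel))
noncomputable def rh19fd61ba939dc992 : CRef := CRef.mk (Pat.mk 0x6000000050000000100000005 0x200000007000000050000000500000005 2 3) 0 0 (step_sound _ 129 [rh1006c02ae4212ff0, (rh9e07f76261b05888.shift 1 0)] (by decide +kernel))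
noncomputable def rhc4c7faa0ddd5da42 : CRef := CRef.mk (Pat.mk 0x100000002000000020000000200000004 0x10000000300000002000000020000000600000004 2 3) 0 0 (step_sound _ 129 [(rh50fbb5868c909700.shift 0 1), (rhd3458b32566d63f7.shift 1 0)] (by decide +kernel))
noncomputable def rh215ee3f3abaea373 : CRef := CRef.mk (Pat.mk 0x40000000c000000000000000f00000000 0x40000000c000000180000000f00000008 2 5) 0 0 (step_sound _ 67 [(rh33e738c4ed385b9f.shift 0 1), (rh7b1f1fb55310c477.shift 2 0)] (by decide +kernel))
noncomputable def rh1e5903b22a849688 : CRef := CRef.mk (Pat.mk 0x100000006000000000000000200000002 0x500000007000000020000000200000002 2 3) 0 0 (step_sound _ 65 [(rh2f68792b6b779e96.shift 1 0), rhffd04209dc8ea796] (by decide +kernel))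
noncomputable def rh5013872860cb36fd : CRef := CRef.mk (Pat.mk 0x600000038 0x1f00000038 2 6) 0 0 (step_sound _ 35 [rhb739f4f82bb681b4, (rhd6e447e81774439e.shift 1 0)] (by decide +kernel))
noncomputable def rh23e41f97710e9f38 : CRef := CRef.mk (Pat.mk 0x90000001c 0xf0000001e 2 5) 0 0 (step_sound _ 33 [rh09d4dfe75d4407d6, rhc10214bf3fe8094a] (by decide +kernel))
noncomputable def rh681aaf50e7ee2c91 : CRef := CRef.mk (Pat.mk 0x200000002000000160000000100000000 0x2000000020000001e0000000300000001 2 5) 0 0 (step_sound _ 33 [(rh361cc68994bd8a63.shift 0 1), rh932754581e0f4330] (by decide +kernel))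
noncomputable def rhb0c1e7919d9be92d : CRef := CRef.mk (Pat.mk 0x700000003000000020000000000000000 0x40000000700000003000000020000000200000002 2 3) 0 0 (step_sound _ 33 [(rh2f68792b6b779e96.shift 1 1), rh7b1f1fb55310c477] (by decide +kernel))
noncomputable def rh2f33d1d0bcfdca52 : CRef := CRef.mk (Pat.mk 0x200000004000000070000000500000000 0x20000000200000006000000070000000500000004 2 3) 0 0 (step_sound _ 97 [(rh5c5e593799055d58.shift 0 1), (rh7b1f1fb55310c477.shift 1 0)] (by decide +kernel))
noncomputable def rh05d00e7cfdb5e850 : CRef := CRef.mk (Pat.mk 0xa00000038 0xf00000078 2 7) 0 0 (step_sound _ 34 [rhb739f4f82bb681b4, (rhf48373e13d2bc128.shift 2 0)] (by decide +kernel))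
noncomputable def rh40241bd608e5be1a : CRef := CRef.mk (Pat.mk 0x700000006000000020000000000000000 0x10000000700000006000000020000000200000002 2 3) 0 0 (step_sound _ 33 [(rh50fbb5868c909700.shift 0 1), (rh71222050f2c63a3a.shift 1 0)] (by decide +kernel))
noncomputable def rh2d8edb255b5ae37b : CRef := CRef.mk (Pat.mk 0x140000003e 0x1c0000007f 2 7) 0 0 (step_sound _ 35 [rh53b3c253cb0c65f4, (rhf48373e13d2bc128.shift 2 0)] (by decide +kernel))
noncomputable def rh6b094f5d781b597a : CRef := CRef.mk (Pat.mk 0x1000000010000000060000001800000008 0x10000000180000000f0000001800000008 2 5) 0 0 (step_sound _ 67 [(rh1006c02ae4212ff0.shift 3 0), (rhb739f4f82bb681b4.shift 0 1)] (by decide +kernel))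
noncomputable def rh97d0766f3afe0efe : CRef := CRef.mk (Pat.mk 0x1c00000006 0x1e0000000f 2 5) 0 0 (step_sound _ 0 [rh3fc040e777f1679e, rhca9569cc80abfe76] (by decide +kernel))
noncomputable def rh3c2f980063a11105 : CRef := CRef.mk (Pat.mk 0x8000000080000000b0000001800000000 0x8000000080000000b0000001e00000004 2 5) 0 0 (step_sound _ 34 [(rh09d4dfe75d4407d6.shift 0 1), (rh932754581e0f4330.shift 2 0)] (by decide +kernel))
noncomputable def rh85a605aac6183f28 : CRef := CRef.mk (Pat.mk 0x2000000020000000300000004 0x200000002000000020000000700000005 2 3) 0 0 (step_sound _ 129 [rh932754581e0f4330, (rhd3458b32566d63f7.shift 1 0)] (by decide +kernel))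
noncomputable def rhb0463dbec37421a0 : CRef := CRef.mk (Pat.mk 0x60000000e00000001 0x60000003e00000003 2 6) 0 0 (step_sound _ 36 [rh80fcd6d0a18cb2dd, (rhf48373e13d2bc128.shift 1 1)] (by decide +kernel))
noncomputable def rh8ef9dd588f33bbde : CRef := CRef.mk (Pat.mk 0x30000000700000008 0x30000001f00000018 2 5) 0 0 (step_sound _ 35 [rhe25b0a99195a5d59, (rhf48373e13d2bc128.shift 0 1)] (by decide +kernel))
noncomputable def rh0690e8e61650bb00 : CRef := CRef.mk (Pat.mk 0x8000000080000000b0000000c 0x800000008000000080000000f0000001c 2 5) 0 0 (step_sound _ 34 [(rh5c5e593799055d58.shift 2 0), rhe25b0a99195a5d59] (by decide +kernel))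
noncomputable def rhed94a3f3b1c12c87 : CRef := CRef.mk (Pat.mk 0xb0000000d 0x1b0000001f 2 5) 0 0 (step_sound _ 1 [rh33e738c4ed385b9f, rhf48373e13d2bc128] (by decide +kernel))
noncomputable def rh7dcd5319f4f71bec : CRef := CRef.mk (Pat.mk 0x140000000e 0x3c0000000f 2 6) 0 0 (step_sound _ 35 [(rh18965a982d73c794.shift 1 0), rh53b3c253cb0c65f4] (by decide +kernel))
noncomputable def rhb25fef5ffc153beb : CRef := CRef.mk (Pat.mk 0xe00000011 0x1e00000033 2 6) 0 0 (step_sound _ 36 [rh80fcd6d0a18cb2dd, (rhe25b0a99195a5d59.shift 1 0)] (by decide +kernel))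
noncomputable def rhaaea62e49e55dbb4 : CRef := CRef.mk (Pat.mk 0x3f00000004 0x7f0000001c 2 7) 0 0 (step_sound _ 3 [(rh18965a982d73c794.shift 2 0), rhe25b0a99195a5d59] (by decide +kernel))
noncomputable def rh72297cd55a503360 : CRef := CRef.mk (Pat.mk 0x1c0000000a 0x3c0000000f 2 6) 0 0 (step_sound _ 2 [(rh18965a982d73c794.shift 1 0), rh53b3c253cb0c65f4] (by decide +kernel))
noncomputable def rhea383a553bc42003 : CRef := CRef.mk (Pat.mk 0xe00000030 0xf0000003c 2 6) 0 0 (step_sound _ 3 [(rh09d4dfe75d4407d6.shift 1 0), rhb739f4f82bb681b4] (by decide +kernel))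
noncomputable def rhde90b4c280e75d95 : CRef := CRef.mk (Pat.mk 0x30000000a00000038 0x30000001e00000078 2 7) 0 0 (step_sound _ 34 [(rhf48373e13d2bc128.shift 0 1), (rhf48373e13d2bc128.shift 2 0)] (by decide +kernel))
noncomputable def rh464589950ffbd03d : CRef := CRef.mk (Pat.mk 0xc00000019000000000000000300000002 0xf00000019000000010000000300000002 2 5) 0 0 (step_sound _ 128 [(rhab22b5b56e7b3243.shift 0 3), rhff0f29cb645b05f7] (by decide +kernel))
noncomputable def rh422dc31de97871b4 : CRef := CRef.mk (Pat.mk 0x10000000100000001000000030000000100000001 0x1000000010000000300000003000000030000000100000001 2 2) 0 0 (step_sound _ 97 [(rh2145e1d24b96a57e.shift 0 2), rh2f68792b6b779e96] (by decide +kernel))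
noncomputable def rh12d50e65fdd458b1 : CRef := CRef.mk (Pat.mk 0x1200000016 0x330000001e 2 6) 0 0 (step_sound _ 3 [rh3244c3cc8379b070, (rh33e738c4ed385b9f.shift 1 0)] (by decide +kernel))
noncomputable def rh9b8480194ae23710 : CRef := CRef.mk (Pat.mk 0x1000000010000000120000001600000000 0x1000000010000000130000001e00000008 2 5) 0 0 (step_sound _ 35 [(rh3244c3cc8379b070.shift 0 1), (rh932754581e0f4330.shift 3 0)] (by decide +kernel))
noncomputable def rh31101839337486c6 : CRef := CRef.mk (Pat.mk 0x12000000130000001000000010 0x80000001e000000130000001000000010 2 5) 0 0 (step_sound _ 99 [(rh50fbb5868c909700.shift 3 0), (rhb2a0b9ccfb5cecd5.shift 0 2)] (by decide +kernel))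
noncomputable def rh9e9b3c64536b2df8 : CRef := CRef.mk (Pat.mk 0x180000000c00000000000000010000000300000002 0x180000000f00000001000000010000000300000002 2 5) 0 0 (step_sound _ 128 [(rh24ae073cf30720c4.shift 0 4), rh6f1cbe15c631ee70] (by decide +kernel))
noncomputable def rhe8f0a18f2c1c6bea : CRef := CRef.mk (Pat.mk 0xc00000018000000010000000300000002 0xf00000019000000010000000300000002 2 5) 0 0 (step_sound _ 128 [rh6f1cbe15c631ee70, (rhab22b5b56e7b3243.shift 0 3)] (by decide +kernel))
noncomputable def rh639c5d61b5ce9eea : CRef := CRef.mk (Pat.mk 0x20000000e00000010 0x30000001e00000030 2 6) 0 0 (step_sound _ 36 [(rh3244c3cc8379b070.shift 0 1), (rhe25b0a99195a5d59.shift 1 0)] (by decide +kernel))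
noncomputable def rhc9a36aad54b02462 : CRef := CRef.mk (Pat.mk 0x300000001800000000000000020000000300000001 0x300000001e00000002000000020000000300000001 2 6) 0 0 (step_sound _ 129 [(rh24ae073cf30720c4.shift 1 4), rhee230b994cc8b773] (by decide +kernel))
noncomputable def rh5501401ca587e475 : CRef := CRef.mk (Pat.mk 0xa0000000b0000000800000008 0x40000001e0000000b0000000800000008 2 5) 0 0 (step_sound _ 98 [(rh18965a982d73c794.shift 0 2), (rh50fbb5868c909700.shift 2 0)] (by decide +kernel))
noncomputable def rhfbc236671041ce85 : CRef := CRef.mk (Pat.mk 0x7e00000010 0x7f0000001c 2 7) 0 0 (step_sound _ 3 [rhb739f4f82bb681b4, (rheb0810cc63b001d8.shift 2 0)] (by decide +kernel))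
noncomputable def rh876344954e856662 : CRef := CRef.mk (Pat.mk 0xa000000180000000800000008 0x40000000f000000180000000800000008 2 5) 0 0 (step_sound _ 98 [(rh50fbb5868c909700.shift 2 0), (rhb739f4f82bb681b4.shift 0 2)] (by decide +kernel))
noncomputable def rh0eb24269525fc5fc : CRef := CRef.mk (Pat.mk 0x1000000020000001a0000000200000000 0x1000000030000001e0000000200000002 2 5) 0 0 (step_sound _ 96 [(rh5419adcd928dba20.shift 0 2), rh7b1f1fb55310c477] (by decide +kernel))
noncomputable def rhb7674d85f64945d6 : CRef := CRef.mk (Pat.mk 0x20000001a00000018 0x30000001f00000018 2 5) 0 0 (step_sound _ 34 [(rh3244c3cc8379b070.shift 0 1), rhb739f4f82bb681b4] (by decide +kernel))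
noncomputable def rh3cf2764919f34f47 : CRef := CRef.mk (Pat.mk 0x800000008000000180000000a00000000 0x800000008000000180000000f00000004 2 5) 0 0 (step_sound _ 34 [(rh53b3c253cb0c65f4.shift 0 1), (rh932754581e0f4330.shift 2 0)] (by decide +kernel))
noncomputable def rhb3425fba9db279e9 : CRef := CRef.mk (Pat.mk 0x180000001a00000002 0x180000001f00000003 2 5) 0 0 (step_sound _ 34 [(rh53b3c253cb0c65f4.shift 0 1), rheb0810cc63b001d8] (by decide +kernel))
noncomputable def rh36cf33ca80b33456 : CRef := CRef.mk (Pat.mk 0xd00000028 0xf00000078 2 7) 0 0 (step_sound _ 4 [rhab22b5b56e7b3243, (rhf48373e13d2bc128.shift 2 0)] (by decide +kernel))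
noncomputable def rh37d9ceebb86d75d1 : CRef := CRef.mk (Pat.mk 0x2000000060000000700000000 0x20000000200000002000000060000000700000001 2 3) 0 0 (step_sound _ 129 [(rh2145e1d24b96a57e.shift 1 1), rh932754581e0f4330] (by decide +kernel))
noncomputable def rh57d80d31d58beaa0 : CRef := CRef.mk (Pat.mk 0x500000005000000070000000400000000 0x10000000500000005000000070000000600000002 2 3) 0 0 (step_sound _ 33 [(rh2145e1d24b96a57e.shift 0 1), (rh932754581e0f4330.shift 1 0)] (by decide +kernel))
noncomputable def rhfc77473044a95557 : CRef := CRef.mk (Pat.mk 0x100000001000000030000000000000002 0x10000000100000003000000030000000200000002 2 2) 0 0 (step_sound _ 33 [(rh2145e1d24b96a57e.shift 0 1), rhcfdf45280693d3da] (by decide +kernel))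
noncomputable def rh3b18e0ae14543051 : CRef := CRef.mk (Pat.mk 0x80000000e000000120000000000000010 0x80000001e000000130000001000000010 2 5) 0 0 (step_sound _ 100 [(rh9e07f76261b05888.shift 3 0), (rheb0810cc63b001d8.shift 0 2)] (by decide +kernel))
noncomputable def rha5a7323224298132 : CRef := CRef.mk (Pat.mk 0x200000002000000030000001400000000 0x200000002000000030000001e00000004 2 5) 0 0 (step_sound _ 33 [(rh2fe78cc5ca4405d8.shift 0 1), (rh55afc6a59410cf00.shift 1 0)] (by decide +kernel))
noncomputable def rh2120aabfffe04691 : CRef := CRef.mk (Pat.mk 0x100000001000000190000000a00000000 0x100000001000000190000000f00000002 2 5) 0 0 (step_sound _ 32 [(rh1c62b6193297d9e3.shift 0 1), rh55afc6a59410cf00] (by decide +kernel))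
noncomputable def rh2ee61895a6499355 : CRef := CRef.mk (Pat.mk 0x100000001c00000002 0x300000001e00000003 2 6) 0 0 (step_sound _ 33 [(rh33e738c4ed385b9f.shift 1 1), rheb0810cc63b001d8] (by decide +kernel))
noncomputable def rh5ef1c85688574b5a : CRef := CRef.mk (Pat.mk 0x1c000000020000001a 0x1e000000030000001e 2 5) 0 0 (step_sound _ 32 [rh5419adcd928dba20, (rhca9569cc80abfe76.shift 0 1)] (by decide +kernel))
noncomputable def rhb2f8cf715f80bee2 : CRef := CRef.mk (Pat.mk 0x400000005000000050000000500000001 0x20000000600000007000000050000000500000001 2 3) 0 0 (step_sound _ 129 [(rh50fbb5868c909700.shift 1 1), rhbaefcd01e0a8bca3] (by decide +kernel))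
noncomputable def rh4f4723d1a3b6bc60 : CRef := CRef.mk (Pat.mk 0x10000000e000000040000000000000004 0x30000001e000000040000000400000004 2 5) 0 0 (step_sound _ 129 [(rh9e07f76261b05888.shift 1 0), (rhf48373e13d2bc128.shift 0 3)] (by decide +kernel))
noncomputable def rh26cf6cd574a72447 : CRef := CRef.mk (Pat.mk 0xb0000000b 0x1f0000001b 2 5) 0 0 (step_sound _ 34 [rh18965a982d73c794, rhe25b0a99195a5d59] (by decide +kernel))
noncomputable def rhf21a690ddaaecbd4 : CRef := CRef.mk (Pat.mk 0x80000000b00000003 0x180000001f00000003 2 5) 0 0 (step_sound _ 34 [rh18965a982d73c794, (rh33e738c4ed385b9f.shift 0 1)] (by decide +kernel))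
noncomputable def rh5ecc884e79ed7dd3 : CRef := CRef.mk (Pat.mk 0x100000006000000020000000000000002 0x500000007000000020000000200000002 2 3) 0 0 (step_sound _ 33 [(rh2f68792b6b779e96.shift 1 0), rhffd04209dc8ea796] (by decide +kernel))
noncomputable def rh474e234485f2465c : CRef := CRef.mk (Pat.mk 0xe00000012 0x1e00000033 2 6) 0 0 (step_sound _ 36 [(rhe25b0a99195a5d59.shift 1 0), rheb0810cc63b001d8] (by decide +kernel))
noncomputable def rha8a796402646755e : CRef := CRef.mk (Pat.mk 0x70000000c000000040000000400000000 0xf0000001c000000040000000400000004 2 5) 0 0 (step_sound _ 131 [(rh71222050f2c63a3a.shift 2 0), (rhe25b0a99195a5d59.shift 0 3)] (by decide +kernel))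
noncomputable def rh6494f8aa5ec0db11 : CRef := CRef.mk (Pat.mk 0x1e0000001c00000010 0x1e0000001f00000030 2 6) 0 0 (step_sound _ 33 [(rhe25b0a99195a5d59.shift 1 0), (rheb0810cc63b001d8.shift 0 1)] (by decide +kernel))
noncomputable def rh807d78fa6ca78542 : CRef := CRef.mk (Pat.mk 0x300000001000000000000000300000000 0x20000000300000001000000010000000300000002 2 2) 0 0 (step_sound _ 64 [(rh2f68792b6b779e96.shift 0 1), rh55afc6a59410cf00] (by decide +kernel))
noncomputable def rh7bed6280d5711866 : CRef := CRef.mk (Pat.mk 0x300000003000000020000000400000000 0x300000003000000020000000600000006 2 3) 0 0 (step_sound _ 33 [(rh55afc6a59410cf00.shift 1 0), rh7b1f1fb55310c477] (by decide +kernel))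
noncomputable def rh518d6f6eeebddcb2 : CRef := CRef.mk (Pat.mk 0x2000000020000000600000001 0x200000002000000020000000700000005 2 3) 0 0 (step_sound _ 129 [(rh55afc6a59410cf00.shift 1 0), rh79877ebd3ef475dd] (by decide +kernel))
noncomputable def rh2d5442cbf338480d : CRef := CRef.mk (Pat.mk 0x400000003000000020000000200000000 0x500000007000000020000000200000002 2 3) 0 0 (step_sound _ 1 [rh50fbb5868c909700, (rhbaefcd01e0a8bca3.shift 1 0)] (by decide +kernel))
noncomputable def rh33bb7e99691e14a2 : CRef := CRef.mk (Pat.mk 0xc00000007000000040000000400000000 0x1e00000007000000040000000400000004 2 5) 0 0 (step_sound _ 129 [(rh18965a982d73c794.shift 0 3), (rh7b1f1fb55310c477.shift 1 0)] (by decide +kernel))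
noncomputable def rh27b30caf12b8c6e2 : CRef := CRef.mk (Pat.mk 0x1000000010000000100000003000000010000000000000001 0x100000001000000010000000300000003000000010000000100000001 2 2) 0 0 (step_sound _ 129 [(rh2145e1d24b96a57e.shift 0 3), rh9e3edb185cc347de] (by decide +kernel))
noncomputable def rh3e4b55a8c31e7aae : CRef := CRef.mk (Pat.mk 0x40000000b000000080000000800000000 0x40000000f000000180000000800000008 2 5) 0 0 (step_sound _ 98 [(rh7b1f1fb55310c477.shift 2 0), (rhe25b0a99195a5d59.shift 0 2)] (by decide +kernel))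
noncomputable def rhe8ba100882c6d16d : CRef := CRef.mk (Pat.mk 0xa0000001a0000000200000002 0x40000000f0000001a0000000200000002 2 5) 0 0 (step_sound _ 98 [(rh2f68792b6b779e96.shift 1 0), (rhb739f4f82bb681b4.shift 0 2)] (by decide +kernel))
noncomputable def rh319673309b7ac683 : CRef := CRef.mk (Pat.mk 0x200000002000000030000000000000001 0x20000000200000003000000030000000100000001 2 2) 0 0 (step_sound _ 32 [rh1006c02ae4212ff0, (rh5c5e593799055d58.shift 0 1)] (by decide +kernel))
noncomputable def rh615a42bddefc9f31 : CRef := CRef.mk (Pat.mk 0x200000002000000030000000000000001 0x20000000200000002000000030000000300000001 2 2) 0 0 (step_sound _ 32 [(rh5c5e593799055d58.shift 0 1), rheea67dfebd0f8008] (by decide +kernel))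
noncomputable def rh1642ef1127830c20 : CRef := CRef.mk (Pat.mk 0xe000000080000000e 0xf000000180000000f 2 5) 0 0 (step_sound _ 36 [rh53b3c253cb0c65f4, (rhb739f4f82bb681b4.shift 0 1)] (by decide +kernel))
noncomputable def rha5aa03dd987c466d : CRef := CRef.mk (Pat.mk 0x100000001000000020000000300000000 0x100000003000000030000000300000002 2 2) 0 0 (step_sound _ 1 [rhcfdf45280693d3da, rhff0f29cb645b05f7] (by decide +kernel))
noncomputable def rh1978fdf87ac449a5 : CRef := CRef.mk (Pat.mk 0x200000002000000020000000000000005 0x200000002000000020000000700000005 2 3) 0 0 (step_sound _ 33 [rh79877ebd3ef475dd, (rhd3458b32566d63f7.shift 1 0)] (by decide +kernel))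
noncomputable def rhe38ad39d05c44887 : CRef := CRef.mk (Pat.mk 0x500000005000000050000000200000000 0x500000005000000050000000700000002 2 3) 0 0 (step_sound _ 1 [rhbe0e43a3bc50a43f, (rheea67dfebd0f8008.shift 1 0)] (by decide +kernel))
noncomputable def rh2f3e416c6263c0c2 : CRef := CRef.mk (Pat.mk 0x10000000600000006000000020000000000000000 0x10000000700000006000000020000000200000002 2 3) 0 0 (step_sound _ 33 [(rh71222050f2c63a3a.shift 1 0), (rhffd04209dc8ea796.shift 0 1)] (by decide +kernel))
noncomputable def rh27f593b3ddfbb7cd : CRef := CRef.mk (Pat.mk 0x40000000500000007000000020000000000000000 0x40000000500000007000000060000000200000002 2 3) 0 0 (step_sound _ 33 [rh7b1f1fb55310c477, (rheea67dfebd0f8008.shift 1 1)] (by decide +kernel))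
noncomputable def rh5e73ed27dca2bc2c : CRef := CRef.mk (Pat.mk 0x20000000000000001000000010000000100000002 0x20000000300000001000000010000000300000002 2 2) 0 0 (step_sound _ 128 [(rhbaefcd01e0a8bca3.shift 0 1), rhd3458b32566d63f7] (by decide +kernel))
noncomputable def rh1577e5323e080aa4 : CRef := CRef.mk (Pat.mk 0x700000000000000020000000200000002 0x40000000700000003000000020000000200000002 2 3) 0 0 (step_sound _ 97 [(rh2f68792b6b779e96.shift 1 1), rhffd04209dc8ea796] (by decide +kernel))
noncomputable def rh8045a4749be85c44 : CRef := CRef.mk (Pat.mk 0x2000000070000000500000004 0x20000000200000006000000070000000500000004 2 3) 0 0 (step_sound _ 129 [(rh5c5e593799055d58.shift 0 1), (rhcfdf45280693d3da.shift 1 0)] (by decide +kernel))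
noncomputable def rhf82798fa287a880f : CRef := CRef.mk (Pat.mk 0x40000000200000002000000000000000300000000 0x40000000600000002000000020000000300000001 2 3) 0 0 (step_sound _ 65 [rh932754581e0f4330, (rhbaefcd01e0a8bca3.shift 1 1)] (by decide +kernel))
noncomputable def rh0b6a0038ecc85198 : CRef := CRef.mk (Pat.mk 0x10000000100000001000000000000000300000000 0x10000000100000001000000030000000300000002 2 2) 0 0 (step_sound _ 64 [rh55afc6a59410cf00, (rhd3458b32566d63f7.shift 0 1)] (by decide +kernel))
noncomputable def rh12ce15e2055368ee : CRef := CRef.mk (Pat.mk 0x40000000400000004000000000000001e 0x40000000400000004000000070000001e 2 5) 0 0 (step_sound _ 33 [rh3244c3cc8379b070, (rheea67dfebd0f8008.shift 1 0)] (by decide +kernel))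
noncomputable def rh90c4546f59aef0d0 : CRef := CRef.mk (Pat.mk 0x500000005000000000000000700000000 0x500000005000000050000000700000002 2 3) 0 0 (step_sound _ 1 [(rh3c88ce959c0e423f.shift 1 0), rhff0f29cb645b05f7] (by decide +kernel))
noncomputable def rhdf88d096527d0db3 : CRef := CRef.mk (Pat.mk 0xf00000000000000040000000400000004 0xf0000001c000000040000000400000004 2 5) 0 0 (step_sound _ 99 [(rh1006c02ae4212ff0.shift 2 0), (rhe25b0a99195a5d59.shift 0 3)] (by decide +kernel))
noncomputable def rha761300b78595edf : CRef := CRef.mk (Pat.mk 0x7000000000000000500000005 0x200000007000000050000000500000005 2 3) 0 0 (step_sound _ 129 [rh04253f50b6dd0619, (rh2613c889e411427e.shift 1 0)] (by decide +kernel))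
noncomputable def rh9c0a5dbd188ab718 : CRef := CRef.mk (Pat.mk 0x5000000020000000200000002 0x500000007000000020000000200000002 2 3) 0 0 (step_sound _ 97 [(rh2f68792b6b779e96.shift 1 0), rh50fbb5868c909700] (by decide +kernel))
noncomputable def rh0db119afefb5ebc7 : CRef := CRef.mk (Pat.mk 0x200000003000000020000000100000000 0x20000000200000003000000030000000100000001 2 2) 0 0 (step_sound _ 64 [(rh5c5e593799055d58.shift 0 1), rh71222050f2c63a3a] (by decide +kernel))
noncomputable def rh477487b2c134cd01 : CRef := CRef.mk (Pat.mk 0x300000001000000000000000100000001 0x20000000300000003000000010000000100000001 2 2) 0 0 (step_sound _ 64 [(rh2f68792b6b779e96.shift 0 1), rhbaefcd01e0a8bca3] (by decide +kernel))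
noncomputable def rhef50d508512821da : CRef := CRef.mk (Pat.mk 0x40000000500000005000000050000000100000000 0x40000000500000005000000070000000300000002 2 3) 0 0 (step_sound _ 33 [rh55afc6a59410cf00, (rh79877ebd3ef475dd.shift 1 1)] (by decide +kernel))
noncomputable def rh92dfa4e252fd939c : CRef := CRef.mk (Pat.mk 0xe0000000a0000000200000002 0x10000000f0000001a0000000200000002 2 5) 0 0 (step_sound _ 96 [rh50fbb5868c909700, (rhe25b0a99195a5d59.shift 0 2)] (by decide +kernel))
noncomputable def rh14c650b81439982e : CRef := CRef.mk (Pat.mk 0x100000000b0000000800000008 0x10000000180000000f0000000800000008 2 5) 0 0 (step_sound _ 99 [(rh1c62b6193297d9e3.shift 0 2), (rh2f68792b6b779e96.shift 3 0)] (by decide +kernel))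
noncomputable def rh9b5d9f8ba2f5398f : CRef := CRef.mk (Pat.mk 0x10000001a0000000200000002 0x1000000030000001e0000000200000002 2 5) 0 0 (step_sound _ 97 [rh50fbb5868c909700, (rh5419adcd928dba20.shift 0 2)] (by decide +kernel))
noncomputable def rh3674cf208d5ab260 : CRef := CRef.mk (Pat.mk 0x400000001000000050000000700000000 0x500000005000000050000000700000002 2 3) 0 0 (step_sound _ 1 [rh2145e1d24b96a57e, (rhee230b994cc8b773.shift 1 0)] (by decide +kernel))
noncomputable def rh8801e8897ac0f840 : CRef := CRef.mk (Pat.mk 0x80000000800000008000000080000000e 0x80000000800000008000000180000001f 2 5) 0 0 (step_sound _ 36 [rh53b3c253cb0c65f4, (rh55afc6a59410cf00.shift 3 0)] (by decide +kernel))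
noncomputable def rh88f1a525075bdbb4 : CRef := CRef.mk (Pat.mk 0x200000002000000020000000100000001 0x20000000200000003000000030000000100000001 2 2) 0 0 (step_sound _ 64 [rh1006c02ae4212ff0, (rh5c5e593799055d58.shift 0 1)] (by decide +kernel))
noncomputable def rh83a364e17e439917 : CRef := CRef.mk (Pat.mk 0x20000000200000002000000020000000e 0x20000000200000002000000030000001f 2 5) 0 0 (step_sound _ 32 [rh932754581e0f4330, rhf48373e13d2bc128] (by decide +kernel))
noncomputable def rhc819099e3528846d : CRef := CRef.mk (Pat.mk 0x800000008000000100000001e 0x80000000800000008000000180000001f 2 5) 0 0 (step_sound _ 35 [(rh2145e1d24b96a57e.shift 3 0), rh53b3c253cb0c65f4] (by decide +kernel))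
noncomputable def rh2aa7c1d375387a4e : CRef := CRef.mk (Pat.mk 0x800000008000000080000000f00000000 0x800000008000000080000001f00000018 2 5) 0 0 (step_sound _ 4 [rh96851dee118c1ba3, (rhd3458b32566d63f7.shift 3 0)] (by decide +kernel))
noncomputable def rhd3d019a85ab3f7d5 : CRef := CRef.mk (Pat.mk 0x500000005000000050000000000000002 0x500000005000000050000000700000002 2 3) 0 0 (step_sound _ 33 [rhbe0e43a3bc50a43f, (rheea67dfebd0f8008.shift 1 0)] (by decide +kernel))
noncomputable def rh06dad6edb7ce8d9c : CRef := CRef.mk (Pat.mk 0x8000000080000000e0000001000000000 0x8000000080000000f0000001800000010 2 5) 0 0 (step_sound _ 35 [(rh55afc6a59410cf00.shift 3 0), (rhb739f4f82bb681b4.shift 0 1)] (by decide +kernel))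
noncomputable def rh4b6e729f69f75d56 : CRef := CRef.mk (Pat.mk 0x400000004000000140000000e 0x400000004000000040000001c0000000f 2 5) 0 0 (step_sound _ 35 [(rh2145e1d24b96a57e.shift 2 0), rh53b3c253cb0c65f4] (by decide +kernel))
noncomputable def rh06e7be76729e4c2a : CRef := CRef.mk (Pat.mk 0x60000001c000000040000000400000000 0xf0000001c000000040000000400000004 2 5) 0 0 (step_sound _ 131 [(rh71222050f2c63a3a.shift 2 0), (rhb739f4f82bb681b4.shift 0 3)] (by decide +kernel))
noncomputable def rhc705a4e0321a1bff : CRef := CRef.mk (Pat.mk 0x100000006000000020000000200000000 0x500000007000000020000000200000002 2 3) 0 0 (step_sound _ 1 [(rh2f68792b6b779e96.shift 1 0), rhffd04209dc8ea796] (by decide +kernel))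
noncomputable def rh2867a7c45dfd885a : CRef := CRef.mk (Pat.mk 0x1000000010000000300000001000000010000000100000000 0x1000000010000000300000003000000030000000100000001 2 2) 0 0 (step_sound _ 97 [(rh55afc6a59410cf00.shift 0 2), rh71222050f2c63a3a] (by decide +kernel))
noncomputable def rh981be6707e4d9088 : CRef := CRef.mk (Pat.mk 0x400000000000000040000001e00000000 0x400000004000000040000001e00000003 2 5) 0 0 (step_sound _ 1 [rheb0810cc63b001d8, (rhee230b994cc8b773.shift 1 0)] (by decide +kernel))
noncomputable def rhb1085e0e51093b6e : CRef := CRef.mk (Pat.mk 0x2000000000000001e0000000600000000 0x2000000030000001e0000000600000004 2 5) 0 0 (step_sound _ 97 [(rh3244c3cc8379b070.shift 0 2), (rh55afc6a59410cf00.shift 1 0)] (by decide +kernel))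
noncomputable def rh3cf27b620d27ca9a : CRef := CRef.mk (Pat.mk 0x6000000000000001e00000002 0x400000006000000030000001e00000002 2 5) 0 0 (step_sound _ 65 [(rh2f68792b6b779e96.shift 1 0), (rh3244c3cc8379b070.shift 0 1)] (by decide +kernel))
noncomputable def rh42a7bbf213dec003 : CRef := CRef.mk (Pat.mk 0x20000000000000003000000010000000100000000 0x20000000300000003000000010000000100000001 2 2) 0 0 (step_sound _ 129 [(rh1006c02ae4212ff0.shift 0 1), rh71222050f2c63a3a] (by decide +kernel))
noncomputable def rheb6f629f45b04d8c : CRef := CRef.mk (Pat.mk 0x500000000000000020000000200000002 0x500000007000000020000000200000002 2 3) 0 0 (step_sound _ 97 [(rhbaefcd01e0a8bca3.shift 1 0), rhffd04209dc8ea796] (by decide +kernel))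
noncomputable def rh4b555cfb2752cddc : CRef := CRef.mk (Pat.mk 0x10000000100000002000000020000000200000000 0x10000000100000003000000030000000200000002 2 2) 0 0 (step_sound _ 96 [rh7b1f1fb55310c477, (rhbe0e43a3bc50a43f.shift 0 1)] (by decide +kernel))
noncomputable def rh7b9752c74db2176f : CRef := CRef.mk (Pat.mk 0x6000000020000001e00000000 0x400000006000000020000001e00000003 2 5) 0 0 (step_sound _ 1 [(rh2f68792b6b779e96.shift 1 0), rheb0810cc63b001d8] (by decide +kernel))
noncomputable def rhecb97fed8c7f1286 : CRef := CRef.mk (Pat.mk 0x200000003000000000000000300000000 0x200000003000000030000000300000001 2 2) 0 0 (step_sound _ 0 [rh04253f50b6dd0619, rh3c88ce959c0e423f] (by decide +kernel))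
noncomputable def rhb90d198c2da154ec : CRef := CRef.mk (Pat.mk 0x3000000140000001e 0x30000001f0000001e 2 5) 0 0 (step_sound _ 33 [(rh2fe78cc5ca4405d8.shift 0 1), rh3244c3cc8379b070] (by decide +kernel))
noncomputable def rh8182636679a705e3 : CRef := CRef.mk (Pat.mk 0x400000009000000180000000800000000 0x40000000f000000180000000800000008 2 5) 0 0 (step_sound _ 98 [(rh7b1f1fb55310c477.shift 2 0), (rhab22b5b56e7b3243.shift 0 2)] (by decide +kernel))
noncomputable def rh7f8e4a6fbe0e1f11 : CRef := CRef.mk (Pat.mk 0x1e000000000000000600000004 0x30000001e000000020000000600000004 2 5) 0 0 (step_sound _ 129 [(rh3244c3cc8379b070.shift 0 3), (rhff0f29cb645b05f7.shift 1 0)] (by decide +kernel))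
noncomputable def rhad7492a02e601b5b : CRef := CRef.mk (Pat.mk 0x6000000020000001c00000002 0x400000006000000020000001e00000003 2 5) 0 0 (step_sound _ 33 [(rh2f68792b6b779e96.shift 1 0), rheb0810cc63b001d8] (by decide +kernel))
noncomputable def rh7dc50071bdff3525 : CRef := CRef.mk (Pat.mk 0x20000003a00000002 0x60000003e00000003 2 6) 0 0 (step_sound _ 34 [(rh3f8766e6ecb455ce.shift 1 1), rheb0810cc63b001d8] (by decide +kernel))
noncomputable def rh95b5d1b80c07191e : CRef := CRef.mk (Pat.mk 0x20000003a 0x70000003e 2 6) 0 0 (step_sound _ 2 [rh3244c3cc8379b070, (rh3f8766e6ecb455ce.shift 1 0)] (by decide +kernel))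
noncomputable def rh7a463014b1a15a7b : CRef := CRef.mk (Pat.mk 0x18000000080000000f00000000 0x1000000018000000080000000f00000018 2 5) 0 0 (step_sound _ 3 [(rh2f68792b6b779e96.shift 3 0), rhe25b0a99195a5d59] (by decide +kernel))
noncomputable def rhea6e2ff5d6d6fb77 : CRef := CRef.mk (Pat.mk 0x10000001c00000020 0x30000001e00000030 2 6) 0 0 (step_sound _ 33 [(rh3f8766e6ecb455ce.shift 0 1), (rh96851dee118c1ba3.shift 1 0)] (by decide +kernel))
noncomputable def rh35256fb8afedac85 : CRef := CRef.mk (Pat.mk 0x20000000200000002000000020000001c 0x20000000200000002000000030000001f 2 5) 0 0 (step_sound _ 32 [rh09d4dfe75d4407d6, rh932754581e0f4330] (by decide +kernel))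
noncomputable def rh3fb8aab4fcdc27e5 : CRef := CRef.mk (Pat.mk 0x2000000020000000300000002000000020000000200000000 0x2000000020000000300000003000000030000000200000002 2 2) 0 0 (step_sound _ 96 [rh7b1f1fb55310c477, (rh932754581e0f4330.shift 0 2)] (by decide +kernel))
noncomputable def rh3b68f2b4cda54ed8 : CRef := CRef.mk (Pat.mk 0x210000001c 0x330000001e 2 6) 0 0 (step_sound _ 1 [rh3f8766e6ecb455ce, (rh428265de8cd3cd2d.shift 1 0)] (by decide +kernel))
noncomputable def rhfe30433439f14678 : CRef := CRef.mk (Pat.mk 0x1e000000040000001c 0x1e000000070000003c 2 6) 0 0 (step_sound _ 33 [(rheb0810cc63b001d8.shift 0 1), (rhf48373e13d2bc128.shift 1 0)] (by decide +kernel))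
noncomputable def rhfb815e3afead425a : CRef := CRef.mk (Pat.mk 0x380000000a 0x380000001f 2 6) 0 0 (step_sound _ 2 [(rh3fc040e777f1679e.shift 1 0), rh53b3c253cb0c65f4] (by decide +kernel))
noncomputable def rh42558e9c3b58f747 : CRef := CRef.mk (Pat.mk 0x4000000060000001a0000000c00000000 0x4000000060000001a0000000f00000002 2 5) 0 0 (step_sound _ 33 [(rh53b3c253cb0c65f4.shift 0 1), (rh71222050f2c63a3a.shift 1 0)] (by decide +kernel))
noncomputable def rh8556ce617a451e36 : CRef := CRef.mk (Pat.mk 0x300000003000000000000000300000000 0x300000003000000010000000300000003 2 2) 0 0 (step_sound _ 64 [rh55afc6a59410cf00, rh71222050f2c63a3a] (by decide +kernel))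
noncomputable def rh4096d66cfc0478fc : CRef := CRef.mk (Pat.mk 0x100000000700000010 0x180000000f00000018 2 5) 0 0 (step_sound _ 35 [(rh428265de8cd3cd2d.shift 0 1), rh96851dee118c1ba3] (by decide +kernel))
noncomputable def rh076be03eb7063320 : CRef := CRef.mk (Pat.mk 0x1c0000000a 0x1e0000000f 2 5) 0 0 (step_sound _ 0 [rh1c62b6193297d9e3, rhca9569cc80abfe76] (by decide +kernel))
noncomputable def rhfaef403040bda603 : CRef := CRef.mk (Pat.mk 0x2000000020000001200000007 0x200000002000000020000001e00000007 2 5) 0 0 (step_sound _ 34 [(rh2145e1d24b96a57e.shift 1 0), rh361cc68994bd8a63] (by decide +kernel))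
noncomputable def rh79a48be3ac30af6a : CRef := CRef.mk (Pat.mk 0x200000002000000040000000700000000 0x20000000200000002000000060000000700000001 2 3) 0 0 (step_sound _ 65 [(rh2145e1d24b96a57e.shift 1 1), rh932754581e0f4330] (by decide +kernel))
noncomputable def rh508d31626b5d2be8 : CRef := CRef.mk (Pat.mk 0xa0000001c 0xf0000003c 2 6) 0 0 (step_sound _ 34 [rhb739f4f82bb681b4, (rhf48373e13d2bc128.shift 1 0)] (by decide +kernel))
noncomputable def rh24011d6715496e65 : CRef := CRef.mk (Pat.mk 0x400000007000000010000000100000002 0x500000007000000030000000300000002 2 3) 0 0 (step_sound _ 33 [(rh04253f50b6dd0619.shift 1 0), rh2145e1d24b96a57e] (by decide +kernel))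
noncomputable def rhe908f39dd8d66be2 : CRef := CRef.mk (Pat.mk 0x200000000000000060000000700000000 0x20000000200000002000000060000000700000001 2 3) 0 0 (step_sound _ 97 [(rh2145e1d24b96a57e.shift 1 1), rh932754581e0f4330] (by decide +kernel))
noncomputable def rh9d612420c8b9de6e : CRef := CRef.mk (Pat.mk 0x10000001f000000000000000000000002 0x10000001f000000030000000200000002 2 5) 0 0 (step_sound _ 65 [rh9e07f76261b05888, (rheb0810cc63b001d8.shift 0 2)] (by decide +kernel))
noncomputable def rh742a939d2de66caf : CRef := CRef.mk (Pat.mk 0x1000000010000000f0000000100000000 0x1000000010000001f0000000300000002 2 5) 0 0 (step_sound _ 33 [(rh18965a982d73c794.shift 0 1), rh55afc6a59410cf00] (by decide +kernel))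
noncomputable def rha0038b646a484065 : CRef := CRef.mk (Pat.mk 0x5000000180000000800000008 0x40000000f000000180000000800000008 2 5) 0 0 (step_sound _ 99 [(rh50fbb5868c909700.shift 2 0), (rhab22b5b56e7b3243.shift 0 2)] (by decide +kernel))
noncomputable def rhd50985e1414a9bd3 : CRef := CRef.mk (Pat.mk 0x200000002000000120000000b00000000 0x2000000020000001a0000000f00000004 2 5) 0 0 (step_sound _ 34 [(rh428265de8cd3cd2d.shift 0 1), (rh55afc6a59410cf00.shift 1 0)] (by decide +kernel))
noncomputable def rhd8e6cb30eafd8eba : CRef := CRef.mk (Pat.mk 0x30000000a000000000000000400000004 0x30000001e000000040000000400000004 2 5) 0 0 (step_sound _ 98 [(rh2613c889e411427e.shift 1 0), (rhf48373e13d2bc128.shift 0 3)] (by decide +kernel))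
noncomputable def rhed52f035b483d922 : CRef := CRef.mk (Pat.mk 0xf000000000000001800000010 0x180000000f000000080000001800000010 2 5) 0 0 (step_sound _ 131 [(rh33e738c4ed385b9f.shift 0 3), (rhff0f29cb645b05f7.shift 3 0)] (by decide +kernel))
noncomputable def rh45e9dfbd6bd5d256 : CRef := CRef.mk (Pat.mk 0x200000000f 0x380000001f 2 6) 0 0 (step_sound _ 36 [(rh3fc040e777f1679e.shift 1 0), rh428265de8cd3cd2d] (by decide +kernel))
noncomputable def rh8a8da865a1d44ddd : CRef := CRef.mk (Pat.mk 0xf000000000000001800000010 0x80000000f000000180000001800000010 2 5) 0 0 (step_sound _ 67 [(rh2145e1d24b96a57e.shift 3 0), (rhe25b0a99195a5d59.shift 0 2)] (by decide +kernel))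
noncomputable def rh4a2d14650c96af18 : CRef := CRef.mk (Pat.mk 0x200000000e00000002 0x300000001e00000003 2 6) 0 0 (step_sound _ 36 [(rh428265de8cd3cd2d.shift 1 1), rheb0810cc63b001d8] (by decide +kernel))
noncomputable def rh581cb3a0e05e512b : CRef := CRef.mk (Pat.mk 0x1200000017 0x1b0000001f 2 5) 0 0 (step_sound _ 3 [rh3244c3cc8379b070, rh428265de8cd3cd2d] (by decide +kernel))
noncomputable def rh0c359a6fa669d258 : CRef := CRef.mk (Pat.mk 0x20000000200000002000000020000000200000016 0x2000000020000000200000003000000030000001e 2 5) 0 0 (step_sound _ 32 [rh2fe78cc5ca4405d8, (rh79877ebd3ef475dd.shift 0 1)] (by decide +kernel))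
noncomputable def rhad18fc9d31657129 : CRef := CRef.mk (Pat.mk 0x8000000100000000e0000000400000004 0x8000000180000000f0000000c00000004 2 5) 0 0 (step_sound _ 99 [(rh53b3c253cb0c65f4.shift 0 2), (rheea67dfebd0f8008.shift 2 0)] (by decide +kernel))
noncomputable def rhb0491c8b198c7c3b : CRef := CRef.mk (Pat.mk 0x2000000020000000300000002000000020000000200000000 0x200000002000000020000000300000003000000020000000200000002 2 2) 0 0 (step_sound _ 96 [(rh5c5e593799055d58.shift 0 3), rh7b1f1fb55310c477] (by decide +kernel))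
noncomputable def rh02699a7ff7d1085c : CRef := CRef.mk (Pat.mk 0x200000001a00000002 0x300000001e00000003 2 6) 0 0 (step_sound _ 34 [(rh428265de8cd3cd2d.shift 1 1), rheb0810cc63b001d8] (by decide +kernel))
noncomputable def rh78bebf519769cb5e : CRef := CRef.mk (Pat.mk 0x40000000400000004000000000000000f 0x400000004000000040000001c0000000f 2 5) 0 0 (step_sound _ 35 [rh33e738c4ed385b9f, (rhbe0e43a3bc50a43f.shift 2 0)] (by decide +kernel))
noncomputable def rhfbf320ca8ea44173 : CRef := CRef.mk (Pat.mk 0x1200000007 0x1e0000000f 2 5) 0 0 (step_sound _ 35 [rh3fc040e777f1679e, rhb2a0b9ccfb5cecd5] (by decide +kernel))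
noncomputable def rhf004865f08a1b0e3 : CRef := CRef.mk (Pat.mk 0x8000000000000000f0000000c00000000 0x8000000180000000f0000000c00000004 2 5) 0 0 (step_sound _ 99 [(rh33e738c4ed385b9f.shift 0 2), (rh932754581e0f4330.shift 2 0)] (by decide +kernel))
noncomputable def rhd680bf2cf2441e84 : CRef := CRef.mk (Pat.mk 0x1e00000004000000040000000400000000 0x1e00000007000000040000000400000004 2 5) 0 0 (step_sound _ 97 [(rh7b1f1fb55310c477.shift 1 0), (rheb0810cc63b001d8.shift 0 3)] (by decide +kernel))
noncomputable def rhd6ece6133e39c38f : CRef := CRef.mk (Pat.mk 0x400000002000000020000000300000000 0x40000000600000002000000020000000300000001 2 3) 0 0 (step_sound _ 129 [(rh2f68792b6b779e96.shift 1 1), rh932754581e0f4330] (by decide +kernel))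
noncomputable def rh4cdb379841a0f429 : CRef := CRef.mk (Pat.mk 0x300000002000000020000000400000000 0x10000000300000002000000020000000600000004 2 3) 0 0 (step_sound _ 33 [(rh50fbb5868c909700.shift 0 1), (rh55afc6a59410cf00.shift 1 0)] (by decide +kernel))
noncomputable def rh0e9804663e9ab184 : CRef := CRef.mk (Pat.mk 0x8000000080000000a0000000e00000000 0x8000000080000000b0000001e00000010 2 5) 0 0 (step_sound _ 36 [(rh3244c3cc8379b070.shift 0 1), (rh55afc6a59410cf00.shift 3 0)] (by decide +kernel))
noncomputable def rh8550ba1d74bb04c9 : CRef := CRef.mk (Pat.mk 0x80000007e 0x18000000ff 2 8) 0 0 (step_sound _ 36 [rh53b3c253cb0c65f4, (rhf48373e13d2bc128.shift 3 0)] (by decide +kernel))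
noncomputable def rhae6f9a1ddf3da338 : CRef := CRef.mk (Pat.mk 0x10000000100000001000000020000000200000000 0x1000000010000000100000003000000020000000200000002 2 2) 0 0 (step_sound _ 97 [(rh2145e1d24b96a57e.shift 0 2), rh7b1f1fb55310c477] (by decide +kernel))
noncomputable def rheeabf87925ab8a42 : CRef := CRef.mk (Pat.mk 0x20000001c000000040000000400000000 0x30000001e000000040000000400000004 2 5) 0 0 (step_sound _ 97 [(rh3244c3cc8379b070.shift 0 3), (rh7b1f1fb55310c477.shift 1 0)] (by decide +kernel))
noncomputable def rh2e8814637c3f6d46 : CRef := CRef.mk (Pat.mk 0x20000000e0000000200000002 0x1000000030000001e0000000200000002 2 5) 0 0 (step_sound _ 96 [rh50fbb5868c909700, (rhf48373e13d2bc128.shift 0 2)] (by decide +kernel))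
noncomputable def rhd88fe279a223a913 : CRef := CRef.mk (Pat.mk 0xe00000014000000040000000400000000 0xf0000001c000000040000000400000004 2 5) 0 0 (step_sound _ 99 [(rh71222050f2c63a3a.shift 2 0), (rhb739f4f82bb681b4.shift 0 3)] (by decide +kernel))
noncomputable def rhe2ca67a12f9e4a24 : CRef := CRef.mk (Pat.mk 0x10000000100000002000000020000000200000000 0x1000000010000000100000003000000020000000200000002 2 2) 0 0 (step_sound _ 96 [(rh2145e1d24b96a57e.shift 0 2), rh7b1f1fb55310c477] (by decide +kernel))
noncomputable def rhba04d77b039f69d9 : CRef := CRef.mk (Pat.mk 0x4000000040000000f00000000 0x400000004000000040000000f00000018 2 5) 0 0 (step_sound _ 3 [(rh2145e1d24b96a57e.shift 2 0), rhe25b0a99195a5d59] (by decide +kernel))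
noncomputable def rh8ffd6c73cfd2ea71 : CRef := CRef.mk (Pat.mk 0x8000000080000000b0000000a00000000 0x8000000080000000b0000001e00000010 2 5) 0 0 (step_sound _ 36 [(rh5419adcd928dba20.shift 0 1), (rh55afc6a59410cf00.shift 3 0)] (by decide +kernel))
noncomputable def rh744d591fc2d74f4f : CRef := CRef.mk (Pat.mk 0x3000000040000000500000005 0x200000007000000050000000500000005 2 3) 0 0 (step_sound _ 129 [rh04253f50b6dd0619, (rhcfdf45280693d3da.shift 1 0)] (by decide +kernel))
noncomputable def rh624abbc666bdf412 : CRef := CRef.mk (Pat.mk 0x4000000040000001c0000000600000000 0x4000000040000001c0000000f00000008 2 5) 0 0 (step_sound _ 35 [(rh53b3c253cb0c65f4.shift 0 1), (rh55afc6a59410cf00.shift 2 0)] (by decide +kernel))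
noncomputable def rhe419892e5bcb493a : CRef := CRef.mk (Pat.mk 0x1c00000001000000020000000200000002 0x1f00000003000000020000000200000002 2 5) 0 0 (step_sound _ 97 [rh50fbb5868c909700, (rhca9569cc80abfe76.shift 0 3)] (by decide +kernel))
noncomputable def rh5458d362e92470dc : CRef := CRef.mk (Pat.mk 0x1800000009000000020000000200000002 0x190000000f000000020000000200000002 2 5) 0 0 (step_sound _ 97 [(rh1c62b6193297d9e3.shift 0 3), rh50fbb5868c909700] (by decide +kernel))
noncomputable def rh4ab8014dbb33a2ba : CRef := CRef.mk (Pat.mk 0x30000000a000000020000000200000002 0x70000001e000000020000000200000002 2 5) 0 0 (step_sound _ 98 [(rh2f68792b6b779e96.shift 1 0), (rhf48373e13d2bc128.shift 0 3)] (by decide +kernel))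
noncomputable def rh0a12df4b2a8332dd : CRef := CRef.mk (Pat.mk 0x100000001800000008000000000000000600000003 0x100000001800000008000000080000001e00000003 2 5) 0 0 (step_sound _ 35 [rh18965a982d73c794, (rh9e3edb185cc347de.shift 3 1)] (by decide +kernel))
noncomputable def rh132883a60cd8aed8 : CRef := CRef.mk (Pat.mk 0x1e000000040000000400000000 0x30000001e000000040000000400000004 2 5) 0 0 (step_sound _ 129 [(rh3244c3cc8379b070.shift 0 3), (rh7b1f1fb55310c477.shift 1 0)] (by decide +kernel))
noncomputable def rh76ccb1298853f5c9 : CRef := CRef.mk (Pat.mk 0x2000000020000001e0000000400000000 0x2000000020000001e0000000700000004 2 5) 0 0 (step_sound _ 33 [(rh55afc6a59410cf00.shift 1 0), (rheb0810cc63b001d8.shift 0 1)] (by decide +kernel))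
noncomputable def rha0016cf40d77686d : CRef := CRef.mk (Pat.mk 0x1800000006000000020000000200000002 0x190000000f000000020000000200000002 2 5) 0 0 (step_sound _ 96 [(rh3fc040e777f1679e.shift 0 3), rh50fbb5868c909700] (by decide +kernel))
noncomputable def rh79326e87f4f613a5 : CRef := CRef.mk (Pat.mk 0x40000001e000000000000000000000002 0x40000001e000000030000000200000002 2 5) 0 0 (step_sound _ 65 [(rh9e3edb185cc347de.shift 1 0), (rheb0810cc63b001d8.shift 0 2)] (by decide +kernel))
noncomputable def rhbb229bad87965364 : CRef := CRef.mk (Pat.mk 0x1c00000005 0x1e0000000f 2 5) 0 0 (step_sound _ 1 [rh3fc040e777f1679e, rhca9569cc80abfe76] (by decide +kernel))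
noncomputable def rh67e5914ef7f4941c : CRef := CRef.mk (Pat.mk 0x1c00000005 0x3c0000000f 2 6) 0 0 (step_sound _ 1 [(rh18965a982d73c794.shift 1 0), rh3fc040e777f1679e] (by decide +kernel))
noncomputable def rh2c5916844c8cac62 : CRef := CRef.mk (Pat.mk 0x1a0000000a0000000800000008 0x40000001e0000000b0000000800000008 2 5) 0 0 (step_sound _ 98 [(rh50fbb5868c909700.shift 2 0), (rheb0810cc63b001d8.shift 0 2)] (by decide +kernel))
noncomputable def rhb6385c749d93cf64 : CRef := CRef.mk (Pat.mk 0x400000002000000020000000200000001 0x40000000600000002000000020000000300000001 2 3) 0 0 (step_sound _ 129 [(rh2f68792b6b779e96.shift 1 1), rh79877ebd3ef475dd] (by decide +kernel))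
noncomputable def rh6de9ce2ae68b2d85 : CRef := CRef.mk (Pat.mk 0x180000000a000000080000000800000008 0x1c0000000f000000080000000800000008 2 5) 0 0 (step_sound _ 98 [(rh50fbb5868c909700.shift 2 0), (rh53b3c253cb0c65f4.shift 0 3)] (by decide +kernel))
noncomputable def rh339d1a009c309691 : CRef := CRef.mk (Pat.mk 0xe00000030 0xf00000078 2 7) 0 0 (step_sound _ 3 [rhb739f4f82bb681b4, (rhf48373e13d2bc128.shift 2 0)] (by decide +kernel))
noncomputable def rh4a53affd2dd8000f : CRef := CRef.mk (Pat.mk 0x160000001a000000100000001000000000 0x1e0000001b000000100000001000000010 2 5) 0 0 (step_sound _ 131 [(rh7b1f1fb55310c477.shift 3 0), (rheb0810cc63b001d8.shift 0 3)] (by decide +kernel))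
noncomputable def rhbdde238153e38af9 : CRef := CRef.mk (Pat.mk 0x8000000080000000e0000000800000000 0x8000000080000000f0000001800000010 2 5) 0 0 (step_sound _ 36 [(rh55afc6a59410cf00.shift 3 0), (rhb739f4f82bb681b4.shift 0 1)] (by decide +kernel))
noncomputable def rh711d27cf90b04029 : CRef := CRef.mk (Pat.mk 0xd0000000a0000000200000002 0x10000000f0000001a0000000200000002 2 5) 0 0 (step_sound _ 97 [rh50fbb5868c909700, (rhe25b0a99195a5d59.shift 0 2)] (by decide +kernel))
noncomputable def rh0b53f85fa0591956 : CRef := CRef.mk (Pat.mk 0x8000000080000000b0000001000000000 0x8000000080000000f0000001800000010 2 5) 0 0 (step_sound _ 35 [(rh55afc6a59410cf00.shift 3 0), (rhc10214bf3fe8094a.shift 0 1)] (by decide +kernel))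
noncomputable def rh4f7106e6f46c2542 : CRef := CRef.mk (Pat.mk 0x20000000e000000080000000800000008 0x130000001e000000080000000800000008 2 5) 0 0 (step_sound _ 100 [(rh2f68792b6b779e96.shift 3 0), (rh3244c3cc8379b070.shift 0 3)] (by decide +kernel))
noncomputable def rh8f744a41dd073ab9 : CRef := CRef.mk (Pat.mk 0x2000000000000000000000003000000010000000100000000 0x2000000020000000200000003000000010000000100000001 2 2) 0 0 (step_sound _ 129 [rh71222050f2c63a3a, (rhee230b994cc8b773.shift 0 2)] (by decide +kernel))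
noncomputable def rhd5b85d579310c48e : CRef := CRef.mk (Pat.mk 0xe00000028 0xf00000078 2 7) 0 0 (step_sound _ 4 [rhb739f4f82bb681b4, (rhf48373e13d2bc128.shift 2 0)] (by decide +kernel))
noncomputable def rh8abea2a7b1fd427a : CRef := CRef.mk (Pat.mk 0x10000000e00000006 0x30000003e00000006 2 6) 0 0 (step_sound _ 36 [(rh18965a982d73c794.shift 1 0), (rh3f8766e6ecb455ce.shift 0 1)] (by decide +kernel))
noncomputable def rh07ab335000a65efb : CRef := CRef.mk (Pat.mk 0xc0000001a0000000600000004 0x20000000f0000001a0000000600000004 2 5) 0 0 (step_sound _ 97 [(rh2145e1d24b96a57e.shift 1 0), (rhb739f4f82bb681b4.shift 0 2)] (by decide +kernel))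
noncomputable def rh3ff7a36e4acb88f5 : CRef := CRef.mk (Pat.mk 0x10000000e000000080000000800000008 0x130000001e000000080000000800000008 2 5) 0 0 (step_sound _ 100 [(rh2f68792b6b779e96.shift 3 0), (rh3f8766e6ecb455ce.shift 0 3)] (by decide +kernel))
noncomputable def rha4153ec7702b79ba : CRef := CRef.mk (Pat.mk 0x200000002000000020000000b00000008 0x200000002000000020000000f0000001c 2 5) 0 0 (step_sound _ 34 [(rh55afc6a59410cf00.shift 1 0), rhe25b0a99195a5d59] (by decide +kernel))
noncomputable def rhc3bc6e0c4990e8f6 : CRef := CRef.mk (Pat.mk 0x800000008000000080000001200000003 0x800000008000000080000001e00000013 2 5) 0 0 (step_sound _ 35 [(rh55afc6a59410cf00.shift 3 0), rhb2a0b9ccfb5cecd5] (by decide +kernel))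
noncomputable def rhce106f686e742a5f : CRef := CRef.mk (Pat.mk 0x200000002000000020000000e00000010 0x200000002000000020000000f00000019 2 5) 0 0 (step_sound _ 32 [rh932754581e0f4330, rh96851dee118c1ba3] (by decide +kernel))
noncomputable def rhe82112c8440f1b7b : CRef := CRef.mk (Pat.mk 0x100000001000000190000000900000000 0x100000001000000190000000f00000002 2 5) 0 0 (step_sound _ 33 [(rh1c62b6193297d9e3.shift 0 1), rh55afc6a59410cf00] (by decide +kernel))
noncomputable def rh7cc2f688e2a8f8fc : CRef := CRef.mk (Pat.mk 0xc000000080000000700000008 0x40000000c000000080000000f00000018 2 5) 0 0 (step_sound _ 35 [(rh50fbb5868c909700.shift 2 0), rhe25b0a99195a5d59] (by decide +kernel))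
noncomputable def rh108c38f0bb06ddca : CRef := CRef.mk (Pat.mk 0x8000000080000000b0000000c00000000 0x8000000080000000b0000001e00000010 2 5) 0 0 (step_sound _ 36 [(rh09d4dfe75d4407d6.shift 0 1), (rh55afc6a59410cf00.shift 3 0)] (by decide +kernel))
noncomputable def rh70e209139a9acc4a : CRef := CRef.mk (Pat.mk 0x400000006000000000000001e00000000 0x400000006000000030000001e00000002 2 5) 0 0 (step_sound _ 65 [(rh3244c3cc8379b070.shift 0 1), (rh71222050f2c63a3a.shift 1 0)] (by decide +kernel))
noncomputable def rhf8e53799103d177f : CRef := CRef.mk (Pat.mk 0x30000000c000000040000000400000000 0x30000001e000000040000000400000004 2 5) 0 0 (step_sound _ 97 [(rh7b1f1fb55310c477.shift 1 0), (rhf48373e13d2bc128.shift 0 3)] (by decide +kernel))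
noncomputable def rh7433fdfa04207f2e : CRef := CRef.mk (Pat.mk 0x4000000040000001c00000006 0x400000004000000040000001c0000000f 2 5) 0 0 (step_sound _ 3 [(rh2145e1d24b96a57e.shift 2 0), rh53b3c253cb0c65f4] (by decide +kernel))
noncomputable def rhec5e322be6f323d4 : CRef := CRef.mk (Pat.mk 0x800000008000000080000000a00000018 0x800000008000000080000000f0000001c 2 5) 0 0 (step_sound _ 34 [(rh932754581e0f4330.shift 2 0), rhb739f4f82bb681b4] (by decide +kernel))
noncomputable def rha54708dc267312a1 : CRef := CRef.mk (Pat.mk 0x100000007e 0x18000000ff 2 8) 0 0 (step_sound _ 35 [rh53b3c253cb0c65f4, (rhf48373e13d2bc128.shift 3 0)] (by decide +kernel))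
noncomputable def rhc3a59a83e7b52d33 : CRef := CRef.mk (Pat.mk 0x8000000080000000a0000001600000000 0x8000000080000000b0000001e00000010 2 5) 0 0 (step_sound _ 35 [(rh3244c3cc8379b070.shift 0 1), (rh55afc6a59410cf00.shift 3 0)] (by decide +kernel))
noncomputable def rh5bec6b7f9ab41c51 : CRef := CRef.mk (Pat.mk 0xe000000120000000200000002 0x10000000f0000001a0000000200000002 2 5) 0 0 (step_sound _ 96 [rh50fbb5868c909700, (rh96851dee118c1ba3.shift 0 2)] (by decide +kernel))
noncomputable def rh7d44b6060fe480d4 : CRef := CRef.mk (Pat.mk 0x280000000d 0x780000000f 2 7) 0 0 (step_sound _ 36 [(rh18965a982d73c794.shift 2 0), rh24ae073cf30720c4] (by decide +kernel))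
noncomputable def rhd05b50139866a421 : CRef := CRef.mk (Pat.mk 0x200000002000000120000000e00000000 0x2000000020000001a0000000f00000001 2 5) 0 0 (step_sound _ 32 [(rh428265de8cd3cd2d.shift 0 1), rh932754581e0f4330] (by decide +kernel))
noncomputable def rhf627eb01e9e8db9a : CRef := CRef.mk (Pat.mk 0x1000000020000000600000006 0x300000003000000020000000600000006 2 3) 0 0 (step_sound _ 97 [(rh2145e1d24b96a57e.shift 1 0), rh50fbb5868c909700] (by decide +kernel))
noncomputable def rh1ededbcb63c3ab78 : CRef := CRef.mk (Pat.mk 0x3000000070000000400000001 0x20000000200000003000000070000000500000001 2 3) 0 0 (step_sound _ 129 [(rh2145e1d24b96a57e.shift 1 1), rh9e3edb185cc347de] (by decide +kernel))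
noncomputable def rhc2f05e62faab8d19 : CRef := CRef.mk (Pat.mk 0x3000000020000000400000006 0x300000003000000020000000600000006 2 3) 0 0 (step_sound _ 33 [(rh2145e1d24b96a57e.shift 1 0), rh50fbb5868c909700] (by decide +kernel))
noncomputable def rh935da622f8ebc962 : CRef := CRef.mk (Pat.mk 0x100000003000000000000000300000000 0x100000003000000030000000300000002 2 2) 0 0 (step_sound _ 1 [rh2613c889e411427e, rhff0f29cb645b05f7] (by decide +kernel))
noncomputable def rh2b3584ef0f05e9c2 : CRef := CRef.mk (Pat.mk 0x480000000e 0x780000000f 2 7) 0 0 (step_sound _ 36 [(rh361cc68994bd8a63.shift 2 0), rh53b3c253cb0c65f4] (by decide +kernel))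
noncomputable def rhabf42db7287f8a50 : CRef := CRef.mk (Pat.mk 0x2000000020000001a0000000a00000000 0x2000000020000001a0000000f00000001 2 5) 0 0 (step_sound _ 32 [(rh1c62b6193297d9e3.shift 0 1), rh932754581e0f4330] (by decide +kernel))
noncomputable def rhb7616ccf0736ebbe : CRef := CRef.mk (Pat.mk 0x60000001600000002 0x60000003e00000003 2 6) 0 0 (step_sound _ 35 [rheb0810cc63b001d8, (rhf48373e13d2bc128.shift 1 1)] (by decide +kernel))
noncomputable def rh4c026d300a3e8a86 : CRef := CRef.mk (Pat.mk 0x10000000100000001e0000001000000000 0x10000000100000001f0000001800000008 2 5) 0 0 (step_sound _ 35 [(rh932754581e0f4330.shift 3 0), (rhb739f4f82bb681b4.shift 0 1)] (by decide +kernel))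
noncomputable def rh33b92f427999e8d7 : CRef := CRef.mk (Pat.mk 0x8000000080000000b0000000a00000000 0x8000000080000000b0000001e00000004 2 5) 0 0 (step_sound _ 34 [(rh932754581e0f4330.shift 2 0), (rhf48373e13d2bc128.shift 0 1)] (by decide +kernel))
noncomputable def rh90982cf581ae3e69 : CRef := CRef.mk (Pat.mk 0x480000000d 0x780000000f 2 7) 0 0 (step_sound _ 36 [rh24ae073cf30720c4, (rh361cc68994bd8a63.shift 2 0)] (by decide +kernel))
noncomputable def rh59a9c89d55309def : CRef := CRef.mk (Pat.mk 0x2000000030000001200000004 0x200000002000000030000001e00000004 2 5) 0 0 (step_sound _ 34 [(rh2145e1d24b96a57e.shift 1 0), (rh2fe78cc5ca4405d8.shift 0 1)] (by decide +kernel))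
noncomputable def rhfcf1119458f22b28 : CRef := CRef.mk (Pat.mk 0x220000001c 0x330000001e 2 6) 0 0 (step_sound _ 1 [rh3244c3cc8379b070, (rh428265de8cd3cd2d.shift 1 0)] (by decide +kernel))
noncomputable def rh5769ed4fe2fe4c14 : CRef := CRef.mk (Pat.mk 0x600000006000000020000000100000000 0x600000006000000020000000300000003 2 3) 0 0 (step_sound _ 33 [(rh71222050f2c63a3a.shift 1 0), rh932754581e0f4330] (by decide +kernel))
noncomputable def rh530f636ca6cd92e8 : CRef := CRef.mk (Pat.mk 0x10000000400000007000000030000000000000000 0x10000000500000007000000030000000200000002 2 3) 0 0 (step_sound _ 33 [(rh6f1cbe15c631ee70.shift 0 1), (rh71222050f2c63a3a.shift 1 0)] (by decide +kernel))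
noncomputable def rh7e6cfecd672676db : CRef := CRef.mk (Pat.mk 0x600000004000000020000000300000000 0x600000006000000020000000300000003 2 3) 0 0 (step_sound _ 97 [(rh71222050f2c63a3a.shift 1 0), rh932754581e0f4330] (by decide +kernel))
noncomputable def rhb43b15493b096632 : CRef := CRef.mk (Pat.mk 0xa0000001a0000000200000002 0x10000000f0000001a0000000200000002 2 5) 0 0 (step_sound _ 96 [rh50fbb5868c909700, (rhc10214bf3fe8094a.shift 0 2)] (by decide +kernel))
noncomputable def rhdbe351d60d7b4327 : CRef := CRef.mk (Pat.mk 0x800000008000000180000000500000000 0x800000008000000180000000f00000004 2 5) 0 0 (step_sound _ 35 [(rh24ae073cf30720c4.shift 0 1), (rh932754581e0f4330.shift 2 0)] (by decide +kernel))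
noncomputable def rhf917b193a69b83d4 : CRef := CRef.mk (Pat.mk 0x1000000017 0x380000001f 2 6) 0 0 (step_sound _ 3 [(rh33e738c4ed385b9f.shift 1 0), rh428265de8cd3cd2d] (by decide +kernel))
noncomputable def rhdebc43b768884653 : CRef := CRef.mk (Pat.mk 0x20000000200000003000000000000000100000000 0x20000000300000003000000010000000100000001 2 2) 0 0 (step_sound _ 64 [(rh1006c02ae4212ff0.shift 0 1), rh71222050f2c63a3a] (by decide +kernel))
noncomputable def rh41955519f857d4d5 : CRef := CRef.mk (Pat.mk 0xd00000048 0xf00000078 2 7) 0 0 (step_sound _ 4 [(rh2fe78cc5ca4405d8.shift 2 0), rhab22b5b56e7b3243] (by decide +kernel))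
noncomputable def rha2b16af305878761 : CRef := CRef.mk (Pat.mk 0x400000012000000030000000200000000 0x40000001e000000030000000200000002 2 5) 0 0 (step_sound _ 98 [(rh361cc68994bd8a63.shift 0 2), (rh71222050f2c63a3a.shift 1 0)] (by decide +kernel))
noncomputable def rhcf26ab340e90aa4c : CRef := CRef.mk (Pat.mk 0x580000000a 0x780000000f 2 7) 0 0 (step_sound _ 2 [(rh361cc68994bd8a63.shift 2 0), rh53b3c253cb0c65f4] (by decide +kernel))
noncomputable def rhe64d45001dc4e215 : CRef := CRef.mk (Pat.mk 0x200000003000000190000000c00000000 0x200000003000000190000000f00000001 2 5) 0 0 (step_sound _ 32 [(rh24ae073cf30720c4.shift 0 1), rh71222050f2c63a3a] (by decide +kernel))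
noncomputable def rhc23b2dfc9c6ae24a : CRef := CRef.mk (Pat.mk 0x50000001c 0xf0000003c 2 6) 0 0 (step_sound _ 33 [rhd6e447e81774439e, (rhf48373e13d2bc128.shift 1 0)] (by decide +kernel))
noncomputable def rhf45bd3c735a7ee03 : CRef := CRef.mk (Pat.mk 0xa00000018000000080000000800000008 0xf0000001c000000080000000800000008 2 5) 0 0 (step_sound _ 130 [(rhb739f4f82bb681b4.shift 0 3), (rhffd04209dc8ea796.shift 2 0)] (by decide +kernel))
noncomputable def rh25cc39f941c1df60 : CRef := CRef.mk (Pat.mk 0x80000000b0000000a00000004 0x8000000080000000b0000001e00000004 2 5) 0 0 (step_sound _ 34 [(rh5c5e593799055d58.shift 2 0), (rhf48373e13d2bc128.shift 0 1)] (by decide +kernel))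
noncomputable def rhb181fd581cab99b3 : CRef := CRef.mk (Pat.mk 0x180000000a00000003000000020000000200000000 0x180000000f00000003000000020000000200000002 2 5) 0 0 (step_sound _ 128 [(rh1c62b6193297d9e3.shift 0 4), rh7b1f1fb55310c477] (by decide +kernel))
noncomputable def rhc833d364c90c2c06 : CRef := CRef.mk (Pat.mk 0x180000000a00000002000000020000000200000002 0x180000000f00000003000000020000000200000002 2 5) 0 0 (step_sound _ 128 [(rh1c62b6193297d9e3.shift 0 4), rhffd04209dc8ea796] (by decide +kernel))
noncomputable def rh8f6129e0c64f6eb5 : CRef := CRef.mk (Pat.mk 0x1000000010000000000000000f00000008 0x1000000010000000180000001f00000008 2 5) 0 0 (step_sound _ 68 [(rh428265de8cd3cd2d.shift 0 1), (rheea67dfebd0f8008.shift 3 0)] (by decide +kernel))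
noncomputable def rhcacd5b3c3d4e3df9 : CRef := CRef.mk (Pat.mk 0x1c0000000a00000018 0x3c0000000f00000018 2 6) 0 0 (step_sound _ 34 [(rh18965a982d73c794.shift 1 1), rhb739f4f82bb681b4] (by decide +kernel))
noncomputable def rh94fefd81d0f1c41c : CRef := CRef.mk (Pat.mk 0x1c0000000a00000018 0x1e0000000f00000018 2 5) 0 0 (step_sound _ 32 [rhc10214bf3fe8094a, (rhca9569cc80abfe76.shift 0 1)] (by decide +kernel))
noncomputable def rh5c64601ff0e8110f : CRef := CRef.mk (Pat.mk 0x30000000a00000002000000020000000200000002 0x30000001e00000006000000020000000200000002 2 5) 0 0 (step_sound _ 130 [(rhbaefcd01e0a8bca3.shift 1 0), (rhf48373e13d2bc128.shift 0 4)] (by decide +kernel))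
noncomputable def rh6196b452c518de56 : CRef := CRef.mk (Pat.mk 0x100000002000000020000000600000000 0x10000000300000002000000020000000600000004 2 3) 0 0 (step_sound _ 129 [(rh50fbb5868c909700.shift 0 1), (rh55afc6a59410cf00.shift 1 0)] (by decide +kernel))
noncomputable def rh99de676ce09a077c : CRef := CRef.mk (Pat.mk 0x200000001000000010000000700000004 0x200000003000000030000000700000005 2 3) 0 0 (step_sound _ 97 [rh71222050f2c63a3a, (rhff0f29cb645b05f7.shift 1 0)] (by decide +kernel))
noncomputable def rh9511402a8c1709c4 : CRef := CRef.mk (Pat.mk 0x100000001000000030000000700000004 0x20000000300000003000000030000000700000004 2 3) 0 0 (step_sound _ 129 [(rh2f68792b6b779e96.shift 0 1), (rh6f1cbe15c631ee70.shift 1 0)] (by decide +kernel))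
noncomputable def rhf60b230cc4d5a0da : CRef := CRef.mk (Pat.mk 0x100000001f000000000000002000000020 0x100000001f000000180000003000000020 2 6) 0 0 (step_sound _ 68 [(rh96851dee118c1ba3.shift 0 2), (rhbe0e43a3bc50a43f.shift 4 0)] (by decide +kernel))
noncomputable def rh94b6e4c0b65a2a0c : CRef := CRef.mk (Pat.mk 0x300000001000000020000000200000000 0x10000000300000003000000020000000200000002 2 2) 0 0 (step_sound _ 97 [(rh50fbb5868c909700.shift 0 1), rh7b1f1fb55310c477] (by decide +kernel))
noncomputable def rhf6833c4bd292a3b4 : CRef := CRef.mk (Pat.mk 0x3000000010000000200000002 0x100000003000000030000000300000002 2 2) 0 0 (step_sound _ 128 [rh2613c889e411427e, rhbe0e43a3bc50a43f] (by decide +kernel))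
noncomputable def rhb75a95a254d02bf0 : CRef := CRef.mk (Pat.mk 0x180000000c00000030 0x180000001f00000030 2 6) 0 0 (step_sound _ 33 [(rh53b3c253cb0c65f4.shift 0 1), (rhd6e447e81774439e.shift 1 0)] (by decide +kernel))
noncomputable def rhef73737383050ca7 : CRef := CRef.mk (Pat.mk 0x700000001000000020000000200000000 0x40000000700000003000000020000000200000002 2 3) 0 0 (step_sound _ 97 [(rh2f68792b6b779e96.shift 1 1), rh7b1f1fb55310c477] (by decide +kernel))
noncomputable def rh4cdd80ef82c269a0 : CRef := CRef.mk (Pat.mk 0x4000000040000001e0000000200000000 0x4000000070000001e0000000200000002 2 5) 0 0 (step_sound _ 97 [(rh3244c3cc8379b070.shift 0 2), (rh71222050f2c63a3a.shift 1 0)] (by decide +kernel))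
noncomputable def rh10c9a8f0ff9b0de3 : CRef := CRef.mk (Pat.mk 0x200000001000000050000000400000005 0x200000007000000050000000500000005 2 3) 0 0 (step_sound _ 97 [rh9e3edb185cc347de, (rhcfdf45280693d3da.shift 1 0)] (by decide +kernel))
noncomputable def rhb768c66d5afe79ae : CRef := CRef.mk (Pat.mk 0x100000005000000040000000700000000 0x500000005000000050000000700000002 2 3) 0 0 (step_sound _ 1 [(rh5c5e593799055d58.shift 1 0), rhff0f29cb645b05f7] (by decide +kernel))
noncomputable def rh96a8dc9200935376 : CRef := CRef.mk (Pat.mk 0x400000006000000180000000800000000 0x40000000f000000180000000800000008 2 5) 0 0 (step_sound _ 99 [(rh7b1f1fb55310c477.shift 2 0), (rhb739f4f82bb681b4.shift 0 2)] (by decide +kernel))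
noncomputable def rh142dc5df4ed2f725 : CRef := CRef.mk (Pat.mk 0x40000000a000000180000000800000000 0x40000000f000000180000000800000008 2 5) 0 0 (step_sound _ 98 [(rh7b1f1fb55310c477.shift 2 0), (rhb739f4f82bb681b4.shift 0 2)] (by decide +kernel))
noncomputable def rh318f012ac0509740 : CRef := CRef.mk (Pat.mk 0x400000002000000000000001e00000002 0x400000006000000030000001e00000002 2 5) 0 0 (step_sound _ 65 [(rh3244c3cc8379b070.shift 0 1), (rhbaefcd01e0a8bca3.shift 1 0)] (by decide +kernel))
noncomputable def rh0c4d15b887a2c1a5 : CRef := CRef.mk (Pat.mk 0x4000000030000001a0000000200000000 0x40000000f0000001a0000000200000002 2 5) 0 0 (step_sound _ 98 [(rh71222050f2c63a3a.shift 1 0), (rhd6e447e81774439e.shift 0 2)] (by decide +kernel))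
noncomputable def rhfffd75d9b7aa4d03 : CRef := CRef.mk (Pat.mk 0x1000000010000001900000003 0x100000001000000010000001f00000003 2 5) 0 0 (step_sound _ 33 [rh2145e1d24b96a57e, rhb2a0b9ccfb5cecd5] (by decide +kernel))
noncomputable def rh474430daf83b3188 : CRef := CRef.mk (Pat.mk 0x180000000600000030 0x180000001f00000030 2 6) 0 0 (step_sound _ 35 [(rh53b3c253cb0c65f4.shift 0 1), (rhd6e447e81774439e.shift 1 0)] (by decide +kernel))
noncomputable def rhbc9a7c6e843e5ac5 : CRef := CRef.mk (Pat.mk 0x40000000c000000180000000200000002 0x40000000f0000001a0000000200000002 2 5) 0 0 (step_sound _ 97 [(rh04253f50b6dd0619.shift 1 0), (rhb739f4f82bb681b4.shift 0 2)] (by decide +kernel))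
noncomputable def rh1c69bb92c13f27a0 : CRef := CRef.mk (Pat.mk 0x700000004000000020000000200000000 0x10000000700000006000000020000000200000002 2 3) 0 0 (step_sound _ 97 [(rh50fbb5868c909700.shift 0 1), (rh71222050f2c63a3a.shift 1 0)] (by decide +kernel))
noncomputable def rh155fa7b85b00c3f4 : CRef := CRef.mk (Pat.mk 0xe00000001000000010000000100000000 0x1e00000003000000010000000100000001 2 5) 0 0 (step_sound _ 97 [(rh18965a982d73c794.shift 0 3), rh71222050f2c63a3a] (by decide +kernel))
noncomputable def rh691b6f67835b5694 : CRef := CRef.mk (Pat.mk 0x100000000700000008 0x180000000f00000018 2 5) 0 0 (step_sound _ 35 [(rh428265de8cd3cd2d.shift 0 1), rhe25b0a99195a5d59] (by decide +kernel))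
noncomputable def rh2657c0ca29f90f80 : CRef := CRef.mk (Pat.mk 0x400000000000000020000000300000003 0x600000006000000020000000300000003 2 3) 0 0 (step_sound _ 97 [rh5c5e593799055d58, (rhbaefcd01e0a8bca3.shift 1 0)] (by decide +kernel))
noncomputable def rhd24b9aa3f1cc01cd : CRef := CRef.mk (Pat.mk 0x600000006000000000000000300000000 0x600000006000000020000000300000003 2 3) 0 0 (step_sound _ 65 [(rh71222050f2c63a3a.shift 1 0), rh932754581e0f4330] (by decide +kernel))
noncomputable def rh3a64d9c07d01a609 : CRef := CRef.mk (Pat.mk 0x2000000020000000000000001f00000010 0x2000000030000000180000001f00000010 2 6) 0 0 (step_sound _ 68 [(rh1006c02ae4212ff0.shift 4 0), (rh428265de8cd3cd2d.shift 0 1)] (by decide +kernel))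
noncomputable def rhdf76c28ccf309ff1 : CRef := CRef.mk (Pat.mk 0x400000004000000020000001e00000000 0x400000006000000020000001e00000003 2 5) 0 0 (step_sound _ 1 [(rh1006c02ae4212ff0.shift 1 0), rheb0810cc63b001d8] (by decide +kernel))
noncomputable def rh07f2ca48cf330ae8 : CRef := CRef.mk (Pat.mk 0x3000000000000000600000006 0x300000003000000020000000600000006 2 3) 0 0 (step_sound _ 65 [(rh2145e1d24b96a57e.shift 1 0), rh50fbb5868c909700] (by decide +kernel))
noncomputable def rh16f5f09f92ca9248 : CRef := CRef.mk (Pat.mk 0xc0000001a0000000200000002 0x40000000f0000001a0000000200000002 2 5) 0 0 (step_sound _ 97 [(rh2f68792b6b779e96.shift 1 0), (rhb739f4f82bb681b4.shift 0 2)] (by decide +kernel))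
noncomputable def rh150947578a63ac51 : CRef := CRef.mk (Pat.mk 0x200000005000000050000000500000000 0x200000007000000050000000500000005 2 3) 0 0 (step_sound _ 97 [rh71222050f2c63a3a, (rh7b1f1fb55310c477.shift 1 0)] (by decide +kernel))
noncomputable def rh5fcbac5b57173fc5 : CRef := CRef.mk (Pat.mk 0x200000001000000030000000100000000 0x20000000200000003000000030000000100000001 2 2) 0 0 (step_sound _ 97 [(rh5c5e593799055d58.shift 0 1), rh71222050f2c63a3a] (by decide +kernel))
noncomputable def rh93edfa1f77289b62 : CRef := CRef.mk (Pat.mk 0x2000000010000000300000001 0x200000003000000030000000300000001 2 2) 0 0 (step_sound _ 129 [rh1006c02ae4212ff0, rh3c88ce959c0e423f] (by decide +kernel))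
noncomputable def rhe80c67fb403a51c5 : CRef := CRef.mk (Pat.mk 0xe00000022 0x1e00000033 2 6) 0 0 (step_sound _ 36 [(rh96851dee118c1ba3.shift 1 0), rheb0810cc63b001d8] (by decide +kernel))
noncomputable def rhd19304ca5b903bab : CRef := CRef.mk (Pat.mk 0x300000001000000030000000500000004 0x300000003000000030000000700000006 2 3) 0 0 (step_sound _ 33 [rh55afc6a59410cf00, (rh6f1cbe15c631ee70.shift 1 0)] (by decide +kernel))
noncomputable def rhbf49009d353dda8d : CRef := CRef.mk (Pat.mk 0x40000001a000000020000000200000000 0x40000001e000000030000000200000002 2 5) 0 0 (step_sound _ 98 [(rh71222050f2c63a3a.shift 1 0), (rheb0810cc63b001d8.shift 0 2)] (by decide +kernel))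
noncomputable def rha1aa13057a4a8e13 : CRef := CRef.mk (Pat.mk 0x400000002000000020000001e00000000 0x400000006000000020000001e00000003 2 5) 0 0 (step_sound _ 1 [(rhbaefcd01e0a8bca3.shift 1 0), rheb0810cc63b001d8] (by decide +kernel))
noncomputable def rh7cc6277f498eedf7 : CRef := CRef.mk (Pat.mk 0xc0000001a000000020000000200000002 0xf0000001b000000020000000200000002 2 5) 0 0 (step_sound _ 128 [(rhab22b5b56e7b3243.shift 0 3), rhffd04209dc8ea796] (by decide +kernel))
noncomputable def rh0c14c0721c6a41dd : CRef := CRef.mk (Pat.mk 0x800000018000000100000000f00000000 0x800000018000000100000001f00000018 2 5) 0 0 (step_sound _ 4 [rh96851dee118c1ba3, (rh9e07f76261b05888.shift 3 0)] (by decide +kernel))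
noncomputable def rh00dff121ba7f8f65 : CRef := CRef.mk (Pat.mk 0x800000008000000100000000e00000000 0x800000008000000180000000f00000004 2 5) 0 0 (step_sound _ 67 [(rh53b3c253cb0c65f4.shift 0 1), (rh932754581e0f4330.shift 2 0)] (by decide +kernel))
noncomputable def rhbcedfca2885d6e85 : CRef := CRef.mk (Pat.mk 0x300000003000000000000000300000000 0x300000003000000020000000300000003 2 2) 0 0 (step_sound _ 65 [rh7b1f1fb55310c477, rh932754581e0f4330] (by decide +kernel))
noncomputable def rh3e9ad04b74812ebf : CRef := CRef.mk (Pat.mk 0x40000000c000000000000000e00000010 0x40000000c000000080000000f00000018 2 5) 0 0 (step_sound _ 3 [(rh2613c889e411427e.shift 2 0), rhb739f4f82bb681b4] (by decide +kernel))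
noncomputable def rh23180280a8fd1027 : CRef := CRef.mk (Pat.mk 0xa00000058 0xf00000078 2 7) 0 0 (step_sound _ 34 [(rh2fe78cc5ca4405d8.shift 2 0), rhb739f4f82bb681b4] (by decide +kernel))
noncomputable def rha7760f574e6358c3 : CRef := CRef.mk (Pat.mk 0xc000000190000000300000002 0x10000000f000000190000000300000002 2 5) 0 0 (step_sound _ 96 [rh2145e1d24b96a57e, (rhab22b5b56e7b3243.shift 0 2)] (by decide +kernel))
noncomputable def rhb5782e01ad0af947 : CRef := CRef.mk (Pat.mk 0x80000000800000008000000180000000a 0x800000008000000080000001c0000000f 2 5) 0 0 (step_sound _ 2 [rh53b3c253cb0c65f4, (rh79877ebd3ef475dd.shift 2 0)] (by decide +kernel))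
noncomputable def rh917e841253d15ad5 : CRef := CRef.mk (Pat.mk 0x40000000a0000000b0000000800000000 0x40000001e0000000b0000000800000008 2 5) 0 0 (step_sound _ 98 [(rh18965a982d73c794.shift 0 2), (rh7b1f1fb55310c477.shift 2 0)] (by decide +kernel))
noncomputable def rh760a62bb8e478bc4 : CRef := CRef.mk (Pat.mk 0x7e00000008 0xff00000018 2 8) 0 0 (step_sound _ 4 [(rh18965a982d73c794.shift 3 0), rhb739f4f82bb681b4] (by decide +kernel))
noncomputable def rh8d8b2d3e5232322a : CRef := CRef.mk (Pat.mk 0x200000002000000030000000a00000018 0x20000000200000002000000030000000f00000018 2 5) 0 0 (step_sound _ 32 [(rh5c5e593799055d58.shift 0 1), rhc10214bf3fe8094a] (by decide +kernel))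
noncomputable def rh1260e865c826edde : CRef := CRef.mk (Pat.mk 0x20000000200000002000000020000000a00000018 0x20000000200000002000000030000000f00000018 2 5) 0 0 (step_sound _ 32 [(rh79877ebd3ef475dd.shift 0 1), rhc10214bf3fe8094a] (by decide +kernel))
noncomputable def rhcd496e99dbfe6492 : CRef := CRef.mk (Pat.mk 0x200000002000000020000001a00000000 0x200000002000000030000001e00000004 2 5) 0 0 (step_sound _ 34 [(rh3244c3cc8379b070.shift 0 1), (rh55afc6a59410cf00.shift 1 0)] (by decide +kernel))
noncomputable def rha7ea2acfcfca99b7 : CRef := CRef.mk (Pat.mk 0x80000000f000000000000001000000010 0x80000001f000000180000001000000010 2 5) 0 0 (step_sound _ 68 [(rh96851dee118c1ba3.shift 0 2), (rhcfdf45280693d3da.shift 3 0)] (by decide +kernel))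
noncomputable def rhbe282b16b2bfbfc7 : CRef := CRef.mk (Pat.mk 0x180000000a0000001c 0x180000000f0000003c 2 6) 0 0 (step_sound _ 34 [(rh53b3c253cb0c65f4.shift 0 1), (rhf48373e13d2bc128.shift 1 0)] (by decide +kernel))
noncomputable def rh841757f9a76ec410 : CRef := CRef.mk (Pat.mk 0x180000000a0000001c 0x180000000f0000001e 2 5) 0 0 (step_sound _ 32 [rh09d4dfe75d4407d6, (rh1c62b6193297d9e3.shift 0 1)] (by decide +kernel))
noncomputable def rh3883177b4ab4119d : CRef := CRef.mk (Pat.mk 0x160000001a 0x1f0000001b 2 5) 0 0 (step_sound _ 35 [rhb739f4f82bb681b4, rheb0810cc63b001d8] (by decide +kernel))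
noncomputable def rh349ef37b577cdca1 : CRef := CRef.mk (Pat.mk 0x20000000200000002000000020000000a00000003 0x20000000200000002000000060000001e00000003 2 5) 0 0 (step_sound _ 34 [rh18965a982d73c794, (rhd3458b32566d63f7.shift 1 1)] (by decide +kernel))
noncomputable def rh93bb09469abb6e2d : CRef := CRef.mk (Pat.mk 0x300000001000000010000000200000000 0x20000000300000001000000010000000300000002 2 2) 0 0 (step_sound _ 32 [(rh2f68792b6b779e96.shift 0 1), rh55afc6a59410cf00] (by decide +kernel))
noncomputable def rhf5e2c347e50c6617 : CRef := CRef.mk (Pat.mk 0x1e000000020000000200000001 0x30000001e000000020000000300000001 2 5) 0 0 (step_sound _ 129 [(rh3244c3cc8379b070.shift 0 3), rh79877ebd3ef475dd] (by decide +kernel))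
noncomputable def rhfdd338b587cdea0b : CRef := CRef.mk (Pat.mk 0x180000000c0000001c 0x180000000f0000003c 2 6) 0 0 (step_sound _ 33 [(rh53b3c253cb0c65f4.shift 0 1), (rhf48373e13d2bc128.shift 1 0)] (by decide +kernel))
noncomputable def rhd64d7be5d7225cce : CRef := CRef.mk (Pat.mk 0x200000002000000030000000100000000 0x200000003000000030000000300000001 2 2) 0 0 (step_sound _ 0 [rh1006c02ae4212ff0, rheea67dfebd0f8008] (by decide +kernel))
noncomputable def rh04329c1703284133 : CRef := CRef.mk (Pat.mk 0x200000002000000010000000300000000 0x20000000200000002000000030000000300000001 2 2) 0 0 (step_sound _ 65 [(rh5c5e593799055d58.shift 0 1), rh932754581e0f4330] (by decide +kernel))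
noncomputable def rh2738edcf84b3bede : CRef := CRef.mk (Pat.mk 0x200000002000000010000000300000000 0x200000003000000030000000300000001 2 2) 0 0 (step_sound _ 0 [rh1006c02ae4212ff0, rh3c88ce959c0e423f] (by decide +kernel))
noncomputable def rh749b30baa5602f69 : CRef := CRef.mk (Pat.mk 0x2000000060000000600000001 0x20000000200000002000000060000000700000001 2 3) 0 0 (step_sound _ 129 [(rh2145e1d24b96a57e.shift 1 1), rh79877ebd3ef475dd] (by decide +kernel))
noncomputable def rh963947c056dfa370 : CRef := CRef.mk (Pat.mk 0x300000000c00000018 0x300000001f00000018 2 6) 0 0 (step_sound _ 33 [(rh3fc040e777f1679e.shift 1 1), rhb739f4f82bb681b4] (by decide +kernel))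
noncomputable def rhab2ae83e2bc2464b : CRef := CRef.mk (Pat.mk 0x200000002000000010000000700000000 0x20000000200000002000000030000000700000004 2 3) 0 0 (step_sound _ 65 [(rh55afc6a59410cf00.shift 1 0), (rh5c5e593799055d58.shift 0 1)] (by decide +kernel))
noncomputable def rheb4949bdfa5025cf : CRef := CRef.mk (Pat.mk 0x2000000030000000100000001 0x200000003000000030000000300000001 2 2) 0 0 (step_sound _ 129 [rh1006c02ae4212ff0, rheea67dfebd0f8008] (by decide +kernel))
noncomputable def rhf206a6f053b27199 : CRef := CRef.mk (Pat.mk 0x20000001e0000000400000004 0x2000000020000001e0000000700000004 2 5) 0 0 (step_sound _ 33 [(rh2145e1d24b96a57e.shift 1 0), (rheb0810cc63b001d8.shift 0 1)] (by decide +kernel))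
noncomputable def rh3d43094283b3e7fc : CRef := CRef.mk (Pat.mk 0x7e00000010 0xff00000018 2 8) 0 0 (step_sound _ 3 [(rh18965a982d73c794.shift 3 0), rhb739f4f82bb681b4] (by decide +kernel))
noncomputable def rh22deb2b73a579c39 : CRef := CRef.mk (Pat.mk 0x10000000100000000e0000000800000000 0x10000000180000000f0000000800000008 2 5) 0 0 (step_sound _ 99 [(rh53b3c253cb0c65f4.shift 0 2), (rh71222050f2c63a3a.shift 3 0)] (by decide +kernel))
noncomputable def rha760d91229149504 : CRef := CRef.mk (Pat.mk 0x500000004000000050000000100000002 0x500000005000000050000000700000002 2 3) 0 0 (step_sound _ 33 [rh6f1cbe15c631ee70, (rheea67dfebd0f8008.shift 1 0)] (by decide +kernel))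
noncomputable def rh4cdd5d584b323226 : CRef := CRef.mk (Pat.mk 0x7000000040000000500000001 0x200000007000000050000000500000005 2 3) 0 0 (step_sound _ 129 [rh04253f50b6dd0619, (rh7b1f1fb55310c477.shift 1 0)] (by decide +kernel))
noncomputable def rh75338e4519f617df : CRef := CRef.mk (Pat.mk 0x8000000180000000600000004 0x800000008000000180000000f00000004 2 5) 0 0 (step_sound _ 35 [(rh53b3c253cb0c65f4.shift 0 1), (rh5c5e593799055d58.shift 2 0)] (by decide +kernel))
noncomputable def rh4a42218a524ae9b7 : CRef := CRef.mk (Pat.mk 0x8000000180000000a00000004 0x800000008000000180000000f00000004 2 5) 0 0 (step_sound _ 34 [(rh53b3c253cb0c65f4.shift 0 1), (rh5c5e593799055d58.shift 2 0)] (by decide +kernel))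
noncomputable def rh656906bde9814786 : CRef := CRef.mk (Pat.mk 0x20000001e000000000000000200000004 0x20000001e000000030000000600000004 2 5) 0 0 (step_sound _ 65 [(rhd3458b32566d63f7.shift 1 0), (rheb0810cc63b001d8.shift 0 2)] (by decide +kernel))
noncomputable def rh5857302fd5244a03 : CRef := CRef.mk (Pat.mk 0x1000000018000000000000000f00000000 0x1000000018000000080000000f00000018 2 5) 0 0 (step_sound _ 3 [(rh04253f50b6dd0619.shift 3 0), rhe25b0a99195a5d59] (by decide +kernel))
noncomputable def rhb97e9696aca01bb4 : CRef := CRef.mk (Pat.mk 0x20000001a0000000300000004 0x2000000020000001a0000000f00000004 2 5) 0 0 (step_sound _ 34 [(rh2145e1d24b96a57e.shift 1 0), (rh3fc040e777f1679e.shift 0 1)] (by decide +kernel))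
noncomputable def rha7e1400665d04d54 : CRef := CRef.mk (Pat.mk 0x300000019000000010000000100000000 0x30000001f000000010000000100000001 2 5) 0 0 (step_sound _ 97 [(rh5419adcd928dba20.shift 0 3), rh71222050f2c63a3a] (by decide +kernel))
noncomputable def rh626f9e70778228d4 : CRef := CRef.mk (Pat.mk 0x1e000000000000000600000004 0x20000001e000000030000000600000004 2 5) 0 0 (step_sound _ 65 [(rh2145e1d24b96a57e.shift 1 0), (rheb0810cc63b001d8.shift 0 2)] (by decide +kernel))
noncomputable def rh7d90fe40d221f980 : CRef := CRef.mk (Pat.mk 0x300000000600000018 0x300000001f00000018 2 6) 0 0 (step_sound _ 35 [(rh3fc040e777f1679e.shift 1 1), rhb739f4f82bb681b4] (by decide +kernel))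
noncomputable def rh9aee5df5f4cb88e2 : CRef := CRef.mk (Pat.mk 0x1a000000020000001c 0x1e000000030000001e 2 5) 0 0 (step_sound _ 32 [rh09d4dfe75d4407d6, (rhb2a0b9ccfb5cecd5.shift 0 1)] (by decide +kernel))
noncomputable def rhfa14be82af36723e : CRef := CRef.mk (Pat.mk 0x200000002000000180000000c00000004 0x2000000020000001a0000000f00000004 2 5) 0 0 (step_sound _ 33 [(rh53b3c253cb0c65f4.shift 0 1), (rhff0f29cb645b05f7.shift 1 0)] (by decide +kernel))
noncomputable def rhf8e4078eeb954a28 : CRef := CRef.mk (Pat.mk 0x1e000000020000000600000000 0x30000001e000000020000000600000004 2 5) 0 0 (step_sound _ 129 [(rh3244c3cc8379b070.shift 0 3), (rh55afc6a59410cf00.shift 1 0)] (by decide +kernel))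
noncomputable def rh4288578123940957 : CRef := CRef.mk (Pat.mk 0x300000003000000020000000000000004 0x300000003000000020000000600000006 2 3) 0 0 (step_sound _ 33 [rh7b1f1fb55310c477, (rhd3458b32566d63f7.shift 1 0)] (by decide +kernel))
noncomputable def rhd727bb41309b6841 : CRef := CRef.mk (Pat.mk 0x3000000000000000300000003 0x300000003000000010000000300000003 2 2) 0 0 (step_sound _ 64 [rh2145e1d24b96a57e, rh2f68792b6b779e96] (by decide +kernel))
noncomputable def rhddb9dd786dc1af2f : CRef := CRef.mk (Pat.mk 0x1e000000020000000400000004 0x30000001e000000020000000600000004 2 5) 0 0 (step_sound _ 129 [(rh3244c3cc8379b070.shift 0 3), (rhbe0e43a3bc50a43f.shift 1 0)] (by decide +kernel))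
noncomputable def rh12cda698427604cb : CRef := CRef.mk (Pat.mk 0x600000002000000000000000300000000 0x40000000600000002000000020000000300000001 2 3) 0 0 (step_sound _ 65 [(rh2f68792b6b779e96.shift 1 1), rh932754581e0f4330] (by decide +kernel))
noncomputable def rh75c7a92d24270dd4 : CRef := CRef.mk (Pat.mk 0x2000000020000001a0000000c00000000 0x2000000020000001a0000000f00000004 2 5) 0 0 (step_sound _ 33 [(rh53b3c253cb0c65f4.shift 0 1), (rh55afc6a59410cf00.shift 1 0)] (by decide +kernel))
noncomputable def rh390a8df03c6c5a62 : CRef := CRef.mk (Pat.mk 0x100000003000000010000000200000000 0x10000000100000003000000030000000200000002 2 2) 0 0 (step_sound _ 65 [(rh2145e1d24b96a57e.shift 0 1), rh7b1f1fb55310c477] (by decide +kernel))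
noncomputable def rh478c4cadbcd4e066 : CRef := CRef.mk (Pat.mk 0x100000003000000010000000200000000 0x100000003000000030000000300000002 2 2) 0 0 (step_sound _ 1 [rh2613c889e411427e, rhbe0e43a3bc50a43f] (by decide +kernel))
noncomputable def rh241ddf12d4fc9298 : CRef := CRef.mk (Pat.mk 0x220000000e 0x330000001e 2 6) 0 0 (step_sound _ 4 [rh3244c3cc8379b070, (rh428265de8cd3cd2d.shift 1 0)] (by decide +kernel))
noncomputable def rhe709edaef4d7f968 : CRef := CRef.mk (Pat.mk 0x400000005000000030000000100000003 0x600000007000000030000000300000003 2 3) 0 0 (step_sound _ 97 [rh2f68792b6b779e96, (rh9e3edb185cc347de.shift 1 0)] (by decide +kernel))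
noncomputable def rhdd6fb7fb86915bef : CRef := CRef.mk (Pat.mk 0x200000002000000020000001a0000000c 0x200000002000000020000001b0000000f 2 5) 0 0 (step_sound _ 0 [rh24ae073cf30720c4, rh79877ebd3ef475dd] (by decide +kernel))
noncomputable def rhcd2b0816ad4d3d22 : CRef := CRef.mk (Pat.mk 0xf000000100000001800000008 0x180000001f000000100000001800000008 2 5) 0 0 (step_sound _ 132 [(rh428265de8cd3cd2d.shift 0 3), (rhee230b994cc8b773.shift 3 0)] (by decide +kernel))
noncomputable def rh5765a4000fc97443 : CRef := CRef.mk (Pat.mk 0xe000000100000000800000008 0x40000000f000000180000000800000008 2 5) 0 0 (step_sound _ 67 [(rh50fbb5868c909700.shift 2 0), (rhb739f4f82bb681b4.shift 0 2)] (by decide +kernel))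
noncomputable def rh614308ef7a471852 : CRef := CRef.mk (Pat.mk 0x100000000e000000000000000c00000004 0x180000000f000000080000000c00000004 2 5) 0 0 (step_sound _ 131 [(rh3c88ce959c0e423f.shift 2 0), (rh53b3c253cb0c65f4.shift 0 3)] (by decide +kernel))
noncomputable def rh5ebae181afaa248a : CRef := CRef.mk (Pat.mk 0x8000000000000000f00000004 0x800000008000000180000000f00000004 2 5) 0 0 (step_sound _ 67 [(rh33e738c4ed385b9f.shift 0 1), (rh5c5e593799055d58.shift 2 0)] (by decide +kernel))
noncomputable def rh212808ab0c98286c : CRef := CRef.mk (Pat.mk 0xb000000080000000d 0xf000000180000000f 2 5) 0 0 (step_sound _ 36 [rh24ae073cf30720c4, (rhc10214bf3fe8094a.shift 0 1)] (by decide +kernel))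
noncomputable def rhec4e2273cee5a1a1 : CRef := CRef.mk (Pat.mk 0x80000000800000008000000080000000a00000003 0x800000008000000080000000c0000001e00000003 2 5) 0 0 (step_sound _ 34 [rh18965a982d73c794, (rh79877ebd3ef475dd.shift 2 1)] (by decide +kernel))
noncomputable def rh3320e0c644173747 : CRef := CRef.mk (Pat.mk 0x8000000080000000c0000000a00000003 0x800000008000000080000000c0000001e00000003 2 5) 0 0 (step_sound _ 34 [rh18965a982d73c794, (rh5c5e593799055d58.shift 2 1)] (by decide +kernel))
noncomputable def rh0a75138a5778265c : CRef := CRef.mk (Pat.mk 0x100000000d0000000800000008 0x10000000180000000f0000000800000008 2 5) 0 0 (step_sound _ 99 [(rh24ae073cf30720c4.shift 0 2), (rh2f68792b6b779e96.shift 3 0)] (by decide +kernel))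
noncomputable def rh6a9a2180bc6fbf47 : CRef := CRef.mk (Pat.mk 0xd000000080000000b 0xf000000180000000f 2 5) 0 0 (step_sound _ 36 [rh1c62b6193297d9e3, (rhab22b5b56e7b3243.shift 0 1)] (by decide +kernel))
noncomputable def rh5d5b9b56c19874f2 : CRef := CRef.mk (Pat.mk 0x2000000020000001a0000000a00000000 0x2000000020000001a0000000f00000004 2 5) 0 0 (step_sound _ 34 [(rh53b3c253cb0c65f4.shift 0 1), (rh55afc6a59410cf00.shift 1 0)] (by decide +kernel))
noncomputable def rh29ed1d9e79c1bb2d : CRef := CRef.mk (Pat.mk 0x400000006000000000000001e00000000 0x400000006000000020000001e00000003 2 5) 0 0 (step_sound _ 1 [(rh04253f50b6dd0619.shift 1 0), rheb0810cc63b001d8] (by decide +kernel))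
noncomputable def rh2087805db43a2800 : CRef := CRef.mk (Pat.mk 0x30000000a00000008000000080000000800000008 0x30000001e0000000c000000080000000800000008 2 5) 0 0 (step_sound _ 130 [(rhf48373e13d2bc128.shift 0 4), (rhffd04209dc8ea796.shift 2 0)] (by decide +kernel))
noncomputable def rh9ed738c54848f885 : CRef := CRef.mk (Pat.mk 0x30000000a0000000c000000080000000800000000 0x30000001e0000000c000000080000000800000008 2 5) 0 0 (step_sound _ 130 [(rh7b1f1fb55310c477.shift 2 0), (rhf48373e13d2bc128.shift 0 4)] (by decide +kernel))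
noncomputable def rh0fd75c581727f18e : CRef := CRef.mk (Pat.mk 0x30000000b00000008 0x30000001f00000018 2 5) 0 0 (step_sound _ 34 [rhe25b0a99195a5d59, (rhf48373e13d2bc128.shift 0 1)] (by decide +kernel))
noncomputable def rhd62aa8c143bedf8f : CRef := CRef.mk (Pat.mk 0x60000001c0000000400000004 0x80000000f0000001c0000000400000004 2 5) 0 0 (step_sound _ 99 [(rh2f68792b6b779e96.shift 2 0), (rhb739f4f82bb681b4.shift 0 2)] (by decide +kernel))
noncomputable def rh94c299b6f86e55c1 : CRef := CRef.mk (Pat.mk 0x300000000e 0x3c0000000f 2 6) 0 0 (step_sound _ 35 [rh53b3c253cb0c65f4, (rhca9569cc80abfe76.shift 1 0)] (by decide +kernel))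
noncomputable def rh940c5ff771d5b174 : CRef := CRef.mk (Pat.mk 0x60000001b 0x1f0000001b 2 5) 0 0 (step_sound _ 35 [rh18965a982d73c794, rhb739f4f82bb681b4] (by decide +kernel))
noncomputable def rhe7415e1dfa0355bf : CRef := CRef.mk (Pat.mk 0x500000007000000040000000200000000 0x500000007000000060000000600000002 2 3) 0 0 (step_sound _ 1 [rh2613c889e411427e, (rheea67dfebd0f8008.shift 1 0)] (by decide +kernel))
noncomputable def rhf786b97f357859ff : CRef := CRef.mk (Pat.mk 0x500000007000000040000000200000000 0x40000000500000007000000060000000200000002 2 3) 0 0 (step_sound _ 65 [(rh5c5e593799055d58.shift 1 1), rh7b1f1fb55310c477] (by decide +kernel))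
noncomputable def rh4f5da4dafb6dd81a : CRef := CRef.mk (Pat.mk 0x10000000500000006000000020000000000000000 0x10000000700000006000000020000000200000002 2 3) 0 0 (step_sound _ 33 [(rh71222050f2c63a3a.shift 1 0), (rhcfdf45280693d3da.shift 0 1)] (by decide +kernel))
noncomputable def rh252658d5f9b21822 : CRef := CRef.mk (Pat.mk 0x800000008000000090000000e00000000 0x8000000080000000b0000001e00000010 2 5) 0 0 (step_sound _ 36 [(rh3f8766e6ecb455ce.shift 0 1), (rh55afc6a59410cf00.shift 3 0)] (by decide +kernel))
noncomputable def rh14496ca70edf5ece : CRef := CRef.mk (Pat.mk 0x6000000070000000100000004 0x20000000200000006000000070000000500000004 2 3) 0 0 (step_sound _ 129 [(rh5c5e593799055d58.shift 0 1), (rh9e07f76261b05888.shift 1 0)] (by decide +kernel))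
noncomputable def rhfbd389a23429a7e6 : CRef := CRef.mk (Pat.mk 0x7000000080000001800000010 0x80000000f000000180000001800000010 2 5) 0 0 (step_sound _ 99 [(rh2145e1d24b96a57e.shift 3 0), (rhe25b0a99195a5d59.shift 0 2)] (by decide +kernel))
noncomputable def rhb8fddd58ad9026ec : CRef := CRef.mk (Pat.mk 0x200000000000000030000000300000000 0x20000000200000002000000030000000300000001 2 2) 0 0 (step_sound _ 97 [(rh5c5e593799055d58.shift 0 1), rh932754581e0f4330] (by decide +kernel))
noncomputable def rh88b27e1475b6bec5 : CRef := CRef.mk (Pat.mk 0x6000000040000000700000001 0x200000006000000060000000700000005 2 3) 0 0 (step_sound _ 129 [rh3c88ce959c0e423f, (rh7b1f1fb55310c477.shift 1 0)] (by decide +kernel))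
noncomputable def rh5071b66f3b4bdab7 : CRef := CRef.mk (Pat.mk 0x6000000050000000500000001 0x200000007000000050000000500000005 2 3) 0 0 (step_sound _ 129 [rh1006c02ae4212ff0, (rh7b1f1fb55310c477.shift 1 0)] (by decide +kernel))
noncomputable def rh7a89dccc93a85add : CRef := CRef.mk (Pat.mk 0xc0000004e00000002 0xc0000007e00000003 2 7) 0 0 (step_sound _ 36 [(rh2fe78cc5ca4405d8.shift 2 1), rheb0810cc63b001d8] (by decide +kernel))
noncomputable def rhead28a1f2ee4064b : CRef := CRef.mk (Pat.mk 0xc00000018000000020000000300000001 0xf0000001a000000020000000300000001 2 5) 0 0 (step_sound _ 129 [(rhb739f4f82bb681b4.shift 0 3), rhee230b994cc8b773] (by decide +kernel))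
noncomputable def rhde244f29c5529f6d : CRef := CRef.mk (Pat.mk 0x1b00000006 0x1b0000001f 2 5) 0 0 (step_sound _ 3 [rh53b3c253cb0c65f4, rhf48373e13d2bc128] (by decide +kernel))
noncomputable def rhc4af64a72b206bd6 : CRef := CRef.mk (Pat.mk 0x2000000040000000700000005 0x200000006000000060000000700000005 2 3) 0 0 (step_sound _ 129 [rh3c88ce959c0e423f, (rhcfdf45280693d3da.shift 1 0)] (by decide +kernel))
noncomputable def rh1b9584b0a9395bfc : CRef := CRef.mk (Pat.mk 0x2000000060000000500000001 0x20000000200000002000000060000000700000001 2 3) 0 0 (step_sound _ 129 [(rh2145e1d24b96a57e.shift 1 1), rheea67dfebd0f8008] (by decide +kernel))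
noncomputable def rh3d9ea522a568e981 : CRef := CRef.mk (Pat.mk 0x40000000100000007000000060000000000000000 0x40000000500000007000000060000000200000002 2 3) 0 0 (step_sound _ 33 [rh7b1f1fb55310c477, (rhee230b994cc8b773.shift 1 1)] (by decide +kernel))
noncomputable def rh03888c09cb5c5df2 : CRef := CRef.mk (Pat.mk 0x30000000140000000e 0x300000001e0000000f 2 6) 0 0 (step_sound _ 35 [rh53b3c253cb0c65f4, (rh53b3c253cb0c65f4.shift 1 1)] (by decide +kernel))
noncomputable def rh15cff630394bbef3 : CRef := CRef.mk (Pat.mk 0x180000000a00000003 0x180000001f00000003 2 5) 0 0 (step_sound _ 34 [rh18965a982d73c794, (rh53b3c253cb0c65f4.shift 0 1)] (by decide +kernel))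
noncomputable def rhe5461a55c1e091b6 : CRef := CRef.mk (Pat.mk 0x1000000018000000080000000700000000 0x1000000018000000180000000f00000008 2 5) 0 0 (step_sound _ 35 [(rh33e738c4ed385b9f.shift 0 1), (rh71222050f2c63a3a.shift 3 0)] (by decide +kernel))
noncomputable def rh4eb86e337e02d68a : CRef := CRef.mk (Pat.mk 0x200000000000000010000000f00000001 0x200000002000000030000001f00000001 2 5) 0 0 (step_sound _ 65 [rhee230b994cc8b773, (rhf48373e13d2bc128.shift 0 1)] (by decide +kernel))
noncomputable def rh3eb26739ea0a224c : CRef := CRef.mk (Pat.mk 0x40000000300000003000000020000000000000000 0x40000000700000003000000020000000200000002 2 3) 0 0 (step_sound _ 33 [rh7b1f1fb55310c477, (rhbaefcd01e0a8bca3.shift 1 1)] (by decide +kernel))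
noncomputable def rh83e4086ccde87a9e : CRef := CRef.mk (Pat.mk 0x100000007000000040000000600000000 0x500000007000000060000000600000002 2 3) 0 0 (step_sound _ 1 [rh2613c889e411427e, (rh5c5e593799055d58.shift 1 0)] (by decide +kernel))
noncomputable def rh7e5ed6e10ba4dd14 : CRef := CRef.mk (Pat.mk 0x100000005000000050000000600000000 0x500000005000000050000000700000002 2 3) 0 0 (step_sound _ 1 [(rh5c5e593799055d58.shift 1 0), rhbe0e43a3bc50a43f] (by decide +kernel))
noncomputable def rh8ce3cabf63226892 : CRef := CRef.mk (Pat.mk 0x20000004e0000000c 0x30000007e0000000c 2 7) 0 0 (step_sound _ 36 [(rh3244c3cc8379b070.shift 0 1), (rh361cc68994bd8a63.shift 2 0)] (by decide +kernel))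
noncomputable def rh32888ab8ed8d364b : CRef := CRef.mk (Pat.mk 0x10000000300000002000000180000000c 0x100000003000000020000001a0000000f 2 5) 0 0 (step_sound _ 1 [rh53b3c253cb0c65f4, rh9e07f76261b05888] (by decide +kernel))
noncomputable def rhf4298d983bdb77d4 : CRef := CRef.mk (Pat.mk 0x200000019000000030000000100000000 0x20000001f000000030000000100000001 2 5) 0 0 (step_sound _ 97 [rh71222050f2c63a3a, (rhb2a0b9ccfb5cecd5.shift 0 2)] (by decide +kernel))
noncomputable def rh22a65d20d3172694 : CRef := CRef.mk (Pat.mk 0x20000001c00000018 0x30000001f00000018 2 5) 0 0 (step_sound _ 33 [(rh3244c3cc8379b070.shift 0 1), rhb739f4f82bb681b4] (by decide +kernel))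
noncomputable def rhe5b39534a8222d7a : CRef := CRef.mk (Pat.mk 0x1c00000002000000020000000200000002 0x1f00000003000000020000000200000002 2 5) 0 0 (step_sound _ 96 [rh50fbb5868c909700, (rhca9569cc80abfe76.shift 0 3)] (by decide +kernel))
noncomputable def rh6abafb8c5a834d30 : CRef := CRef.mk (Pat.mk 0x1000000030000001900000002 0x100000001000000030000001f00000002 2 5) 0 0 (step_sound _ 33 [rh2145e1d24b96a57e, (rh5419adcd928dba20.shift 0 1)] (by decide +kernel))
noncomputable def rhd74396e693bc7125 : CRef := CRef.mk (Pat.mk 0x180000001c00000002 0x180000001f00000003 2 5) 0 0 (step_sound _ 33 [(rh53b3c253cb0c65f4.shift 0 1), rheb0810cc63b001d8] (by decide +kernel))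
noncomputable def rh906aff50615d0b88 : CRef := CRef.mk (Pat.mk 0x80000002700000006 0x180000003f00000006 2 6) 0 0 (step_sound _ 35 [(rh33e738c4ed385b9f.shift 0 1), (rh361cc68994bd8a63.shift 1 0)] (by decide +kernel))
noncomputable def rhab3bc17e0f7ad5ea : CRef := CRef.mk (Pat.mk 0x60000002700000008 0x60000003f00000018 2 6) 0 0 (step_sound _ 35 [(rh2fe78cc5ca4405d8.shift 1 1), rhe25b0a99195a5d59] (by decide +kernel))
noncomputable def rh74d6a2245e6f2e47 : CRef := CRef.mk (Pat.mk 0x400000006000000020000001c00000000 0x400000006000000030000001e00000002 2 5) 0 0 (step_sound _ 33 [(rh3244c3cc8379b070.shift 0 1), (rh71222050f2c63a3a.shift 1 0)] (by decide +kernel))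
noncomputable def rh54070bb3a14e7306 : CRef := CRef.mk (Pat.mk 0x100000001000000030000000300000001 0x20000000300000003000000030000000300000001 2 2) 0 0 (step_sound _ 129 [(rh2f68792b6b779e96.shift 0 1), rhee230b994cc8b773] (by decide +kernel))
noncomputable def rh77ad944900f11431 : CRef := CRef.mk (Pat.mk 0x1c000000020000000600000004 0x20000001e000000030000000600000004 2 5) 0 0 (step_sound _ 97 [(rh2145e1d24b96a57e.shift 1 0), (rheb0810cc63b001d8.shift 0 2)] (by decide +kernel))
noncomputable def rheb6520004608cff3 : CRef := CRef.mk (Pat.mk 0x10000000300000003000000010000000100000000 0x10000000300000003000000030000000300000002 2 2) 0 0 (step_sound _ 33 [rh55afc6a59410cf00, (rh9e07f76261b05888.shift 0 1)] (by decide +kernel))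
noncomputable def rh2ad4f8fa55baa6f1 : CRef := CRef.mk (Pat.mk 0x1800000009000000010000000100000001 0x1a0000000f000000010000000100000001 2 5) 0 0 (step_sound _ 97 [(rh1c62b6193297d9e3.shift 0 3), rh2f68792b6b779e96] (by decide +kernel))
noncomputable def rha3f42a2390de0456 : CRef := CRef.mk (Pat.mk 0x20000001e000000000000000600000000 0x20000001e000000030000000600000004 2 5) 0 0 (step_sound _ 65 [(rh55afc6a59410cf00.shift 1 0), (rheb0810cc63b001d8.shift 0 2)] (by decide +kernel))
noncomputable def rh5d1f636d3d3322bc : CRef := CRef.mk (Pat.mk 0x10000000170000001000000010 0x8000000180000001f0000001000000010 2 5) 0 0 (step_sound _ 99 [(rh3fc040e777f1679e.shift 0 2), (rh50fbb5868c909700.shift 3 0)] (by decide +kernel))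
noncomputable def rh54f4f1b09d97a5c8 : CRef := CRef.mk (Pat.mk 0x200000003000000180000000100000001 0x2000000030000001e0000000300000001 2 5) 0 0 (step_sound _ 65 [(rh5419adcd928dba20.shift 0 2), rheea67dfebd0f8008] (by decide +kernel))
noncomputable def rhbb6cda9a50da7dc6 : CRef := CRef.mk (Pat.mk 0x200000002000000180000000900000001 0x2000000020000001a0000000f00000001 2 5) 0 0 (step_sound _ 33 [(rh1c62b6193297d9e3.shift 0 1), rh3c88ce959c0e423f] (by decide +kernel))
noncomputable def rh6a63694b978e6cfd : CRef := CRef.mk (Pat.mk 0x5800000009 0x780000000f 2 7) 0 0 (step_sound _ 2 [rh24ae073cf30720c4, (rh361cc68994bd8a63.shift 2 0)] (by decide +kernel))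
noncomputable def rh71b175d56e26c10e : CRef := CRef.mk (Pat.mk 0x50000001c 0x70000003e 2 6) 0 0 (step_sound _ 33 [rh09d4dfe75d4407d6, (rhf48373e13d2bc128.shift 1 0)] (by decide +kernel))
noncomputable def rh1f3731417c49fe25 : CRef := CRef.mk (Pat.mk 0x10000000180000000b0000000600000000 0x10000000180000000b0000001e00000008 2 5) 0 0 (step_sound _ 35 [(rh71222050f2c63a3a.shift 3 0), (rhf48373e13d2bc128.shift 0 1)] (by decide +kernel))
noncomputable def rh24c917d9197f4394 : CRef := CRef.mk (Pat.mk 0x30000003800000040 0x30000003e00000060 2 7) 0 0 (step_sound _ 34 [(rh09d4dfe75d4407d6.shift 0 1), (rh96851dee118c1ba3.shift 2 0)] (by decide +kernel))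
noncomputable def rh5bc1b6c753895a6e : CRef := CRef.mk (Pat.mk 0x3800000006 0x380000001f 2 6) 0 0 (step_sound _ 3 [(rh3fc040e777f1679e.shift 1 0), rh53b3c253cb0c65f4] (by decide +kernel))
noncomputable def rh278bde3afe19cb5d : CRef := CRef.mk (Pat.mk 0x400000006000000000000001c00000002 0x400000006000000020000001e00000003 2 5) 0 0 (step_sound _ 33 [(rh04253f50b6dd0619.shift 1 0), rheb0810cc63b001d8] (by decide +kernel))
noncomputable def rh046254d731362e10 : CRef := CRef.mk (Pat.mk 0xe000000020000000e 0x1e000000030000001e 2 5) 0 0 (step_sound _ 32 [(rh18965a982d73c794.shift 0 1), rhf48373e13d2bc128] (by decide +kernel))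
noncomputable def rh82687729b6ed8eda : CRef := CRef.mk (Pat.mk 0x40000000c000000000000000f00000000 0x40000000c000000080000000f00000018 2 5) 0 0 (step_sound _ 3 [(rh2613c889e411427e.shift 2 0), rhe25b0a99195a5d59] (by decide +kernel))
noncomputable def rhfb06c60e0ffc39ca : CRef := CRef.mk (Pat.mk 0x4000000040000001a00000002 0x400000004000000040000001e00000003 2 5) 0 0 (step_sound _ 34 [(rh5c5e593799055d58.shift 1 0), rheb0810cc63b001d8] (by decide +kernel))
noncomputable def rhfd485fddfdd86c0a : CRef := CRef.mk (Pat.mk 0x400000003800000003 0x600000003e00000003 2 7) 0 0 (step_sound _ 34 [(rh428265de8cd3cd2d.shift 2 1), rhca9569cc80abfe76] (by decide +kernel))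
noncomputable def rh6a05374e71458c16 : CRef := CRef.mk (Pat.mk 0x1000000010000000130000000a00000000 0x1000000010000000130000001e00000008 2 5) 0 0 (step_sound _ 36 [(rh5419adcd928dba20.shift 0 1), (rh932754581e0f4330.shift 3 0)] (by decide +kernel))
noncomputable def rhc17a6a02773cc5f6 : CRef := CRef.mk (Pat.mk 0x100000002000000030000000200000000 0x10000000100000003000000030000000200000002 2 2) 0 0 (step_sound _ 96 [(rh2145e1d24b96a57e.shift 0 1), rh7b1f1fb55310c477] (by decide +kernel))
noncomputable def rh0dda944375fef289 : CRef := CRef.mk (Pat.mk 0x900000058 0xf00000078 2 7) 0 0 (step_sound _ 34 [(rh2fe78cc5ca4405d8.shift 2 0), rhab22b5b56e7b3243] (by decide +kernel))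
noncomputable def rh90a04632e314f181 : CRef := CRef.mk (Pat.mk 0x30000000180000001e 0x300000001f0000001e 2 6) 0 0 (step_sound _ 33 [(rh24ae073cf30720c4.shift 1 1), rh3244c3cc8379b070] (by decide +kernel))
noncomputable def rh6b8d87dbabcee4bd : CRef := CRef.mk (Pat.mk 0xe000000500000000c 0xf000000780000000c 2 7) 0 0 (step_sound _ 35 [(rh361cc68994bd8a63.shift 2 0), (rhb739f4f82bb681b4.shift 0 1)] (by decide +kernel))
noncomputable def rhde660fe6a874c7b1 : CRef := CRef.mk (Pat.mk 0x1a0000000200000016 0x1e000000030000001e 2 5) 0 0 (step_sound _ 32 [rh2fe78cc5ca4405d8, (rhb2a0b9ccfb5cecd5.shift 0 1)] (by decide +kernel))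
noncomputable def rh8831fff45a7745e8 : CRef := CRef.mk (Pat.mk 0x600000001800000003 0x600000003e00000003 2 7) 0 0 (step_sound _ 34 [(rh3fc040e777f1679e.shift 2 1), rhca9569cc80abfe76] (by decide +kernel))
noncomputable def rh72dcf29acb876456 : CRef := CRef.mk (Pat.mk 0x10000000f000000010000000100000000 0x30000001f000000010000000100000001 2 5) 0 0 (step_sound _ 129 [rh71222050f2c63a3a, (rhf48373e13d2bc128.shift 0 3)] (by decide +kernel))
noncomputable def rha25f89a08a1d77b7 : CRef := CRef.mk (Pat.mk 0x20000001a000000040000000400000000 0x30000001e000000040000000400000004 2 5) 0 0 (step_sound _ 98 [(rh3244c3cc8379b070.shift 0 3), (rh7b1f1fb55310c477.shift 1 0)] (by decide +kernel))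
noncomputable def rhad6eac491e7420d2 : CRef := CRef.mk (Pat.mk 0xa000000130000001000000010 0x80000001e000000130000001000000010 2 5) 0 0 (step_sound _ 100 [(rh50fbb5868c909700.shift 3 0), (rhb2a0b9ccfb5cecd5.shift 0 2)] (by decide +kernel))
noncomputable def rhf4c4fb84e001466a : CRef := CRef.mk (Pat.mk 0xc000000500000000e 0xc000000780000000f 2 7) 0 0 (step_sound _ 35 [(rh2fe78cc5ca4405d8.shift 2 1), rh53b3c253cb0c65f4] (by decide +kernel))
noncomputable def rh062dc44efc34878b : CRef := CRef.mk (Pat.mk 0x16000000020000001a 0x1e000000030000001e 2 5) 0 0 (step_sound _ 32 [(rh361cc68994bd8a63.shift 0 1), rh5419adcd928dba20] (by decide +kernel))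
noncomputable def rh2129efdcf6364358 : CRef := CRef.mk (Pat.mk 0x30000001800000060 0x30000003e00000060 2 7) 0 0 (step_sound _ 34 [(rh09d4dfe75d4407d6.shift 0 1), (rhd6e447e81774439e.shift 2 0)] (by decide +kernel))
noncomputable def rh0b1271f93b005ea7 : CRef := CRef.mk (Pat.mk 0x3000000018000000020000000300000001 0x320000001e000000020000000300000001 2 6) 0 0 (step_sound _ 97 [(rh24ae073cf30720c4.shift 1 3), rh5c5e593799055d58] (by decide +kernel))
noncomputable def rh94660f4c13544bba : CRef := CRef.mk (Pat.mk 0x20000000300000002000000030000000200000000 0x2000000020000000300000003000000030000000200000002 2 2) 0 0 (step_sound _ 96 [(rh5c5e593799055d58.shift 0 2), rh7b1f1fb55310c477] (by decide +kernel))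
noncomputable def rhb25a4f0c78afc919 : CRef := CRef.mk (Pat.mk 0x20000000200000003000000000000000100000000 0x2000000020000000200000003000000010000000100000001 2 2) 0 0 (step_sound _ 64 [(rh5c5e593799055d58.shift 0 2), rh71222050f2c63a3a] (by decide +kernel))
noncomputable def rh388d4cb481a3045e : CRef := CRef.mk (Pat.mk 0x3800000006 0x780000000f 2 7) 0 0 (step_sound _ 3 [(rh18965a982d73c794.shift 2 0), rh53b3c253cb0c65f4] (by decide +kernel))
noncomputable def rha8ea67707010c69d : CRef := CRef.mk (Pat.mk 0x200000000e00000001 0x300000001e00000003 2 6) 0 0 (step_sound _ 36 [(rh428265de8cd3cd2d.shift 1 1), rh80fcd6d0a18cb2dd] (by decide +kernel))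
noncomputable def rh4638e5e0cb0765b6 : CRef := CRef.mk (Pat.mk 0x400000004000000060000001600000000 0x400000004000000070000001e00000008 2 5) 0 0 (step_sound _ 35 [(rh3244c3cc8379b070.shift 0 1), (rh55afc6a59410cf00.shift 2 0)] (by decide +kernel))
noncomputable def rh66fa8660763b8d0f : CRef := CRef.mk (Pat.mk 0x10000000100000001f00000000 0x1000000010000000100000001f00000018 2 5) 0 0 (step_sound _ 3 [(rh5c5e593799055d58.shift 3 0), rhe25b0a99195a5d59] (by decide +kernel))
noncomputable def rh3a1cc22ead2eadb0 : CRef := CRef.mk (Pat.mk 0x10000000000000003000000020000000200000000 0x10000000100000003000000030000000200000002 2 2) 0 0 (step_sound _ 128 [rh7b1f1fb55310c477, (rhbe0e43a3bc50a43f.shift 0 1)] (by decide +kernel))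
noncomputable def rh50a14b5cf38c0cd7 : CRef := CRef.mk (Pat.mk 0x10000000000000003000000020000000200000000 0x10000000300000003000000020000000200000002 2 2) 0 0 (step_sound _ 128 [rh7b1f1fb55310c477, (rhcfdf45280693d3da.shift 0 1)] (by decide +kernel))
noncomputable def rh8a14c52668870c9c : CRef := CRef.mk (Pat.mk 0x20000000e00000020 0x30000001e00000030 2 6) 0 0 (step_sound _ 36 [(rh3244c3cc8379b070.shift 0 1), (rh96851dee118c1ba3.shift 1 0)] (by decide +kernel))
noncomputable def rh0bee87ec4f3fb00c : CRef := CRef.mk (Pat.mk 0x100000003000000020000001800000030 0x100000003000000020000001e00000032 2 6) 0 0 (step_sound _ 33 [rh7b1f1fb55310c477, (rhab22b5b56e7b3243.shift 1 0)] (by decide +kernel))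
noncomputable def rh8d7fc33fea31a034 : CRef := CRef.mk (Pat.mk 0x10000000000000003000000020000000200000000 0x1000000010000000100000003000000020000000200000002 2 2) 0 0 (step_sound _ 128 [(rh2145e1d24b96a57e.shift 0 2), rh7b1f1fb55310c477] (by decide +kernel))
noncomputable def rh72e35b80052d4a50 : CRef := CRef.mk (Pat.mk 0x600000038 0xf00000078 2 7) 0 0 (step_sound _ 35 [rhb739f4f82bb681b4, (rhf48373e13d2bc128.shift 2 0)] (by decide +kernel))
noncomputable def rh9ca324c51727eb46 : CRef := CRef.mk (Pat.mk 0x100000000e00000001 0x300000001e00000003 2 6) 0 0 (step_sound _ 36 [(rh33e738c4ed385b9f.shift 1 1), rh80fcd6d0a18cb2dd] (by decide +kernel))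
noncomputable def rhcddd2712883fd9b7 : CRef := CRef.mk (Pat.mk 0x600000000000000020000000300000000 0x40000000600000002000000020000000300000001 2 3) 0 0 (step_sound _ 97 [(rh2f68792b6b779e96.shift 1 1), rh932754581e0f4330] (by decide +kernel))
noncomputable def rh8d930ef2202f3fb0 : CRef := CRef.mk (Pat.mk 0x16000000060000000400000004 0x80000001e000000070000000400000004 2 5) 0 0 (step_sound _ 99 [(rh2f68792b6b779e96.shift 2 0), (rheb0810cc63b001d8.shift 0 2)] (by decide +kernel))
noncomputable def rh9d9fd5aa1e7402dd : CRef := CRef.mk (Pat.mk 0x1f000000100000001000000000 0x180000001f000000100000001000000010 2 5) 0 0 (step_sound _ 131 [(rh33e738c4ed385b9f.shift 0 3), (rh7b1f1fb55310c477.shift 3 0)] (by decide +kernel))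
noncomputable def rh225a3d7126aa42af : CRef := CRef.mk (Pat.mk 0x4000000060000001c0000000200000000 0x4000000060000001e0000000300000002 2 5) 0 0 (step_sound _ 65 [(rh71222050f2c63a3a.shift 1 0), (rheb0810cc63b001d8.shift 0 1)] (by decide +kernel))
noncomputable def rhbbace0fc56569fd6 : CRef := CRef.mk (Pat.mk 0x6000000180000001800000010 0x80000000f000000180000001800000010 2 5) 0 0 (step_sound _ 99 [(rh2145e1d24b96a57e.shift 3 0), (rhb739f4f82bb681b4.shift 0 2)] (by decide +kernel))
noncomputable def rh81a0b468accb8b7e : CRef := CRef.mk (Pat.mk 0x200000001000000050000000500000004 0x200000007000000050000000500000005 2 3) 0 0 (step_sound _ 97 [rh71222050f2c63a3a, (rhcfdf45280693d3da.shift 1 0)] (by decide +kernel))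
noncomputable def rhcf82e4c9bf600ee2 : CRef := CRef.mk (Pat.mk 0x10000003c 0x70000003e 2 6) 0 0 (step_sound _ 33 [rh09d4dfe75d4407d6, (rh3f8766e6ecb455ce.shift 1 0)] (by decide +kernel))
noncomputable def rh3eaaf6d85330c098 : CRef := CRef.mk (Pat.mk 0x60000001600000018 0x60000003f00000018 2 6) 0 0 (step_sound _ 35 [rhb739f4f82bb681b4, (rhf48373e13d2bc128.shift 1 1)] (by decide +kernel))
noncomputable def rh44f029253d5e06b4 : CRef := CRef.mk (Pat.mk 0x60000000c0000000d 0x60000003c0000000f 2 6) 0 0 (step_sound _ 36 [rh24ae073cf30720c4, (rhf48373e13d2bc128.shift 1 1)] (by decide +kernel))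
noncomputable def rh161554469a5df3d5 : CRef := CRef.mk (Pat.mk 0x200000002000000020000001600000002 0x200000002000000020000001f00000003 2 5) 0 0 (step_sound _ 0 [rh361cc68994bd8a63, rh79877ebd3ef475dd] (by decide +kernel))
noncomputable def rhcee611222e54fa97 : CRef := CRef.mk (Pat.mk 0x8000000030000001800000010 0x8000000080000000f0000001800000010 2 5) 0 0 (step_sound _ 67 [(rh2145e1d24b96a57e.shift 3 0), (rhc10214bf3fe8094a.shift 0 1)] (by decide +kernel))
noncomputable def rh53c609d7ab7ac29d : CRef := CRef.mk (Pat.mk 0xc0000000f0000000000000008 0x40000000c0000000f0000001800000008 2 5) 0 0 (step_sound _ 35 [(rh50fbb5868c909700.shift 2 0), (rhe25b0a99195a5d59.shift 0 1)] (by decide +kernel))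
noncomputable def rh576f4850e6cd8bc0 : CRef := CRef.mk (Pat.mk 0x700000018 0x70000003e 2 6) 0 0 (step_sound _ 2 [rh09d4dfe75d4407d6, (rhf48373e13d2bc128.shift 1 0)] (by decide +kernel))
noncomputable def rh7dd7be6a8f05c4d4 : CRef := CRef.mk (Pat.mk 0x1000000018000000180000000300000000 0x1000000018000000180000000f00000008 2 5) 0 0 (step_sound _ 35 [(rh1c62b6193297d9e3.shift 0 1), (rh71222050f2c63a3a.shift 3 0)] (by decide +kernel))
noncomputable def rh11b0dd659f6f5c3b : CRef := CRef.mk (Pat.mk 0x100000001000000020000000300000000 0x10000000100000001000000030000000300000002 2 2) 0 0 (step_sound _ 64 [(rh2145e1d24b96a57e.shift 0 1), rh55afc6a59410cf00] (by decide +kernel))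
noncomputable def rh5527e1c2855de68c : CRef := CRef.mk (Pat.mk 0xe000000280000000c 0xf000000780000000c 2 7) 0 0 (step_sound _ 36 [(rh18965a982d73c794.shift 2 0), (rhb739f4f82bb681b4.shift 0 1)] (by decide +kernel))
noncomputable def rh53a6242ae0132a5f : CRef := CRef.mk (Pat.mk 0x300000002000000010000000100000000 0x20000000300000003000000010000000100000001 2 2) 0 0 (step_sound _ 96 [(rh2f68792b6b779e96.shift 0 1), rh71222050f2c63a3a] (by decide +kernel))
noncomputable def rh498fff5a01c6ea1d : CRef := CRef.mk (Pat.mk 0xc000000280000000e 0xc000000780000000f 2 7) 0 0 (step_sound _ 36 [rh53b3c253cb0c65f4, (rhf48373e13d2bc128.shift 2 1)] (by decide +kernel))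
noncomputable def rhfb789c40dcb050e2 : CRef := CRef.mk (Pat.mk 0x20000000200000002000000020000000a00000018 0x20000000200000002000000060000000f00000018 2 5) 0 0 (step_sound _ 34 [rhb739f4f82bb681b4, (rhd3458b32566d63f7.shift 1 1)] (by decide +kernel))
noncomputable def rh18106ac0f60c265a : CRef := CRef.mk (Pat.mk 0x1800000016 0x380000001f 2 6) 0 0 (step_sound _ 3 [(rh33e738c4ed385b9f.shift 1 0), rh53b3c253cb0c65f4] (by decide +kernel))
noncomputable def rh48de0903b0eaf964 : CRef := CRef.mk (Pat.mk 0x180000000a00000002000000020000000200000002 0x180000000f00000006000000020000000200000002 2 5) 0 0 (step_sound _ 130 [(rh53b3c253cb0c65f4.shift 0 4), (rhbaefcd01e0a8bca3.shift 1 0)] (by decide +kernel))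
noncomputable def rh52f53d3a55b22c68 : CRef := CRef.mk (Pat.mk 0x1600000018 0x1f00000038 2 6) 0 0 (step_sound _ 35 [rhb739f4f82bb681b4, (rhe25b0a99195a5d59.shift 1 0)] (by decide +kernel))
noncomputable def rh390a1514d2789f9d : CRef := CRef.mk (Pat.mk 0x700000028 0xf0000003c 2 6) 0 0 (step_sound _ 4 [(rh09d4dfe75d4407d6.shift 1 0), rhd6e447e81774439e] (by decide +kernel))
noncomputable def rh6f816688efc691b5 : CRef := CRef.mk (Pat.mk 0x2800000007 0x3c0000000f 2 6) 0 0 (step_sound _ 36 [rh3fc040e777f1679e, (rhca9569cc80abfe76.shift 1 0)] (by decide +kernel))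
noncomputable def rh37d1b07d1fae205e : CRef := CRef.mk (Pat.mk 0x20000001c000000020000000600000000 0x30000001e000000020000000600000004 2 5) 0 0 (step_sound _ 97 [(rh3244c3cc8379b070.shift 0 3), (rh55afc6a59410cf00.shift 1 0)] (by decide +kernel))
noncomputable def rh479f07c8ec776d62 : CRef := CRef.mk (Pat.mk 0x120000001c 0x330000001e 2 6) 0 0 (step_sound _ 1 [rh3244c3cc8379b070, (rh33e738c4ed385b9f.shift 1 0)] (by decide +kernel))
noncomputable def rh081a26405065f71a : CRef := CRef.mk (Pat.mk 0x100000001000000010000001e00000000 0x100000001000000010000001f00000003 2 5) 0 0 (step_sound _ 1 [rhbe0e43a3bc50a43f, rheb0810cc63b001d8] (by decide +kernel))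
noncomputable def rhdc23d12011095348 : CRef := CRef.mk (Pat.mk 0x300000001000000020000000300000000 0x300000003000000020000000300000003 2 2) 0 0 (step_sound _ 97 [rh7b1f1fb55310c477, rh932754581e0f4330] (by decide +kernel))
noncomputable def rhe8cc1c5601213ea4 : CRef := CRef.mk (Pat.mk 0x30000001800000006 0x30000003e00000006 2 6) 0 0 (step_sound _ 34 [(rh09d4dfe75d4407d6.shift 0 1), (rh18965a982d73c794.shift 1 0)] (by decide +kernel))
noncomputable def rh7ce2059e0d236337 : CRef := CRef.mk (Pat.mk 0x18000000030000000600000004 0x20000001e000000030000000600000004 2 5) 0 0 (step_sound _ 97 [(rh2145e1d24b96a57e.shift 1 0), (rhb2a0b9ccfb5cecd5.shift 0 2)] (by decide +kernel))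
noncomputable def rhda9c0827c24abf7d : CRef := CRef.mk (Pat.mk 0x3000000020000000100000003 0x300000003000000020000000300000003 2 2) 0 0 (step_sound _ 33 [rh50fbb5868c909700, rh5c5e593799055d58] (by decide +kernel))
noncomputable def rhc1db5918def9f13b : CRef := CRef.mk (Pat.mk 0x700000014 0xf0000003c 2 6) 0 0 (step_sound _ 3 [rhd6e447e81774439e, (rhf48373e13d2bc128.shift 1 0)] (by decide +kernel))
noncomputable def rhdac3f9be0f86d6cd : CRef := CRef.mk (Pat.mk 0x60000001800000003 0x60000003e00000003 2 6) 0 0 (step_sound _ 34 [rhca9569cc80abfe76, (rhf48373e13d2bc128.shift 1 1)] (by decide +kernel))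
noncomputable def rh331edaec3ffcf4ee : CRef := CRef.mk (Pat.mk 0x400000006000000030000001800000000 0x400000006000000030000001e00000002 2 5) 0 0 (step_sound _ 33 [(rh5419adcd928dba20.shift 0 1), (rh71222050f2c63a3a.shift 1 0)] (by decide +kernel))
noncomputable def rh7082a125cd4b18d2 : CRef := CRef.mk (Pat.mk 0x40000000c0000000e0000001000000000 0x40000000c0000000f0000001800000008 2 5) 0 0 (step_sound _ 35 [(rh7b1f1fb55310c477.shift 2 0), (rhb739f4f82bb681b4.shift 0 1)] (by decide +kernel))
noncomputable def rhb36d9345549e5cca : CRef := CRef.mk (Pat.mk 0x14000000030000000200000002 0x40000001e000000030000000200000002 2 5) 0 0 (step_sound _ 97 [(rh2f68792b6b779e96.shift 1 0), (rh361cc68994bd8a63.shift 0 2)] (by decide +kernel))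
noncomputable def rh3a55be38d6a9d434 : CRef := CRef.mk (Pat.mk 0x100000000e0000000c00000004 0x8000000180000000f0000000c00000004 2 5) 0 0 (step_sound _ 99 [(rh53b3c253cb0c65f4.shift 0 2), (rh5c5e593799055d58.shift 2 0)] (by decide +kernel))
noncomputable def rha489452f69f51c42 : CRef := CRef.mk (Pat.mk 0x1f000000000000000800000008 0x100000001f000000180000000800000008 2 5) 0 0 (step_sound _ 67 [(rh2f68792b6b779e96.shift 3 0), (rhe25b0a99195a5d59.shift 0 2)] (by decide +kernel))
noncomputable def rhe2971afac17a6ffc : CRef := CRef.mk (Pat.mk 0xb0000000c 0xf0000001e 2 5) 0 0 (step_sound _ 4 [rh09d4dfe75d4407d6, rhc10214bf3fe8094a] (by decide +kernel))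
noncomputable def rhd9e2519e9bf020f2 : CRef := CRef.mk (Pat.mk 0x800000008000000000000001f00000000 0x800000008000000180000001f00000010 2 5) 0 0 (step_sound _ 67 [(rh33e738c4ed385b9f.shift 0 1), (rh55afc6a59410cf00.shift 3 0)] (by decide +kernel))
noncomputable def rh3c14fcf8b65bfab5 : CRef := CRef.mk (Pat.mk 0xc0000000b 0x1e0000000f 2 5) 0 0 (step_sound _ 36 [rh1c62b6193297d9e3, rhca9569cc80abfe76] (by decide +kernel))
noncomputable def rhc0e343a050da71e6 : CRef := CRef.mk (Pat.mk 0x8000000070000000c00000004 0x8000000180000000f0000000c00000004 2 5) 0 0 (step_sound _ 67 [(rh33e738c4ed385b9f.shift 0 2), (rh5c5e593799055d58.shift 2 0)] (by decide +kernel))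
noncomputable def rhc76d142f049b7a48 : CRef := CRef.mk (Pat.mk 0x40000000c000000070000000800000000 0x40000000c0000000f0000001800000008 2 5) 0 0 (step_sound _ 67 [(rh7b1f1fb55310c477.shift 2 0), (rhe25b0a99195a5d59.shift 0 1)] (by decide +kernel))
noncomputable def rh16cf2c77f05c0b59 : CRef := CRef.mk (Pat.mk 0x800000007000000080000000c00000000 0x180000000f000000080000000c00000004 2 5) 0 0 (step_sound _ 99 [(rh33e738c4ed385b9f.shift 0 3), (rh932754581e0f4330.shift 2 0)] (by decide +kernel))
noncomputable def rh415c273b677a8825 : CRef := CRef.mk (Pat.mk 0x1000000010000000100000000f00000000 0x1000000010000000100000001f00000018 2 5) 0 0 (step_sound _ 3 [rhe25b0a99195a5d59, (rheea67dfebd0f8008.shift 3 0)] (by decide +kernel))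
noncomputable def rh701357247ae7e814 : CRef := CRef.mk (Pat.mk 0x200000002000000020000001200000003 0x200000002000000020000001e00000007 2 5) 0 0 (step_sound _ 34 [rh361cc68994bd8a63, (rh55afc6a59410cf00.shift 1 0)] (by decide +kernel))
noncomputable def rhfdbfa5ec95bd358e : CRef := CRef.mk (Pat.mk 0x200000000000000020000000600000001 0x200000002000000020000000700000005 2 3) 0 0 (step_sound _ 97 [(rh55afc6a59410cf00.shift 1 0), rh79877ebd3ef475dd] (by decide +kernel))
noncomputable def rhabcb8f6c932edb1f : CRef := CRef.mk (Pat.mk 0x80000000d0000000e 0x180000000f0000001e 2 5) 0 0 (step_sound _ 33 [(rh33e738c4ed385b9f.shift 0 1), rhf48373e13d2bc128] (by decide +kernel))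
noncomputable def rhf2aa2b7422c8d0e8 : CRef := CRef.mk (Pat.mk 0x500000000e 0x780000000f 2 7) 0 0 (step_sound _ 35 [(rh361cc68994bd8a63.shift 2 0), rh53b3c253cb0c65f4] (by decide +kernel))
noncomputable def rh920cf9216bf6f445 : CRef := CRef.mk (Pat.mk 0x3000000007 0x3c0000000f 2 6) 0 0 (step_sound _ 35 [rh3fc040e777f1679e, (rhca9569cc80abfe76.shift 1 0)] (by decide +kernel))
noncomputable def rhce89915a24cc0d0a : CRef := CRef.mk (Pat.mk 0xe00000050 0xf00000078 2 7) 0 0 (step_sound _ 3 [(rh2fe78cc5ca4405d8.shift 2 0), rhb739f4f82bb681b4] (by decide +kernel))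
noncomputable def rh8bf7201cb5a906bd : CRef := CRef.mk (Pat.mk 0x700000030 0xf0000003c 2 6) 0 0 (step_sound _ 3 [(rh09d4dfe75d4407d6.shift 1 0), rhd6e447e81774439e] (by decide +kernel))
noncomputable def rhd0be057026311c98 : CRef := CRef.mk (Pat.mk 0x20000000200000002000000000000000100000001 0x20000000200000003000000030000000100000001 2 2) 0 0 (step_sound _ 64 [rh1006c02ae4212ff0, (rheea67dfebd0f8008.shift 0 1)] (by decide +kernel))
noncomputable def rhc30259bd62f0e380 : CRef := CRef.mk (Pat.mk 0xa00000038 0xf0000003c 2 6) 0 0 (step_sound _ 34 [(rh09d4dfe75d4407d6.shift 1 0), rhb739f4f82bb681b4] (by decide +kernel))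
noncomputable def rh723ae92b1b9da576 : CRef := CRef.mk (Pat.mk 0x10000000f000000010000000000000001 0x30000001f000000010000000100000001 2 5) 0 0 (step_sound _ 129 [rh9e3edb185cc347de, (rhf48373e13d2bc128.shift 0 3)] (by decide +kernel))
noncomputable def rh5e02580a73239971 : CRef := CRef.mk (Pat.mk 0x3000000140000000e 0x30000001e0000000f 2 5) 0 0 (step_sound _ 35 [(rh09d4dfe75d4407d6.shift 0 1), rh53b3c253cb0c65f4] (by decide +kernel))
noncomputable def rh0eb4637a3cd5e262 : CRef := CRef.mk (Pat.mk 0x10000000100000001000000000000000200000002 0x10000000100000003000000030000000200000002 2 2) 0 0 (step_sound _ 65 [(rhbe0e43a3bc50a43f.shift 0 1), rhcfdf45280693d3da] (by decide +kernel))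
noncomputable def rh3506277512a833a2 : CRef := CRef.mk (Pat.mk 0x20000000200000002000000000000000700000000 0x20000000200000002000000060000000700000001 2 3) 0 0 (step_sound _ 65 [rh932754581e0f4330, (rhd3458b32566d63f7.shift 1 1)] (by decide +kernel))
noncomputable def rhb505705f313d68be : CRef := CRef.mk (Pat.mk 0x2000000000000000000000003000000010000000000000001 0x2000000020000000200000003000000010000000100000001 2 2) 0 0 (step_sound _ 129 [rh9e3edb185cc347de, (rhee230b994cc8b773.shift 0 2)] (by decide +kernel))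
noncomputable def rh5bb287abdb6f055e : CRef := CRef.mk (Pat.mk 0x10000000080000000e0000000800000000 0x10000000180000000f0000000800000008 2 5) 0 0 (step_sound _ 100 [(rh53b3c253cb0c65f4.shift 0 2), (rh71222050f2c63a3a.shift 3 0)] (by decide +kernel))
noncomputable def rh5067309dd48555a2 : CRef := CRef.mk (Pat.mk 0x180000000a00000008000000080000000800000008 0x180000000f0000000c000000080000000800000008 2 5) 0 0 (step_sound _ 130 [(rh53b3c253cb0c65f4.shift 0 4), (rhffd04209dc8ea796.shift 2 0)] (by decide +kernel))
noncomputable def rh9658209abb2466de : CRef := CRef.mk (Pat.mk 0x1000000010000000000000006000000060000000400000000 0x1000000030000000200000006000000060000000400000004 2 3) 0 0 (step_sound _ 129 [(rh7b1f1fb55310c477.shift 1 0), (rhcfdf45280693d3da.shift 0 2)] (by decide +kernel))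
noncomputable def rh8216bf0da4f70608 : CRef := CRef.mk (Pat.mk 0x3e00000014 0x7f0000001c 2 7) 0 0 (step_sound _ 3 [(rh18965a982d73c794.shift 2 0), rhb739f4f82bb681b4] (by decide +kernel))
noncomputable def rh2c7793d85148f0f9 : CRef := CRef.mk (Pat.mk 0x40000003f 0x1c0000007f 2 7) 0 0 (step_sound _ 35 [rh33e738c4ed385b9f, (rhf48373e13d2bc128.shift 2 0)] (by decide +kernel))
noncomputable def rhf9dd539d91bdf46b : CRef := CRef.mk (Pat.mk 0x80000000700000008 0x180000000f00000018 2 5) 0 0 (step_sound _ 35 [(rh33e738c4ed385b9f.shift 0 1), rhe25b0a99195a5d59] (by decide +kernel))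
noncomputable def rh3ec8ec076f6e0db2 : CRef := CRef.mk (Pat.mk 0x1a00000006 0x1e0000000f 2 5) 0 0 (step_sound _ 0 [rh3fc040e777f1679e, rhb2a0b9ccfb5cecd5] (by decide +kernel))
noncomputable def rh761e2e70c46f9564 : CRef := CRef.mk (Pat.mk 0x1c00000003 0x3c0000000f 2 6) 0 0 (step_sound _ 2 [(rh18965a982d73c794.shift 1 0), rh3fc040e777f1679e] (by decide +kernel))
noncomputable def rh942f4d7792c17731 : CRef := CRef.mk (Pat.mk 0x1a00000006 0x3e00000007 2 6) 0 0 (step_sound _ 34 [(rh18965a982d73c794.shift 1 0), rheb0810cc63b001d8] (by decide +kernel))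
noncomputable def rhd4dac5621b04fe4d : CRef := CRef.mk (Pat.mk 0x100000001d00000008 0x300000001f00000018 2 6) 0 0 (step_sound _ 33 [(rh33e738c4ed385b9f.shift 1 1), rhe25b0a99195a5d59] (by decide +kernel))
noncomputable def rh85ec48ec037e3610 : CRef := CRef.mk (Pat.mk 0x100000000d00000008 0x180000000f00000018 2 5) 0 0 (step_sound _ 33 [(rh428265de8cd3cd2d.shift 0 1), rhe25b0a99195a5d59] (by decide +kernel))
noncomputable def rhc140869848ea0f2e : CRef := CRef.mk (Pat.mk 0x100000001000000030000000000000002 0x100000003000000030000000300000002 2 2) 0 0 (step_sound _ 33 [rhbe0e43a3bc50a43f, rhcfdf45280693d3da] (by decide +kernel))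
noncomputable def rh8171917db5627bbb : CRef := CRef.mk (Pat.mk 0x10000000f000000000000000100000001 0x30000001f000000010000000100000001 2 5) 0 0 (step_sound _ 129 [rh04253f50b6dd0619, (rhf48373e13d2bc128.shift 0 3)] (by decide +kernel))
noncomputable def rh00d630a998200867 : CRef := CRef.mk (Pat.mk 0x40000000500000000000000020000000200000002 0x40000000700000003000000020000000200000002 2 3) 0 0 (step_sound _ 97 [(rh1006c02ae4212ff0.shift 1 1), rhffd04209dc8ea796] (by decide +kernel))
noncomputable def rh33d01eedb9d8bafb : CRef := CRef.mk (Pat.mk 0x2000000020000000a0000000e00000000 0x2000000020000001a0000000f00000001 2 5) 0 0 (step_sound _ 32 [(rh33e738c4ed385b9f.shift 0 1), rh932754581e0f4330] (by decide +kernel))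
noncomputable def rhdf679b8c5117b23d : CRef := CRef.mk (Pat.mk 0x80000000f000000000000001800000000 0x80000000f000000180000001800000010 2 5) 0 0 (step_sound _ 67 [(rh55afc6a59410cf00.shift 3 0), (rhe25b0a99195a5d59.shift 0 2)] (by decide +kernel))
noncomputable def rhea68bc6538dd6649 : CRef := CRef.mk (Pat.mk 0x160000000200000002000000020000000200000002 0x1e0000000300000003000000020000000200000002 2 5) 0 0 (step_sound _ 128 [(rh361cc68994bd8a63.shift 0 4), rhffd04209dc8ea796] (by decide +kernel))
noncomputable def rhb5794f4dc0f4319e : CRef := CRef.mk (Pat.mk 0x1a00000001000000020000000600000000 0x1e00000003000000020000000600000004 2 5) 0 0 (step_sound _ 97 [(rh55afc6a59410cf00.shift 1 0), (rhb2a0b9ccfb5cecd5.shift 0 3)] (by decide +kernel))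
noncomputable def rhcb00ab67b46fb179 : CRef := CRef.mk (Pat.mk 0x1400000007 0x1e0000000f 2 5) 0 0 (step_sound _ 35 [rh3fc040e777f1679e, rhca9569cc80abfe76] (by decide +kernel))
noncomputable def rhb01df2df6ae952df : CRef := CRef.mk (Pat.mk 0xb0000000a0000000200000002 0x40000000f0000001a0000000200000002 2 5) 0 0 (step_sound _ 98 [(rh2f68792b6b779e96.shift 1 0), (rhe25b0a99195a5d59.shift 0 2)] (by decide +kernel))
noncomputable def rh6371dceabc07ce3d : CRef := CRef.mk (Pat.mk 0x2c0000000c00000018 0x3c0000000f00000018 2 6) 0 0 (step_sound _ 33 [(rh361cc68994bd8a63.shift 1 1), rhb739f4f82bb681b4] (by decide +kernel))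
noncomputable def rh4ca3b344f1b51833 : CRef := CRef.mk (Pat.mk 0xb0000000b 0x1b0000001f 2 5) 0 0 (step_sound _ 2 [rh33e738c4ed385b9f, rhf48373e13d2bc128] (by decide +kernel))
noncomputable def rh4a16d3320a8f1b95 : CRef := CRef.mk (Pat.mk 0x10000001c00000001 0x30000001e00000003 2 5) 0 0 (step_sound _ 33 [(rh3f8766e6ecb455ce.shift 0 1), rh80fcd6d0a18cb2dd] (by decide +kernel))
noncomputable def rh3092169746d613f6 : CRef := CRef.mk (Pat.mk 0x400000004000000000000001c00000002 0x400000004000000040000001e00000003 2 5) 0 0 (step_sound _ 33 [(rh3c88ce959c0e423f.shift 1 0), rheb0810cc63b001d8] (by decide +kernel))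
noncomputable def rhad627b0bc5857a63 : CRef := CRef.mk (Pat.mk 0x1000000010000000100000001600000002 0x1000000010000000100000001e0000000b 2 5) 0 0 (step_sound _ 35 [(rh932754581e0f4330.shift 3 0), rheb0810cc63b001d8] (by decide +kernel))
noncomputable def rhaff2d62a1af92265 : CRef := CRef.mk (Pat.mk 0x800000008000000080000000800000007 0x80000000800000008000000180000001f 2 5) 0 0 (step_sound _ 36 [rh3fc040e777f1679e, (rh55afc6a59410cf00.shift 3 0)] (by decide +kernel))
noncomputable def rh168168eb0d03cc27 : CRef := CRef.mk (Pat.mk 0x800000008000000080000000a0000001a 0x800000008000000080000000f0000001e 2 5) 0 0 (step_sound _ 2 [rh3244c3cc8379b070, (rh79877ebd3ef475dd.shift 2 0)] (by decide +kernel))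
noncomputable def rh4f294707ca39054f : CRef := CRef.mk (Pat.mk 0x800000008000000080000001000000007 0x80000000800000008000000180000001f 2 5) 0 0 (step_sound _ 35 [rh3fc040e777f1679e, (rh55afc6a59410cf00.shift 3 0)] (by decide +kernel))
noncomputable def rh6331bd58f8d610b3 : CRef := CRef.mk (Pat.mk 0x400000004000000070000000c00000000 0x400000004000000070000001e00000002 2 5) 0 0 (step_sound _ 33 [(rh932754581e0f4330.shift 1 0), (rhf48373e13d2bc128.shift 0 1)] (by decide +kernel))
noncomputable def rhfea9c0473ad5710a : CRef := CRef.mk (Pat.mk 0x8000000080000000b0000001200000000 0x8000000080000000b0000001e00000010 2 5) 0 0 (step_sound _ 35 [(rh5419adcd928dba20.shift 0 1), (rh55afc6a59410cf00.shift 3 0)] (by decide +kernel))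
noncomputable def rhd4e264f2ee3d23be : CRef := CRef.mk (Pat.mk 0x1000000010000000130000001400000000 0x1000000010000000130000001e00000008 2 5) 0 0 (step_sound _ 35 [(rh09d4dfe75d4407d6.shift 0 1), (rh932754581e0f4330.shift 3 0)] (by decide +kernel))
noncomputable def rh762485912b0ead2c : CRef := CRef.mk (Pat.mk 0xd0000000800000008000000080000000800000008 0xf0000001800000018000000080000000800000008 2 5) 0 0 (step_sound _ 132 [(rhab22b5b56e7b3243.shift 0 4), (rhbaefcd01e0a8bca3.shift 3 0)] (by decide +kernel))
noncomputable def rhabfb99c80b5c3b56 : CRef := CRef.mk (Pat.mk 0x1c00000002000000020000000600000000 0x1e00000003000000020000000600000004 2 5) 0 0 (step_sound _ 129 [(rh55afc6a59410cf00.shift 1 0), (rheb0810cc63b001d8.shift 0 3)] (by decide +kernel))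
noncomputable def rh2d10cb31ad1cd784 : CRef := CRef.mk (Pat.mk 0x20000001c00000020 0x30000001e00000030 2 6) 0 0 (step_sound _ 33 [(rh3244c3cc8379b070.shift 0 1), (rh96851dee118c1ba3.shift 1 0)] (by decide +kernel))
noncomputable def rh4064d24356ef2355 : CRef := CRef.mk (Pat.mk 0x6000000010000000500000005 0x200000007000000050000000500000005 2 3) 0 0 (step_sound _ 129 [rh1006c02ae4212ff0, (rh2613c889e411427e.shift 1 0)] (by decide +kernel))
noncomputable def rh9dd69f3e6b8dc9b1 : CRef := CRef.mk (Pat.mk 0xe00000002000000020000000200000002 0x1f00000003000000020000000200000002 2 5) 0 0 (step_sound _ 96 [(rh18965a982d73c794.shift 0 3), rh50fbb5868c909700] (by decide +kernel))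
noncomputable def rh9d021f793ef14721 : CRef := CRef.mk (Pat.mk 0x10000000100000003000000000000000200000000 0x1000000010000000100000003000000020000000200000002 2 2) 0 0 (step_sound _ 65 [(rh2145e1d24b96a57e.shift 0 2), rh7b1f1fb55310c477] (by decide +kernel))
noncomputable def rh64f58cea62e24702 : CRef := CRef.mk (Pat.mk 0x20000000100000001000000000000000300000000 0x20000000300000001000000010000000300000002 2 2) 0 0 (step_sound _ 64 [rh55afc6a59410cf00, (rhbaefcd01e0a8bca3.shift 0 1)] (by decide +kernel))
noncomputable def rh697635bb38aebc39 : CRef := CRef.mk (Pat.mk 0x10000000200000002000000000000000300000000 0x10000000300000002000000020000000300000001 2 2) 0 0 (step_sound _ 65 [rh932754581e0f4330, (rhffd04209dc8ea796.shift 0 1)] (by decide +kernel))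
noncomputable def rhb55a4883166134e9 : CRef := CRef.mk (Pat.mk 0x10000000000000002000000020000000300000000 0x10000000300000002000000020000000300000001 2 2) 0 0 (step_sound _ 129 [rh932754581e0f4330, (rhffd04209dc8ea796.shift 0 1)] (by decide +kernel))
noncomputable def rh1d01379feeb49736 : CRef := CRef.mk (Pat.mk 0x200000002000000040000000500000001 0x20000000200000002000000060000000700000001 2 3) 0 0 (step_sound _ 65 [(rh2145e1d24b96a57e.shift 1 1), rheea67dfebd0f8008] (by decide +kernel))
noncomputable def rh9704bbd79d32b932 : CRef := CRef.mk (Pat.mk 0x8000000080000000c0000000a00000018 0x800000008000000080000000c0000000f00000018 2 5) 0 0 (step_sound _ 34 [(rh5c5e593799055d58.shift 2 1), rhb739f4f82bb681b4] (by decide +kernel))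
noncomputable def rhff7e78421b12622c : CRef := CRef.mk (Pat.mk 0x80000000800000008000000080000000a00000018 0x800000008000000080000000c0000000f00000018 2 5) 0 0 (step_sound _ 34 [(rh79877ebd3ef475dd.shift 2 1), rhb739f4f82bb681b4] (by decide +kernel))
noncomputable def rh7ac1b232363ea136 : CRef := CRef.mk (Pat.mk 0x7000000010000000400000005 0x200000007000000050000000500000005 2 3) 0 0 (step_sound _ 129 [(rh2613c889e411427e.shift 1 0), rh9e3edb185cc347de] (by decide +kernel))
noncomputable def rh45e4239d2789f5d0 : CRef := CRef.mk (Pat.mk 0x100000002000000020000001a00000009 0x100000003000000020000001a0000000f 2 5) 0 0 (step_sound _ 1 [rh1c62b6193297d9e3, rhffd04209dc8ea796] (by decide +kernel))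
noncomputable def rh8f094ad1b12c8fd3 : CRef := CRef.mk (Pat.mk 0x2000000020000001a0000000900000000 0x2000000020000001a0000000f00000001 2 5) 0 0 (step_sound _ 33 [(rh1c62b6193297d9e3.shift 0 1), rh932754581e0f4330] (by decide +kernel))
noncomputable def rh7451f34b061ea69b : CRef := CRef.mk (Pat.mk 0x200000000000000030000000100000001 0x200000003000000030000000300000001 2 2) 0 0 (step_sound _ 97 [rh1006c02ae4212ff0, rheea67dfebd0f8008] (by decide +kernel))
noncomputable def rh514fa720804abbca : CRef := CRef.mk (Pat.mk 0x20000000000000003000000010000000100000000 0x20000000200000003000000030000000100000001 2 2) 0 0 (step_sound _ 129 [rh71222050f2c63a3a, (rheea67dfebd0f8008.shift 0 1)] (by decide +kernel))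
noncomputable def rhdead0962b33320d8 : CRef := CRef.mk (Pat.mk 0x400000004000000140000000d 0x400000004000000040000001c0000000f 2 5) 0 0 (step_sound _ 35 [(rh2145e1d24b96a57e.shift 2 0), rh24ae073cf30720c4] (by decide +kernel))
noncomputable def rh95782c1fb041cd1c : CRef := CRef.mk (Pat.mk 0x4000000040000001c0000000a00000000 0x4000000040000001c0000000f00000002 2 5) 0 0 (step_sound _ 34 [(rh53b3c253cb0c65f4.shift 0 1), (rh932754581e0f4330.shift 1 0)] (by decide +kernel))
noncomputable def rh28f88bda704deabd : CRef := CRef.mk (Pat.mk 0x100000004000000020000000200000002 0x500000007000000020000000200000002 2 3) 0 0 (step_sound _ 97 [(rh2f68792b6b779e96.shift 1 0), rhffd04209dc8ea796] (by decide +kernel))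
noncomputable def rh9f6d71d2ccb1f73c : CRef := CRef.mk (Pat.mk 0x800000007000000000000000c00000004 0x180000000f000000080000000c00000004 2 5) 0 0 (step_sound _ 99 [(rh33e738c4ed385b9f.shift 0 3), (rh3c88ce959c0e423f.shift 2 0)] (by decide +kernel))
noncomputable def rh4403e97f5cc1e4ef : CRef := CRef.mk (Pat.mk 0x200000000000000070000000500000004 0x20000000200000006000000070000000500000004 2 3) 0 0 (step_sound _ 97 [(rh5c5e593799055d58.shift 0 1), (rhcfdf45280693d3da.shift 1 0)] (by decide +kernel))
noncomputable def rh879264a17c6d292b : CRef := CRef.mk (Pat.mk 0x100000000000000020000000600000006 0x300000003000000020000000600000006 2 3) 0 0 (step_sound _ 97 [(rh2145e1d24b96a57e.shift 1 0), rhffd04209dc8ea796] (by decide +kernel))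
noncomputable def rhd7d612945704e64f : CRef := CRef.mk (Pat.mk 0x100000001e0000000800000008 0x10000000100000001f0000001800000008 2 5) 0 0 (step_sound _ 36 [(rh5c5e593799055d58.shift 3 0), (rhb739f4f82bb681b4.shift 0 1)] (by decide +kernel))
noncomputable def rhaec18d18fc2d07c9 : CRef := CRef.mk (Pat.mk 0x800000008000000080000000e00000008 0x800000008000000080000001f00000018 2 5) 0 0 (step_sound _ 4 [rhb739f4f82bb681b4, (rhd3458b32566d63f7.shift 3 0)] (by decide +kernel))
noncomputable def rhafdf94f2acdc0ed4 : CRef := CRef.mk (Pat.mk 0xc00000007 0x1e0000000f 2 5) 0 0 (step_sound _ 36 [rh3fc040e777f1679e, rhca9569cc80abfe76] (by decide +kernel))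
noncomputable def rh4fa4a1838f5a52ce : CRef := CRef.mk (Pat.mk 0x120000000b0000000800000008 0x100000001e0000000b0000000800000008 2 5) 0 0 (step_sound _ 99 [(rh2f68792b6b779e96.shift 3 0), (rhb2a0b9ccfb5cecd5.shift 0 2)] (by decide +kernel))
noncomputable def rhc96d793cb48cf7f5 : CRef := CRef.mk (Pat.mk 0xa000000070000000400000004 0x80000001e000000070000000400000004 2 5) 0 0 (step_sound _ 98 [(rh18965a982d73c794.shift 0 2), (rh2f68792b6b779e96.shift 2 0)] (by decide +kernel))
noncomputable def rh8eb2d15efc505b0f : CRef := CRef.mk (Pat.mk 0x2000000030000000500000004 0x20000000200000002000000030000000700000004 2 3) 0 0 (step_sound _ 129 [(rh5c5e593799055d58.shift 0 1), (rhbe0e43a3bc50a43f.shift 1 0)] (by decide +kernel))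
noncomputable def rhb111163c97cafada : CRef := CRef.mk (Pat.mk 0x2000000020000000a0000000b00000000 0x2000000020000001a0000000f00000004 2 5) 0 0 (step_sound _ 34 [(rh33e738c4ed385b9f.shift 0 1), (rh55afc6a59410cf00.shift 1 0)] (by decide +kernel))
noncomputable def rh246acd5ab1e0384e : CRef := CRef.mk (Pat.mk 0x70000000c000000000000000400000004 0xf0000001c000000040000000400000004 2 5) 0 0 (step_sound _ 131 [(rh04253f50b6dd0619.shift 2 0), (rhe25b0a99195a5d59.shift 0 3)] (by decide +kernel))
noncomputable def rh7a7cbdf4209ff7c6 : CRef := CRef.mk (Pat.mk 0xb00000013 0x1f0000001b 2 5) 0 0 (step_sound _ 34 [rh18965a982d73c794, rh96851dee118c1ba3] (by decide +kernel))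
noncomputable def rh5d3e2e278971398b : CRef := CRef.mk (Pat.mk 0x1300000007 0x1b0000001f 2 5) 0 0 (step_sound _ 3 [rh428265de8cd3cd2d, rhf48373e13d2bc128] (by decide +kernel))
noncomputable def rhafe0a86dc059044e : CRef := CRef.mk (Pat.mk 0x10000001600000006 0x30000003e00000006 2 6) 0 0 (step_sound _ 35 [(rh18965a982d73c794.shift 1 0), (rh3f8766e6ecb455ce.shift 0 1)] (by decide +kernel))
noncomputable def rhaaf5d65e087a81cf : CRef := CRef.mk (Pat.mk 0x1f000000100000000000000010 0x180000001f000000100000001000000010 2 5) 0 0 (step_sound _ 131 [(rh33e738c4ed385b9f.shift 0 3), (rh9e07f76261b05888.shift 3 0)] (by decide +kernel))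
noncomputable def rh596be5a27a43c496 : CRef := CRef.mk (Pat.mk 0xe00000010000000000000001000000010 0xf00000018000000100000001000000010 2 5) 0 0 (step_sound _ 99 [(rh2613c889e411427e.shift 3 0), (rhb739f4f82bb681b4.shift 0 3)] (by decide +kernel))
noncomputable def rhb751464bcffabb58 : CRef := CRef.mk (Pat.mk 0x70000000a000000000000000800000008 0x70000001e000000080000000800000008 2 5) 0 0 (step_sound _ 98 [(rh2613c889e411427e.shift 2 0), (rhf48373e13d2bc128.shift 0 3)] (by decide +kernel))
noncomputable def rh2e238dbc5d535351 : CRef := CRef.mk (Pat.mk 0x200000002000000020000000e00000002 0x200000002000000020000001f00000003 2 5) 0 0 (step_sound _ 0 [rh18965a982d73c794, rh79877ebd3ef475dd] (by decide +kernel))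
noncomputable def rhf49a6e4f9cb60d7b : CRef := CRef.mk (Pat.mk 0x600000018000000000000001000000010 0xf00000018000000100000001000000010 2 5) 0 0 (step_sound _ 131 [(rh2613c889e411427e.shift 3 0), (rhb739f4f82bb681b4.shift 0 3)] (by decide +kernel))
noncomputable def rh140eeb6c74fee009 : CRef := CRef.mk (Pat.mk 0x200000003000000000000000300000002 0x300000003000000010000000300000003 2 2) 0 0 (step_sound _ 64 [rh2145e1d24b96a57e, rh71222050f2c63a3a] (by decide +kernel))
noncomputable def rh565a54ff01eab9cb : CRef := CRef.mk (Pat.mk 0x400000004000000000000001a00000002 0x400000004000000040000001e00000003 2 5) 0 0 (step_sound _ 34 [(rh3c88ce959c0e423f.shift 1 0), rheb0810cc63b001d8] (by decide +kernel))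
noncomputable def rhf47809ebef3b3626 : CRef := CRef.mk (Pat.mk 0x1000000010000000130000001200000000 0x1000000010000000130000001e00000008 2 5) 0 0 (step_sound _ 35 [(rh5419adcd928dba20.shift 0 1), (rh932754581e0f4330.shift 3 0)] (by decide +kernel))
noncomputable def rh43aaa02be9d23efd : CRef := CRef.mk (Pat.mk 0x3000000050000000500000004 0x200000007000000050000000500000005 2 3) 0 0 (step_sound _ 129 [rh71222050f2c63a3a, (rhcfdf45280693d3da.shift 1 0)] (by decide +kernel))
noncomputable def rh06c0b67611496766 : CRef := CRef.mk (Pat.mk 0x18000000030000000800000008 0x10000000180000000f0000000800000008 2 5) 0 0 (step_sound _ 67 [(rh1c62b6193297d9e3.shift 0 2), (rh2f68792b6b779e96.shift 3 0)] (by decide +kernel))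
noncomputable def rh908914b2f8ef2b02 : CRef := CRef.mk (Pat.mk 0x3000000020000000100000001 0x200000003000000030000000300000001 2 2) 0 0 (step_sound _ 129 [rh04253f50b6dd0619, rheea67dfebd0f8008] (by decide +kernel))
noncomputable def rh1ebae77060ef1c3f : CRef := CRef.mk (Pat.mk 0x400000006000000030000000800000008 0x40000001e0000000b0000000800000008 2 5) 0 0 (step_sound _ 99 [(rh18965a982d73c794.shift 0 2), (rh2613c889e411427e.shift 2 0)] (by decide +kernel))
noncomputable def rh8643f959d8b300ed : CRef := CRef.mk (Pat.mk 0x7000000080000000800000008 0x40000000f000000180000000800000008 2 5) 0 0 (step_sound _ 99 [(rh50fbb5868c909700.shift 2 0), (rhe25b0a99195a5d59.shift 0 2)] (by decide +kernel))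
noncomputable def rh16b3601545764ddf : CRef := CRef.mk (Pat.mk 0x1e000000020000000300000000 0x30000001e000000020000000300000001 2 5) 0 0 (step_sound _ 129 [(rh3244c3cc8379b070.shift 0 3), rh932754581e0f4330] (by decide +kernel))
noncomputable def rh9a4d62eca34e8710 : CRef := CRef.mk (Pat.mk 0x100000000b00000008 0x180000000f00000018 2 5) 0 0 (step_sound _ 34 [(rh428265de8cd3cd2d.shift 0 1), rhe25b0a99195a5d59] (by decide +kernel))
noncomputable def rhc3c694226a015fc3 : CRef := CRef.mk (Pat.mk 0x30000000c00000006 0x30000003e00000006 2 6) 0 0 (step_sound _ 36 [(rh09d4dfe75d4407d6.shift 0 1), (rh18965a982d73c794.shift 1 0)] (by decide +kernel))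
noncomputable def rh1354c2625a328ca5 : CRef := CRef.mk (Pat.mk 0x800000008000000080000000b00000008 0x800000008000000080000001f00000018 2 5) 0 0 (step_sound _ 4 [rhc10214bf3fe8094a, (rhd3458b32566d63f7.shift 3 0)] (by decide +kernel))
noncomputable def rh5278689ccab1c3c2 : CRef := CRef.mk (Pat.mk 0x10000000100000003000000000000000200000000 0x10000000100000003000000030000000200000002 2 2) 0 0 (step_sound _ 65 [rh7b1f1fb55310c477, (rhbe0e43a3bc50a43f.shift 0 1)] (by decide +kernel))
noncomputable def rhd95cd68247b3fc03 : CRef := CRef.mk (Pat.mk 0x80000000800000008000000080000000e00000002 0x80000000800000008000000180000001e00000003 2 5) 0 0 (step_sound _ 36 [(rhd3458b32566d63f7.shift 3 1), rheb0810cc63b001d8] (by decide +kernel))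
noncomputable def rh0da86e4dead2b836 : CRef := CRef.mk (Pat.mk 0x40000000e000000100000000800000000 0x40000000f000000180000000800000008 2 5) 0 0 (step_sound _ 67 [(rh7b1f1fb55310c477.shift 2 0), (rhb739f4f82bb681b4.shift 0 2)] (by decide +kernel))
noncomputable def rha7381c9f1229ca7e : CRef := CRef.mk (Pat.mk 0x400000005000000050000000100000002 0x500000005000000050000000700000002 2 3) 0 0 (step_sound _ 33 [rh2145e1d24b96a57e, (rheea67dfebd0f8008.shift 1 0)] (by decide +kernel))
noncomputable def rh2be192fa1e0a8f92 : CRef := CRef.mk (Pat.mk 0x200000002000000020000001a0000000a 0x200000002000000020000001b0000000f 2 5) 0 0 (step_sound _ 0 [rh1c62b6193297d9e3, rh79877ebd3ef475dd] (by decide +kernel))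
noncomputable def rh6c0d7bd1cc831860 : CRef := CRef.mk (Pat.mk 0x80000000000000008000000100000001e 0x80000000800000008000000180000001f 2 5) 0 0 (step_sound _ 35 [rh53b3c253cb0c65f4, (rh6f1cbe15c631ee70.shift 3 0)] (by decide +kernel))
noncomputable def rhf65c362918a99e9e : CRef := CRef.mk (Pat.mk 0x80000000b000000020000000200000002 0x1c0000000f000000020000000200000002 2 5) 0 0 (step_sound _ 98 [(rh2f68792b6b779e96.shift 1 0), (rh33e738c4ed385b9f.shift 0 3)] (by decide +kernel))
noncomputable def rhec97b8c64d9609d7 : CRef := CRef.mk (Pat.mk 0x500000002000000020000000000000002 0x500000007000000020000000200000002 2 3) 0 0 (step_sound _ 33 [(rhbaefcd01e0a8bca3.shift 1 0), rhffd04209dc8ea796] (by decide +kernel))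
noncomputable def rh3ce14d2b03013c6d : CRef := CRef.mk (Pat.mk 0x1e00000004000000040000000000000004 0x1e00000007000000040000000400000004 2 5) 0 0 (step_sound _ 97 [(rh9e07f76261b05888.shift 1 0), (rheb0810cc63b001d8.shift 0 3)] (by decide +kernel))
noncomputable def rh874f68213ad35b69 : CRef := CRef.mk (Pat.mk 0x200000002000000020000000900000018 0x200000002000000020000000f00000019 2 5) 0 0 (step_sound _ 33 [rh932754581e0f4330, rhc10214bf3fe8094a] (by decide +kernel))
noncomputable def rhd3f7ef38fbfd55da : CRef := CRef.mk (Pat.mk 0x400000004000000040000000f 0x400000004000000040000001c0000000f 2 5) 0 0 (step_sound _ 35 [(rh2145e1d24b96a57e.shift 2 0), rh33e738c4ed385b9f] (by decide +kernel))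
noncomputable def rh39e496e15a305597 : CRef := CRef.mk (Pat.mk 0x20000001c000000000000000400000004 0x30000001e000000040000000400000004 2 5) 0 0 (step_sound _ 97 [(rh2613c889e411427e.shift 1 0), (rh3244c3cc8379b070.shift 0 3)] (by decide +kernel))
noncomputable def rhb3c0ca2f03116be9 : CRef := CRef.mk (Pat.mk 0x2000000020000001a0000000100000000 0x2000000020000001e0000000300000001 2 5) 0 0 (step_sound _ 33 [rh932754581e0f4330, (rhb2a0b9ccfb5cecd5.shift 0 1)] (by decide +kernel))
noncomputable def rh74d067626fd2f551 : CRef := CRef.mk (Pat.mk 0x30000000600000000000000080000001800000010 0x30000001e00000008000000080000001800000010 2 5) 0 0 (step_sound _ 131 [(rh6f1cbe15c631ee70.shift 3 0), (rhf48373e13d2bc128.shift 0 4)] (by decide +kernel))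
noncomputable def rh7c4dd79c7407efc6 : CRef := CRef.mk (Pat.mk 0x800000018000000100000000300000006 0x80000001800000010000000130000001e 2 5) 0 0 (step_sound _ 4 [rh2fe78cc5ca4405d8, (rh9e07f76261b05888.shift 3 0)] (by decide +kernel))
noncomputable def rhfa98cbb75490aff0 : CRef := CRef.mk (Pat.mk 0x400000004000000000000000b00000008 0x400000004000000040000000f00000018 2 5) 0 0 (step_sound _ 34 [rhe25b0a99195a5d59, (rhff0f29cb645b05f7.shift 2 0)] (by decide +kernel))
noncomputable def rh29d89e262dc907e9 : CRef := CRef.mk (Pat.mk 0x800000008000000120000001300000010 0x8000000080000001e0000001b00000010 2 5) 0 0 (step_sound _ 67 [(rhb2a0b9ccfb5cecd5.shift 0 1), (rhbe0e43a3bc50a43f.shift 3 0)] (by decide +kernel))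
noncomputable def rh62f35c5ab5502047 : CRef := CRef.mk (Pat.mk 0x8000000080000000e0000001000000010 0x8000000180000001f0000001000000010 2 5) 0 0 (step_sound _ 100 [(rh2613c889e411427e.shift 3 0), (rh53b3c253cb0c65f4.shift 0 2)] (by decide +kernel))
noncomputable def rh964efc7fe7ac7a0d : CRef := CRef.mk (Pat.mk 0xe0000000d00000008 0x1e0000000f00000018 2 5) 0 0 (step_sound _ 33 [(rh18965a982d73c794.shift 0 1), rhe25b0a99195a5d59] (by decide +kernel))
noncomputable def rh597586461ebe1173 : CRef := CRef.mk (Pat.mk 0x40000001c000000060000000800000000 0x40000001c0000000f0000000800000008 2 5) 0 0 (step_sound _ 67 [(rh53b3c253cb0c65f4.shift 0 2), (rh7b1f1fb55310c477.shift 2 0)] (by decide +kernel))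
noncomputable def rh1210e962428a2e05 : CRef := CRef.mk (Pat.mk 0x60000001a00000002 0x60000003e00000003 2 6) 0 0 (step_sound _ 34 [rheb0810cc63b001d8, (rhf48373e13d2bc128.shift 1 1)] (by decide +kernel))
end Crest.Agent.S0047.Helper85.Cert
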