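import Crest.Agent.Lib.S0047.Helper85CertPL2F0
import Crest.Agent.Lib.S0047.Helper85CertPL2F1
set_option autoImplicit false
set_option linter.all false
set_option Elab.async false
namespace Crest.Agent.S0047.Helper85.Cert
open Crest.Agent.S0047.Helper85

noncomputable def rh8c3839f9b9075f23 : CRef := CRef.mk (Pat.mk 0x30000000100000001000000010000000000000000 0x30000000300000001000000030000000300000002 3 2) 0 0 (step_sound _ 32 [(rhbaefcd01e0a8bca3.shift 0 1), rhd29a1fb688eae70f] (by decide +kernel))
noncomputable def rh00b511fddce6f168 : CRef := CRef.mk (Pat.mk 0x20000003c00000000 0x30000003e00000007 3 6) 0 0 (step_sound _ 33 [(rh3244c3cc8379b070.shift 0 1), rheae1728ff4a56756] (by decide +kernel))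
noncomputable def rha8bc3cae4d77a08f : CRef := CRef.mk (Pat.mk 0x60000000200000002000000020000000000000000 0x60000000600000002000000030000000300000001 3 3) 0 0 (step_sound _ 33 [rh7928877f9bf74a91, (rhbaefcd01e0a8bca3.shift 1 1)] (by decide +kernel))
noncomputable def rh76a03e5c89c078ed : CRef := CRef.mk (Pat.mk 0x400000002000000020000000200000002 0x50000000700000003000000020000000200000002 3 3) 0 0 (step_sound _ 129 [(rh2f68792b6b779e96.shift 1 1), rh3ca48e2a6d60153d] (by decide +kernel))
noncomputable def rhffd0ff6f60fa3c9a : CRef := CRef.mk (Pat.mk 0x600000002000000020000000200000000 0x10000000700000007000000020000000200000002 3 3) 0 0 (step_sound _ 1 [rh3ca48e2a6d60153d, (rhbaefcd01e0a8bca3.shift 1 0)] (by decide +kernel))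
noncomputable def rhe4441baab75a6f73 : CRef := CRef.mk (Pat.mk 0x30000000200000002000000020000000000000000 0x30000000300000002000000030000000300000001 3 2) 0 0 (step_sound _ 33 [rh7928877f9bf74a91, (rhffd04209dc8ea796.shift 0 1)] (by decide +kernel))
noncomputable def rha613ffd40b6c9d24 : CRef := CRef.mk (Pat.mk 0x30000000200000002000000020000000000000000 0x30000000300000002000000060000000600000004 3 3) 0 0 (step_sound _ 33 [(rhd29a1fb688eae70f.shift 1 0), (rhffd04209dc8ea796.shift 0 1)] (by decide +kernel))
noncomputable def rhbdb8dfd08861fbf7 : CRef := CRef.mk (Pat.mk 0x1e0000000600000000 0x200000002000000030000001e0000000600000004 3 5) 0 0 (step_sound _ 97 [(rh3244c3cc8379b070.shift 0 2), (rh3e595262c1b737ad.shift 1 0)] (by decide +kernel))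
noncomputable def rhc0ddb33d3a52722b : CRef := CRef.mk (Pat.mk 0xc0000000c0000000800000008 0x100000003c0000000f0000000800000008 3 6) 0 0 (step_sound _ 100 [(rh2f68792b6b779e96.shift 3 0), (rh4dc133ee0ba1420a.shift 0 2)] (by decide +kernel))
noncomputable def rh5bd4bc0c2c48140c : CRef := CRef.mk (Pat.mk 0x2000000020000000200000006 0x10000000300000003000000020000000600000006 3 3) 0 0 (step_sound _ 129 [rh3ca48e2a6d60153d, (rhd3458b32566d63f7.shift 1 0)] (by decide +kernel))
noncomputable def rh79aa4491e544c688 : CRef := CRef.mk (Pat.mk 0x400000004000000140000000c00000000 0x400000004000000040000001c0000000f00000002 3 5) 0 0 (step_sound _ 67 [(rh2145e1d24b96a57e.shift 2 1), rhf5094ad2a427d4d3] (by decide +kernel))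
noncomputable def rh2a41a9a10546c25c : CRef := CRef.mk (Pat.mk 0x1a0000001800000030 0x1e0000003f00000030 3 6) 0 0 (step_sound _ 33 [(rhab22b5b56e7b3243.shift 1 0), (rhbf14f049e425ac01.shift 0 1)] (by decide +kernel))
noncomputable def rhdeca8db941583de2 : CRef := CRef.mk (Pat.mk 0xc00000018 0xf0000007c 3 7) 0 0 (step_sound _ 5 [rhdbcea10a0fbe5ba6, (rhf48373e13d2bc128.shift 2 0)] (by decide +kernel))
noncomputable def rh60e456fe7528adcc : CRef := CRef.mk (Pat.mk 0x180000003800000020 0x180000003f00000070 3 7) 0 0 (step_sound _ 34 [rh8d917b916e5f3510, (rhe25b0a99195a5d59.shift 2 0)] (by decide +kernel))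
noncomputable def rh426f403fa814630c : CRef := CRef.mk (Pat.mk 0x100000001000000010000000100000000 0x2000000030000000300000001000000030000000300000002 3 2) 0 0 (step_sound _ 160 [(rh44f453b84f013105.shift 0 1), rhd29a1fb688eae70f] (by decide +kernel))
noncomputable def rhf3baec4a0a3dd35e : CRef := CRef.mk (Pat.mk 0xf00000001 0x1f0000003b 3 6) 0 0 (step_sound _ 36 [rh4ad5fc38f1b69f65, rh80fcd6d0a18cb2dd] (by decide +kernel))
noncomputable def rh0b786d94a31538a6 : CRef := CRef.mk (Pat.mk 0x180000000a 0x780000001f 3 7) 0 0 (step_sound _ 2 [rh53b3c253cb0c65f4, (rh572132728df34c43.shift 1 0)] (by decide +kernel))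
noncomputable def rhedf3a755fe019897 : CRef := CRef.mk (Pat.mk 0x180000000a 0x7c0000000f 3 7) 0 0 (step_sound _ 2 [rh53b3c253cb0c65f4, (rh80f90a60d87caa0d.shift 1 0)] (by decide +kernel))
noncomputable def rh4f8edb321cf5b49d : CRef := CRef.mk (Pat.mk 0x3c00000010 0x70000003e00000030 3 6) 0 0 (step_sound _ 33 [(rhd5eb272e07a4e288.shift 0 1), (rhe25b0a99195a5d59.shift 1 0)] (by decide +kernel))
noncomputable def rhd22616887d452319 : CRef := CRef.mk (Pat.mk 0x300000002000000020000000200000000 0x40000000700000007000000020000000200000002 3 3) 0 0 (step_sound _ 1 [(rh44f453b84f013105.shift 1 0), rhffd04209dc8ea796] (by decide +kernel))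
noncomputable def rh73f605273a09a9d0 : CRef := CRef.mk (Pat.mk 0x1000000010000000100000003 0x20000000300000003000000010000000300000003 3 2) 0 0 (step_sound _ 128 [rh44f453b84f013105, rhd3458b32566d63f7] (by decide +kernel))
noncomputable def rh73329e8902d29e57 : CRef := CRef.mk (Pat.mk 0x20000000200000002000000020000000400000000 0x20000000200000002000000030000000700000005 3 3) 0 0 (step_sound _ 33 [(rh55afc6a59410cf00.shift 1 0), rh7928877f9bf74a91] (by decide +kernel))
noncomputable def rhf5cd3c300f0364c1 : CRef := CRef.mk (Pat.mk 0x60000000c0000000400000004 0x80000000f0000003c0000000400000004 3 6) 0 0 (step_sound _ 99 [(rh2f68792b6b779e96.shift 2 0), (rh6292bd8784ece55f.shift 0 2)] (by decide +kernel))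
noncomputable def rhb33c6c3f599de8c2 : CRef := CRef.mk (Pat.mk 0x7000000060000000000000004 0x180000003f000000070000000400000004 3 6) 0 0 (step_sound _ 99 [(rh2612b4f73ba7c3b3.shift 0 2), rh63bb75a038171f49] (by decide +kernel))
noncomputable def rh176bf8ff26c334a2 : CRef := CRef.mk (Pat.mk 0x80000001e000000180000002000000000 0x80000001e0000001f0000003000000010 3 6) 0 0 (step_sound _ 36 [(rh7b1f1fb55310c477.shift 3 0), (rhe41609ae3e02089b.shift 0 1)] (by decide +kernel))
noncomputable def rh0de499e0455c9c14 : CRef := CRef.mk (Pat.mk 0x3c00000020 0x3e00000037 3 6) 0 0 (step_sound _ 33 [(rh96851dee118c1ba3.shift 1 0), rheae1728ff4a56756] (by decide +kernel))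
noncomputable def rhba89ab7cb81bcc90 : CRef := CRef.mk (Pat.mk 0x3c00000018 0x70000003f00000018 3 6) 0 0 (step_sound _ 33 [rhb739f4f82bb681b4, (rhd5eb272e07a4e288.shift 0 1)] (by decide +kernel))
noncomputable def rhf270fa1f24348253 : CRef := CRef.mk (Pat.mk 0x100000000f00000000 0x300000001f00000038 3 6) 0 0 (step_sound _ 36 [(rh33e738c4ed385b9f.shift 1 1), rh4ad5fc38f1b69f65] (by decide +kernel))
noncomputable def rhd82640f02a0caa69 : CRef := CRef.mk (Pat.mk 0xf00000010 0x380000001f00000030 3 6) 0 0 (step_sound _ 36 [(rh9890f9d77740bbed.shift 0 1), (rhe25b0a99195a5d59.shift 1 0)] (by decide +kernel))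
noncomputable def rh00d6a6e3c7e3bb40 : CRef := CRef.mk (Pat.mk 0x200000003000000000000000100000000 0x2000000020000000300000003000000010000000100000001 3 2) 0 0 (step_sound _ 64 [rh71222050f2c63a3a, (rhbfb5770941270498.shift 0 1)] (by decide +kernel))
noncomputable def rh7eaa670c72ebaf48 : CRef := CRef.mk (Pat.mk 0x140000000c00000018 0x3c0000001f00000018 3 6) 0 0 (step_sound _ 33 [(rh6870ff15d3813450.shift 1 1), rhb739f4f82bb681b4] (by decide +kernel))
noncomputable def rh126557da767e56cc : CRef := CRef.mk (Pat.mk 0xc00000028 0x1f00000078 3 7) 0 0 (step_sound _ 4 [rhc02b3aee7ab87ee1, (rhf48373e13d2bc128.shift 2 0)] (by decide +kernel))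
noncomputable def rhbd097c4034f102b6 : CRef := CRef.mk (Pat.mk 0x20000000200000002000000020000000100000000 0x20000000200000002000000060000000700000005 3 3) 0 0 (step_sound _ 33 [rh932754581e0f4330, (rhd29a1fb688eae70f.shift 1 0)] (by decide +kernel))
noncomputable def rhc21a95c499b3efdb : CRef := CRef.mk (Pat.mk 0xe00000008 0xf0000007c 3 7) 0 0 (step_sound _ 4 [(rh89ade209b3e28f13.shift 1 0), rhb739f4f82bb681b4] (by decide +kernel))
noncomputable def rh2820ca9a6c4f41b4 : CRef := CRef.mk (Pat.mk 0x3800000008 0x7c0000000f 3 7) 0 0 (step_sound _ 2 [(rh18965a982d73c794.shift 2 0), rh1ed7a3503fa50fc8] (by decide +kernel))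
noncomputable def rh21d582c147e7e118 : CRef := CRef.mk (Pat.mk 0x200000003c00000000 0x300000003e00000007 3 6) 0 0 (step_sound _ 33 [(rh428265de8cd3cd2d.shift 1 1), rheae1728ff4a56756] (by decide +kernel))
noncomputable def rh0e310d024965cb08 : CRef := CRef.mk (Pat.mk 0x1e00000010000000100000000000000000 0x80000001f00000018000000100000001000000010 3 5) 0 0 (step_sound _ 36 [rh464bab2e226d0259, (rh50fbb5868c909700.shift 3 1)] (by decide +kernel))
noncomputable def rhe0ca45ceb65066f5 : CRef := CRef.mk (Pat.mk 0x400000004000000050000000600000000 0x40000000400000004000000070000001e00000008 3 5) 0 0 (step_sound _ 65 [rh42afa1af9fffa0e1, (rh5c5e593799055d58.shift 1 1)] (by decide +kernel))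
noncomputable def rh33d58c89cb76451a : CRef := CRef.mk (Pat.mk 0x100000001e000000000000001000000000 0x180000001f000000300000001000000010 3 6) 0 0 (step_sound _ 68 [rh3245c175135a884b, (rhe25b0a99195a5d59.shift 1 2)] (by decide +kernel))
noncomputable def rh790acd67f4fffd04 : CRef := CRef.mk (Pat.mk 0x10000000f 0x3b0000001f 3 6) 0 0 (step_sound _ 4 [rh3f8766e6ecb455ce, rh9890f9d77740bbed] (by decide +kernel))
noncomputable def rh580df77fe152422b : CRef := CRef.mk (Pat.mk 0x200000003000000000000000100000000 0x2000000020000000200000003000000030000000100000001 3 2) 0 0 (step_sound _ 64 [(rh69755ef358ebfd54.shift 0 1), rh71222050f2c63a3a] (by decide +kernel))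
noncomputable def rh2aac33c566332a8c : CRef := CRef.mk (Pat.mk 0x10000000f00000000 0x30000001f00000038 3 6) 0 0 (step_sound _ 36 [(rh3f8766e6ecb455ce.shift 0 1), rh4ad5fc38f1b69f65] (by decide +kernel))
noncomputable def rh7fb660bc21ce4329 : CRef := CRef.mk (Pat.mk 0x200000003c 0x370000003e 3 6) 0 0 (step_sound _ 1 [(rh428265de8cd3cd2d.shift 1 0), rhd5eb272e07a4e288] (by decide +kernel))
noncomputable def rhb383fa265348aff0 : CRef := CRef.mk (Pat.mk 0x200000001e 0x670000003e 3 7) 0 0 (step_sound _ 5 [(rh33e738c4ed385b9f.shift 2 0), rhd5eb272e07a4e288] (by decide +kernel))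
noncomputable def rh551a9ca0f9b08dd5 : CRef := CRef.mk (Pat.mk 0x400000003800000018 0x600000003f00000038 3 7) 0 0 (step_sound _ 34 [(rh428265de8cd3cd2d.shift 2 1), rhad5d8fc3675c15dd] (by decide +kernel))
noncomputable def rh768a472a1ebe455c : CRef := CRef.mk (Pat.mk 0x1e0000000400000004 0x200000002000000030000001e0000000600000004 3 5) 0 0 (step_sound _ 97 [(rh3244c3cc8379b070.shift 0 2), (rhe072fffdd2fccf38.shift 1 0)] (by decide +kernel))
noncomputable def rh820d4e04d5dcd02e : CRef := CRef.mk (Pat.mk 0x20000000300000003000000020000000000000000 0x20000000300000003000000060000000600000006 3 3) 0 0 (step_sound _ 33 [rh7b1f1fb55310c477, (rhd29a1fb688eae70f.shift 1 0)] (by decide +kernel))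
noncomputable def rhd1d05263fabc0227 : CRef := CRef.mk (Pat.mk 0x3c00000020 0x70000003e00000030 3 6) 0 0 (step_sound _ 33 [(rh96851dee118c1ba3.shift 1 0), (rhd5eb272e07a4e288.shift 0 1)] (by decide +kernel))
noncomputable def rh031a926e4a883687 : CRef := CRef.mk (Pat.mk 0x60000001e0000000000000000 0x400000004000000060000001e0000000300000002 3 5) 0 0 (step_sound _ 33 [(rh84d1c02a8954c6a8.shift 1 0), (rheb0810cc63b001d8.shift 0 1)] (by decide +kernel))
noncomputable def rhd8cb74bcdd15c853 : CRef := CRef.mk (Pat.mk 0x100000001e000000100000001000000000 0x10000000100000001f000000180000001800000008 3 5) 0 0 (step_sound _ 67 [(rh03dfdf12d5937476.shift 3 0), (rhb739f4f82bb681b4.shift 0 2)] (by decide +kernel))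
noncomputable def rh046c5eb18e55a239 : CRef := CRef.mk (Pat.mk 0x10000000100000003000000000000000000000000 0x1000000010000000300000003000000020000000200000002 3 2) 0 0 (step_sound _ 65 [rh08edf065357d68e5, (rh2145e1d24b96a57e.shift 0 2)] (by decide +kernel))
noncomputable def rh79905f95cb2d899a : CRef := CRef.mk (Pat.mk 0x8000000380000000800000008 0x40000001f000000380000000800000008 3 6) 0 0 (step_sound _ 98 [(rh50fbb5868c909700.shift 2 0), (rhc02b3aee7ab87ee1.shift 0 2)] (by decide +kernel))
noncomputable def rh60a781551e50bc18 : CRef := CRef.mk (Pat.mk 0x1a0000000a 0x3b0000001f 3 6) 0 0 (step_sound _ 2 [rh53b3c253cb0c65f4, rh5ec015d369888aae] (by decide +kernel))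
noncomputable def rh6ca9ab4dec5e9e3c : CRef := CRef.mk (Pat.mk 0x20000000b0000000c0000000c 0x180000001e0000000b0000000c0000000c 3 5) 0 0 (step_sound _ 99 [rh1df1df71a80a171b, (rh5c5e593799055d58.shift 2 0)] (by decide +kernel))
noncomputable def rha11dfd15f08f96e3 : CRef := CRef.mk (Pat.mk 0x80000000e 0x780000001f 3 7) 0 0 (step_sound _ 36 [rh53b3c253cb0c65f4, (rh572132728df34c43.shift 1 0)] (by decide +kernel))
noncomputable def rhe26c6061a271458d : CRef := CRef.mk (Pat.mk 0x20000000a0000000e000000080000000800000000 0x30000003e0000000e000000080000000800000008 3 6) 0 0 (step_sound _ 130 [(rh7b1f1fb55310c477.shift 2 0), (rhb762f327c85d41a0.shift 0 3)] (by decide +kernel))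
noncomputable def rh03cc326bf07d2d6d : CRef := CRef.mk (Pat.mk 0x500000005000000050000000400000000 0x50000000500000005000000070000000600000002 3 3) 0 0 (step_sound _ 33 [(rh932754581e0f4330.shift 1 0), (rhc50a9cb3b374a536.shift 0 1)] (by decide +kernel))
noncomputable def rha9fbfd4bb8cf890b : CRef := CRef.mk (Pat.mk 0x800000038 0xf0000007c 3 7) 0 0 (step_sound _ 34 [rhdbcea10a0fbe5ba6, (rhf48373e13d2bc128.shift 2 0)] (by decide +kernel))
noncomputable def rh8c25cb665ab79ec0 : CRef := CRef.mk (Pat.mk 0xc00000028 0xf0000007c 3 7) 0 0 (step_sound _ 4 [rhdbcea10a0fbe5ba6, (rhf48373e13d2bc128.shift 2 0)] (by decide +kernel))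
noncomputable def rh29dd5384d80ecb1e : CRef := CRef.mk (Pat.mk 0x200000002000000020000000200000000 0x1000000030000000300000002000000060000000600000004 3 3) 0 0 (step_sound _ 161 [(rh3ca48e2a6d60153d.shift 0 1), (rhd29a1fb688eae70f.shift 1 0)] (by decide +kernel))
noncomputable def rhdc2f40eca053486f : CRef := CRef.mk (Pat.mk 0x400000008000000380000000800000000 0x40000001f000000380000000800000008 3 6) 0 0 (step_sound _ 98 [(rh7b1f1fb55310c477.shift 2 0), (rhc02b3aee7ab87ee1.shift 0 2)] (by decide +kernel))
noncomputable def rhd69c262cd33b94b3 : CRef := CRef.mk (Pat.mk 0x180000000c 0x7c0000000f 3 7) 0 0 (step_sound _ 1 [rh53b3c253cb0c65f4, (rh80f90a60d87caa0d.shift 1 0)] (by decide +kernel))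
noncomputable def rh47dece01c1595e79 : CRef := CRef.mk (Pat.mk 0x10000000100000001000000020000000000000000 0x1000000010000000300000003000000020000000200000002 3 2) 0 0 (step_sound _ 97 [rh08edf065357d68e5, (rh2145e1d24b96a57e.shift 0 2)] (by decide +kernel))
noncomputable def rh257d7200ab2a6828 : CRef := CRef.mk (Pat.mk 0x30000000200000002000000020000000000000000 0x30000000300000002000000060000000600000004 3 3) 0 0 (step_sound _ 34 [(rhd3458b32566d63f7.shift 1 1), rhdd25e32394858bbd] (by decide +kernel))
noncomputable def rh226655e3fe6b4a8a : CRef := CRef.mk (Pat.mk 0xf00000006 0x380000003f00000006 3 6) 0 0 (step_sound _ 36 [(rh18965a982d73c794.shift 1 0), (rh9890f9d77740bbed.shift 0 1)] (by decide +kernel))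
noncomputable def rh6b315ff015ab736a : CRef := CRef.mk (Pat.mk 0xb0000000c0000000c 0x18000000180000000f0000000c0000000c 3 5) 0 0 (step_sound _ 99 [(rh5c5e593799055d58.shift 2 0), rhddcd04bb31546311] (by decide +kernel))
noncomputable def rha3729a4a67ef3381 : CRef := CRef.mk (Pat.mk 0x10000000200000002000000020000000200000000 0x1000000030000000200000002000000030000000300000001 3 2) 0 0 (step_sound _ 161 [(rh50fbb5868c909700.shift 0 2), rh7928877f9bf74a91] (by decide +kernel))
noncomputable def rhae372274d1226efc : CRef := CRef.mk (Pat.mk 0x100000002000000020000000200000002 0x50000000700000006000000020000000200000002 3 3) 0 0 (step_sound _ 129 [(rh44f453b84f013105.shift 1 0), (rh50fbb5868c909700.shift 0 1)] (by decide +kernel))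
noncomputable def rhad7f3a7ca7906542 : CRef := CRef.mk (Pat.mk 0x20000000200000002000000020000000200000002 0x2000000020000000300000003000000030000000300000002 3 2) 0 0 (step_sound _ 96 [(rh03dfdf12d5937476.shift 0 1), rh50fbb5868c909700] (by decide +kernel))
noncomputable def rhe902c9e8f416b192 : CRef := CRef.mk (Pat.mk 0x3c00000002 0x70000003e00000003 3 6) 0 0 (step_sound _ 33 [(rhd5eb272e07a4e288.shift 0 1), rheb0810cc63b001d8] (by decide +kernel))
noncomputable def rha3711ed12866f068 : CRef := CRef.mk (Pat.mk 0x20000000200000002000000000000000600000000 0x20000000200000002000000030000000700000005 3 3) 0 0 (step_sound _ 65 [(rh55afc6a59410cf00.shift 1 0), rh7928877f9bf74a91] (by decide +kernel))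
noncomputable def rh46a9fe95438167a8 : CRef := CRef.mk (Pat.mk 0x30000000200000002000000000000000200000000 0x30000000300000002000000030000000300000001 3 2) 0 0 (step_sound _ 65 [rh7928877f9bf74a91, (rhffd04209dc8ea796.shift 0 1)] (by decide +kernel))
noncomputable def rh5e4e7266ca016e80 : CRef := CRef.mk (Pat.mk 0x1600000014 0x3e00000037 3 6) 0 0 (step_sound _ 35 [rhaf9f2efc81a8312b, (rhe25b0a99195a5d59.shift 1 0)] (by decide +kernel))
noncomputable def rh4ab9c4dc4d42970a : CRef := CRef.mk (Pat.mk 0xf000000080000000800000000 0x380000001f000000080000000800000008 3 6) 0 0 (step_sound _ 132 [(rh428265de8cd3cd2d.shift 0 3), (rhe3bc8ed3804367dd.shift 1 0)] (by decide +kernel))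
noncomputable def rh215e11e099257d75 : CRef := CRef.mk (Pat.mk 0x3000000010000000100000000 0x2000000020000000300000003000000010000000100000001 3 2) 0 0 (step_sound _ 129 [rh71222050f2c63a3a, (rhbfb5770941270498.shift 0 1)] (by decide +kernel))
noncomputable def rh64561099ab483bc5 : CRef := CRef.mk (Pat.mk 0x100000000f000000000000000800000000 0x300000001f000000180000000800000008 3 6) 0 0 (step_sound _ 100 [(rh33e738c4ed385b9f.shift 1 3), rhefd5860131e7d276] (by decide +kernel))
noncomputable def rh33a7b9fd74f4f44a : CRef := CRef.mk (Pat.mk 0x3c00000002 0x3e00000073 3 7) 0 0 (step_sound _ 33 [(rh4ad5fc38f1b69f65.shift 1 0), rheb0810cc63b001d8] (by decide +kernel))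
noncomputable def rhe58a7845769190f3 : CRef := CRef.mk (Pat.mk 0x6000000060000001a0000000000000000 0x6000000060000001e0000000300000003 3 5) 0 0 (step_sound _ 33 [rh5710f30ba40ee3ec, (rh71222050f2c63a3a.shift 1 0)] (by decide +kernel))
noncomputable def rh55c4ed4acec0f063 : CRef := CRef.mk (Pat.mk 0x100000003c00000000 0x300000003e00000007 3 6) 0 0 (step_sound _ 33 [(rh33e738c4ed385b9f.shift 1 1), rheae1728ff4a56756] (by decide +kernel))
noncomputable def rh9f113608394b30d0 : CRef := CRef.mk (Pat.mk 0x10000000100000001000000010000000200000000 0x2000000030000000300000001000000010000000300000002 3 2) 0 0 (step_sound _ 32 [(rh44f453b84f013105.shift 0 1), rh55afc6a59410cf00] (by decide +kernel))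
noncomputable def rhedf6b6c69a16cbd5 : CRef := CRef.mk (Pat.mk 0x100000003c 0x370000003e 3 6) 0 0 (step_sound _ 1 [(rh33e738c4ed385b9f.shift 1 0), rhd5eb272e07a4e288] (by decide +kernel))
noncomputable def rh769be3fe24eee174 : CRef := CRef.mk (Pat.mk 0x2000000020000000300000002 0x40000000600000006000000020000000300000003 3 3) 0 0 (step_sound _ 129 [(rh44f453b84f013105.shift 1 0), rh932754581e0f4330] (by decide +kernel))
noncomputable def rhab6c47cc6555dc65 : CRef := CRef.mk (Pat.mk 0x10000000200000002000000020000000200000000 0x1000000030000000200000002000000060000000600000004 3 3) 0 0 (step_sound _ 161 [(rh50fbb5868c909700.shift 0 2), (rhd29a1fb688eae70f.shift 1 0)] (by decide +kernel))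
noncomputable def rh4ca5dae25f5c14ff : CRef := CRef.mk (Pat.mk 0xc00000018 0x1f00000078 3 7) 0 0 (step_sound _ 5 [rhc02b3aee7ab87ee1, (rhf48373e13d2bc128.shift 2 0)] (by decide +kernel))
noncomputable def rh8ee80cc30e93a344 : CRef := CRef.mk (Pat.mk 0xe00000008 0x1f00000078 3 7) 0 0 (step_sound _ 4 [(rh4a0b10776449c3e9.shift 1 0), rhb739f4f82bb681b4] (by decide +kernel))
noncomputable def rhbd2e91c3fdbfa961 : CRef := CRef.mk (Pat.mk 0x300000000c 0x7c0000000f 3 7) 0 0 (step_sound _ 35 [(rh18965a982d73c794.shift 2 0), rh1ed7a3503fa50fc8] (by decide +kernel))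
noncomputable def rha40d42a2e34c408d : CRef := CRef.mk (Pat.mk 0x100000003000000020000000000000000 0x1000000010000000300000003000000020000000200000002 3 2) 0 0 (step_sound _ 33 [rh7b1f1fb55310c477, (rhc89253ff58c66167.shift 0 1)] (by decide +kernel))
noncomputable def rh5ba2d67652840f34 : CRef := CRef.mk (Pat.mk 0xf0000000c00000000 0x800000008000000180000000f0000000c00000004 3 5) 0 0 (step_sound _ 99 [(rh33e738c4ed385b9f.shift 0 2), (rh503dd4575245365b.shift 2 0)] (by decide +kernel))
noncomputable def rh5fa50b509d4ce753 : CRef := CRef.mk (Pat.mk 0x2000000030000000300000002 0x60000000600000006000000030000000300000002 3 3) 0 0 (step_sound _ 129 [(rh44f453b84f013105.shift 1 0), (rh5c5e593799055d58.shift 0 1)] (by decide +kernel))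
noncomputable def rhc4c6de062e376aad : CRef := CRef.mk (Pat.mk 0x20000000300000002000000020000000200000000 0x200000002000000020000000300000003000000030000000200000002 3 2) 0 0 (step_sound _ 96 [(rh503dd4575245365b.shift 0 2), rh7b1f1fb55310c477] (by decide +kernel))
noncomputable def rh9a369cb82ea472da : CRef := CRef.mk (Pat.mk 0x2000000020000000200000003 0x40000000600000006000000020000000300000003 3 3) 0 0 (step_sound _ 129 [(rh44f453b84f013105.shift 1 0), rh79877ebd3ef475dd] (by decide +kernel))
noncomputable def rhba47bac67ba000c3 : CRef := CRef.mk (Pat.mk 0x10000000300000005000000040000000400000000 0x100000001000000010000000300000007000000060000000400000004 3 3) 0 0 (step_sound _ 97 [(rh3e595262c1b737ad.shift 0 2), (rh7b1f1fb55310c477.shift 1 0)] (by decide +kernel))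
noncomputable def rh4dbe158d8949f701 : CRef := CRef.mk (Pat.mk 0x400000004000000050000000600000000 0x40000000400000004000000070000001e00000008 3 5) 0 0 (step_sound _ 35 [(rh55afc6a59410cf00.shift 2 0), (rheb0faeae83dce3df.shift 0 1)] (by decide +kernel))
noncomputable def rh5c5a2014709044d0 : CRef := CRef.mk (Pat.mk 0xc00000018 0x1f00000078 3 7) 0 0 (step_sound _ 33 [(rh4a0b10776449c3e9.shift 1 0), rhb739f4f82bb681b4] (by decide +kernel))
noncomputable def rhcc2be1f880c5ea3e : CRef := CRef.mk (Pat.mk 0x180000003c00000000 0x180000003f00000007 3 6) 0 0 (step_sound _ 33 [(rh53b3c253cb0c65f4.shift 0 1), rheae1728ff4a56756] (by decide +kernel))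
noncomputable def rh393c739438a2b520 : CRef := CRef.mk (Pat.mk 0x60000001a0000000200000000 0x400000004000000060000001e0000000300000002 3 5) 0 0 (step_sound _ 66 [(rh84d1c02a8954c6a8.shift 1 0), (rheb0810cc63b001d8.shift 0 1)] (by decide +kernel))
noncomputable def rhd630af2e39ca770f : CRef := CRef.mk (Pat.mk 0x2000000020000001a0000000200000000 0x2000000020000001a0000000f00000005 3 5) 0 0 (step_sound _ 34 [(rh55afc6a59410cf00.shift 1 0), rh61975bc3e9724afc] (by decide +kernel))
noncomputable def rh70e33bfdf511e144 : CRef := CRef.mk (Pat.mk 0x10000000100000003000000000000000000000000 0x1000000010000000100000003000000030000000200000002 3 2) 0 0 (step_sound _ 65 [(rh2145e1d24b96a57e.shift 0 2), rh79ad7b82ec8c35e2] (by decide +kernel))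
noncomputable def rh946c4afeba2488e2 : CRef := CRef.mk (Pat.mk 0x400000000000000020000001e00000000 0x400000006000000060000001e00000003 3 5) 0 0 (step_sound _ 1 [(rh9a8c4a319e3e8680.shift 1 0), rheb0810cc63b001d8] (by decide +kernel))
noncomputable def rh46137ff9626501bb : CRef := CRef.mk (Pat.mk 0x20000000200000002000000020000000400000000 0x1000000030000000300000002000000020000000600000004 3 3) 0 0 (step_sound _ 33 [(rh3ca48e2a6d60153d.shift 0 1), (rh55afc6a59410cf00.shift 1 0)] (by decide +kernel))
noncomputable def rh36e6bb6cca6188da : CRef := CRef.mk (Pat.mk 0x2000000020000001a0000000200000000 0x2000000020000001a0000000f00000005 3 5) 0 0 (step_sound _ 32 [rh932754581e0f4330, rhef77c6b312a36259] (by decide +kernel))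
noncomputable def rha893ef807ce322b1 : CRef := CRef.mk (Pat.mk 0x2000000020000001a0000001200000000 0x2000000020000001b0000001f00000004 3 5) 0 0 (step_sound _ 34 [(rh55afc6a59410cf00.shift 1 0), (rh7e2297059c77b3a4.shift 0 1)] (by decide +kernel))
noncomputable def rhe62cab2ff5ad6fe2 : CRef := CRef.mk (Pat.mk 0x2000000020000000200000003 0x10000000300000003000000020000000300000003 3 2) 0 0 (step_sound _ 129 [rh3ca48e2a6d60153d, rh79877ebd3ef475dd] (by decide +kernel))
noncomputable def rh9f93e2b24091a43d : CRef := CRef.mk (Pat.mk 0x20000000e00000004 0x30000003e00000007 3 6) 0 0 (step_sound _ 36 [(rh3244c3cc8379b070.shift 0 1), rhaf9f2efc81a8312b] (by decide +kernel))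
noncomputable def rh9cf60041f0c0abcb : CRef := CRef.mk (Pat.mk 0x10000000f 0x3b0000001f 3 6) 0 0 (step_sound _ 36 [rh428265de8cd3cd2d, rhfb55dd75ab83ac48] (by decide +kernel))
noncomputable def rhab087011127a035a : CRef := CRef.mk (Pat.mk 0x20000003a00000000 0x30000003e00000007 3 6) 0 0 (step_sound _ 34 [(rh3244c3cc8379b070.shift 0 1), rheae1728ff4a56756] (by decide +kernel))
noncomputable def rh88bb1f3bd94c46c0 : CRef := CRef.mk (Pat.mk 0x1c000000010000000100000001 0x30000001f000000030000000100000001 3 5) 0 0 (step_sound _ 97 [rh0f44c1a6727bd1c4, (rh80fcd6d0a18cb2dd.shift 0 2)] (by decide +kernel))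
noncomputable def rh7b9fbdf6d2d059e4 : CRef := CRef.mk (Pat.mk 0x2000000060000000600000002 0x30000000300000003000000060000000600000002 3 3) 0 0 (step_sound _ 129 [(rh2145e1d24b96a57e.shift 1 1), rh3ca48e2a6d60153d] (by decide +kernel))
noncomputable def rh322e79f034282812 : CRef := CRef.mk (Pat.mk 0x800000008000000380000000800000000 0x8000000080000003c0000000f00000004 3 6) 0 0 (step_sound _ 34 [(rh1ed7a3503fa50fc8.shift 0 1), (rh932754581e0f4330.shift 2 0)] (by decide +kernel))
noncomputable def rh7478433a598f2371 : CRef := CRef.mk (Pat.mk 0x4000000060000000e0000000000000000 0x4000000060000003e0000000300000002 3 6) 0 0 (step_sound _ 33 [(rh71222050f2c63a3a.shift 1 0), (rha9e1a5d55b907abf.shift 0 1)] (by decide +kernel))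
noncomputable def rhcf80391c5046a495 : CRef := CRef.mk (Pat.mk 0x200000003000000010000000000000000 0x2000000020000000200000003000000030000000100000001 3 2) 0 0 (step_sound _ 32 [(rh69755ef358ebfd54.shift 0 1), rh71222050f2c63a3a] (by decide +kernel))
noncomputable def rhe859f1c93cf12c3b : CRef := CRef.mk (Pat.mk 0x10000000e0000000400000004 0x200000002000000070000001e0000000400000004 3 5) 0 0 (step_sound _ 97 [(rhc89253ff58c66167.shift 1 0), (rhf48373e13d2bc128.shift 0 2)] (by decide +kernel))
noncomputable def rh8c2c5b3f2a5bd7dc : CRef := CRef.mk (Pat.mk 0x10000000000000002000000060000000200000000 0x30000000300000002000000060000000600000004 3 3) 0 0 (step_sound _ 129 [(rhd4b4beefcd67f51e.shift 1 0), (rhffd04209dc8ea796.shift 0 1)] (by decide +kernel))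
noncomputable def rhf47612affc8bedf7 : CRef := CRef.mk (Pat.mk 0x30000000600000000000000180000001800000000 0xb0000001e00000008000000180000001800000010 3 5) 0 0 (step_sound _ 131 [(rhda6cc5da102e1723.shift 3 0), (rhf48373e13d2bc128.shift 0 4)] (by decide +kernel))
noncomputable def rhae036cc4ef671676 : CRef := CRef.mk (Pat.mk 0x4000000040000001e0000000000000000 0x4000000070000001e0000000300000002 3 5) 0 0 (step_sound _ 97 [(rh3244c3cc8379b070.shift 0 2), rh9c40a739b57d6d20] (by decide +kernel))
noncomputable def rh057b4130fe0cd6b1 : CRef := CRef.mk (Pat.mk 0x60000001e000000000000000400000000 0x60000001e000000030000000600000006 3 5) 0 0 (step_sound _ 65 [(rh9b4df57cddcda711.shift 1 0), (rheb0810cc63b001d8.shift 0 2)] (by decide +kernel))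
noncomputable def rh9a011a4d0ec8f646 : CRef := CRef.mk (Pat.mk 0x60000001e000000000000000000000000 0x4000000060000001e000000030000000200000002 3 5) 0 0 (step_sound _ 65 [(rhea7a1800d6f053bd.shift 1 0), (rheb0810cc63b001d8.shift 0 2)] (by decide +kernel))
noncomputable def rhf60aa8aede119d3b : CRef := CRef.mk (Pat.mk 0x800000038 0x1f00000078 3 7) 0 0 (step_sound _ 34 [rhc02b3aee7ab87ee1, (rhf48373e13d2bc128.shift 2 0)] (by decide +kernel))
noncomputable def rh3da62da861143b9a : CRef := CRef.mk (Pat.mk 0x2000000020000000600000002 0x10000000300000003000000020000000600000006 3 3) 0 0 (step_sound _ 129 [rh3ca48e2a6d60153d, (rh55afc6a59410cf00.shift 1 0)] (by decide +kernel))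
noncomputable def rh3c3e23a02e82b2ed : CRef := CRef.mk (Pat.mk 0xc00000018 0xf0000007c 3 7) 0 0 (step_sound _ 33 [(rh89ade209b3e28f13.shift 1 0), rhb739f4f82bb681b4] (by decide +kernel))
noncomputable def rh816fd429a35c92eb : CRef := CRef.mk (Pat.mk 0x80000001c00000020 0x380000001f00000030 3 6) 0 0 (step_sound _ 33 [(rh96851dee118c1ba3.shift 1 0), (rhec46bd5500c722c9.shift 0 1)] (by decide +kernel))
noncomputable def rh91a545eb3be094e3 : CRef := CRef.mk (Pat.mk 0x20000000600000002000000020000000000000000 0x60000000600000002000000030000000300000001 3 3) 0 0 (step_sound _ 33 [(rh2f68792b6b779e96.shift 1 1), rh7928877f9bf74a91] (by decide +kernel))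
noncomputable def rh9ded7a8c954dee2a : CRef := CRef.mk (Pat.mk 0x40000000d0000001400000000 0x400000004000000040000000f0000001c00000008 3 5) 0 0 (step_sound _ 35 [(rh3e595262c1b737ad.shift 2 0), (rhab22b5b56e7b3243.shift 0 1)] (by decide +kernel))
noncomputable def rh8c529d65d9c8fc42 : CRef := CRef.mk (Pat.mk 0x3c00000000000000000000001e00000000 0x3c00000006000000040000001e00000003 3 6) 0 0 (step_sound _ 98 [rh316d0c7c5292e4bb, (rheb0810cc63b001d8.shift 1 3)] (by decide +kernel))
noncomputable def rh8930dc815b78a6eb : CRef := CRef.mk (Pat.mk 0x400000034000000000000001e 0x4000000040000003c000000070000001e 3 6) 0 0 (step_sound _ 33 [rh3244c3cc8379b070, (rh9f32f2f1e08a19a8.shift 1 0)] (by decide +kernel))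
noncomputable def rhe1c24ac49f32fcdb : CRef := CRef.mk (Pat.mk 0x200000001f000000000000001000000000 0x600000003f000000180000001000000010 3 7) 0 0 (step_sound _ 101 [(rh33e738c4ed385b9f.shift 2 3), rh9cfaec6636b11295] (by decide +kernel))
noncomputable def rhfa1fd02f2964f598 : CRef := CRef.mk (Pat.mk 0x40000001a000000200000000200000000 0x40000001e000000330000000200000002 3 6) 0 0 (step_sound _ 98 [rh3ea8f185d13574b4, (rh96851dee118c1ba3.shift 1 2)] (by decide +kernel))
noncomputable def rh29353add4831558c : CRef := CRef.mk (Pat.mk 0x60000000700000010 0x70000003f00000018 3 6) 0 0 (step_sound _ 35 [(rh79b3c29022acbdf3.shift 0 1), rh96851dee118c1ba3] (by decide +kernel))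
noncomputable def rh852e818bc8629e77 : CRef := CRef.mk (Pat.mk 0x800000008000000380000000800000000 0x800000008000000380000001f00000004 3 6) 0 0 (step_sound _ 34 [(rh932754581e0f4330.shift 2 0), (rheea1a90336e79c71.shift 0 1)] (by decide +kernel))
noncomputable def rhe867068ce7ea9877 : CRef := CRef.mk (Pat.mk 0x20000000200000002000000020000000100000000 0x4000000060000000600000002000000020000000300000001 3 3) 0 0 (step_sound _ 33 [(rh44f453b84f013105.shift 1 1), rh932754581e0f4330] (by decide +kernel))
noncomputable def rhf2568c0049eb2085 : CRef := CRef.mk (Pat.mk 0x10000000300000001000000010000000100000000 0x100000001000000010000000300000003000000030000000100000001 3 2) 0 0 (step_sound _ 97 [(rh3e595262c1b737ad.shift 0 2), rh71222050f2c63a3a] (by decide +kernel))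
noncomputable def rhe83f0679b86b6627 : CRef := CRef.mk (Pat.mk 0x20000000200000001000000010000000000000000 0x2000000020000000200000003000000030000000100000001 3 2) 0 0 (step_sound _ 97 [rh42548283029e2a39, (rh5c5e593799055d58.shift 0 2)] (by decide +kernel))
noncomputable def rh607ed1844ec41151 : CRef := CRef.mk (Pat.mk 0x100000000b0000000800000008 0x140000001e0000000b0000000800000008 3 5) 0 0 (step_sound _ 99 [(rh2f68792b6b779e96.shift 3 0), rh3f9dabd3a98bcc1c] (by decide +kernel))
noncomputable def rhd584a578337d0023 : CRef := CRef.mk (Pat.mk 0xf00000001 0x380000001f00000003 3 6) 0 0 (step_sound _ 36 [rh80fcd6d0a18cb2dd, (rh9890f9d77740bbed.shift 0 1)] (by decide +kernel))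
noncomputable def rhde9d00c321feac37 : CRef := CRef.mk (Pat.mk 0x3e00000004 0x7f0000003c 3 7) 0 0 (step_sound _ 3 [(rh18965a982d73c794.shift 2 0), rha03f6e28ea70fc7d] (by decide +kernel))
noncomputable def rhca6a4af813f68cee : CRef := CRef.mk (Pat.mk 0x140000000e 0x370000003e 3 6) 0 0 (step_sound _ 4 [(rh33e738c4ed385b9f.shift 1 0), rhe3060b190bc0bc78] (by decide +kernel))
noncomputable def rhff7d63dcb3cf9f74 : CRef := CRef.mk (Pat.mk 0x80000000e 0x7c0000000f 3 7) 0 0 (step_sound _ 36 [rh53b3c253cb0c65f4, (rh80f90a60d87caa0d.shift 1 0)] (by decide +kernel))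
noncomputable def rh90892cdc1810d809 : CRef := CRef.mk (Pat.mk 0x400000004000000040000000e 0x400000004000000040000003c0000000f 3 6) 0 0 (step_sound _ 35 [(rh2145e1d24b96a57e.shift 2 0), rhf9d36e158778ce35] (by decide +kernel))
noncomputable def rh4dec404a6c0e229a : CRef := CRef.mk (Pat.mk 0x200000001000000030000000100000000 0x30000000300000001000000030000000300000002 3 2) 0 0 (step_sound _ 128 [(rh2f68792b6b779e96.shift 0 1), rhd4b4beefcd67f51e] (by decide +kernel))
noncomputable def rh861ee9d7304b9753 : CRef := CRef.mk (Pat.mk 0x6000000060000000400000004 0x80000003e000000070000000400000004 3 6) 0 0 (step_sound _ 99 [(rh2612b4f73ba7c3b3.shift 0 2), (rh2f68792b6b779e96.shift 2 0)] (by decide +kernel))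
noncomputable def rha77f215723363df0 : CRef := CRef.mk (Pat.mk 0x2000000020000000300000002 0x10000000300000003000000020000000300000003 3 2) 0 0 (step_sound _ 129 [rh3ca48e2a6d60153d, rh932754581e0f4330] (by decide +kernel))
noncomputable def rhded9635978cce9d0 : CRef := CRef.mk (Pat.mk 0x200000002000000030000000200000002 0x2000000020000000300000003000000030000000300000002 3 2) 0 0 (step_sound _ 96 [(rh503dd4575245365b.shift 0 1), rh50fbb5868c909700] (by decide +kernel))
noncomputable def rh29829bad606ebc04 : CRef := CRef.mk (Pat.mk 0x8000000000000000f00000010 0x800000008000000180000001f00000030 3 6) 0 0 (step_sound _ 36 [rhd6823224e710b448, (rhe25b0a99195a5d59.shift 1 0)] (by decide +kernel))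
noncomputable def rhd132b680030c88e0 : CRef := CRef.mk (Pat.mk 0x4000000040000000f000000000000000000000000 0x40000000c0000000f000000180000000800000008 3 5) 0 0 (step_sound _ 67 [(rh08edf065357d68e5.shift 2 0), (rhe25b0a99195a5d59.shift 0 2)] (by decide +kernel))
noncomputable def rh53e41f96b2b88c97 : CRef := CRef.mk (Pat.mk 0x20000000300000003000000020000000000000000 0x20000000300000003000000030000000300000003 3 2) 0 0 (step_sound _ 32 [(rh79877ebd3ef475dd.shift 0 1), rhe437f081bfcdb831] (by decide +kernel))
noncomputable def rh02ef15e22aa7db92 : CRef := CRef.mk (Pat.mk 0x20000000000000003000000010000000000000000 0x2000000020000000200000003000000030000000100000001 3 2) 0 0 (step_sound _ 129 [rh42548283029e2a39, (rh5c5e593799055d58.shift 0 2)] (by decide +kernel))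
noncomputable def rh28afc5b167f84184 : CRef := CRef.mk (Pat.mk 0x10000000000000003000000020000000000000000 0x1000000010000000300000003000000020000000200000002 3 2) 0 0 (step_sound _ 128 [rh08edf065357d68e5, (rh2145e1d24b96a57e.shift 0 2)] (by decide +kernel))
noncomputable def rh9d1db2a55d27de19 : CRef := CRef.mk (Pat.mk 0x1e00000020 0x3e00000067 3 7) 0 0 (step_sound _ 37 [(rhe25b0a99195a5d59.shift 2 0), rheae1728ff4a56756] (by decide +kernel))
noncomputable def rh281c6819542c66e6 : CRef := CRef.mk (Pat.mk 0x20000000200000003000000000000000000000000 0x2000000020000000200000003000000030000000100000001 3 2) 0 0 (step_sound _ 64 [rh42548283029e2a39, (rh5c5e593799055d58.shift 0 2)] (by decide +kernel))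
noncomputable def rh37e540d481210cc1 : CRef := CRef.mk (Pat.mk 0x20000000600000016000000000000000000000000 0x6000000060000001e000000030000000300000002 3 5) 0 0 (step_sound _ 65 [(rh84f01cf2134210c0.shift 0 1), (rhea7a1800d6f053bd.shift 1 0)] (by decide +kernel))
noncomputable def rh15c6bd118a09e701 : CRef := CRef.mk (Pat.mk 0x3c00000018 0x700000003f00000018 3 7) 0 0 (step_sound _ 69 [(rh33e738c4ed385b9f.shift 2 1), rh4baa30ac13a5afd1] (by decide +kernel))
noncomputable def rh9258736a7488cc35 : CRef := CRef.mk (Pat.mk 0xa0000000a0000000800000008 0x140000001e0000000b0000000800000008 3 5) 0 0 (step_sound _ 98 [(rh50fbb5868c909700.shift 2 0), rhc49ca0b9223e2b96] (by decide +kernel))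
noncomputable def rh46530d756bdf8511 : CRef := CRef.mk (Pat.mk 0x20000000600000006000000020000000000000000 0x20000000600000006000000030000000300000003 3 3) 0 0 (step_sound _ 33 [(rh71222050f2c63a3a.shift 1 0), rh7928877f9bf74a91] (by decide +kernel))
noncomputable def rha4e794e69630f173 : CRef := CRef.mk (Pat.mk 0x1e00000010 0x380000001f00000018 3 6) 0 0 (step_sound _ 32 [rh96851dee118c1ba3, (rh9890f9d77740bbed.shift 0 1)] (by decide +kernel))
noncomputable def rh0bb882ba86b2372d : CRef := CRef.mk (Pat.mk 0x180000000c 0x7c0000000f 3 7) 0 0 (step_sound _ 37 [(rh18965a982d73c794.shift 2 0), rh1ed7a3503fa50fc8] (by decide +kernel))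
noncomputable def rh2e95f0771a0e88ed : CRef := CRef.mk (Pat.mk 0x200000006000000020000000100000000 0x40000000600000006000000020000000300000003 3 3) 0 0 (step_sound _ 33 [rh932754581e0f4330, (rha707fb719e87fe6e.shift 1 0)] (by decide +kernel))
noncomputable def rhcca48c881f96823d : CRef := CRef.mk (Pat.mk 0x200000002000000020000000a00000008 0x200000002000000020000000f0000001d 3 5) 0 0 (step_sound _ 34 [(rh55afc6a59410cf00.shift 1 0), rh9f67957f47428996] (by decide +kernel))
noncomputable def rhdf4d0e51ca454953 : CRef := CRef.mk (Pat.mk 0x3c00000002 0x700000003e00000003 3 7) 0 0 (step_sound _ 33 [(rh9890f9d77740bbed.shift 1 1), rheb0810cc63b001d8] (by decide +kernel))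
noncomputable def rh71efda916732b25a : CRef := CRef.mk (Pat.mk 0xe00000010 0x1f00000078 3 7) 0 0 (step_sound _ 3 [(rh4a0b10776449c3e9.shift 1 0), rhb739f4f82bb681b4] (by decide +kernel))
noncomputable def rh25ec400f5d5d81da : CRef := CRef.mk (Pat.mk 0x100000001e0000001000000000 0x800000008000000180000001f0000001000000010 3 5) 0 0 (step_sound _ 99 [(rh53b3c253cb0c65f4.shift 0 2), (rhfc7c29d8e65d775f.shift 3 0)] (by decide +kernel))
noncomputable def rh1c65e071dd020d9e : CRef := CRef.mk (Pat.mk 0x20000003c 0x730000003e 3 7) 0 0 (step_sound _ 1 [rh3244c3cc8379b070, (rh9890f9d77740bbed.shift 1 0)] (by decide +kernel))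
noncomputable def rh9ab60d74117ac343 : CRef := CRef.mk (Pat.mk 0xf00000002 0x1f0000003b 3 6) 0 0 (step_sound _ 36 [rh4ad5fc38f1b69f65, rheb0810cc63b001d8] (by decide +kernel))
noncomputable def rh7863099457501ed0 : CRef := CRef.mk (Pat.mk 0xc00000009000000080000000800000000 0x100000001c0000000f000000080000000800000008 3 5) 0 0 (step_sound _ 132 [(rh2f68792b6b779e96.shift 3 1), rh8c06fcaa7889ed14] (by decide +kernel))
noncomputable def rh01cc9eaefce5f3df : CRef := CRef.mk (Pat.mk 0x80000007c 0x38000000ff 3 8) 0 0 (step_sound _ 36 [rhab2ad169e49f9c5e, (rhf48373e13d2bc128.shift 3 0)] (by decide +kernel))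
noncomputable def rh8c2361c727ab1a01 : CRef := CRef.mk (Pat.mk 0x60000000f 0x3e0000003f 3 6) 0 0 (step_sound _ 36 [rh361cc68994bd8a63, (rheff610e725081997.shift 1 0)] (by decide +kernel))
noncomputable def rh0cb6a409506b34ea : CRef := CRef.mk (Pat.mk 0x60000000f00000000 0x60000003f00000038 3 6) 0 0 (step_sound _ 36 [rh4ad5fc38f1b69f65, (rhf48373e13d2bc128.shift 1 1)] (by decide +kernel))
noncomputable def rh1357d49ef66cf2d8 : CRef := CRef.mk (Pat.mk 0x8000000180000001c0000000000000000 0x8000000180000001f0000003000000010 3 6) 0 0 (step_sound _ 36 [(rh7b1f1fb55310c477.shift 3 0), (rhf56e6bc5d2f7fe77.shift 0 1)] (by decide +kernel))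
noncomputable def rh625dde73e665edc8 : CRef := CRef.mk (Pat.mk 0x4000000040000000f0000000000000000 0x40000001c0000000f0000001800000008 3 5) 0 0 (step_sound _ 99 [(rh33e738c4ed385b9f.shift 0 2), rh78974448101547fe] (by decide +kernel))
noncomputable def rh87d5e4118780fa3b : CRef := CRef.mk (Pat.mk 0x200000001000000010000000100000000 0x2000000020000000200000003000000030000000100000001 3 2) 0 0 (step_sound _ 97 [(rh69755ef358ebfd54.shift 0 1), rh71222050f2c63a3a] (by decide +kernel))
noncomputable def rh2d9fb7ccdcfc0559 : CRef := CRef.mk (Pat.mk 0x20000000000000001000000010000000100000000 0x2000000020000000300000003000000010000000100000001 3 2) 0 0 (step_sound _ 129 [(rh1006c02ae4212ff0.shift 0 1), rh9d1165924047d7d0] (by decide +kernel))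
noncomputable def rh9c1db2c8967fb481 : CRef := CRef.mk (Pat.mk 0x200000000000000010000000100000001 0x20000000200000003000000030000000300000001 3 2) 0 0 (step_sound _ 97 [rh1006c02ae4212ff0, rh88ff8f7539aa90a1] (by decide +kernel))
noncomputable def rha91a00b542328b7c : CRef := CRef.mk (Pat.mk 0x20000000000000001000000010000000100000000 0x20000000300000003000000030000000100000001 3 2) 0 0 (step_sound _ 129 [(rh1006c02ae4212ff0.shift 0 1), rh488955a31400a0ac] (by decide +kernel))
noncomputable def rh56252386d334285b : CRef := CRef.mk (Pat.mk 0x100000001000000010000000000000002 0x10000000100000003000000030000000300000002 3 2) 0 0 (step_sound _ 33 [rh31c4a1fa6139236a, rhbe0e43a3bc50a43f] (by decide +kernel))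
noncomputable def rhae770c7baa4b41bb : CRef := CRef.mk (Pat.mk 0x20000000100000001000000010000000100000000 0x2000000030000000100000001000000030000000300000002 3 2) 0 0 (step_sound _ 160 [(rh2f68792b6b779e96.shift 0 2), rhd29a1fb688eae70f] (by decide +kernel))
noncomputable def rhf9366b6a121593ef : CRef := CRef.mk (Pat.mk 0x200000003000000010000000000000000 0x2000000020000000300000003000000010000000100000001 3 2) 0 0 (step_sound _ 32 [rh71222050f2c63a3a, (rhbfb5770941270498.shift 0 1)] (by decide +kernel))
noncomputable def rhdc2416c54392aa5a : CRef := CRef.mk (Pat.mk 0x20000000200000000000000010000000100000000 0x20000000300000003000000030000000100000001 3 2) 0 0 (step_sound _ 97 [rha47ad4ccca5a74e7, (rheea67dfebd0f8008.shift 0 1)] (by decide +kernel))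
noncomputable def rh7333118865554678 : CRef := CRef.mk (Pat.mk 0x1000000000000000100000000e0000000800000000 0x100000001000000010000000180000000f0000000800000008 3 5) 0 0 (step_sound _ 99 [(rh53b3c253cb0c65f4.shift 0 2), (rha5c1ac488360e009.shift 3 0)] (by decide +kernel))
noncomputable def rhb8022f71dc28021b : CRef := CRef.mk (Pat.mk 0x100000000e 0x780000001f 3 7) 0 0 (step_sound _ 35 [rh53b3c253cb0c65f4, (rh572132728df34c43.shift 1 0)] (by decide +kernel))
noncomputable def rh4c8489731a7ad500 : CRef := CRef.mk (Pat.mk 0x400000004000000000000001c00000002 0x400000006000000030000001e00000003 3 5) 0 0 (step_sound _ 33 [rha3d4138a5939a4eb, rheb0810cc63b001d8] (by decide +kernel))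
noncomputable def rh7e7eaac9cbfb0eeb : CRef := CRef.mk (Pat.mk 0x200000002000000100000001a00000000 0x200000002000000330000001e00000004 3 6) 0 0 (step_sound _ 34 [(rh33e738c4ed385b9f.shift 1 1), rh993fdb6c3ac61b99] (by decide +kernel))
noncomputable def rh1f411efd0fbcce31 : CRef := CRef.mk (Pat.mk 0x20000000300000002000000020000000200000000 0x2000000020000000300000003000000030000000300000002 3 2) 0 0 (step_sound _ 96 [(rh03dfdf12d5937476.shift 0 1), rh7b1f1fb55310c477] (by decide +kernel))
noncomputable def rh9578164826709400 : CRef := CRef.mk (Pat.mk 0x100000000e 0x780000001f 3 7) 0 0 (step_sound _ 37 [(rh3fc040e777f1679e.shift 1 0), rhb26c4cb6e324606a] (by decide +kernel))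
noncomputable def rh9c9de8a82d5e4ca8 : CRef := CRef.mk (Pat.mk 0xf000000000000000400000004 0x180000000f000000180000000c00000004 3 5) 0 0 (step_sound _ 67 [rh76470ef0e61bbc2e, (rhe25b0a99195a5d59.shift 0 2)] (by decide +kernel))
noncomputable def rh4d477abd4f690b79 : CRef := CRef.mk (Pat.mk 0x16000000020000000800000008 0x300000001e0000000b0000000800000008 3 6) 0 0 (step_sound _ 99 [(rh4fc80024ed3db095.shift 1 0), (rheb0810cc63b001d8.shift 0 2)] (by decide +kernel))
noncomputable def rhbe1d2bd23b186e81 : CRef := CRef.mk (Pat.mk 0x20000000200000000000000010000000100000000 0x2000000020000000200000003000000030000000100000001 3 2) 0 0 (step_sound _ 97 [rhe383b718e2292d99, (rheea67dfebd0f8008.shift 0 1)] (by decide +kernel))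
noncomputable def rhd918c3fd221dc9f8 : CRef := CRef.mk (Pat.mk 0x200000002000000010000000100000000 0x2000000020000000300000003000000010000000100000001 3 2) 0 0 (step_sound _ 96 [rh71222050f2c63a3a, (rhbfb5770941270498.shift 0 1)] (by decide +kernel))
noncomputable def rhf976c2634b3b3d34 : CRef := CRef.mk (Pat.mk 0x20000000200000001000000010000000000000000 0x2000000020000000300000003000000010000000100000001 3 2) 0 0 (step_sound _ 97 [(rh5c5e593799055d58.shift 0 2), rhf9af042da61fc652] (by decide +kernel))
noncomputable def rh25d86a43cf0edb04 : CRef := CRef.mk (Pat.mk 0x1e000000100000000000000008 0x300000001f000000180000000800000008 3 6) 0 0 (step_sound _ 67 [(rh63bb75a038171f49.shift 1 0), (rhb739f4f82bb681b4.shift 0 2)] (by decide +kernel))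
noncomputable def rh16cbd58a1619e6a8 : CRef := CRef.mk (Pat.mk 0x20000000000000003000000010000000000000000 0x2000000020000000300000003000000010000000100000001 3 2) 0 0 (step_sound _ 129 [(rh5c5e593799055d58.shift 0 2), rhf9af042da61fc652] (by decide +kernel))
noncomputable def rh170679153ea11e3d : CRef := CRef.mk (Pat.mk 0x3000000080000000d00000004 0x80000000f000000180000000f00000004 3 5) 0 0 (step_sound _ 68 [(rh24ae073cf30720c4.shift 0 1), rha083a0278e51c6da] (by decide +kernel))
noncomputable def rh0dc21a69ebc6f134 : CRef := CRef.mk (Pat.mk 0x16000000020000001800000008 0x100000001e000000330000001800000008 3 6) 0 0 (step_sound _ 68 [(rh5c5e593799055d58.shift 3 0), (rhcaa7ba44a31c4370.shift 0 2)] (by decide +kernel))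
noncomputable def rh484ebe2f1178c5b2 : CRef := CRef.mk (Pat.mk 0xf000000000000000c000000040000000000000000 0xf0000001c0000000c000000040000000400000004 3 5) 0 0 (step_sound _ 131 [(rhe25b0a99195a5d59.shift 0 4), (rhf9af042da61fc652.shift 2 0)] (by decide +kernel))
noncomputable def rh6268334d767980dd : CRef := CRef.mk (Pat.mk 0x400000004000000040000001c 0x40000000400000004000000070000003e 3 6) 0 0 (step_sound _ 33 [rh2429dd5fedec43ba, (rhf48373e13d2bc128.shift 1 0)] (by decide +kernel))
noncomputable def rh85d01e60bae99e72 : CRef := CRef.mk (Pat.mk 0x2000000020000000e00000002 0x200000002000000030000003e00000006 3 6) 0 0 (step_sound _ 2 [(rh2145e1d24b96a57e.shift 1 0), rhb762f327c85d41a0] (by decide +kernel))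
noncomputable def rh1f3a6ba70a310ab1 : CRef := CRef.mk (Pat.mk 0x30000000200000002000000020000000000000000 0x30000000300000002000000030000000300000001 3 2) 0 0 (step_sound _ 32 [(rh79877ebd3ef475dd.shift 0 1), rh7b39ca72a85b3dac] (by decide +kernel))
noncomputable def rhef1509742e676880 : CRef := CRef.mk (Pat.mk 0x4000000040000001e00000000 0x40000000400000004000000070000001e00000008 3 5) 0 0 (step_sound _ 65 [(rh3244c3cc8379b070.shift 0 1), (rh571950d89739e871.shift 1 0)] (by decide +kernel))
noncomputable def rh09801475d705d836 : CRef := CRef.mk (Pat.mk 0x200000001000000010000000100000000 0x2000000020000000300000003000000010000000100000001 3 2) 0 0 (step_sound _ 161 [(rh1006c02ae4212ff0.shift 0 1), rh9d1165924047d7d0] (by decide +kernel))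
noncomputable def rhd62c7752c27835a7 : CRef := CRef.mk (Pat.mk 0x1a0000000a000000080000000800000000 0x1e0000003b000000080000000800000008 3 6) 0 0 (step_sound _ 100 [(rh71222050f2c63a3a.shift 3 0), (rhbf14f049e425ac01.shift 0 3)] (by decide +kernel))
noncomputable def rhafab112a4c4dda0f : CRef := CRef.mk (Pat.mk 0x5000000050000000500000004 0x20000000700000007000000050000000500000004 3 3) 0 0 (step_sound _ 129 [(rh8b14df1b185c100a.shift 0 1), (rhffd04209dc8ea796.shift 1 0)] (by decide +kernel))
noncomputable def rh414217460fb55255 : CRef := CRef.mk (Pat.mk 0x60000000a0000000a0000000a00000008 0x10000001f0000001a0000000a0000000a00000008 3 5) 0 0 (step_sound _ 128 [(rh50fbb5868c909700.shift 0 1), rh602fc714717c5492] (by decide +kernel))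
noncomputable def rhfdf6bac2613ab53a : CRef := CRef.mk (Pat.mk 0x3000000060000000000000008000000080000000800000008 0x30000001e0000001800000018000000080000000800000008 3 5) 0 0 (step_sound _ 164 [(rh2fe78cc5ca4405d8.shift 0 5), (rhf2348089b610990c.shift 3 0)] (by decide +kernel))
noncomputable def rh87b8e29bd0215c24 : CRef := CRef.mk (Pat.mk 0x600000012000000080000000800000008 0x1e0000003b000000080000000800000008 3 6) 0 0 (step_sound _ 132 [(rh1006c02ae4212ff0.shift 3 0), (rhcaa7ba44a31c4370.shift 0 3)] (by decide +kernel))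
noncomputable def rhce86f4a73dda16b9 : CRef := CRef.mk (Pat.mk 0x1000000120000000a0000000a00000008 0x1000000130000001e0000000a0000000a00000008 3 5) 0 0 (step_sound _ 129 [(rh50fbb5868c909700.shift 0 1), rh7c22db35c48b205c] (by decide +kernel))
noncomputable def rhcadd85ff2a73e8c7 : CRef := CRef.mk (Pat.mk 0x280000000c 0x780000001f 3 7) 0 0 (step_sound _ 36 [(rh18965a982d73c794.shift 2 0), rheea1a90336e79c71] (by decide +kernel))
noncomputable def rhd2987d494005f708 : CRef := CRef.mk (Pat.mk 0x600000007000000000000000400000000 0x80000001e00000007000000040000000400000004 3 5) 0 0 (step_sound _ 66 [(rh712526e472efe489.shift 0 1), (rh7b1f1fb55310c477.shift 1 0)] (by decide +kernel))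
noncomputable def rh6a78fa75f0f8d5b0 : CRef := CRef.mk (Pat.mk 0xf000000000000000800000008 0x380000001f000000080000000800000008 3 6) 0 0 (step_sound _ 132 [(rh206c5e04f2281389.shift 1 0), (rh428265de8cd3cd2d.shift 0 3)] (by decide +kernel))
noncomputable def rhe480d4d80f0531a6 : CRef := CRef.mk (Pat.mk 0x800000007000000000000000400000004 0x180000000f000000180000000c00000004 3 5) 0 0 (step_sound _ 99 [(rh33e738c4ed385b9f.shift 0 3), rhb5e747220bd827fa] (by decide +kernel))
noncomputable def rhe84bfd2bc1159083 : CRef := CRef.mk (Pat.mk 0xf000000000000000800000004 0x180000000f000000180000000c00000004 3 5) 0 0 (step_sound _ 67 [rhcf9240a90a4519c3, (rhe25b0a99195a5d59.shift 0 2)] (by decide +kernel))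
noncomputable def rhfe557af9112f51d6 : CRef := CRef.mk (Pat.mk 0x8000000080000000c0000000c00000000 0x8000000080000000f0000003c00000010 3 6) 0 0 (step_sound _ 36 [(rh55afc6a59410cf00.shift 3 0), (rhe2b63c00a3d7bb73.shift 0 1)] (by decide +kernel))
noncomputable def rhdceeca65bdd8095a : CRef := CRef.mk (Pat.mk 0x3c00000020 0x3e00000037 3 6) 0 0 (step_sound _ 1 [(rh80fcd6d0a18cb2dd.shift 1 0), rh904f7fcbaab6c494] (by decide +kernel))
noncomputable def rhd0ed6ce702d0de55 : CRef := CRef.mk (Pat.mk 0xa0000001c 0x3b0000001f 3 6) 0 0 (step_sound _ 1 [rh3244c3cc8379b070, rhec46bd5500c722c9] (by decide +kernel))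
noncomputable def rhf3cdd189c46cffe9 : CRef := CRef.mk (Pat.mk 0x200000002000000020000000300000000 0x20000000200000002000000070000000700000004 3 3) 0 0 (step_sound _ 34 [(rh2f6cd3183cec8379.shift 0 1), (rh55afc6a59410cf00.shift 1 0)] (by decide +kernel))
noncomputable def rh574fdbf07bdd18b9 : CRef := CRef.mk (Pat.mk 0x180000000c 0x780000001f 3 7) 0 0 (step_sound _ 37 [(rh18965a982d73c794.shift 2 0), rheea1a90336e79c71] (by decide +kernel))
noncomputable def rh30c8e93810233a6c : CRef := CRef.mk (Pat.mk 0xc0000000c0000000600000004 0x20000000f0000003c0000000600000004 3 6) 0 0 (step_sound _ 97 [(rh50fbb5868c909700.shift 1 0), (rh62ee6b8370225d67.shift 0 1)] (by decide +kernel))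
noncomputable def rh7ef83fb89d82184e : CRef := CRef.mk (Pat.mk 0x70000000000000008000000080000000800000008 0x1f0000001800000018000000080000000800000008 3 5) 0 0 (step_sound _ 132 [(rh05fc677417852bbe.shift 0 1), (rhbaefcd01e0a8bca3.shift 3 0)] (by decide +kernel))
noncomputable def rh060f4b610bd533ed : CRef := CRef.mk (Pat.mk 0x8000000100000001e00000000 0x800000008000000180000001f00000014 3 5) 0 0 (step_sound _ 67 [(rh53b3c253cb0c65f4.shift 0 1), (rhde10baa3043a2b46.shift 2 0)] (by decide +kernel))
noncomputable def rh3296438309676d7e : CRef := CRef.mk (Pat.mk 0x100000000000000030000000200000000 0x10000000100000003000000030000000300000002 3 2) 0 0 (step_sound _ 96 [(rh2145e1d24b96a57e.shift 0 1), rh95ea0015722389b9] (by decide +kernel))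
noncomputable def rh38b727f6eb6cee07 : CRef := CRef.mk (Pat.mk 0x100000003000000020000000800000038 0x100000003000000020000001f0000003a 3 6) 0 0 (step_sound _ 33 [rh075211c3608a5a57, rh7b1f1fb55310c477] (by decide +kernel))
noncomputable def rh0392a73861bbdc19 : CRef := CRef.mk (Pat.mk 0x100000007c00000020 0x1c0000007f00000030 3 7) 0 0 (step_sound _ 33 [(rh96851dee118c1ba3.shift 1 0), (rhcda1a83d49cc23b4.shift 0 1)] (by decide +kernel))
noncomputable def rhb1a251d9bff81766 : CRef := CRef.mk (Pat.mk 0x3000000020000000200000000 0x1000000010000000300000003000000020000000200000002 3 2) 0 0 (step_sound _ 128 [rh7b1f1fb55310c477, (rhc89253ff58c66167.shift 0 1)] (by decide +kernel))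
noncomputable def rh4979f9db0d330878 : CRef := CRef.mk (Pat.mk 0x80000000e000000010000001000000000 0x80000001e000000330000001000000010 3 6) 0 0 (step_sound _ 100 [(rh2bbc4934553ffbfd.shift 1 0), (rh80fcd6d0a18cb2dd.shift 0 2)] (by decide +kernel))
noncomputable def rh57356921bb808803 : CRef := CRef.mk (Pat.mk 0x700000007000000000000000800000000 0x70000001f000000180000000800000008 3 5) 0 0 (step_sound _ 99 [rh2bbc4934553ffbfd, (rhf48373e13d2bc128.shift 0 3)] (by decide +kernel))
noncomputable def rh38a0850c9fea941e : CRef := CRef.mk (Pat.mk 0x1e000000060000000000000000 0x2000000030000001e000000060000000400000004 3 5) 0 0 (step_sound _ 129 [(rh3244c3cc8379b070.shift 0 3), (rh55a1f6c57a317ce6.shift 1 0)] (by decide +kernel))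
noncomputable def rh317ceab58ecdf45b : CRef := CRef.mk (Pat.mk 0x3e00000004 0x7f0000003c 3 7) 0 0 (step_sound _ 3 [(rh18965a982d73c794.shift 2 0), rh6292bd8784ece55f] (by decide +kernel))
noncomputable def rhc333e2570e2bbdf1 : CRef := CRef.mk (Pat.mk 0x10000000f0000000100000000 0x200000002000000030000001f0000000100000001 3 5) 0 0 (step_sound _ 97 [rh84d1c02a8954c6a8, (rhf48373e13d2bc128.shift 0 2)] (by decide +kernel))
noncomputable def rh30d951fefd654979 : CRef := CRef.mk (Pat.mk 0x100000003e 0x1c000000ff 3 8) 0 0 (step_sound _ 35 [rh53b3c253cb0c65f4, (rh79b3c29022acbdf3.shift 2 0)] (by decide +kernel))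
noncomputable def rhc2c7bae8f445c890 : CRef := CRef.mk (Pat.mk 0x100000003000000020000000000000000 0x1000000010000000300000003000000020000000200000002 3 2) 0 0 (step_sound _ 160 [rh08edf065357d68e5, (rh2145e1d24b96a57e.shift 0 2)] (by decide +kernel))
noncomputable def rhc0681f90f27d666e : CRef := CRef.mk (Pat.mk 0x300000002000000020000000200000000 0x40000000700000007000000020000000200000002 3 3) 0 0 (step_sound _ 130 [rh2e02ae96d64880aa, (rh2f68792b6b779e96.shift 1 1)] (by decide +kernel))
noncomputable def rhc647a25a08ddf0ec : CRef := CRef.mk (Pat.mk 0x18000000180000000800000008 0x40000001f000000380000000800000008 3 6) 0 0 (step_sound _ 98 [(rh50fbb5868c909700.shift 2 0), (rhad5d8fc3675c15dd.shift 0 2)] (by decide +kernel))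
noncomputable def rh4821dcf828b9d7bf : CRef := CRef.mk (Pat.mk 0x200000003000000010000000000000000 0x2000000020000000300000003000000010000000100000001 3 2) 0 0 (step_sound _ 161 [(rh5c5e593799055d58.shift 0 2), rhf9af042da61fc652] (by decide +kernel))
noncomputable def rh054b4055d420681e : CRef := CRef.mk (Pat.mk 0x100000003000000000000000200000000 0x10000000300000003000000030000000200000002 3 2) 0 0 (step_sound _ 65 [rh7b1f1fb55310c477, (rha3df16ea9c8576c8.shift 0 1)] (by decide +kernel))
noncomputable def rh95a80f84f48ac358 : CRef := CRef.mk (Pat.mk 0x100000003000000000000000200000000 0x1000000010000000300000003000000020000000200000002 3 2) 0 0 (step_sound _ 65 [rh7b1f1fb55310c477, (rhc89253ff58c66167.shift 0 1)] (by decide +kernel))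
noncomputable def rhb11d41c808e1ab4d : CRef := CRef.mk (Pat.mk 0x100000003000000000000000200000000 0x1000000010000000100000003000000030000000200000002 3 2) 0 0 (step_sound _ 65 [rh7b1f1fb55310c477, (rhe072fffdd2fccf38.shift 0 1)] (by decide +kernel))
noncomputable def rh21ff067999dca58e : CRef := CRef.mk (Pat.mk 0x20000000f0000000100000000 0x200000002000000030000001f0000000100000001 3 5) 0 0 (step_sound _ 129 [(rh5c5e593799055d58.shift 0 1), rhc5a4e22e386e96c0] (by decide +kernel))
noncomputable def rhadf429772c25fde0 : CRef := CRef.mk (Pat.mk 0x200000003000000010000000000000000 0x2000000020000000200000003000000030000000100000001 3 2) 0 0 (step_sound _ 161 [rh42548283029e2a39, (rh5c5e593799055d58.shift 0 2)] (by decide +kernel))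
noncomputable def rh6a7d78a202a43da8 : CRef := CRef.mk (Pat.mk 0x40000000c0000000b0000000200000000 0x40000000c0000000f0000001e00000008 3 5) 0 0 (step_sound _ 35 [(rh7b1f1fb55310c477.shift 2 0), (rha6816dee951f7ee6.shift 0 1)] (by decide +kernel))
noncomputable def rh3696295804471b76 : CRef := CRef.mk (Pat.mk 0x7c00000008 0xff00000038 3 8) 0 0 (step_sound _ 4 [(rh18965a982d73c794.shift 3 0), rhad5d8fc3675c15dd] (by decide +kernel))
noncomputable def rhf82c39c189d08f68 : CRef := CRef.mk (Pat.mk 0x100000001e000000000000001000000000 0x8000000180000001f000000100000001000000010 3 5) 0 0 (step_sound _ 131 [(rh53b3c253cb0c65f4.shift 0 3), (rhdd1b84382d19bcbb.shift 3 0)] (by decide +kernel))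
noncomputable def rhe85809167142bbcd : CRef := CRef.mk (Pat.mk 0xa00000016000000000000001000000000 0xb0000001e000000300000001000000010 3 6) 0 0 (step_sound _ 99 [(rh2bbc4934553ffbfd.shift 1 0), (rh3244c3cc8379b070.shift 0 3)] (by decide +kernel))
noncomputable def rhed9a93d9f6a3fb5f : CRef := CRef.mk (Pat.mk 0x1e0000000400000004 0x2000000030000003e0000000600000004 3 6) 0 0 (step_sound _ 33 [(rh18965a982d73c794.shift 1 1), rh309fd0c3d364cd61] (by decide +kernel))
noncomputable def rh3128b9c68936017c : CRef := CRef.mk (Pat.mk 0x40000001c0000001400000012 0x4000000040000001c0000001f00000032 3 6) 0 0 (step_sound _ 33 [rh5360fcf49c083c33, (rh5c5e593799055d58.shift 1 0)] (by decide +kernel))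
noncomputable def rhf0f55c4504412200 : CRef := CRef.mk (Pat.mk 0x3800000008 0x780000001f 3 7) 0 0 (step_sound _ 2 [(rh18965a982d73c794.shift 2 0), rheea1a90336e79c71] (by decide +kernel))
noncomputable def rh14f80659e6313cc6 : CRef := CRef.mk (Pat.mk 0x1000000010000000300000001 0x20000000300000003000000010000000300000003 3 2) 0 0 (step_sound _ 128 [rh44f453b84f013105, rh55afc6a59410cf00] (by decide +kernel))
noncomputable def rh9fa863152efb40d1 : CRef := CRef.mk (Pat.mk 0x600000012000000020000000200000000 0x1000000070000001e000000020000000200000002 3 5) 0 0 (step_sound _ 128 [rh2fa8d21c5aa19bed, (rh50fbb5868c909700.shift 0 1)] (by decide +kernel))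
noncomputable def rhb03ead900b8630b0 : CRef := CRef.mk (Pat.mk 0x1e000000100000001000000000 0x8000000180000001f000000100000001000000010 3 5) 0 0 (step_sound _ 131 [(rh432c477e19b8a62d.shift 0 1), (rh7b1f1fb55310c477.shift 3 0)] (by decide +kernel))
noncomputable def rh71dc3b1b14d867eb : CRef := CRef.mk (Pat.mk 0x3c00000002 0x70000003e00000003 3 6) 0 0 (step_sound _ 65 [(rh3f8766e6ecb455ce.shift 1 1), rhcb763b151dc90fdc] (by decide +kernel))
noncomputable def rhfaf1a2bc47312130 : CRef := CRef.mk (Pat.mk 0x1000000040000000500000002000000020000000000000000 0x1000000050000000700000003000000020000000200000002 3 3) 0 0 (step_sound _ 33 [(rh1006c02ae4212ff0.shift 1 1), rh6435f49d52942911] (by decide +kernel))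
noncomputable def rhb91b7df0d06c1d96 : CRef := CRef.mk (Pat.mk 0x40000001e0000000400000000 0x400000004000000040000001e0000000700000002 3 5) 0 0 (step_sound _ 33 [(rh503dd4575245365b.shift 1 0), (rheb0810cc63b001d8.shift 0 1)] (by decide +kernel))
noncomputable def rh942e9ba56a890c66 : CRef := CRef.mk (Pat.mk 0x40000000200000006000000160000000000000000 0x400000006000000060000001e0000000300000001 3 5) 0 0 (step_sound _ 33 [rh84f01cf2134210c0, (rhee230b994cc8b773.shift 1 1)] (by decide +kernel))
noncomputable def rh7b24c4ccc068b0b2 : CRef := CRef.mk (Pat.mk 0x3000000020000000200000000 0x10000000300000003000000030000000200000002 3 2) 0 0 (step_sound _ 128 [rh7b1f1fb55310c477, (rha3df16ea9c8576c8.shift 0 1)] (by decide +kernel))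
noncomputable def rh7ea42b47bb00ce47 : CRef := CRef.mk (Pat.mk 0x1e000000100000001000000000 0x380000001f000000100000001000000010 3 6) 0 0 (step_sound _ 132 [rh3245c175135a884b, (rh33e738c4ed385b9f.shift 1 3)] (by decide +kernel))
noncomputable def rh49606a42a30c7ac4 : CRef := CRef.mk (Pat.mk 0xf0000000400000004 0x8000000080000001c0000000f0000000400000004 3 5) 0 0 (step_sound _ 99 [(rh33e738c4ed385b9f.shift 0 2), (rhbfb5770941270498.shift 2 0)] (by decide +kernel))
noncomputable def rh67b333ba8f3c6687 : CRef := CRef.mk (Pat.mk 0xf000000080000000000000008 0x380000001f000000080000000800000008 3 6) 0 0 (step_sound _ 132 [(rh428265de8cd3cd2d.shift 0 3), (rh68f8892967f6a502.shift 1 0)] (by decide +kernel))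
noncomputable def rhfe0270f45009c77d : CRef := CRef.mk (Pat.mk 0x1c00000008000000080000000800000000 0x3c0000000f000000080000000800000008 3 6) 0 0 (step_sound _ 98 [(rh4dc133ee0ba1420a.shift 0 3), (rh7b1f1fb55310c477.shift 2 0)] (by decide +kernel))
noncomputable def rh2a02695054c83069 : CRef := CRef.mk (Pat.mk 0x1f000000000000000000000001 0x30000001f000000030000000100000001 3 5) 0 0 (step_sound _ 129 [(rh3244c3cc8379b070.shift 0 3), rhc09e660f269c5d72] (by decide +kernel))
noncomputable def rh18daa16230dec9b2 : CRef := CRef.mk (Pat.mk 0x20000000200000002000000000000000100000000 0x2000000020000000200000003000000030000000100000001 3 2) 0 0 (step_sound _ 64 [rhe383b718e2292d99, (rheea67dfebd0f8008.shift 0 1)] (by decide +kernel))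
noncomputable def rhc382f93a2be69a0f : CRef := CRef.mk (Pat.mk 0x1e000000020000000000000004 0x30000003e000000060000000400000004 3 6) 0 0 (step_sound _ 66 [rh0da3f8d18d3a0dfd, (rh18965a982d73c794.shift 1 2)] (by decide +kernel))
noncomputable def rh73fc4ee54d7791f6 : CRef := CRef.mk (Pat.mk 0x100000001000000020000000200000000 0x1000000010000000100000003000000030000000200000002 3 2) 0 0 (step_sound _ 97 [rh7b1f1fb55310c477, (rhe072fffdd2fccf38.shift 0 1)] (by decide +kernel))
noncomputable def rh861a59032aac395a : CRef := CRef.mk (Pat.mk 0x80000000e000000040000001000000000 0x80000003e000000370000001000000010 3 6) 0 0 (step_sound _ 100 [(rh2bbc4934553ffbfd.shift 1 0), (rhaf9f2efc81a8312b.shift 0 2)] (by decide +kernel))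
noncomputable def rhddb5e72fae96c92e : CRef := CRef.mk (Pat.mk 0x1e000000020000000000000002 0x70000003e000000020000000200000002 3 6) 0 0 (step_sound _ 130 [(rh9e3edb185cc347de.shift 1 0), (rhe3060b190bc0bc78.shift 0 3)] (by decide +kernel))
noncomputable def rh283e838c127dc5e8 : CRef := CRef.mk (Pat.mk 0x60000000f000000000000000000000001 0x60000003f000000030000000100000001 3 6) 0 0 (step_sound _ 100 [rhc09e660f269c5d72, (rhf48373e13d2bc128.shift 1 3)] (by decide +kernel))
noncomputable def rh489612c7fc5d3fc7 : CRef := CRef.mk (Pat.mk 0x20000000f000000000000000000000001 0x30000001f000000030000000100000001 3 5) 0 0 (step_sound _ 100 [(rh3244c3cc8379b070.shift 0 3), rhc09e660f269c5d72] (by decide +kernel))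
noncomputable def rhf622a291695942d1 : CRef := CRef.mk (Pat.mk 0x1c0000000a000000000000000800000000 0x100000001c0000000f000000080000000800000008 3 5) 0 0 (step_sound _ 98 [(rh53b3c253cb0c65f4.shift 0 3), (rhd02f44a45c1a55c1.shift 2 0)] (by decide +kernel))
noncomputable def rhcf85c92937975d4d : CRef := CRef.mk (Pat.mk 0xc0000000c0000000400000004 0x20000000f0000003c0000000400000004 3 6) 0 0 (step_sound _ 97 [(rh50fbb5868c909700.shift 1 0), (rh6292bd8784ece55f.shift 0 2)] (by decide +kernel))
noncomputable def rh186435f7016e87db : CRef := CRef.mk (Pat.mk 0x2000000070000000e00000004 0x80000001b0000003f0000000e00000004 3 6) 0 0 (step_sound _ 67 [rh5421160f8e9bcf07, (rhb762f327c85d41a0.shift 0 1)] (by decide +kernel))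
noncomputable def rh69012675dfdb1a5b : CRef := CRef.mk (Pat.mk 0x180000000c 0x780000001f 3 7) 0 0 (step_sound _ 1 [rh53b3c253cb0c65f4, (rh572132728df34c43.shift 1 0)] (by decide +kernel))
noncomputable def rhc0623366f982994b : CRef := CRef.mk (Pat.mk 0x2000000070000000e00000004 0x40000000c0000001e000000070000000e0000000c 3 5) 0 0 (step_sound _ 98 [(rh571950d89739e871.shift 1 0), rh712526e472efe489] (by decide +kernel))
noncomputable def rh7f9f3607ee25a93b : CRef := CRef.mk (Pat.mk 0x2000000030000000300000002 0x30000000300000003000000030000000300000002 3 2) 0 0 (step_sound _ 128 [(rh16567ae718d9fd54.shift 0 1), rhffd04209dc8ea796] (by decide +kernel))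
noncomputable def rh55fe96b0f08b4b29 : CRef := CRef.mk (Pat.mk 0xc0000001c0000000400000000 0xa0000000f0000001c0000000400000004 3 5) 0 0 (step_sound _ 97 [(rh261f868a429ae0e3.shift 1 0), (rhb739f4f82bb681b4.shift 0 2)] (by decide +kernel))
noncomputable def rh822a66c22e949fd4 : CRef := CRef.mk (Pat.mk 0x200000002000000060000000f00000000 0x40000000600000006000000060000000f00000018 3 5) 0 0 (step_sound _ 130 [(rh2f68792b6b779e96.shift 1 1), rh3098af7943687178] (by decide +kernel))
noncomputable def rh771383521b68d2cd : CRef := CRef.mk (Pat.mk 0x1e0000000c 0x70000007e0000000c 3 7) 0 0 (step_sound _ 37 [(rh18965a982d73c794.shift 2 0), (rhd5eb272e07a4e288.shift 0 1)] (by decide +kernel))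
noncomputable def rh3ce854f4a795c89f : CRef := CRef.mk (Pat.mk 0x80000001c00000010 0x380000001f00000030 3 6) 0 0 (step_sound _ 33 [(rhe25b0a99195a5d59.shift 1 0), (rhec46bd5500c722c9.shift 0 1)] (by decide +kernel))
noncomputable def rhbd74dafabdc61080 : CRef := CRef.mk (Pat.mk 0x7000000030000000c00000004 0x80000001f0000001b0000000c00000004 3 5) 0 0 (step_sound _ 99 [(rh18965a982d73c794.shift 0 2), rh8c2ed6f91ff57e60] (by decide +kernel))
noncomputable def rh58f49594b41e4958 : CRef := CRef.mk (Pat.mk 0x8000000080000000c0000000e00000000 0x8000000080000000f0000003e00000010 3 6) 0 0 (step_sound _ 36 [(rh55afc6a59410cf00.shift 3 0), (rhe3060b190bc0bc78.shift 0 1)] (by decide +kernel))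
noncomputable def rh1c1037cb5b3fe471 : CRef := CRef.mk (Pat.mk 0x1e0000000400000004 0x200000002000000070000001e0000000400000004 3 5) 0 0 (step_sound _ 97 [(rh3244c3cc8379b070.shift 0 2), (rhc89253ff58c66167.shift 1 0)] (by decide +kernel))
noncomputable def rh8c7e6c931af72977 : CRef := CRef.mk (Pat.mk 0x600000002000000020000000200000000 0x10000000700000007000000020000000200000002 3 3) 0 0 (step_sound _ 128 [rh2e02ae96d64880aa, (rh50fbb5868c909700.shift 0 1)] (by decide +kernel))
noncomputable def rh5c85ecece8738fce : CRef := CRef.mk (Pat.mk 0x400000008000000380000000800000000 0x40000000f0000003c0000000800000008 3 6) 0 0 (step_sound _ 98 [(rh7b1f1fb55310c477.shift 2 0), (rhdbcea10a0fbe5ba6.shift 0 2)] (by decide +kernel))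
noncomputable def rhea719cc8bd0bdd28 : CRef := CRef.mk (Pat.mk 0xc0000000f0000000000000000 0x4000000040000000c0000000f0000001800000008 3 5) 0 0 (step_sound _ 35 [(rhe25b0a99195a5d59.shift 0 1), (rhfc7c29d8e65d775f.shift 2 0)] (by decide +kernel))
noncomputable def rhe6989bd5d2a25a0e : CRef := CRef.mk (Pat.mk 0x100000001e000000000000000000000008 0x100000001f000000380000000800000008 3 6) 0 0 (step_sound _ 67 [(rh9e3edb185cc347de.shift 3 0), (rha03f6e28ea70fc7d.shift 0 2)] (by decide +kernel))
noncomputable def rhf8993406b52adb5c : CRef := CRef.mk (Pat.mk 0x160000001a00000008 0x10000000300000001e0000001b00000008 3 6) 0 0 (step_sound _ 67 [(rh5421160f8e9bcf07.shift 1 0), (rheb0810cc63b001d8.shift 0 1)] (by decide +kernel))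
noncomputable def rh54e416ca24d7c506 : CRef := CRef.mk (Pat.mk 0x40000001e000000000000000000000008 0x40000001f000000380000000800000008 3 6) 0 0 (step_sound _ 67 [(rh9e07f76261b05888.shift 2 0), (rha03f6e28ea70fc7d.shift 0 2)] (by decide +kernel))
noncomputable def rh9c9bdd729c643b84 : CRef := CRef.mk (Pat.mk 0x3c000000040000000000000004 0x70000003e000000040000000400000004 3 6) 0 0 (step_sound _ 129 [(rh3f8766e6ecb455ce.shift 1 3), rh738bf2a8dabcdb1a] (by decide +kernel))
noncomputable def rhf13dec36350f192c : CRef := CRef.mk (Pat.mk 0xe00000014000000000000000400000000 0x20000000f0000001c000000040000000400000004 3 5) 0 0 (step_sound _ 99 [(rhb739f4f82bb681b4.shift 0 3), (rhc93583770a36d0f1.shift 1 0)] (by decide +kernel))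
noncomputable def rh3441484a69e677ec : CRef := CRef.mk (Pat.mk 0x100000001e0000001400000000 0x800000008000000180000001f0000001400000010 3 5) 0 0 (step_sound _ 99 [(rh35ab8589afe62dd0.shift 2 0), (rh53b3c253cb0c65f4.shift 0 2)] (by decide +kernel))
noncomputable def rh75c6fff53e4cbd6e : CRef := CRef.mk (Pat.mk 0x20000000f00000000 0x30000001f00000038 3 6) 0 0 (step_sound _ 36 [(rh3244c3cc8379b070.shift 0 1), rh4ad5fc38f1b69f65] (by decide +kernel))
noncomputable def rh4d760d0d70847451 : CRef := CRef.mk (Pat.mk 0x100000001000000020000000200000000 0x1000000010000000300000003000000020000000200000002 3 2) 0 0 (step_sound _ 97 [rh7b1f1fb55310c477, (rhc89253ff58c66167.shift 0 1)] (by decide +kernel))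
noncomputable def rh1a04a21d60cc1b23 : CRef := CRef.mk (Pat.mk 0x80000000d000000030000000300000000 0x20000001a0000000f000000030000000300000001 3 5) 0 0 (step_sound _ 97 [(rh33e738c4ed385b9f.shift 0 3), rh503dd4575245365b] (by decide +kernel))
noncomputable def rhb14e2588a8d71db8 : CRef := CRef.mk (Pat.mk 0x3c00000018 0x3f0000001f 3 6) 0 0 (step_sound _ 1 [rh710860539a4c4362, (rh80fcd6d0a18cb2dd.shift 1 0)] (by decide +kernel))
noncomputable def rh4f92b6ce9f3964c8 : CRef := CRef.mk (Pat.mk 0x4000000000000000d0000000c00000008 0xc0000001c000000180000000f0000000c00000008 3 5) 0 0 (step_sound _ 99 [(rh16567ae718d9fd54.shift 2 1), rh7e143111a189f2ad] (by decide +kernel))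
noncomputable def rhb974196174068d7d : CRef := CRef.mk (Pat.mk 0x40000000e0000000400000004 0x80000003c0000000f0000000400000004 3 6) 0 0 (step_sound _ 99 [(rh2f68792b6b779e96.shift 2 0), (rhf9d36e158778ce35.shift 0 2)] (by decide +kernel))
noncomputable def rha19e283393efed2a : CRef := CRef.mk (Pat.mk 0x10000000100000001000000010000000000000002 0x2000000030000000300000001000000010000000300000002 3 2) 0 0 (step_sound _ 161 [(rh2f68792b6b779e96.shift 0 2), rh43c8f812062765a8] (by decide +kernel))
noncomputable def rhb32faae6e8187273 : CRef := CRef.mk (Pat.mk 0x100000001000000030000000700000000 0x20000000300000003000000030000000700000005 3 3) 0 0 (step_sound _ 129 [(rh2f68792b6b779e96.shift 0 1), rh9b32778d424b58d6] (by decide +kernel))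
noncomputable def rhf6d72ac90bd26cb0 : CRef := CRef.mk (Pat.mk 0x1e0000000600000002 0x1f0000003e00000003 3 6) 0 0 (step_sound _ 36 [rh51246ab843efda05, (rhe25b0a99195a5d59.shift 1 1)] (by decide +kernel))
noncomputable def rhe1921443f9792fea : CRef := CRef.mk (Pat.mk 0x20000000200000002000000020000000000000004 0x1000000030000000300000002000000020000000600000004 3 3) 0 0 (step_sound _ 160 [(rh50fbb5868c909700.shift 0 2), rhfc72877972d3f83f] (by decide +kernel))
noncomputable def rhae8938145796a1d1 : CRef := CRef.mk (Pat.mk 0x2000000060000001e00000002 0x1000000030000003e0000001e00000002 3 6) 0 0 (step_sound _ 68 [(rh33e738c4ed385b9f.shift 1 1), rh52dc0b448901c5de] (by decide +kernel))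
noncomputable def rh736db707a18c880a : CRef := CRef.mk (Pat.mk 0x2000000060000001e 0x30000003e0000001f 3 6) 0 0 (step_sound _ 36 [(rh33e738c4ed385b9f.shift 1 0), rh51246ab843efda05] (by decide +kernel))
noncomputable def rhdab0e6f012231ab6 : CRef := CRef.mk (Pat.mk 0x100000001a0000000600000004 0x2000000330000001e0000000600000004 3 6) 0 0 (step_sound _ 66 [rh309fd0c3d364cd61, (rh33e738c4ed385b9f.shift 1 2)] (by decide +kernel))
noncomputable def rhc30999405e79726f : CRef := CRef.mk (Pat.mk 0xc000000180000001e00000004 0x20000000f0000001b0000001e00000004 3 5) 0 0 (step_sound _ 97 [rh756bf0ac35c4fb2d, (rhb739f4f82bb681b4.shift 0 2)] (by decide +kernel))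
noncomputable def rhda90a22cb7305047 : CRef := CRef.mk (Pat.mk 0xc000000180000000c 0xf0000007c0000000c 3 7) 0 0 (step_sound _ 37 [(rh18965a982d73c794.shift 2 0), (rhdbcea10a0fbe5ba6.shift 0 1)] (by decide +kernel))
noncomputable def rh8d56556d3b71b433 : CRef := CRef.mk (Pat.mk 0xa0000000e000000000000001000000000 0xb0000001e000000300000001000000010 3 6) 0 0 (step_sound _ 100 [(rh2bbc4934553ffbfd.shift 1 0), (rh3244c3cc8379b070.shift 0 3)] (by decide +kernel))
noncomputable def rhf19877b8e445d26d : CRef := CRef.mk (Pat.mk 0x200000003c000000080000000000000010 0x300000003f000000180000001000000010 3 6) 0 0 (step_sound _ 68 [(rh4baa30ac13a5afd1.shift 0 2), (rh9e3edb185cc347de.shift 4 0)] (by decide +kernel))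
noncomputable def rhc392c23d3ec4eaa4 : CRef := CRef.mk (Pat.mk 0x80000000c0000000b000000000000000800000000 0x800000008000000080000000c0000000f0000001c0000000800000008 3 5) 0 0 (step_sound _ 98 [rh2bbc4934553ffbfd, (rh503dd4575245365b.shift 2 2)] (by decide +kernel))
noncomputable def rh7eaf814fd0a6a93e : CRef := CRef.mk (Pat.mk 0xf000000000000000c00000000 0x180000000f000000180000000c00000004 3 5) 0 0 (step_sound _ 67 [rh664c8f4d02ce4add, (rhe25b0a99195a5d59.shift 0 2)] (by decide +kernel))
noncomputable def rhd526f9b20c752965 : CRef := CRef.mk (Pat.mk 0x1c0000000a 0x1f0000003b 3 6) 0 0 (step_sound _ 33 [rha03f6e28ea70fc7d, rheb0810cc63b001d8] (by decide +kernel))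
noncomputable def rh5890386c1f942fa1 : CRef := CRef.mk (Pat.mk 0x2000000010000000100000001 0x20000000200000003000000030000000300000001 3 2) 0 0 (step_sound _ 129 [rh1006c02ae4212ff0, rh88ff8f7539aa90a1] (by decide +kernel))
noncomputable def rh2ddd6c94c59240f8 : CRef := CRef.mk (Pat.mk 0x1000000030000000300000001 0x30000000300000003000000030000000300000001 3 2) 0 0 (step_sound _ 129 [(rh82bd946b1709a78e.shift 0 1), rhee230b994cc8b773] (by decide +kernel))
noncomputable def rh8ee80f5a639ffca9 : CRef := CRef.mk (Pat.mk 0xf00000006 0x3f0000003e 3 6) 0 0 (step_sound _ 36 [(rh18965a982d73c794.shift 1 0), rh4ad5fc38f1b69f65] (by decide +kernel))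
noncomputable def rh2f32edc41b016dfb : CRef := CRef.mk (Pat.mk 0x80000001a0000000600000004 0x20000000f0000001e0000000600000004 3 5) 0 0 (step_sound _ 97 [(rh2145e1d24b96a57e.shift 1 0), (rhd8be3b7ca6adb62f.shift 0 2)] (by decide +kernel))
noncomputable def rh9bbaff47e0079bc9 : CRef := CRef.mk (Pat.mk 0x100000001e000000000000000000000010 0x180000001f000000300000001000000010 3 6) 0 0 (step_sound _ 131 [(rh53b3c253cb0c65f4.shift 0 3), (rhdb89fb63ff941e36.shift 1 0)] (by decide +kernel))
noncomputable def rh6fb4f7b37b190fce : CRef := CRef.mk (Pat.mk 0x10000000e0000000c 0x30000007e0000000e 3 7) 0 0 (step_sound _ 36 [(rh2612b4f73ba7c3b3.shift 1 0), (rh3f8766e6ecb455ce.shift 0 1)] (by decide +kernel))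
noncomputable def rh9645a90eaed9f0ef : CRef := CRef.mk (Pat.mk 0xf000000080000001400000000 0x180000000f000000080000001c00000014 3 5) 0 0 (step_sound _ 131 [(rh2818863d77d69ed0.shift 2 0), (rh33e738c4ed385b9f.shift 0 3)] (by decide +kernel))
noncomputable def rhe96dbaacc3e725e0 : CRef := CRef.mk (Pat.mk 0x4000000060000001a0000002000000000 0x4000000060000001e0000003300000002 3 6) 0 0 (step_sound _ 33 [(rh0a35b857afa49c0f.shift 0 1), (rh71222050f2c63a3a.shift 1 0)] (by decide +kernel))
noncomputable def rh041e4d25099758bc : CRef := CRef.mk (Pat.mk 0x100000002000000020000000200000000 0x10000000300000003000000030000000200000002 3 2) 0 0 (step_sound _ 96 [rh7b1f1fb55310c477, (rha3df16ea9c8576c8.shift 0 1)] (by decide +kernel))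
noncomputable def rhca66a6c9bd00a506 : CRef := CRef.mk (Pat.mk 0x1000000030000000d00000008 0x10000000100000001000000030000000f0000001a 3 5) 0 0 (step_sound _ 33 [rh3e595262c1b737ad, rhe25b0a99195a5d59] (by decide +kernel))
noncomputable def rh7d1eb0a2ac11b171 : CRef := CRef.mk (Pat.mk 0x100000000e00000004 0x300000003e00000007 3 6) 0 0 (step_sound _ 36 [(rh33e738c4ed385b9f.shift 1 1), rhaf9f2efc81a8312b] (by decide +kernel))
noncomputable def rh9aef13a18dc2ca8c : CRef := CRef.mk (Pat.mk 0xe00000004000000040000000400000000 0xf0000003c000000040000000400000004 3 6) 0 0 (step_sound _ 99 [(rh6292bd8784ece55f.shift 0 3), (rh71222050f2c63a3a.shift 2 0)] (by decide +kernel))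
noncomputable def rh84c6bba3847605f7 : CRef := CRef.mk (Pat.mk 0x1000000010000000100000003000000010000000000000000 0x100000001000000030000000300000003000000010000000100000001 3 2) 0 0 (step_sound _ 129 [(rh2145e1d24b96a57e.shift 0 3), rhea7a1800d6f053bd] (by decide +kernel))
noncomputable def rh7b60db5db6f7d331 : CRef := CRef.mk (Pat.mk 0x200000002000000020000000600000000 0x20000000200000002000000070000000700000001 3 3) 0 0 (step_sound _ 32 [(rh2f6cd3183cec8379.shift 0 1), rh932754581e0f4330] (by decide +kernel))
noncomputable def rh53cccbb248b8ab65 : CRef := CRef.mk (Pat.mk 0xc0000000c0000000600000004 0x20000000f0000003c0000000600000004 3 6) 0 0 (step_sound _ 68 [(rh18965a982d73c794.shift 1 1), rh277b01412deaec89] (by decide +kernel))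
noncomputable def rh1e8d6e1ef30e2d92 : CRef := CRef.mk (Pat.mk 0x4000000040000001e000000000000000000000000 0x4000000040000001e000000070000000200000002 3 5) 0 0 (step_sound _ 65 [(rh42548283029e2a39.shift 1 0), (rheb0810cc63b001d8.shift 0 2)] (by decide +kernel))
noncomputable def rh5a05909f84352d1f : CRef := CRef.mk (Pat.mk 0x1e0000001800000020 0x3e0000001f00000030 3 6) 0 0 (step_sound _ 33 [(rh0685793aeb58379e.shift 1 0), (rheb0810cc63b001d8.shift 0 1)] (by decide +kernel))
noncomputable def rha1364968fa11515d : CRef := CRef.mk (Pat.mk 0x80000000b0000000c00000000 0x800000008000000180000000f0000000c00000004 3 5) 0 0 (step_sound _ 131 [(rh48864364f4a2304e.shift 0 1), (rh932754581e0f4330.shift 2 0)] (by decide +kernel))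
noncomputable def rhbab796f6dafe9186 : CRef := CRef.mk (Pat.mk 0x1000000020000000200000002 0x10000000100000003000000030000000300000002 3 2) 0 0 (step_sound _ 128 [rh6da1cd319b2afcb1, rhcfdf45280693d3da] (by decide +kernel))
noncomputable def rh0dbc8abee7ad42d4 : CRef := CRef.mk (Pat.mk 0x100000002000000020000000200000000 0x1000000010000000100000003000000030000000200000002 3 2) 0 0 (step_sound _ 96 [rh7b1f1fb55310c477, (rhe072fffdd2fccf38.shift 0 1)] (by decide +kernel))
noncomputable def rh2912624a36249f28 : CRef := CRef.mk (Pat.mk 0x1e00000020 0x70000003e00000060 3 7) 0 0 (step_sound _ 37 [(rhd5eb272e07a4e288.shift 0 1), (rhe25b0a99195a5d59.shift 2 0)] (by decide +kernel))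
noncomputable def rh2afa7ffb1fd33de0 : CRef := CRef.mk (Pat.mk 0x80000000b0000000600000004 0x20000001e0000000f0000000600000004 3 5) 0 0 (step_sound _ 97 [(rh2145e1d24b96a57e.shift 1 0), (rh9f2591205204f08d.shift 0 2)] (by decide +kernel))
noncomputable def rhd88e1e5c6d7f696b : CRef := CRef.mk (Pat.mk 0xc0000000c0000001800000008 0x100000003c0000000f0000001800000008 3 6) 0 0 (step_sound _ 65 [(rh712526e472efe489.shift 1 0), (rhb739f4f82bb681b4.shift 0 1)] (by decide +kernel))
noncomputable def rhbedc17f53a3d22d1 : CRef := CRef.mk (Pat.mk 0x400000004000000180000001c00000000 0x4000000040000001c0000001f00000003 3 5) 0 0 (step_sound _ 33 [rh316d0c7c5292e4bb, (rh53b3c253cb0c65f4.shift 0 1)] (by decide +kernel))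
noncomputable def rh6fae963f33cfdfd7 : CRef := CRef.mk (Pat.mk 0x800000008000000180000001800000000 0x800000008000000380000001f00000004 3 6) 0 0 (step_sound _ 34 [(rh932754581e0f4330.shift 2 0), (rhab2ad169e49f9c5e.shift 0 1)] (by decide +kernel))
noncomputable def rh2dcd947d82678d24 : CRef := CRef.mk (Pat.mk 0x1e000000100000001000000000 0x8000000080000001f000000180000001000000010 3 5) 0 0 (step_sound _ 131 [(rh55cb5b5f992d4e9d.shift 0 1), (rh7b1f1fb55310c477.shift 3 0)] (by decide +kernel))
noncomputable def rh51924d4efec90539 : CRef := CRef.mk (Pat.mk 0x180000003800000004 0x380000003f00000006 3 6) 0 0 (step_sound _ 34 [(rhab2ad169e49f9c5e.shift 0 1), (rheb0810cc63b001d8.shift 1 0)] (by decide +kernel))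
noncomputable def rh5db479c9ce22a9b1 : CRef := CRef.mk (Pat.mk 0x2000000030000000300000002 0x60000000600000006000000030000000300000002 3 3) 0 0 (step_sound _ 130 [(rhbaefcd01e0a8bca3.shift 1 0), (rhbd55d8419891313d.shift 0 1)] (by decide +kernel))
noncomputable def rh079470f290abda33 : CRef := CRef.mk (Pat.mk 0x60000001e0000000800000000 0x400000004000000060000001e0000000b00000002 3 5) 0 0 (step_sound _ 130 [(rh2145e1d24b96a57e.shift 2 1), rh9c40a739b57d6d20] (by decide +kernel))
noncomputable def rhfc56e58601063804 : CRef := CRef.mk (Pat.mk 0x200000003000000030000000000000004 0x10000000300000003000000030000000600000006 3 3) 0 0 (step_sound _ 33 [(rhd3458b32566d63f7.shift 1 0), rhfc7c29d8e65d775f] (by decide +kernel))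
noncomputable def rhe4f9133a81c1dbc5 : CRef := CRef.mk (Pat.mk 0x1e0000000400000004 0x2000000030000001e0000000700000004 3 5) 0 0 (step_sound _ 33 [rh309fd0c3d364cd61, (rheb0810cc63b001d8.shift 0 1)] (by decide +kernel))
noncomputable def rhac91bb8935e50010 : CRef := CRef.mk (Pat.mk 0x2000000030000000300000002 0x30000000300000003000000030000000300000002 3 2) 0 0 (step_sound _ 129 [rh3ca48e2a6d60153d, (rh5c5e593799055d58.shift 0 1)] (by decide +kernel))
noncomputable def rhc1307820daa2ac22 : CRef := CRef.mk (Pat.mk 0x100000001e000000180000001000000000 0x100000001e0000001f0000003000000020 3 6) 0 0 (step_sound _ 65 [(rh2d65c91b9f714cee.shift 1 0), (rheb0810cc63b001d8.shift 0 2)] (by decide +kernel))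
noncomputable def rhf9bd4bdd448a5193 : CRef := CRef.mk (Pat.mk 0x10000000180000001e00000010 0x20000000300000001f0000001e00000010 3 6) 0 0 (step_sound _ 65 [(rh3244c3cc8379b070.shift 0 1), (rh7e143111a189f2ad.shift 1 0)] (by decide +kernel))
noncomputable def rhb0121edee88fe839 : CRef := CRef.mk (Pat.mk 0xc00000018 0x1f0000003c 3 6) 0 0 (step_sound _ 33 [(rhae2edff970a530ce.shift 1 0), rhb739f4f82bb681b4] (by decide +kernel))
noncomputable def rh1b30fad02acc208f : CRef := CRef.mk (Pat.mk 0x200000007000000050000000000000000 0x2000000020000000200000007000000070000000400000004 3 3) 0 0 (step_sound _ 161 [(rh5c5e593799055d58.shift 0 2), (rh79ad7b82ec8c35e2.shift 1 0)] (by decide +kernel))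
noncomputable def rh4589d2072275b567 : CRef := CRef.mk (Pat.mk 0x60000000e0000000800000008 0x40000003e0000000f0000000800000008 3 6) 0 0 (step_sound _ 99 [(rh2612b4f73ba7c3b3.shift 0 2), (rh50fbb5868c909700.shift 2 0)] (by decide +kernel))
noncomputable def rh9076f8194e929cdb : CRef := CRef.mk (Pat.mk 0xf000000080000000800000000 0x40000001c0000000f000000080000000800000008 3 5) 0 0 (step_sound _ 131 [(rh33e738c4ed385b9f.shift 0 3), (rhe286c75f2739cce2.shift 2 0)] (by decide +kernel))
noncomputable def rh6655c67851f4b756 : CRef := CRef.mk (Pat.mk 0x200000003000000030000000200000000 0x2000000020000000200000003000000070000000600000004 3 3) 0 0 (step_sound _ 161 [(rh5c5e593799055d58.shift 0 2), (rhd29a1fb688eae70f.shift 1 0)] (by decide +kernel))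
noncomputable def rh60caaf96997f0fe3 : CRef := CRef.mk (Pat.mk 0x3000000030000000200000002 0x2000000060000000600000007000000030000000300000002 3 3) 0 0 (step_sound _ 129 [(rh44f453b84f013105.shift 1 0), (rh503dd4575245365b.shift 0 1)] (by decide +kernel))
noncomputable def rhd2c74283b7b6e6b8 : CRef := CRef.mk (Pat.mk 0x2000000020000000300000002 0x10000000300000003000000020000000300000003 3 2) 0 0 (step_sound _ 128 [rhbdd4e349c1dde679, rhffd04209dc8ea796] (by decide +kernel))
noncomputable def rha78afc937ca94db4 : CRef := CRef.mk (Pat.mk 0x80000000b0000000800000008 0x140000001e0000000b0000000800000008 3 5) 0 0 (step_sound _ 98 [(rh50fbb5868c909700.shift 2 0), rhc0daf918bbfda8d7] (by decide +kernel))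
noncomputable def rh60fd8cc80dd27878 : CRef := CRef.mk (Pat.mk 0x80000000f000000000000001400000000 0x80000000f000000180000001c00000014 3 5) 0 0 (step_sound _ 67 [(rh2818863d77d69ed0.shift 2 0), (rhe25b0a99195a5d59.shift 0 2)] (by decide +kernel))
noncomputable def rhbd1085b5879a265a : CRef := CRef.mk (Pat.mk 0x1c0000001800000008 0x10000000300000001f0000001800000008 3 6) 0 0 (step_sound _ 100 [(rh34517e326ddb5b25.shift 0 1), (rh5c5e593799055d58.shift 3 0)] (by decide +kernel))
noncomputable def rh475253e964ed1313 : CRef := CRef.mk (Pat.mk 0x10000000100000001000000020000000000000000 0x10000000300000003000000030000000200000002 3 2) 0 0 (step_sound _ 33 [rh1f1e441d7d62538e, (rhbe0e43a3bc50a43f.shift 0 1)] (by decide +kernel))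
noncomputable def rhbbda3e5cf400e6dd : CRef := CRef.mk (Pat.mk 0xf0000000400000004 0x8000000180000000f0000001c00000004 3 5) 0 0 (step_sound _ 35 [rh5421160f8e9bcf07, (rhe25b0a99195a5d59.shift 0 1)] (by decide +kernel))
noncomputable def rhad58962ad5671817 : CRef := CRef.mk (Pat.mk 0xf00000004000000000000000400000000 0x80000000f0000001c000000040000000400000004 3 5) 0 0 (step_sound _ 99 [(rh2c7fc7a7cc8a47be.shift 2 0), (rhe25b0a99195a5d59.shift 0 3)] (by decide +kernel))
noncomputable def rh8bf2458b77264f10 : CRef := CRef.mk (Pat.mk 0x20000000200000002000000000000000500000000 0x20000000200000002000000060000000700000005 3 3) 0 0 (step_sound _ 65 [rh2818863d77d69ed0, (rhd3458b32566d63f7.shift 1 1)] (by decide +kernel))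
noncomputable def rh2cd606a0db19f4de : CRef := CRef.mk (Pat.mk 0x1000000020000000200000002000000000000000500000000 0x1000000030000000200000002000000020000000700000005 3 3) 0 0 (step_sound _ 65 [rh2818863d77d69ed0, (rhffd04209dc8ea796.shift 0 2)] (by decide +kernel))
noncomputable def rh4df35fbc131eb4ae : CRef := CRef.mk (Pat.mk 0x400000038 0xf0000007c 3 7) 0 0 (step_sound _ 35 [rhdbcea10a0fbe5ba6, (rhf48373e13d2bc128.shift 2 0)] (by decide +kernel))
noncomputable def rhee752aa48069abb2 : CRef := CRef.mk (Pat.mk 0x40000000e0000001800000008 0x10000000370000003e0000001800000008 3 6) 0 0 (step_sound _ 68 [(rh5421160f8e9bcf07.shift 1 0), (rhe3060b190bc0bc78.shift 0 2)] (by decide +kernel))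
noncomputable def rhf5e124ec5c58a2dd : CRef := CRef.mk (Pat.mk 0xf00000006 0x3f0000003e 3 6) 0 0 (step_sound _ 4 [rh2fe78cc5ca4405d8, (rhbca71ab025ef4262.shift 1 0)] (by decide +kernel))
noncomputable def rhbded93168f6e24bf : CRef := CRef.mk (Pat.mk 0x200000003000000010000000000000002 0x20000000300000003000000010000000300000003 3 2) 0 0 (step_sound _ 32 [rh47ab86d89ce68610, rh71222050f2c63a3a] (by decide +kernel))
noncomputable def rh7ff601fc6d1f05ff : CRef := CRef.mk (Pat.mk 0xf0000000c0000000800000000 0x8000000180000000f0000000c0000000c00000004 3 5) 0 0 (step_sound _ 131 [(rh03dfdf12d5937476.shift 2 0), (rh33e738c4ed385b9f.shift 0 3)] (by decide +kernel))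
noncomputable def rhf52438b2b41d0174 : CRef := CRef.mk (Pat.mk 0x20000001e000000000000000400000000 0x20000003e000000070000000400000004 3 6) 0 0 (step_sound _ 66 [(rh7b1f1fb55310c477.shift 1 0), (rhaf9f2efc81a8312b.shift 0 2)] (by decide +kernel))
noncomputable def rh8db7f7558b75b2b1 : CRef := CRef.mk (Pat.mk 0x1e00000000 0x3e00000077 3 7) 0 0 (step_sound _ 37 [(rh4ad5fc38f1b69f65.shift 1 0), rheae1728ff4a56756] (by decide +kernel))
noncomputable def rh5b18f4340a453a5c : CRef := CRef.mk (Pat.mk 0x40000001e000000000000000800000000 0x40000001f000000380000000800000008 3 6) 0 0 (step_sound _ 67 [(rh7b1f1fb55310c477.shift 2 0), (rha03f6e28ea70fc7d.shift 0 2)] (by decide +kernel))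
noncomputable def rh209ed1dd068a3ceb : CRef := CRef.mk (Pat.mk 0x10000000100000001000000010000000200000000 0x2000000030000000300000001000000010000000300000002 3 2) 0 0 (step_sound _ 161 [(rh2f68792b6b779e96.shift 0 2), rhf48d93cb7a9e42c5] (by decide +kernel))
noncomputable def rh4c9b7a2d8c4aee8b : CRef := CRef.mk (Pat.mk 0x300000003000000010000000500000000 0x10000000300000003000000030000000700000006 3 3) 0 0 (step_sound _ 33 [rh55afc6a59410cf00, rh80c59fdbc00f388c] (by decide +kernel))
noncomputable def rh752c9303f297f9fa : CRef := CRef.mk (Pat.mk 0x200000003000000020000000100000000 0x10000000300000003000000020000000300000003 3 2) 0 0 (step_sound _ 33 [rh932754581e0f4330, rhe286c75f2739cce2] (by decide +kernel))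
noncomputable def rhc7a10ee8d0d37048 : CRef := CRef.mk (Pat.mk 0x200000003000000020000000400000000 0x10000000300000003000000020000000600000006 3 3) 0 0 (step_sound _ 33 [(rh55afc6a59410cf00.shift 1 0), rhe286c75f2739cce2] (by decide +kernel))
noncomputable def rhc11db2955b78c5fd : CRef := CRef.mk (Pat.mk 0xc0000001c00000002 0x3c0000001f00000003 3 6) 0 0 (step_sound _ 33 [rheb0810cc63b001d8, (rhf9d36e158778ce35.shift 0 1)] (by decide +kernel))
noncomputable def rh2752ff847d671a96 : CRef := CRef.mk (Pat.mk 0x10000000f000000000000000200000000 0x1000000030000001f000000020000000200000002 3 5) 0 0 (step_sound _ 65 [(rh6279f4d0e372f7fa.shift 0 1), rh7b1f1fb55310c477] (by decide +kernel))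
noncomputable def rh3f44037e5442bcb5 : CRef := CRef.mk (Pat.mk 0x2000000020000000200000002000000020000000200000000 0x200000002000000020000000300000003000000030000000200000002 3 2) 0 0 (step_sound _ 96 [rh3ac9195fb39bb3df, (rh932754581e0f4330.shift 0 2)] (by decide +kernel))
noncomputable def rh77e5fdcadba6b29b : CRef := CRef.mk (Pat.mk 0x40000000e000000040000000000000000 0x2000000070000003e000000040000000400000004 3 6) 0 0 (step_sound _ 129 [(rh3cb04db3dd2b6a55.shift 1 0), (rh79b3c29022acbdf3.shift 0 3)] (by decide +kernel))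
noncomputable def rh94246470f0e6fdf7 : CRef := CRef.mk (Pat.mk 0xf0000000400000004 0x800000008000000180000000f0000000c00000004 3 5) 0 0 (step_sound _ 99 [(rh33e738c4ed385b9f.shift 0 2), (rh69755ef358ebfd54.shift 2 0)] (by decide +kernel))
noncomputable def rh4017de503635a93b : CRef := CRef.mk (Pat.mk 0x4000000070000000400000004 0xa0000001e000000070000000400000004 3 5) 0 0 (step_sound _ 97 [(rh50fbb5868c909700.shift 1 0), rh712526e472efe489] (by decide +kernel))
noncomputable def rhfe21fdd79c5e4aa7 : CRef := CRef.mk (Pat.mk 0x700000004000000040000000400000000 0x80000000f0000001c000000040000000400000004 3 5) 0 0 (step_sound _ 131 [(rh2f68792b6b779e96.shift 2 1), rh78eadeed1cc7dfb8] (by decide +kernel))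
noncomputable def rh9f812c79cd5b9ff1 : CRef := CRef.mk (Pat.mk 0x100000001e000000000000000800000000 0x100000001f000000380000000800000008 3 6) 0 0 (step_sound _ 67 [(rh71222050f2c63a3a.shift 3 0), (rha03f6e28ea70fc7d.shift 0 2)] (by decide +kernel))
noncomputable def rh849cac83c18cae97 : CRef := CRef.mk (Pat.mk 0x1e000000100000001000000000 0x380000001f000000100000001000000010 3 6) 0 0 (step_sound _ 131 [(rh7b1f1fb55310c477.shift 3 0), (rhec46bd5500c722c9.shift 0 3)] (by decide +kernel))
noncomputable def rh4c6d407c2048a5bb : CRef := CRef.mk (Pat.mk 0x1e00000002 0x70000003e00000006 3 6) 0 0 (step_sound _ 37 [(rh80fcd6d0a18cb2dd.shift 1 0), (rhd5eb272e07a4e288.shift 0 1)] (by decide +kernel))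
noncomputable def rh274052baa202580c : CRef := CRef.mk (Pat.mk 0x7000000050000000500000000 0x2000000020000000200000007000000070000000500000004 3 3) 0 0 (step_sound _ 129 [(rh69755ef358ebfd54.shift 0 1), (rh7b1f1fb55310c477.shift 1 0)] (by decide +kernel))
noncomputable def rhd4138be29732e1c5 : CRef := CRef.mk (Pat.mk 0x80000000a0000000a00000006 0x8000000080000000b0000003e00000006 3 6) 0 0 (step_sound _ 34 [(rh5c5e593799055d58.shift 2 0), rhb762f327c85d41a0] (by decide +kernel))
noncomputable def rh0c78ac79b1848ffb : CRef := CRef.mk (Pat.mk 0x100000000e0000000400000004 0x800000008000000180000000f0000000c00000004 3 5) 0 0 (step_sound _ 99 [(rh53b3c253cb0c65f4.shift 0 2), (rh69755ef358ebfd54.shift 2 0)] (by decide +kernel))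
noncomputable def rhfcb55d5dc3b78d1f : CRef := CRef.mk (Pat.mk 0x3c00000010 0x3e00000037 3 6) 0 0 (step_sound _ 33 [(rhe25b0a99195a5d59.shift 1 0), rheae1728ff4a56756] (by decide +kernel))
noncomputable def rhf987458f2696f0ee : CRef := CRef.mk (Pat.mk 0xa0000000e 0x3b0000001f 3 6) 0 0 (step_sound _ 4 [rh3244c3cc8379b070, rhec46bd5500c722c9] (by decide +kernel))
noncomputable def rh2120c2cf0ca2d550 : CRef := CRef.mk (Pat.mk 0x600000005000000040000000400000000 0x80000001e00000007000000040000000400000004 3 5) 0 0 (step_sound _ 131 [(rh2f68792b6b779e96.shift 2 1), rhf287f34f3759fe93] (by decide +kernel))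
noncomputable def rh3b915a8446bc88cf : CRef := CRef.mk (Pat.mk 0x180000000c00000020 0x380000001f00000030 3 6) 0 0 (step_sound _ 33 [(rh09a6fa4a6e52d577.shift 1 0), (rh53b3c253cb0c65f4.shift 0 1)] (by decide +kernel))
noncomputable def rh35e918dd76851f8c : CRef := CRef.mk (Pat.mk 0xf00000000 0x380000001f00000038 3 6) 0 0 (step_sound _ 36 [rh4ad5fc38f1b69f65, (rh9890f9d77740bbed.shift 0 1)] (by decide +kernel))
noncomputable def rh10cb971017e37b6b : CRef := CRef.mk (Pat.mk 0x80000000a0000001c0000000e00000000 0x40000000c0000000f0000001c0000000e00000002 3 5) 0 0 (step_sound _ 98 [(rhb0914cf7a5069272.shift 1 0), (rhb739f4f82bb681b4.shift 0 2)] (by decide +kernel))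
noncomputable def rhe835e2ef61e86731 : CRef := CRef.mk (Pat.mk 0x800000004000000070000000400000000 0x80000003e000000070000000400000004 3 6) 0 0 (step_sound _ 99 [(rh71222050f2c63a3a.shift 2 0), (rh80f90a60d87caa0d.shift 0 2)] (by decide +kernel))
noncomputable def rhe456bdb15bf707f7 : CRef := CRef.mk (Pat.mk 0x600000006000000040000000500000000 0x40000000600000006000000060000000700000003 3 3) 0 0 (step_sound _ 33 [(rh932754581e0f4330.shift 1 0), rhca8ff71e16afefc5] (by decide +kernel))
noncomputable def rhf2e3f9e8a10a1b25 : CRef := CRef.mk (Pat.mk 0x100000001e000000000000000800000000 0x180000001f000000180000000800000008 3 5) 0 0 (step_sound _ 67 [(rh71222050f2c63a3a.shift 3 0), (rhe3dc93746cbe6e7c.shift 0 2)] (by decide +kernel))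
noncomputable def rhaef2adbbd453a55b : CRef := CRef.mk (Pat.mk 0x40000000e0000000400000004 0x2000000070000003e0000000400000004 3 6) 0 0 (step_sound _ 97 [(rh50fbb5868c909700.shift 1 0), (rh79b3c29022acbdf3.shift 0 2)] (by decide +kernel))
noncomputable def rh521e60ddfe76d299 : CRef := CRef.mk (Pat.mk 0x700000006000000040000000400000000 0x50000000700000006000000060000000600000002 3 3) 0 0 (step_sound _ 33 [(rh5c17f1e02606ae02.shift 0 1), (rh932754581e0f4330.shift 1 0)] (by decide +kernel))
noncomputable def rh755058703e3b061e : CRef := CRef.mk (Pat.mk 0x700000006000000050000000600000000 0x10000000700000006000000070000001e00000008 3 5) 0 0 (step_sound _ 65 [rh42afa1af9fffa0e1, (rh50fbb5868c909700.shift 0 1)] (by decide +kernel))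
noncomputable def rhc8ae932c55508b78 : CRef := CRef.mk (Pat.mk 0x200000003000000020000001e 0x200000002000000030000003e0000001e 3 6) 0 0 (step_sound _ 34 [rh132698b7c3848060, (rh2145e1d24b96a57e.shift 1 0)] (by decide +kernel))
noncomputable def rh2517e74d35111a0d : CRef := CRef.mk (Pat.mk 0x200000002000000020000001e00000000 0x10000000300000003000000020000001e00000003 3 5) 0 0 (step_sound _ 128 [(rh50fbb5868c909700.shift 0 1), rhf221129318455305] (by decide +kernel))
noncomputable def rhfe8f878ea3528191 : CRef := CRef.mk (Pat.mk 0x6000000120000000200000002 0x10000000f0000001e0000000200000002 3 5) 0 0 (step_sound _ 96 [rh50fbb5868c909700, (rhc29273f1bf96f971.shift 0 2)] (by decide +kernel))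
noncomputable def rh44f2ec19b3452892 : CRef := CRef.mk (Pat.mk 0xe000000080000000800000008 0x10000000180000001f000000080000000800000008 3 5) 0 0 (step_sound _ 132 [(rh6835955021d3aba9.shift 0 1), (rhbaefcd01e0a8bca3.shift 3 0)] (by decide +kernel))
noncomputable def rhf172468d65d59ef3 : CRef := CRef.mk (Pat.mk 0xc0000000a000000080000000800000000 0x3c0000000f000000080000000800000008 3 6) 0 0 (step_sound _ 98 [(rh7b1f1fb55310c477.shift 2 0), (rhf9d36e158778ce35.shift 0 3)] (by decide +kernel))
noncomputable def rh34b1188e635efc8d : CRef := CRef.mk (Pat.mk 0xf0000000c0000000000000000 0x8000000180000000f0000000c0000000400000004 3 5) 0 0 (step_sound _ 131 [(rh1e309b005ffa1b36.shift 2 0), (rh33e738c4ed385b9f.shift 0 3)] (by decide +kernel))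
noncomputable def rhd809a56e627c0006 : CRef := CRef.mk (Pat.mk 0x1c0000000a000000080000000800000000 0x1f0000001b000000080000000800000008 3 5) 0 0 (step_sound _ 100 [(rh710860539a4c4362.shift 0 3), (rh71222050f2c63a3a.shift 3 0)] (by decide +kernel))
noncomputable def rhcc0a408814ee8662 : CRef := CRef.mk (Pat.mk 0x180000000a000000080000000800000000 0x380000001f000000080000000800000008 3 6) 0 0 (step_sound _ 98 [(rh53b3c253cb0c65f4.shift 0 3), (rhe3bc8ed3804367dd.shift 1 0)] (by decide +kernel))
noncomputable def rhe62f858ec81d9702 : CRef := CRef.mk (Pat.mk 0x1800000014000000180000000c00000000 0x380000001f000000180000000c00000004 3 6) 0 0 (step_sound _ 99 [(rh34517e326ddb5b25.shift 0 2), (rh932754581e0f4330.shift 2 0)] (by decide +kernel))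
noncomputable def rh428e1bad588924cc : CRef := CRef.mk (Pat.mk 0xe000000080000000800000008 0x100000001f000000380000000800000008 3 6) 0 0 (step_sound _ 100 [(rh2f68792b6b779e96.shift 3 0), (rha03f6e28ea70fc7d.shift 0 2)] (by decide +kernel))
noncomputable def rhd59d2d9a2f76c372 : CRef := CRef.mk (Pat.mk 0x4000000040000000200000002000000000000000500000000 0x4000000060000000200000002000000020000000700000005 3 3) 0 0 (step_sound _ 65 [(rh1006c02ae4212ff0.shift 1 2), rh2818863d77d69ed0] (by decide +kernel))
noncomputable def rh0e5396937237df12 : CRef := CRef.mk (Pat.mk 0x4000000010000000b0000000a0000000800000000 0x40000000f0000000b0000000a0000000a00000002 3 4) 0 0 (step_sound _ 33 [(rh0caf077b5a27aa2e.shift 1 1), rh7b1f1fb55310c477] (by decide +kernel))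
noncomputable def rh43c85b902ff1747a : CRef := CRef.mk (Pat.mk 0x400000000000000030000000300000002 0x60000000600000006000000030000000300000002 3 3) 0 0 (step_sound _ 97 [(rhbaefcd01e0a8bca3.shift 1 0), (rhbd55d8419891313d.shift 0 1)] (by decide +kernel))
noncomputable def rh4c5c51b0ae60cece : CRef := CRef.mk (Pat.mk 0x3800000004 0x780000001f 3 7) 0 0 (step_sound _ 3 [(rh18965a982d73c794.shift 2 0), rheea1a90336e79c71] (by decide +kernel))
noncomputable def rh90b2e5c3f52bfd0e : CRef := CRef.mk (Pat.mk 0x180000001800000000000000020000000300000001 0x380000001f00000002000000020000000300000001 3 6) 0 0 (step_sound _ 129 [(rh6d571b54e8dd9e33.shift 0 4), rhee230b994cc8b773] (by decide +kernel))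
noncomputable def rh7c8d02e239b172a4 : CRef := CRef.mk (Pat.mk 0x60000000e000000000000000000000002 0x60000003e000000030000000200000002 3 6) 0 0 (step_sound _ 65 [(rh9e3edb185cc347de.shift 1 0), (rha9e1a5d55b907abf.shift 0 2)] (by decide +kernel))
noncomputable def rh3e6bb9849b9ebbb0 : CRef := CRef.mk (Pat.mk 0x7800000000000000020000000300000001 0x7e0000000e000000020000000300000001 3 7) 0 0 (step_sound _ 97 [rh5c5e593799055d58, (rhd477b85b65fed04a.shift 1 3)] (by decide +kernel))
noncomputable def rh24dfbbdfa745af6f : CRef := CRef.mk (Pat.mk 0x1800000000000000080000000f00000000 0x100000001800000018000000080000000f00000018 3 5) 0 0 (step_sound _ 99 [(rh2f68792b6b779e96.shift 3 1), rh8249296aae70fe02] (by decide +kernel))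
noncomputable def rh318e14db76c9bf44 : CRef := CRef.mk (Pat.mk 0x10000000f000000000000000000000002 0x30000001f000000030000000200000002 3 5) 0 0 (step_sound _ 65 [(rh795d3e5d420177aa.shift 0 2), rh9e07f76261b05888] (by decide +kernel))
noncomputable def rh5b09f563b9a65cf9 : CRef := CRef.mk (Pat.mk 0x40000003e 0x3c0000007f 3 7) 0 0 (step_sound _ 35 [(rhf48373e13d2bc128.shift 2 0), rhf9d36e158778ce35] (by decide +kernel))
noncomputable def rh927d5f9300832d4e : CRef := CRef.mk (Pat.mk 0x400000000000000040000003c00000000 0x400000004000000040000003e00000007 3 6) 0 0 (step_sound _ 1 [rh63bb60019a439056, (rh80fcd6d0a18cb2dd.shift 1 0)] (by decide +kernel))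
noncomputable def rh49182c48af89e0f5 : CRef := CRef.mk (Pat.mk 0x200000001c000000000000000200000002 0x340000001e000000030000000200000002 3 6) 0 0 (step_sound _ 97 [(rh428265de8cd3cd2d.shift 1 3), rhe1a85963a7a8727e] (by decide +kernel))
noncomputable def rh5afe4b57e969447f : CRef := CRef.mk (Pat.mk 0x20000001a0000000c00000004 0x80000000f0000001e0000000c00000004 3 5) 0 0 (step_sound _ 99 [(rh5c5e593799055d58.shift 2 0), (rhd8be3b7ca6adb62f.shift 0 2)] (by decide +kernel))
noncomputable def rh0127acd528cd93fb : CRef := CRef.mk (Pat.mk 0xc0000000e00000002 0xe0000007e00000003 3 7) 0 0 (step_sound _ 36 [(rh79b3c29022acbdf3.shift 1 1), rheb0810cc63b001d8] (by decide +kernel))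
noncomputable def rh81cdd2836921eed0 : CRef := CRef.mk (Pat.mk 0x4000000040000003c00000000 0x400000004000000040000003e00000007 3 6) 0 0 (step_sound _ 1 [rh0c1db84848fdfb70, (rh80fcd6d0a18cb2dd.shift 1 0)] (by decide +kernel))
noncomputable def rh7a92c40a756b9b01 : CRef := CRef.mk (Pat.mk 0x80000001c00000000000000020000000600000000 0x380000001f00000003000000020000000600000004 3 6) 0 0 (step_sound _ 129 [rha4720fb45e70ffc3, (rhec46bd5500c722c9.shift 0 4)] (by decide +kernel))
noncomputable def rhaf5214748099048e : CRef := CRef.mk (Pat.mk 0x10000001a0000000200000002 0x50000000f0000001a0000000200000002 3 5) 0 0 (step_sound _ 97 [rh50fbb5868c909700, rh8ddb7009c5639c8a] (by decide +kernel))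
noncomputable def rh08c4f9e8d4ca1896 : CRef := CRef.mk (Pat.mk 0x1a00000000000000020000000600000000 0x40000001e00000003000000020000000600000004 3 5) 0 0 (step_sound _ 97 [(rh0102e0f3a8fa944d.shift 0 1), (rh55afc6a59410cf00.shift 1 0)] (by decide +kernel))
noncomputable def rh1dace65600ea0423 : CRef := CRef.mk (Pat.mk 0x800000008000000080000000f00000000 0x100000001800000018000000080000000f00000018 3 5) 0 0 (step_sound _ 132 [(rh2f68792b6b779e96.shift 3 1), rh8249296aae70fe02] (by decide +kernel))
noncomputable def rhbba5fa760adf813e : CRef := CRef.mk (Pat.mk 0x4000000000000000a0000001e00000008 0x40000000e0000000a0000001e0000000b 3 5) 0 0 (step_sound _ 1 [(rh0caf077b5a27aa2e.shift 1 0), rheb0810cc63b001d8] (by decide +kernel))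
noncomputable def rh573f5999480e0c5d : CRef := CRef.mk (Pat.mk 0x4000000020000000200000002000000000000000500000000 0x4000000060000000200000002000000020000000700000005 3 3) 0 0 (step_sound _ 65 [rh2818863d77d69ed0, (rhbaefcd01e0a8bca3.shift 1 2)] (by decide +kernel))
noncomputable def rh75eca5012e6213df : CRef := CRef.mk (Pat.mk 0x1e00000000000000080000000800000000 0x1f00000038000000080000000800000008 3 6) 0 0 (step_sound _ 100 [rhaa4f9b3b68e101c3, (rhe25b0a99195a5d59.shift 1 3)] (by decide +kernel))
noncomputable def rh87865da67f1be42c : CRef := CRef.mk (Pat.mk 0x1e000000000000000200000002 0x30000001f000000030000000200000002 3 5) 0 0 (step_sound _ 65 [rha25c0e62bb8d55c9, (rheb0810cc63b001d8.shift 0 2)] (by decide +kernel))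
noncomputable def rhf6eaec10ea6e7bec : CRef := CRef.mk (Pat.mk 0x200000002000000020000001e00000000 0x10000000300000003000000020000001e00000003 3 5) 0 0 (step_sound _ 1 [rh3ca48e2a6d60153d, rheb0810cc63b001d8] (by decide +kernel))
noncomputable def rhb5bbc4e81a621dcf : CRef := CRef.mk (Pat.mk 0xe00000000000000080000001e 0x40000000e0000000a0000000b0000001e 3 5) 0 0 (step_sound _ 130 [(rh2613c889e411427e.shift 2 0), rh750ebacf582109c4] (by decide +kernel))
noncomputable def rh9f1f1f40fdb5b760 : CRef := CRef.mk (Pat.mk 0x1e00000000000000000000003c 0x30000001e00000004000000060000003c 3 6) 0 0 (step_sound _ 34 [(rh3244c3cc8379b070.shift 1 0), rhea1977e228a6d74a] (by decide +kernel))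
noncomputable def rh0944cb36a4fa1f40 : CRef := CRef.mk (Pat.mk 0x300000012000000100000001e00000000 0xb0000001e000000100000001e00000030 3 6) 0 0 (step_sound _ 4 [rhbbc353da154e327d, (rhe25b0a99195a5d59.shift 1 0)] (by decide +kernel))
noncomputable def rh5e044f2a7fe8917d : CRef := CRef.mk (Pat.mk 0x8000000080000000f00000000 0x800000008000000080000001f00000038 3 6) 0 0 (step_sound _ 4 [(rh6e1f502161d2d285.shift 1 0), rh96851dee118c1ba3] (by decide +kernel))
noncomputable def rhb37b35b7a17a55d8 : CRef := CRef.mk (Pat.mk 0x3000000180000001000000010 0x8000000080000001f000000180000001000000010 3 5) 0 0 (step_sound _ 99 [(rhc10214bf3fe8094a.shift 0 2), (rhc89253ff58c66167.shift 3 0)] (by decide +kernel))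
noncomputable def rh642b26d7cba6ff2f : CRef := CRef.mk (Pat.mk 0x400000004000000040000001c00000000 0x40000000400000004000000070000001e00000002 3 5) 0 0 (step_sound _ 33 [(rh932754581e0f4330.shift 1 0), (rhb4edb45e9f1718ed.shift 0 1)] (by decide +kernel))
noncomputable def rh2b469a46fc262367 : CRef := CRef.mk (Pat.mk 0x200000000000000000000003e00000000 0x200000002000000030000003e00000006 3 6) 0 0 (step_sound _ 65 [(rh3244c3cc8379b070.shift 0 1), (rh5262efde5ab13f6e.shift 1 0)] (by decide +kernel))
noncomputable def rhcaddd010c795f159 : CRef := CRef.mk (Pat.mk 0xb0000000a0000000800000008 0x100000001b0000001f0000000800000008 3 5) 0 0 (step_sound _ 100 [(rh2f68792b6b779e96.shift 3 0), (rhba7137a6404ea089.shift 0 2)] (by decide +kernel))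
noncomputable def rhf02c244a23f35937 : CRef := CRef.mk (Pat.mk 0x600000000000000000000001e00000000 0x40000000600000002000000030000001e00000004 3 5) 0 0 (step_sound _ 65 [(rh3244c3cc8379b070.shift 0 1), (rh85e0f5cc78e9cbe0.shift 1 0)] (by decide +kernel))
noncomputable def rh6a8fbe22e34a927e : CRef := CRef.mk (Pat.mk 0x1400000016 0x370000003e 3 6) 0 0 (step_sound _ 3 [(rh33e738c4ed385b9f.shift 1 0), rhe3060b190bc0bc78] (by decide +kernel))
noncomputable def rhe33d9496e10d8eb0 : CRef := CRef.mk (Pat.mk 0x280000000c 0x7c0000000f 3 7) 0 0 (step_sound _ 36 [(rh18965a982d73c794.shift 2 0), rh1ed7a3503fa50fc8] (by decide +kernel))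
noncomputable def rh5bcd5e7712d352f7 : CRef := CRef.mk (Pat.mk 0xf00000000000000200000006000000040 0x3f00000038000000200000006000000040 3 7) 0 0 (step_sound _ 101 [(rh2145e1d24b96a57e.shift 5 0), (rheaa91b92daf0efc8.shift 0 3)] (by decide +kernel))
noncomputable def rha04e63cd433be7bf : CRef := CRef.mk (Pat.mk 0x300000012000000100000001000000000 0xf0000001e000000100000001000000010 3 5) 0 0 (step_sound _ 99 [(rh5419adcd928dba20.shift 0 3), rh61bed84536fd27bf] (by decide +kernel))
noncomputable def rh355f0dc964d44ac2 : CRef := CRef.mk (Pat.mk 0xe000000040000000800000008 0x300000003e0000000f0000000800000008 3 6) 0 0 (step_sound _ 100 [(rh4fc80024ed3db095.shift 1 0), (rhaf9f2efc81a8312b.shift 0 2)] (by decide +kernel))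
noncomputable def rha71afc656c87d410 : CRef := CRef.mk (Pat.mk 0x4000000040000000c0000000c00000000 0x4000000040000003c0000000f00000002 3 6) 0 0 (step_sound _ 33 [(rh932754581e0f4330.shift 1 0), (rhf9d36e158778ce35.shift 0 1)] (by decide +kernel))
noncomputable def rh32269cad40c2ff27 : CRef := CRef.mk (Pat.mk 0xc000000090000000800000008 0x100000001e0000000f0000000800000008 3 5) 0 0 (step_sound _ 100 [(rh2f68792b6b779e96.shift 3 0), (rh81076d3993588649.shift 0 2)] (by decide +kernel))
noncomputable def rhbcd991bae3026ef1 : CRef := CRef.mk (Pat.mk 0x100000000f000000000000000000000008 0x300000001f000000180000000800000008 3 6) 0 0 (step_sound _ 100 [(rh33e738c4ed385b9f.shift 1 3), rh5082b4dfde227d32] (by decide +kernel))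
noncomputable def rh145caf37755048e4 : CRef := CRef.mk (Pat.mk 0x80000000f000000000000000000000010 0x80000001f000000380000001000000010 3 6) 0 0 (step_sound _ 68 [(rh38e0f9af9c934a77.shift 1 0), (rh96851dee118c1ba3.shift 0 2)] (by decide +kernel))
noncomputable def rh7170cc1370c66062 : CRef := CRef.mk (Pat.mk 0x100000001e00000000 0x180000001f00000038 3 6) 0 0 (step_sound _ 32 [(rh428265de8cd3cd2d.shift 0 1), rh4ad5fc38f1b69f65] (by decide +kernel))
noncomputable def rh15173fcb5d0c051a : CRef := CRef.mk (Pat.mk 0xb00000000000000080000000c00000000 0x40000000f00000018000000080000000c00000004 3 5) 0 0 (step_sound _ 99 [(rh932754581e0f4330.shift 2 0), (rheca207e390c8f755.shift 0 1)] (by decide +kernel))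
noncomputable def rh1ce9175801978a6d : CRef := CRef.mk (Pat.mk 0x36 0x770000003e 3 7) 0 0 (step_sound _ 3 [(rh9890f9d77740bbed.shift 1 0), rhd5eb272e07a4e288] (by decide +kernel))
noncomputable def rh6f0f07b70d2847f5 : CRef := CRef.mk (Pat.mk 0xf00000000000000000000000c00000000 0x40000000f00000018000000080000000c00000004 3 5) 0 0 (step_sound _ 99 [(rhd8e3ec04df043c57.shift 2 0), (rhe25b0a99195a5d59.shift 0 3)] (by decide +kernel))
noncomputable def rh8f4050c06a082165 : CRef := CRef.mk (Pat.mk 0x100000003000000010000000200000000 0x20000000300000003000000010000000300000003 3 2) 0 0 (step_sound _ 32 [rh55afc6a59410cf00, rha707fb719e87fe6e] (by decide +kernel))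
noncomputable def rhd6266f445ea81ffc : CRef := CRef.mk (Pat.mk 0x3000000120000001800000010 0x80000000f0000001e0000001800000010 3 5) 0 0 (step_sound _ 67 [(rh5419adcd928dba20.shift 0 2), rh8419e81d3e2ed573] (by decide +kernel))
noncomputable def rh87cc7ac0bbadee52 : CRef := CRef.mk (Pat.mk 0x1700000010 0x380000001f00000030 3 6) 0 0 (step_sound _ 35 [(rh9890f9d77740bbed.shift 0 1), (rhe25b0a99195a5d59.shift 1 0)] (by decide +kernel))
noncomputable def rh2f2b2654f682833d : CRef := CRef.mk (Pat.mk 0x300000008000000080000000800000008 0x170000001e000000080000000800000008 3 5) 0 0 (step_sound _ 98 [rh0559d70eb713ce2d, (rh50fbb5868c909700.shift 2 0)] (by decide +kernel))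
noncomputable def rhac9dd51bd2afaf42 : CRef := CRef.mk (Pat.mk 0x7000000020000001e 0xf0000003e0000001e 3 6) 0 0 (step_sound _ 36 [(rh33e738c4ed385b9f.shift 1 0), (rhc29273f1bf96f971.shift 0 1)] (by decide +kernel))
noncomputable def rh6706206e08ecae9d : CRef := CRef.mk (Pat.mk 0x100000007c00000002 0x1c0000007f00000003 3 7) 0 0 (step_sound _ 33 [(rhcda1a83d49cc23b4.shift 0 1), rheb0810cc63b001d8] (by decide +kernel))
noncomputable def rh2fb004ba2a90c6bc : CRef := CRef.mk (Pat.mk 0x280000002c0000002000000020 0x10000000380000003f0000002000000020 3 6) 0 0 (step_sound _ 100 [(rh50fbb5868c909700.shift 4 0), (rheea1a90336e79c71.shift 0 2)] (by decide +kernel))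
noncomputable def rhfd56af203115b4a4 : CRef := CRef.mk (Pat.mk 0x800000003000000080000000c00000000 0x10000000180000000f000000080000000c00000004 3 5) 0 0 (step_sound _ 99 [(rh932754581e0f4330.shift 2 0), (rhddcd04bb31546311.shift 0 1)] (by decide +kernel))
noncomputable def rhf8d7935e174329d6 : CRef := CRef.mk (Pat.mk 0x80000001c0000000600000004 0x20000000f0000001e0000000600000004 3 5) 0 0 (step_sound _ 97 [(rh54c49bb299227e8d.shift 0 2), (rh616c75d1b5542aee.shift 1 0), rh8440640876951545, rha358927870346b7d] (by decide +kernel))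
noncomputable def rh2b8d30a06730aa00 : CRef := CRef.mk (Pat.mk 0x40000001c0000000c00000004 0xa0000000f0000001c0000000c00000004 3 5) 0 0 (step_sound _ 99 [rh277b01412deaec89, (rh5c5e593799055d58.shift 2 0)] (by decide +kernel))
noncomputable def rh1b685f21a5f72563 : CRef := CRef.mk (Pat.mk 0xe000000040000001800000008 0x300000003e000000170000001800000008 3 6) 0 0 (step_sound _ 100 [(rh8bba9c09a1e3aa82.shift 1 0), (rhaf9f2efc81a8312b.shift 0 2)] (by decide +kernel))
noncomputable def rh806436f2a8da4241 : CRef := CRef.mk (Pat.mk 0x16000000020000000200000004 0x30000001e000000030000000600000004 3 5) 0 0 (step_sound _ 99 [rh54e2670cb103b129, (rheb0810cc63b001d8.shift 0 2)] (by decide +kernel))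
noncomputable def rhb4af002c06f20d5a : CRef := CRef.mk (Pat.mk 0x10000000030000001800000018 0x18000000180000000f0000001800000018 3 5) 0 0 (step_sound _ 67 [(rh82bd946b1709a78e.shift 3 0), (rhc10214bf3fe8094a.shift 0 1)] (by decide +kernel))
noncomputable def rhb0ec3bbf712aa524 : CRef := CRef.mk (Pat.mk 0x10000000030000000600000006 0x60000001e000000030000000600000006 3 5) 0 0 (step_sound _ 97 [rh04e571695666b5c1, (rh2145e1d24b96a57e.shift 1 0)] (by decide +kernel))
noncomputable def rh7984335eb04740ea : CRef := CRef.mk (Pat.mk 0x200000018000000090000000100000001 0x2000000020000001a0000000f0000000300000001 3 5) 0 0 (step_sound _ 65 [(rh1c62b6193297d9e3.shift 0 2), rhb009278fdd334770] (by decide +kernel))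
noncomputable def rh1e42cdaa2b8276ac : CRef := CRef.mk (Pat.mk 0xe00000014 0x3e00000037 3 6) 0 0 (step_sound _ 36 [rhaf9f2efc81a8312b, (rhe25b0a99195a5d59.shift 1 0)] (by decide +kernel))
noncomputable def rhc6b8be9399e7c6f6 : CRef := CRef.mk (Pat.mk 0x100000001e0000000000000010 0x8000000180000001f0000003000000010 3 6) 0 0 (step_sound _ 36 [rh3d5d828ac8ab1bfc, (rhe25b0a99195a5d59.shift 1 1)] (by decide +kernel))
noncomputable def rh2cc7d62e70c02209 : CRef := CRef.mk (Pat.mk 0x3c00000000 0x70000003e00000007 3 6) 0 0 (step_sound _ 33 [(rhd5eb272e07a4e288.shift 0 1), rheae1728ff4a56756] (by decide +kernel))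
noncomputable def rh17659c9d2e0466f4 : CRef := CRef.mk (Pat.mk 0x1e000000100000001000000010 0x270000003e000000100000001000000010 3 6) 0 0 (step_sound _ 101 [(rh2f68792b6b779e96.shift 4 0), (rhd5eb272e07a4e288.shift 0 3)] (by decide +kernel))
noncomputable def rhda68cdcfe2900fb5 : CRef := CRef.mk (Pat.mk 0x3f000000000000001000000000 0x280000003f000000180000001000000010 3 6) 0 0 (step_sound _ 68 [(rh261f868a429ae0e3.shift 3 0), (rh96851dee118c1ba3.shift 0 2)] (by decide +kernel))
noncomputable def rh463bebd3e3ebaa91 : CRef := CRef.mk (Pat.mk 0xf000000080000000800000000 0x1c0000001f000000080000000800000008 3 5) 0 0 (step_sound _ 3 [(rh50fbb5868c909700.shift 2 0), rh763788a68c67bc0c] (by decide +kernel))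
noncomputable def rhb6f72982232a8164 : CRef := CRef.mk (Pat.mk 0x20000000f 0x3b0000001f 3 6) 0 0 (step_sound _ 4 [rh3244c3cc8379b070, rh9890f9d77740bbed] (by decide +kernel))
noncomputable def rh84d84ec8e59a0da5 : CRef := CRef.mk (Pat.mk 0xf00000002 0x380000001f00000003 3 6) 0 0 (step_sound _ 36 [(rh9890f9d77740bbed.shift 0 1), rheb0810cc63b001d8] (by decide +kernel))
noncomputable def rhc1204ec8d4bdea3f : CRef := CRef.mk (Pat.mk 0x700000004000000040000000600000000 0x50000000700000006000000060000000600000004 3 3) 0 0 (step_sound _ 65 [(rh5c5e593799055d58.shift 1 1), rhc2d24113d3d71f9b] (by decide +kernel))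
noncomputable def rh291a43f919f5465d : CRef := CRef.mk (Pat.mk 0x1a00000008000000080000000800000000 0x1f00000038000000080000000800000008 3 6) 0 0 (step_sound _ 100 [(rh71222050f2c63a3a.shift 3 0), (rhcd6baf37b3e5de21.shift 0 3)] (by decide +kernel))
noncomputable def rh19b1c54bca94e8e7 : CRef := CRef.mk (Pat.mk 0xa000000180000000c 0x1f000000780000000c 3 7) 0 0 (step_sound _ 66 [(rhb739f4f82bb681b4.shift 0 1), (rhc628f7de140e299c.shift 1 0)] (by decide +kernel))
noncomputable def rha78b56add5e71b64 : CRef := CRef.mk (Pat.mk 0xe0000000a000000080000000800000000 0x1e0000003b000000080000000800000008 3 6) 0 0 (step_sound _ 132 [(rh78eadeed1cc7dfb8.shift 1 0), (rheb0810cc63b001d8.shift 0 3)] (by decide +kernel))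
noncomputable def rh75b5362c65fd1062 : CRef := CRef.mk (Pat.mk 0x400000000000000080000000f00000000 0x40000000c0000000c0000000f00000018 3 5) 0 0 (step_sound _ 3 [(rhd11a856664bceb7a.shift 2 0), rhe25b0a99195a5d59] (by decide +kernel))
noncomputable def rhbf8db6bc06448d66 : CRef := CRef.mk (Pat.mk 0x1e000000100000000000000008 0x300000001f000000180000000800000008 3 6) 0 0 (step_sound _ 132 [(rh33e738c4ed385b9f.shift 1 3), rh5eef509b89b7828e] (by decide +kernel))
noncomputable def rh958cd49a9106c083 : CRef := CRef.mk (Pat.mk 0xf000000080000000000000004 0x180000000f0000000c0000000c00000004 3 5) 0 0 (step_sound _ 131 [(rh33e738c4ed385b9f.shift 0 3), (rhf9582ff5662029e8.shift 2 0)] (by decide +kernel))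
noncomputable def rh374dff4f3719a414 : CRef := CRef.mk (Pat.mk 0x20000000200000002000000020000000100000000 0x1000000030000000300000002000000020000000300000001 3 2) 0 0 (step_sound _ 33 [(rh3ca48e2a6d60153d.shift 0 1), rh932754581e0f4330] (by decide +kernel))
noncomputable def rh934fac0f6c2e83a8 : CRef := CRef.mk (Pat.mk 0x1200000002000000020000000200000002 0x40000001f00000003000000020000000200000002 3 5) 0 0 (step_sound _ 130 [(rh2f68792b6b779e96.shift 1 1), rhb84914a016f5e3ef] (by decide +kernel))
noncomputable def rh999c66e1f1e798df : CRef := CRef.mk (Pat.mk 0x30000000100000001000000010000000000000000 0x30000000300000001000000030000000300000002 3 2) 0 0 (step_sound _ 33 [(rhd3458b32566d63f7.shift 0 1), rhf48d93cb7a9e42c5] (by decide +kernel))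
noncomputable def rh73d4f46a69230cec : CRef := CRef.mk (Pat.mk 0x300000010000000080000000800000008 0x1f0000001c000000080000000800000008 3 5) 0 0 (step_sound _ 99 [(rh2f68792b6b779e96.shift 3 0), rhd1cdfc824da1516c] (by decide +kernel))
noncomputable def rh1eb4a1b3e6d7569b : CRef := CRef.mk (Pat.mk 0x600000012000000100000001000000010 0x80000001e0000001b000000100000001000000010 3 5) 0 0 (step_sound _ 131 [(rhcd4067ca8ca5d45b.shift 0 1), (rhffd04209dc8ea796.shift 3 0)] (by decide +kernel))
noncomputable def rh8c742e142d1c4ef4 : CRef := CRef.mk (Pat.mk 0x1000000010000000020000001600000000 0x1000000010000000330000001e00000008 3 6) 0 0 (step_sound _ 35 [(rh3244c3cc8379b070.shift 0 1), (rhd5b731d5aad98dec.shift 1 0)] (by decide +kernel))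
noncomputable def rhcde3c6e5fb915fb0 : CRef := CRef.mk (Pat.mk 0x400000004000000000000000700000008 0x40000000c000000180000000f00000018 3 5) 0 0 (step_sound _ 35 [rhb5df3e7f22ccacad, rhe25b0a99195a5d59] (by decide +kernel))
noncomputable def rh50fc3837f5e8c53a : CRef := CRef.mk (Pat.mk 0x200000002000000020000000600000000 0x20000000200000002000000070000000700000001 3 3) 0 0 (step_sound _ 161 [rh7928877f9bf74a91, (rhd3458b32566d63f7.shift 1 1)] (by decide +kernel))
noncomputable def rh2425f70e2f5fab7e : CRef := CRef.mk (Pat.mk 0x16000000020000001000000010 0x80000001e000000330000001000000010 3 6) 0 0 (step_sound _ 99 [(rhdad6fb8687a5e7f2.shift 1 0), (rheb0810cc63b001d8.shift 0 2)] (by decide +kernel))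
noncomputable def rh888f07c7386f44c3 : CRef := CRef.mk (Pat.mk 0x80000000800000008000000080000000500000000 0x80000000800000008000000180000001f00000004 3 5) 0 0 (step_sound _ 35 [(rh1ad83ca1ae0bac62.shift 0 1), (rh932754581e0f4330.shift 2 0)] (by decide +kernel))
noncomputable def rh31dc67b6ff2f62dc : CRef := CRef.mk (Pat.mk 0x400000008000000080000000d0000000000000000 0x40000000c000000080000000f0000001800000010 3 5) 0 0 (step_sound _ 35 [rh2d65c91b9f714cee, (rhffd04209dc8ea796.shift 2 1)] (by decide +kernel))
noncomputable def rhfe9300be1de59db6 : CRef := CRef.mk (Pat.mk 0x800000008000000080000000d0000000000000000 0x800000008000000080000001f0000001800000010 3 5) 0 0 (step_sound _ 36 [(rhd3458b32566d63f7.shift 3 1), rhe1b7f43db1d371d3] (by decide +kernel))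
noncomputable def rh5c1f114f9263cd24 : CRef := CRef.mk (Pat.mk 0x20000000300000002000000000000000200000000 0x30000000300000002000000060000000600000004 3 3) 0 0 (step_sound _ 65 [(rh50fbb5868c909700.shift 0 1), (rhd29a1fb688eae70f.shift 1 0)] (by decide +kernel))
noncomputable def rhd264a9714cbae18b : CRef := CRef.mk (Pat.mk 0x80000000900000009000000010000000100000001 0x180000000f0000001b000000010000000100000001 3 5) 0 0 (step_sound _ 129 [(rhabf575676fe0ef70.shift 0 3), rhbaefcd01e0a8bca3] (by decide +kernel))
noncomputable def rh67ee58800ef2300e : CRef := CRef.mk (Pat.mk 0x1000000018000000100000000300000006 0x1000000018000000180000001b0000001e 3 5) 0 0 (step_sound _ 3 [rhf48373e13d2bc128, (rhf9582ff5662029e8.shift 3 0)] (by decide +kernel))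
noncomputable def rhb8407345275ab4ca : CRef := CRef.mk (Pat.mk 0x200000012000000160000001000000010 0xb0000003e000000160000001000000010 3 6) 0 0 (step_sound _ 99 [(rh0ea7de2da709317e.shift 0 2), (rh50fbb5868c909700.shift 3 0)] (by decide +kernel))
noncomputable def rh76e5a31d6e334fd2 : CRef := CRef.mk (Pat.mk 0x200000012000000100000001000000010 0xb0000001e000000300000001000000010 3 6) 0 0 (step_sound _ 99 [(rh50fbb5868c909700.shift 3 0), (rh7174a5174d2fbf5b.shift 0 2)] (by decide +kernel))
noncomputable def rh8288d9644328b41d : CRef := CRef.mk (Pat.mk 0x600000006000000030000001000000000 0x600000006000000030000001e00000006 3 5) 0 0 (step_sound _ 33 [(rh71222050f2c63a3a.shift 1 0), rhf8edb192cdea7ada] (by decide +kernel))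
noncomputable def rh04dd406aec75c8ab : CRef := CRef.mk (Pat.mk 0x800000000000000100000001e00000000 0x800000008000000180000001f00000030 3 6) 0 0 (step_sound _ 4 [rhd06dd3691c96d7cc, (rhe25b0a99195a5d59.shift 1 0)] (by decide +kernel))
noncomputable def rhd8e950e561f8c836 : CRef := CRef.mk (Pat.mk 0x12000000120000001000000010 0x80000001e000000330000001000000010 3 6) 0 0 (step_sound _ 99 [(rh50fbb5868c909700.shift 3 0), (rhbf14f049e425ac01.shift 0 2)] (by decide +kernel))
noncomputable def rh8aec56c4ee12918c : CRef := CRef.mk (Pat.mk 0x60000000200000002000000020000000000000000 0x60000000600000002000000030000000300000001 3 3) 0 0 (step_sound _ 32 [rh599ad1a27924c7d1, (rh79877ebd3ef475dd.shift 0 1)] (by decide +kernel))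
noncomputable def rhf8d29f3cbeaf06f7 : CRef := CRef.mk (Pat.mk 0x600000007000000040000000000000000 0x80000001e00000007000000040000000400000004 3 5) 0 0 (step_sound _ 34 [(rh712526e472efe489.shift 0 1), (rh7b1f1fb55310c477.shift 1 0)] (by decide +kernel))
noncomputable def rh72ce697a3a7a83f7 : CRef := CRef.mk (Pat.mk 0x200000002000000020000000300000000 0x20000000200000002000000070000000700000004 3 3) 0 0 (step_sound _ 161 [(rh79877ebd3ef475dd.shift 0 1), (rhd29a1fb688eae70f.shift 1 0)] (by decide +kernel))
noncomputable def rh80ab4241284bd675 : CRef := CRef.mk (Pat.mk 0xf00000000000000080000000400000000 0x40000000f00000018000000080000000c00000004 3 5) 0 0 (step_sound _ 99 [(rha3c02ab1a397c44e.shift 2 0), (rhe25b0a99195a5d59.shift 0 3)] (by decide +kernel))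
noncomputable def rh5410b6b3ceda500c : CRef := CRef.mk (Pat.mk 0x100000006000000060000000200000000 0x30000000300000006000000060000000600000004 3 3) 0 0 (step_sound _ 129 [(rh50fbb5868c909700.shift 0 1), (rh55a1f6c57a317ce6.shift 1 0)] (by decide +kernel))
noncomputable def rhec2955f76c307292 : CRef := CRef.mk (Pat.mk 0x200000003000000000000000300000000 0x20000000300000003000000010000000300000003 3 2) 0 0 (step_sound _ 64 [rh55c8fae470e8430a, rh71222050f2c63a3a] (by decide +kernel))
noncomputable def rhfafeb437ceb8396d : CRef := CRef.mk (Pat.mk 0x20000000200000003000000000000000000000000 0x2000000020000000300000003000000010000000100000001 3 2) 0 0 (step_sound _ 64 [(rh5c5e593799055d58.shift 0 2), rhf9af042da61fc652] (by decide +kernel))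
noncomputable def rhc342ddf6d598854b : CRef := CRef.mk (Pat.mk 0x60000000e0000000b0000000200000000 0x60000000e0000000b0000001e0000000c 3 5) 0 0 (step_sound _ 35 [rh6a56790be92093bf, (rh7b1f1fb55310c477.shift 2 0)] (by decide +kernel))
noncomputable def rh81722d4276d1ff59 : CRef := CRef.mk (Pat.mk 0x3000000070000001d0000000100000000 0x3000000070000001d0000000f00000006 3 5) 0 0 (step_sound _ 34 [(rh7b1f1fb55310c477.shift 1 0), rhcd8dbd089a9338ee] (by decide +kernel))
noncomputable def rh525b9792321e9079 : CRef := CRef.mk (Pat.mk 0x100000001e000000100000000000000000 0x10000000100000001f000000180000000800000008 3 5) 0 0 (step_sound _ 67 [(rh1e309b005ffa1b36.shift 3 0), (rhb739f4f82bb681b4.shift 0 2)] (by decide +kernel))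
noncomputable def rhc67cac0f58da235d : CRef := CRef.mk (Pat.mk 0x1000000010000000900000007 0x100000001000000010000001b0000001f 3 5) 0 0 (step_sound _ 3 [rh33e738c4ed385b9f, rhc9ca25976740a074] (by decide +kernel))
noncomputable def rhbeb3da6e65bdb5c7 : CRef := CRef.mk (Pat.mk 0x2000000020000001200000006 0x200000002000000030000001e00000007 3 5) 0 0 (step_sound _ 34 [(rh2145e1d24b96a57e.shift 1 0), rh51246ab843efda05] (by decide +kernel))
noncomputable def rh0bcc79e3668262a3 : CRef := CRef.mk (Pat.mk 0x2000000020000001200000006 0x200000002000000020000003e00000007 3 6) 0 0 (step_sound _ 34 [(rh2145e1d24b96a57e.shift 1 0), rhd11dc6dd83191698] (by decide +kernel))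
noncomputable def rh19a39396afa75eef : CRef := CRef.mk (Pat.mk 0x1000000010000000100000001300000000 0x1000000010000000380000001f00000008 3 6) 0 0 (step_sound _ 35 [(rh01f3f9b1b4af75f2.shift 0 1), (rh932754581e0f4330.shift 3 0)] (by decide +kernel))
noncomputable def rhbbb6dedc7eb1de19 : CRef := CRef.mk (Pat.mk 0xc00000000000000000000000f00000008 0x40000000c0000000c000000180000000f00000008 3 5) 0 0 (step_sound _ 67 [(rh33e738c4ed385b9f.shift 0 1), (rhb782824a29123179.shift 2 0)] (by decide +kernel))
noncomputable def rhc28af30c68bc26bc : CRef := CRef.mk (Pat.mk 0xc00000000000000080000000700000000 0x40000000c00000008000000180000000f00000004 3 5) 0 0 (step_sound _ 35 [(rh33e738c4ed385b9f.shift 0 1), (rh4176b1306bc070ea.shift 2 0)] (by decide +kernel))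
noncomputable def rh3fdb834d0309034b : CRef := CRef.mk (Pat.mk 0xc00000000000000080000000f00000000 0x40000000c0000000c000000080000000f00000018 3 5) 0 0 (step_sound _ 99 [(rh50fbb5868c909700.shift 2 1), rhfc73b9f9592b9946] (by decide +kernel))
noncomputable def rh462e38951f77e0b1 : CRef := CRef.mk (Pat.mk 0xf000000000000001800000000 0x180000000f000000180000001800000010 3 5) 0 0 (step_sound _ 67 [rh7e2967714be94ca8, (rhe25b0a99195a5d59.shift 0 2)] (by decide +kernel))
noncomputable def rh0e2cddddafe6254b : CRef := CRef.mk (Pat.mk 0x1e00000010 0x380000001f00000018 3 6) 0 0 (step_sound _ 68 [(rh33e738c4ed385b9f.shift 1 1), rhef7515d0e7cb1d2b] (by decide +kernel))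
noncomputable def rha52e0141694f1c7d : CRef := CRef.mk (Pat.mk 0x100000002000000030000000200000000 0x30000000300000002000000030000000300000001 3 2) 0 0 (step_sound _ 129 [rh03dfdf12d5937476, (rh50fbb5868c909700.shift 0 1)] (by decide +kernel))
noncomputable def rh1aef4a1c03bfe1bb : CRef := CRef.mk (Pat.mk 0x10000000100000000000000010000000100000000 0x2000000030000000300000001000000030000000300000002 3 2) 0 0 (step_sound _ 96 [(rh44f453b84f013105.shift 0 1), rhd29a1fb688eae70f] (by decide +kernel))
noncomputable def rh301a6b3a9154ed36 : CRef := CRef.mk (Pat.mk 0x10000000300000001000000010000000000000000 0x30000000300000001000000030000000300000002 3 2) 0 0 (step_sound _ 32 [(rh2f68792b6b779e96.shift 0 1), rhd29a1fb688eae70f] (by decide +kernel))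
noncomputable def rh4a2be0f3b680dec3 : CRef := CRef.mk (Pat.mk 0x40000001c000000050000001400000000 0x40000001e000000070000003c00000008 3 6) 0 0 (step_sound _ 35 [(rh55afc6a59410cf00.shift 2 0), (rh6a0b6121ea56bdf6.shift 0 1)] (by decide +kernel))
noncomputable def rh9ad510371aedb3ca : CRef := CRef.mk (Pat.mk 0x60000000300000010000000100000001000000010 0x1e0000001b00000018000000100000001000000010 3 5) 0 0 (step_sound _ 163 [(rh18965a982d73c794.shift 0 4), (rh408bd6d6e2c43300.shift 3 0)] (by decide +kernel))
noncomputable def rhbc6cd0fa58e1e9dd : CRef := CRef.mk (Pat.mk 0x1000000010000000100000001200000002 0x1000000010000000300000001e0000000b 3 6) 0 0 (step_sound _ 35 [rh760717e835f8c2f3, (rh932754581e0f4330.shift 3 0)] (by decide +kernel))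
noncomputable def rh98297410a639a85a : CRef := CRef.mk (Pat.mk 0xf00000008000000080000000800000000 0x180000000f00000008000000180000001800000010 3 5) 0 0 (step_sound _ 163 [(rh33e738c4ed385b9f.shift 0 4), (rhd29a1fb688eae70f.shift 3 0)] (by decide +kernel))
noncomputable def rh9e79f2d2c32bd380 : CRef := CRef.mk (Pat.mk 0x13000000120000000200000002 0x40000001f0000003a0000000200000002 3 6) 0 0 (step_sound _ 98 [(rh2f68792b6b779e96.shift 1 0), (rhc13e87f7835e0776.shift 0 2)] (by decide +kernel))
noncomputable def rh7ae42042e41781d5 : CRef := CRef.mk (Pat.mk 0x800000008000000090000000d00000000 0x8000000080000001b0000001f00000010 3 5) 0 0 (step_sound _ 36 [(rh0fcc3ef75049478a.shift 0 1), (rh55afc6a59410cf00.shift 3 0)] (by decide +kernel))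
noncomputable def rh712368f7c54d3420 : CRef := CRef.mk (Pat.mk 0x10000000900000009000000090000000900000000 0x100000009000000090000001b0000000f00000004 3 5) 0 0 (step_sound _ 34 [(rh2ce0f2b595a365d2.shift 0 1), (rh932754581e0f4330.shift 2 0)] (by decide +kernel))
noncomputable def rh56baa0110b4515a2 : CRef := CRef.mk (Pat.mk 0x40000000700000005000000010000000100000000 0x40000000700000007000000070000000300000002 3 3) 0 0 (step_sound _ 33 [rh55afc6a59410cf00, (rhf9582ff5662029e8.shift 1 1)] (by decide +kernel))
noncomputable def rhecaed3a52e40dbb9 : CRef := CRef.mk (Pat.mk 0x13000000100000001000000010 0x80000001f000000380000001000000010 3 6) 0 0 (step_sound _ 99 [(rh3a5ef914c1f22b95.shift 0 2), (rh50fbb5868c909700.shift 3 0)] (by decide +kernel))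
noncomputable def rh14084a7905a61f95 : CRef := CRef.mk (Pat.mk 0x800000008000000080000001900000000 0x80000000800000008000000180000001f00000004 3 5) 0 0 (step_sound _ 34 [(rh932754581e0f4330.shift 2 0), (rhe5908d035b5e6363.shift 0 1)] (by decide +kernel))
noncomputable def rh8d3134ae48e30f98 : CRef := CRef.mk (Pat.mk 0x400000000000000060000000700000000 0x400000004000000070000003f00000018 3 6) 0 0 (step_sound _ 35 [rh3098af7943687178, (rh79b3c29022acbdf3.shift 0 1)] (by decide +kernel))
noncomputable def rh0ff7ca71cb891e23 : CRef := CRef.mk (Pat.mk 0x200000003000000030000000200000000 0x2000000020000000200000003000000070000000600000004 3 3) 0 0 (step_sound _ 34 [(rh493ba90d7b88e72e.shift 0 1), (rh55afc6a59410cf00.shift 1 0)] (by decide +kernel))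
noncomputable def rh64a83c5c5f058052 : CRef := CRef.mk (Pat.mk 0x7000000100000001000000010 0x180000001f000000180000001000000010 3 5) 0 0 (step_sound _ 99 [rh6ba37bc3548d13d1, (rh96851dee118c1ba3.shift 0 2)] (by decide +kernel))
noncomputable def rh2669f2410bcd13b7 : CRef := CRef.mk (Pat.mk 0x800000007000000000000000c00000000 0x180000000f000000180000000c00000004 3 5) 0 0 (step_sound _ 99 [(rh33e738c4ed385b9f.shift 0 3), rhd649337939d95a05] (by decide +kernel))
noncomputable def rh9712ea8d4bb883c2 : CRef := CRef.mk (Pat.mk 0x7000000080000000c00000000 0x180000000f000000180000000c00000004 3 5) 0 0 (step_sound _ 99 [rh664c8f4d02ce4add, (rhe25b0a99195a5d59.shift 0 2)] (by decide +kernel))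
noncomputable def rhb44429f4a4392b5e : CRef := CRef.mk (Pat.mk 0x1000000010000000180000001200000000 0x1000000010000000380000001f00000008 3 6) 0 0 (step_sound _ 35 [(rh6d571b54e8dd9e33.shift 0 1), (rh932754581e0f4330.shift 3 0)] (by decide +kernel))
noncomputable def rhbbbfdd1dcef7d67e : CRef := CRef.mk (Pat.mk 0x1000000010000000100000000700000000 0x1000000010000000380000001f00000008 3 6) 0 0 (step_sound _ 35 [(rh2e0ab4c6ccd906b7.shift 1 0), (rh428265de8cd3cd2d.shift 0 1)] (by decide +kernel))
noncomputable def rh5c651669912fbab1 : CRef := CRef.mk (Pat.mk 0x20000000300000002000000020000000000000000 0x30000000300000002000000060000000600000004 3 3) 0 0 (step_sound _ 33 [(rh50fbb5868c909700.shift 0 1), (rhd29a1fb688eae70f.shift 1 0)] (by decide +kernel))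
noncomputable def rhe91bee7c69a3fd21 : CRef := CRef.mk (Pat.mk 0x100000001c000000150000001400000000 0x100000001e000000170000003c00000020 3 6) 0 0 (step_sound _ 37 [(rh55afc6a59410cf00.shift 4 0), (rhfc6b135d51459869.shift 0 1)] (by decide +kernel))
noncomputable def rhfc326055ff4c5110 : CRef := CRef.mk (Pat.mk 0x20000000a00000006000000020000000200000000 0x30000003e00000006000000020000000200000002 3 6) 0 0 (step_sound _ 130 [(rh71222050f2c63a3a.shift 1 0), (rhb762f327c85d41a0.shift 0 3)] (by decide +kernel))
noncomputable def rh57de2bd817fe9a4e : CRef := CRef.mk (Pat.mk 0x3000000120000000e 0x30000003e0000003e 3 6) 0 0 (step_sound _ 34 [(rh2fe78cc5ca4405d8.shift 0 1), (rheff610e725081997.shift 1 0)] (by decide +kernel))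
noncomputable def rh9fd75452c654de9b : CRef := CRef.mk (Pat.mk 0xe000000080000000800000010 0x10000000180000000f000000080000001800000010 3 5) 0 0 (step_sound _ 131 [(rhd3458b32566d63f7.shift 3 0), (rhdab32775f5c78fcf.shift 0 1)] (by decide +kernel))
noncomputable def rh1eeec04e73117746 : CRef := CRef.mk (Pat.mk 0x4000000070000000400000004 0x80000003e000000070000000400000004 3 6) 0 0 (step_sound _ 99 [(rh2f68792b6b779e96.shift 2 0), (rh80f90a60d87caa0d.shift 0 2)] (by decide +kernel))
noncomputable def rhf5d79617814d6ea1 : CRef := CRef.mk (Pat.mk 0xf000000080000000000000008 0x1c0000001f000000080000000800000008 3 5) 0 0 (step_sound _ 35 [(rh50fbb5868c909700.shift 2 0), rh763788a68c67bc0c] (by decide +kernel))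
noncomputable def rha0e9bf4f2fe2c0ad : CRef := CRef.mk (Pat.mk 0x100000001e000000100000000000000000 0x8000000180000001f000000100000001000000010 3 5) 0 0 (step_sound _ 131 [(rh3cb04db3dd2b6a55.shift 3 0), (rh53b3c253cb0c65f4.shift 0 3)] (by decide +kernel))
noncomputable def rh226c77bf3a556df8 : CRef := CRef.mk (Pat.mk 0xf00000002000000020000000c00000000 0xf0000001a0000000a0000000e00000004 3 5) 0 0 (step_sound _ 99 [(rhe09b055da6de5a35.shift 1 0), (rhe25b0a99195a5d59.shift 0 3)] (by decide +kernel))
noncomputable def rh13104bf9491e5713 : CRef := CRef.mk (Pat.mk 0x200000002000000020000000e0000000000000000 0x200000002000000020000001f0000000300000001 3 5) 0 0 (step_sound _ 32 [rh54d1d3f05f0ed5a2, (rh79877ebd3ef475dd.shift 0 1)] (by decide +kernel))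
noncomputable def rhe4b19869b6b07514 : CRef := CRef.mk (Pat.mk 0xf00000008000000000000001800000000 0x180000000f00000008000000180000001800000010 3 5) 0 0 (step_sound _ 67 [(rh55afc6a59410cf00.shift 3 0), (rhb2c64de0843f272c.shift 0 1)] (by decide +kernel))
noncomputable def rh6cfbe28dec8191c5 : CRef := CRef.mk (Pat.mk 0x200000002000000020000001c00000020 0x200000002000000020000001f00000033 3 6) 0 0 (step_sound _ 33 [(rh96851dee118c1ba3.shift 1 0), rha37779f9238271b6] (by decide +kernel))
noncomputable def rh0216c2fed2807390 : CRef := CRef.mk (Pat.mk 0x200000002000000220000001c00000000 0x200000002000000320000001f00000003 3 6) 0 0 (step_sound _ 33 [(rh428265de8cd3cd2d.shift 1 1), rha37779f9238271b6] (by decide +kernel))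
noncomputable def rhcdeab269a45ac15f : CRef := CRef.mk (Pat.mk 0x200000002000000120000001c00000000 0x200000002000000320000001f00000003 3 6) 0 0 (step_sound _ 33 [(rh33e738c4ed385b9f.shift 1 1), rha37779f9238271b6] (by decide +kernel))
noncomputable def rh959c5c144c3e25cf : CRef := CRef.mk (Pat.mk 0x200000002000000020000001c00000010 0x200000002000000020000001f00000033 3 6) 0 0 (step_sound _ 33 [rha37779f9238271b6, (rhe25b0a99195a5d59.shift 1 0)] (by decide +kernel))
noncomputable def rha227e5c849a93908 : CRef := CRef.mk (Pat.mk 0x20000000200000002000000000000000200000000 0x4000000060000000600000002000000030000000300000001 3 3) 0 0 (step_sound _ 65 [(rh44f453b84f013105.shift 1 1), rh7928877f9bf74a91] (by decide +kernel))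
noncomputable def rh576a263695f5bb82 : CRef := CRef.mk (Pat.mk 0x20000000200000002000000000000000200000000 0x1000000030000000300000002000000030000000300000001 3 2) 0 0 (step_sound _ 65 [(rh3ca48e2a6d60153d.shift 0 1), rh7928877f9bf74a91] (by decide +kernel))
noncomputable def rh52f3c49a784e737b : CRef := CRef.mk (Pat.mk 0x1c0000000a0000000000000008 0x300000001e0000000b0000000800000008 3 6) 0 0 (step_sound _ 97 [(rh63bb75a038171f49.shift 1 0), (rheb0810cc63b001d8.shift 0 2)] (by decide +kernel))
noncomputable def rh2b4d888fb0c67d76 : CRef := CRef.mk (Pat.mk 0x40000001c00000002 0x70000003e00000003 3 6) 0 0 (step_sound _ 33 [(rhe3060b190bc0bc78.shift 0 1), rheb0810cc63b001d8] (by decide +kernel))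
noncomputable def rh3704215d5390e7fb : CRef := CRef.mk (Pat.mk 0x20000000000000007000000050000000000000000 0x2000000020000000200000007000000070000000400000004 3 3) 0 0 (step_sound _ 129 [(rh5c5e593799055d58.shift 0 2), (rh79ad7b82ec8c35e2.shift 1 0)] (by decide +kernel))
noncomputable def rhd302a01a4e6865cd : CRef := CRef.mk (Pat.mk 0x20000000000000007000000050000000000000000 0x2000000020000000600000007000000050000000400000004 3 3) 0 0 (step_sound _ 129 [(rh08edf065357d68e5.shift 1 0), (rh5c5e593799055d58.shift 0 2)] (by decide +kernel))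
noncomputable def rhe443475c6fff10d6 : CRef := CRef.mk (Pat.mk 0x300000006000000060000000000000000 0x50000000700000006000000060000000200000002 3 3) 0 0 (step_sound _ 33 [(rh50fbb5868c909700.shift 0 1), (rh84d1c02a8954c6a8.shift 1 0)] (by decide +kernel))
noncomputable def rhf71cb1a94bedb48c : CRef := CRef.mk (Pat.mk 0x200000007000000050000000000000000 0x2000000020000000600000007000000050000000400000004 3 3) 0 0 (step_sound _ 161 [(rh08edf065357d68e5.shift 1 0), (rh5c5e593799055d58.shift 0 2)] (by decide +kernel))
noncomputable def rh2349c2e7487d5ee6 : CRef := CRef.mk (Pat.mk 0x800000008000000090000000c00000000 0x800000008000000080000000f0000001c00000010 3 5) 0 0 (step_sound _ 66 [rh2d65c91b9f714cee, (rh5c5e593799055d58.shift 2 1)] (by decide +kernel))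
noncomputable def rhd0782bcc7d08fb46 : CRef := CRef.mk (Pat.mk 0x3c00000010 0x70000003e00000030 3 6) 0 0 (step_sound _ 65 [(rh3f8766e6ecb455ce.shift 1 1), rhc6055bb2ecf924ac] (by decide +kernel))
noncomputable def rh3694ccc47a1810b0 : CRef := CRef.mk (Pat.mk 0x7000000030000000400000004 0x180000001f000000070000000400000004 3 5) 0 0 (step_sound _ 99 [(rh18965a982d73c794.shift 0 2), rh4fc80024ed3db095] (by decide +kernel))
noncomputable def rh1a73e645d9e9563b : CRef := CRef.mk (Pat.mk 0xe000000020000000800000008 0x300000001e0000000b0000000800000008 3 6) 0 0 (step_sound _ 100 [(rh4fc80024ed3db095.shift 1 0), (rheb0810cc63b001d8.shift 0 2)] (by decide +kernel))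
noncomputable def rh60e95adc726bb530 : CRef := CRef.mk (Pat.mk 0x10000000f00000000 0x30000001f00000038 3 6) 0 0 (step_sound _ 4 [rh6b86f2178b913204, rh96851dee118c1ba3] (by decide +kernel))
noncomputable def rhacc68be93f66d467 : CRef := CRef.mk (Pat.mk 0x20000000200000002000000020000000a00000002 0x20000000200000002000000070000001e00000003 3 5) 0 0 (step_sound _ 34 [(rhd3458b32566d63f7.shift 1 1), rhd9106766b9ff53c0] (by decide +kernel))
noncomputable def rhcc8f9927b4dba1fd : CRef := CRef.mk (Pat.mk 0x30000000200000008000000180000000800000000 0x1b0000001e00000008000000180000001800000010 3 5) 0 0 (step_sound _ 131 [(rh92849c133feb679d.shift 0 1), (rhd4b4beefcd67f51e.shift 3 0)] (by decide +kernel))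
noncomputable def rh9ebd639649ea671c : CRef := CRef.mk (Pat.mk 0xa00000018 0x1f00000078 3 7) 0 0 (step_sound _ 34 [(rh4a0b10776449c3e9.shift 1 0), rhb739f4f82bb681b4] (by decide +kernel))
noncomputable def rhb262cf03e94eb268 : CRef := CRef.mk (Pat.mk 0x6000000030000000c0000000c 0xc0000001e0000000b0000000c0000000c 3 5) 0 0 (step_sound _ 99 [(rh18965a982d73c794.shift 0 2), (rh4c61a8d65f05c464.shift 2 0)] (by decide +kernel))
noncomputable def rha91d406a344da597 : CRef := CRef.mk (Pat.mk 0x100000001c0000000600000004 0x2000000330000001e0000000600000004 3 6) 0 0 (step_sound _ 65 [rh309fd0c3d364cd61, (rh33e738c4ed385b9f.shift 1 2)] (by decide +kernel))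
noncomputable def rheb90acdf362e49d3 : CRef := CRef.mk (Pat.mk 0x7000000080000000800000008 0x180000001f000000180000000800000008 3 5) 0 0 (step_sound _ 99 [rh763788a68c67bc0c, (rhe25b0a99195a5d59.shift 0 2)] (by decide +kernel))
noncomputable def rh3291a16da3e95ed8 : CRef := CRef.mk (Pat.mk 0x4000000040000001400000012 0x400000004000000040000001e00000033 3 6) 0 0 (step_sound _ 33 [(rh5c5e593799055d58.shift 1 0), rhcaa7ba44a31c4370] (by decide +kernel))
noncomputable def rh18272e02605cb3e5 : CRef := CRef.mk (Pat.mk 0x20000000200000002000000020000000a00000008 0x20000000200000002000000070000000f00000018 3 5) 0 0 (step_sound _ 34 [rhade2633559ae44b2, (rhd3458b32566d63f7.shift 1 1)] (by decide +kernel))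
noncomputable def rh83ec37ff6e78b01f : CRef := CRef.mk (Pat.mk 0x600000018 0x1f00000078 3 7) 0 0 (step_sound _ 35 [(rh4a0b10776449c3e9.shift 1 0), rhb739f4f82bb681b4] (by decide +kernel))
noncomputable def rh3e55a5642f206aaa : CRef := CRef.mk (Pat.mk 0x600000018 0xf0000007c 3 7) 0 0 (step_sound _ 35 [(rh89ade209b3e28f13.shift 1 0), rhb739f4f82bb681b4] (by decide +kernel))
noncomputable def rh8c12fdbbddc1e7ab : CRef := CRef.mk (Pat.mk 0x400000038 0x1f00000078 3 7) 0 0 (step_sound _ 35 [rhc02b3aee7ab87ee1, (rhf48373e13d2bc128.shift 2 0)] (by decide +kernel))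
noncomputable def rh969f3c6b06e87f8b : CRef := CRef.mk (Pat.mk 0x3c00000002 0x700000003e00000003 3 7) 0 0 (step_sound _ 69 [(rh33e738c4ed385b9f.shift 2 1), rhd6f64f2d70aac170] (by decide +kernel))
noncomputable def rh8c590dcbef2e4cc5 : CRef := CRef.mk (Pat.mk 0x3c00000002 0x3e00000073 3 7) 0 0 (step_sound _ 5 [rh904f7fcbaab6c494, (rhe25b0a99195a5d59.shift 2 0)] (by decide +kernel))
noncomputable def rh89541de5a22835bc : CRef := CRef.mk (Pat.mk 0x1e00000008 0x380000001f00000018 3 6) 0 0 (step_sound _ 68 [(rh33e738c4ed385b9f.shift 1 1), rhe3dc93746cbe6e7c] (by decide +kernel))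
noncomputable def rha7e5d40962400740 : CRef := CRef.mk (Pat.mk 0x800000008000000030000000600000004 0xa0000001e000000070000000600000004 3 5) 0 0 (step_sound _ 98 [(rh04253f50b6dd0619.shift 2 0), rh0e40e213923dfc13] (by decide +kernel))
noncomputable def rhf0a78ffe77b34783 : CRef := CRef.mk (Pat.mk 0x280000000c00000018 0x7c0000000f00000018 3 7) 0 0 (step_sound _ 33 [(rh4fd54f6717f3e7ac.shift 1 1), rhb739f4f82bb681b4] (by decide +kernel))
noncomputable def rhfe3b4040a5e9fe0b : CRef := CRef.mk (Pat.mk 0x1c0000001600000004 0x2000000030000001e0000003600000004 3 6) 0 0 (step_sound _ 65 [rh309fd0c3d364cd61, (rhe25b0a99195a5d59.shift 1 1)] (by decide +kernel))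
noncomputable def rh285e15fe8a0693b9 : CRef := CRef.mk (Pat.mk 0xc00000004000000070000000200000000 0x80000000c00000004000000070000001e00000008 3 5) 0 0 (step_sound _ 34 [(rh2f68792b6b779e96.shift 2 1), rh42afa1af9fffa0e1] (by decide +kernel))
noncomputable def rh7f386d483b240640 : CRef := CRef.mk (Pat.mk 0xc00000009000000080000000800000000 0x100000001c0000000f000000080000000800000008 3 5) 0 0 (step_sound _ 98 [(rh7b1f1fb55310c477.shift 2 0), (rh7e143111a189f2ad.shift 0 1)] (by decide +kernel))
noncomputable def rh0f936b2c74e7b815 : CRef := CRef.mk (Pat.mk 0xe0000000600000004 0x2000000030000003e0000000600000004 3 6) 0 0 (step_sound _ 68 [(rh18965a982d73c794.shift 1 1), rh309fd0c3d364cd61] (by decide +kernel))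
noncomputable def rh843bff6684423d9b : CRef := CRef.mk (Pat.mk 0x6000000010000000700000002 0x20000000600000006000000030000000700000006 3 3) 0 0 (step_sound _ 65 [(rh2f68792b6b779e96.shift 1 0), rh571950d89739e871] (by decide +kernel))
noncomputable def rh4a3deee95fc10b60 : CRef := CRef.mk (Pat.mk 0xf00000002000000060000000200000000 0x180000000f00000006000000060000000600000004 3 5) 0 0 (step_sound _ 34 [(rh4fc80024ed3db095.shift 0 1), (rh55afc6a59410cf00.shift 1 0)] (by decide +kernel))
noncomputable def rhbe6166da57a5bb98 : CRef := CRef.mk (Pat.mk 0x600000002800000038 0x600000003f0000003c 3 7) 0 0 (step_sound _ 34 [(rh1c62b6193297d9e3.shift 2 1), rhdbcea10a0fbe5ba6] (by decide +kernel))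
noncomputable def rhda9a6ac589d9ac52 : CRef := CRef.mk (Pat.mk 0x160000001a00000008 0x10000000300000001e0000001b00000008 3 6) 0 0 (step_sound _ 100 [(rh1dc3e866f7ab4752.shift 0 1), (rh5c5e593799055d58.shift 3 0)] (by decide +kernel))
noncomputable def rhc5dd75e340e3755b : CRef := CRef.mk (Pat.mk 0x30000000180000001c0000000600000004 0x320000001f0000001e0000000600000004 3 6) 0 0 (step_sound _ 97 [(rh24ae073cf30720c4.shift 1 3), rh8440640876951545] (by decide +kernel))
noncomputable def rhe32601bd65ae7334 : CRef := CRef.mk (Pat.mk 0x1a0000000a 0x1f0000003b 3 6) 0 0 (step_sound _ 34 [rha03f6e28ea70fc7d, rheb0810cc63b001d8] (by decide +kernel))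
noncomputable def rh5f6f4b204f5806fb : CRef := CRef.mk (Pat.mk 0x20000001a00000008 0x30000001f00000038 3 6) 0 0 (step_sound _ 34 [(rh3244c3cc8379b070.shift 0 1), rha03f6e28ea70fc7d] (by decide +kernel))
noncomputable def rh43ae144440a96f18 : CRef := CRef.mk (Pat.mk 0x40000000200000002000000020000000200000000 0x4000000060000000200000002000000030000000300000001 3 3) 0 0 (step_sound _ 161 [(rh2f68792b6b779e96.shift 1 2), rh7928877f9bf74a91] (by decide +kernel))
noncomputable def rha760027789299d62 : CRef := CRef.mk (Pat.mk 0x700000008000000180000000800000000 0x80000000f00000018000000180000001800000010 3 5) 0 0 (step_sound _ 131 [(rhd4b4beefcd67f51e.shift 3 0), (rhe25b0a99195a5d59.shift 0 3)] (by decide +kernel))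
noncomputable def rh5e64ed83648ccede : CRef := CRef.mk (Pat.mk 0x380000002800000060 0x3c0000003f00000060 3 7) 0 0 (step_sound _ 34 [(rh1ed7a3503fa50fc8.shift 0 1), (rhc10214bf3fe8094a.shift 2 0)] (by decide +kernel))
noncomputable def rhe4a366042fc12c92 : CRef := CRef.mk (Pat.mk 0x60000000a0000001b0000000800000000 0x80000000f0000001e0000001b0000001800000010 3 5) 0 0 (step_sound _ 131 [(rhd4b4beefcd67f51e.shift 3 0), (rhdf8f7a92a2d46ec7.shift 0 2)] (by decide +kernel))
noncomputable def rh5a79679a2bc404fc : CRef := CRef.mk (Pat.mk 0xc0000002800000060 0x1f0000003c00000060 3 7) 0 0 (step_sound _ 36 [(rhb739f4f82bb681b4.shift 2 0), (rhc02b3aee7ab87ee1.shift 0 1)] (by decide +kernel))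
noncomputable def rh292f408239aaddf7 : CRef := CRef.mk (Pat.mk 0x1e000000020000000a00000018 0x30000001e000000020000000f00000019 3 5) 0 0 (step_sound _ 129 [(rh3244c3cc8379b070.shift 0 3), rhf9a329cc68aa610c] (by decide +kernel))
noncomputable def rh75303cba528a2a56 : CRef := CRef.mk (Pat.mk 0xe0000000a00000010 0xf0000003e00000030 3 6) 0 0 (step_sound _ 36 [(rh5586a945ecc7b9b6.shift 1 0), (rhb739f4f82bb681b4.shift 0 1)] (by decide +kernel))
noncomputable def rha54302d5ccf5246c : CRef := CRef.mk (Pat.mk 0x2000000020000000200000003 0x10000000300000003000000020000000300000003 3 2) 0 0 (step_sound _ 128 [rhd98729bc66308eae, rhffd04209dc8ea796] (by decide +kernel))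
noncomputable def rh6bd371ebe506613d : CRef := CRef.mk (Pat.mk 0x20000000300000002000000000000000200000000 0x30000000300000002000000030000000300000001 3 2) 0 0 (step_sound _ 65 [(rh50fbb5868c909700.shift 0 1), rh7928877f9bf74a91] (by decide +kernel))
noncomputable def rh5b9fd59b4c745572 : CRef := CRef.mk (Pat.mk 0x20000000300000002000000020000000000000002 0x200000002000000020000000300000003000000030000000200000002 3 2) 0 0 (step_sound _ 96 [(rh503dd4575245365b.shift 0 2), rh9e07f76261b05888] (by decide +kernel))
noncomputable def rh7a1fb9e9bbbefc11 : CRef := CRef.mk (Pat.mk 0x4000000020000000200000002000000000000000200000000 0x4000000060000000200000002000000030000000300000001 3 3) 0 0 (step_sound _ 65 [rh7928877f9bf74a91, (rhbaefcd01e0a8bca3.shift 1 2)] (by decide +kernel))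
noncomputable def rh08d50fe567eb1045 : CRef := CRef.mk (Pat.mk 0x200000001000000010000000100000000 0x2000000020000000300000003000000010000000100000001 3 2) 0 0 (step_sound _ 97 [rh71222050f2c63a3a, (rhbfb5770941270498.shift 0 1)] (by decide +kernel))
noncomputable def rh30fb2b4c25596139 : CRef := CRef.mk (Pat.mk 0x40000000200000002000000020000000000000002 0x50000000700000003000000020000000200000002 3 3) 0 0 (step_sound _ 33 [rh3ca48e2a6d60153d, (rhbaefcd01e0a8bca3.shift 1 1)] (by decide +kernel))
noncomputable def rh0cc9faf80a401ce3 : CRef := CRef.mk (Pat.mk 0x10000000200000002000000020000000000000002 0x50000000700000006000000020000000200000002 3 3) 0 0 (step_sound _ 33 [(rh44f453b84f013105.shift 1 0), (rhffd04209dc8ea796.shift 0 1)] (by decide +kernel))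
noncomputable def rh74c4b7a49b7d7017 : CRef := CRef.mk (Pat.mk 0x1000000020000000200000002000000000000000200000000 0x1000000030000000200000002000000030000000300000001 3 2) 0 0 (step_sound _ 65 [rh7928877f9bf74a91, (rhffd04209dc8ea796.shift 0 2)] (by decide +kernel))
noncomputable def rh292e135d17d1e2e1 : CRef := CRef.mk (Pat.mk 0x800000008000000080000001c 0x80000000800000008000000380000001f 3 6) 0 0 (step_sound _ 36 [(rh2145e1d24b96a57e.shift 3 0), rhab2ad169e49f9c5e] (by decide +kernel))
noncomputable def rhb1cd999401f2b265 : CRef := CRef.mk (Pat.mk 0x80000000c0000000b0000000000000000 0x40000000c0000000c0000000f0000001800000018 3 5) 0 0 (step_sound _ 35 [rh5f11ee373cbffcaa, (rhe286c75f2739cce2.shift 2 0)] (by decide +kernel))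
noncomputable def rh0daa6b2fbb863075 : CRef := CRef.mk (Pat.mk 0x40000000200000002000000030000000200000002 0x6000000060000000300000003000000030000000200000002 3 3) 0 0 (step_sound _ 161 [(rh2f68792b6b779e96.shift 1 2), rh3553f66ad66bb717] (by decide +kernel))
noncomputable def rh04395309fba550d6 : CRef := CRef.mk (Pat.mk 0x1e000000000000000400000004 0x30000001e000000030000000600000004 3 5) 0 0 (step_sound _ 129 [rh065df6eed977da83, (rh3244c3cc8379b070.shift 0 3)] (by decide +kernel))
noncomputable def rh33032410a9908d45 : CRef := CRef.mk (Pat.mk 0x20000000600000002000000020000000000000000 0x60000000600000002000000030000000300000001 3 3) 0 0 (step_sound _ 32 [(rh79877ebd3ef475dd.shift 0 1), rh8c01e5409b730b8b] (by decide +kernel))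
noncomputable def rh5a1cd893d8c4f41a : CRef := CRef.mk (Pat.mk 0x20000001a0000000600000000 0x200000002000000030000001e0000000600000004 3 5) 0 0 (step_sound _ 129 [(rh55afc6a59410cf00.shift 1 0), (rhaa6d4bfa0373ba53.shift 0 1)] (by decide +kernel))
noncomputable def rhe9b180ab0bcbe42c : CRef := CRef.mk (Pat.mk 0x600000006000000020000000600000000 0x20000000600000006000000070000000700000001 3 3) 0 0 (step_sound _ 161 [rh7928877f9bf74a91, (rh9e07f76261b05888.shift 1 1)] (by decide +kernel))
noncomputable def rh1191e4abae140782 : CRef := CRef.mk (Pat.mk 0x600000012000000300000001000000000 0x100000001e00000033000000300000003000000020 3 6) 0 0 (step_sound _ 132 [(rhcaa7ba44a31c4370.shift 0 3), (rhd4b4beefcd67f51e.shift 4 0)] (by decide +kernel))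
noncomputable def rhbe5fc5902345a0b9 : CRef := CRef.mk (Pat.mk 0x180000003c 0x1f0000003f 3 6) 0 0 (step_sound _ 33 [(rh3f8766e6ecb455ce.shift 1 0), rh5c36e97be8af272f] (by decide +kernel))
noncomputable def rh028e7a3a29ebd611 : CRef := CRef.mk (Pat.mk 0x600000013000000300000001000000000 0x100000001e00000013000000300000003000000020 3 6) 0 0 (step_sound _ 132 [(rh361cc68994bd8a63.shift 0 3), (rhd4b4beefcd67f51e.shift 4 0)] (by decide +kernel))
noncomputable def rhaaf1dc7285a08c48 : CRef := CRef.mk (Pat.mk 0x1a000000060000000200000000 0x3000000030000001e000000060000000600000004 3 5) 0 0 (step_sound _ 129 [(rh5e05da03898e7023.shift 0 1), (rhd4b4beefcd67f51e.shift 1 0)] (by decide +kernel))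
noncomputable def rh1c7e31de666bf50b : CRef := CRef.mk (Pat.mk 0x5000000070000000100000002 0x40000000500000005000000070000000700000002 3 3) 0 0 (step_sound _ 33 [rh2145e1d24b96a57e, (rh69755ef358ebfd54.shift 1 0)] (by decide +kernel))
noncomputable def rh3a1005f9c0462cb3 : CRef := CRef.mk (Pat.mk 0x6000000060000000200000006 0x10000000300000007000000060000000600000006 3 3) 0 0 (step_sound _ 129 [rh3ca48e2a6d60153d, (rh9e07f76261b05888.shift 1 0)] (by decide +kernel))
noncomputable def rhc1e84657de453407 : CRef := CRef.mk (Pat.mk 0x1e000000020000000000000004 0x30000001e000000060000000600000004 3 5) 0 0 (step_sound _ 129 [(rh30f28c240d9ae43e.shift 1 0), (rh3244c3cc8379b070.shift 0 3)] (by decide +kernel))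
noncomputable def rh775b5b9fdaf893f2 : CRef := CRef.mk (Pat.mk 0x200000012000000020000000200000002 0x1000000070000001e000000020000000200000002 3 5) 0 0 (step_sound _ 98 [(rh2f68792b6b779e96.shift 1 0), (rh52dc0b448901c5de.shift 0 1)] (by decide +kernel))
noncomputable def rh3883a51bd7c35ab8 : CRef := CRef.mk (Pat.mk 0x200000002000000160000001200000018 0x20000000200000002000000360000001f00000018 3 6) 0 0 (step_sound _ 34 [rh086172e1ea5e5fe6, (rh2145e1d24b96a57e.shift 1 1)] (by decide +kernel))
noncomputable def rh665dedd8fe90d789 : CRef := CRef.mk (Pat.mk 0x1000000012000000020000000800000008 0x300000001e0000000b0000000800000008 3 6) 0 0 (step_sound _ 99 [(rh04253f50b6dd0619.shift 3 0), (rh760717e835f8c2f3.shift 0 2)] (by decide +kernel))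
noncomputable def rh143fa032a8455572 : CRef := CRef.mk (Pat.mk 0xc00000003000000060000000200000000 0x20000001e00000003000000060000000600000004 3 5) 0 0 (step_sound _ 129 [(rh18965a982d73c794.shift 0 3), (rhd4b4beefcd67f51e.shift 1 0)] (by decide +kernel))
noncomputable def rh08df213f91b14149 : CRef := CRef.mk (Pat.mk 0x100000000a0000001800000008 0x10000000300000001f0000001800000008 3 6) 0 0 (step_sound _ 68 [(rh5c5e593799055d58.shift 3 0), (rh7dcc577706dd2abd.shift 0 1)] (by decide +kernel))
noncomputable def rh2af1833e51fc58d4 : CRef := CRef.mk (Pat.mk 0x2000000020000001a00000002 0x200000002000000020000003e00000007 3 6) 0 0 (step_sound _ 34 [(rh1412c03c5f53fc87.shift 1 0), rheb0810cc63b001d8] (by decide +kernel))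
noncomputable def rh1ef6dd4543725f7b : CRef := CRef.mk (Pat.mk 0x200000002000000020000000a0000001a00000002 0x20000000200000003000000030000000f0000001a00000002 3 5) 0 0 (step_sound _ 64 [rh3553f66ad66bb717, (rhc10214bf3fe8094a.shift 0 1)] (by decide +kernel))
noncomputable def rh24d090426dde3b18 : CRef := CRef.mk (Pat.mk 0x1000000010000000000000002000000020000000200000002 0x1000000070000000600000006000000020000000200000002 3 3) 0 0 (step_sound _ 129 [(rh44f453b84f013105.shift 1 0), (rhcfdf45280693d3da.shift 0 2)] (by decide +kernel))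
noncomputable def rhf97a056a8e2dffdf : CRef := CRef.mk (Pat.mk 0x600000003000000080000001800000008 0x1e0000001b000000180000001800000008 3 5) 0 0 (step_sound _ 132 [(rh361cc68994bd8a63.shift 0 3), (rh9a8c4a319e3e8680.shift 3 0)] (by decide +kernel))
noncomputable def rh2103f37c1c4a3564 : CRef := CRef.mk (Pat.mk 0x20000000e0000001800000008 0x10000000330000001e0000001800000008 3 6) 0 0 (step_sound _ 68 [(rh3244c3cc8379b070.shift 0 2), (rh5421160f8e9bcf07.shift 1 0)] (by decide +kernel))
noncomputable def rh6644cf8a6ddd3771 : CRef := CRef.mk (Pat.mk 0xa0000000a0000001800000008 0x40000001e0000000f0000001800000008 3 5) 0 0 (step_sound _ 98 [(rh09ced72df2b1bc7b.shift 0 1), (rh50fbb5868c909700.shift 2 0)] (by decide +kernel))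
noncomputable def rha546e699303278db : CRef := CRef.mk (Pat.mk 0x80000000a0000000a00000018 0x8000000080000000b0000001f00000018 3 5) 0 0 (step_sound _ 34 [rh3ad0b3cef4b45dca, rhb739f4f82bb681b4] (by decide +kernel))
noncomputable def rhf70aeaf6b8255d0d : CRef := CRef.mk (Pat.mk 0x1600000002000000000000001800000008 0x1e00000033000000100000001800000008 3 6) 0 0 (step_sound _ 131 [(rhae2546727623c072.shift 1 0), (rheb0810cc63b001d8.shift 0 3)] (by decide +kernel))
noncomputable def rhd7d11025448cd964 : CRef := CRef.mk (Pat.mk 0x1600000002000000080000001800000000 0x100000001e0000000b000000080000001800000010 3 5) 0 0 (step_sound _ 131 [(rh85e0f5cc78e9cbe0.shift 3 0), (rheb0810cc63b001d8.shift 0 3)] (by decide +kernel))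
noncomputable def rh79a2cce65bf4035c : CRef := CRef.mk (Pat.mk 0xb0000000c0000000800000000 0x18000000180000000f0000000c0000000c00000004 3 5) 0 0 (step_sound _ 131 [(rh03dfdf12d5937476.shift 2 0), (rhddcd04bb31546311.shift 0 1)] (by decide +kernel))
noncomputable def rh22a062da1374eec3 : CRef := CRef.mk (Pat.mk 0xd0000000c00000004 0x8000000180000000f0000001c00000004 3 5) 0 0 (step_sound _ 99 [(rh5c5e593799055d58.shift 2 0), (rhc924e5f7a4031fcc.shift 0 1)] (by decide +kernel))
noncomputable def rhb730ba14aa32bdb3 : CRef := CRef.mk (Pat.mk 0x3000000010000000100000000 0x2000000020000000200000003000000030000000100000001 3 2) 0 0 (step_sound _ 129 [(rh69755ef358ebfd54.shift 0 1), rh71222050f2c63a3a] (by decide +kernel))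
noncomputable def rh24693ba268d27e4f : CRef := CRef.mk (Pat.mk 0x400000002000000020000000f00000000 0x400000006000000060000000f0000001a 3 5) 0 0 (step_sound _ 98 [rh49bdc49f6b132823, (rh71222050f2c63a3a.shift 1 0)] (by decide +kernel))
noncomputable def rh6a69f092a00ca734 : CRef := CRef.mk (Pat.mk 0x400000008000000000000000f00000000 0x40000000c000000180000000f00000018 3 5) 0 0 (step_sound _ 67 [(rh33e738c4ed385b9f.shift 0 1), rhfc73b9f9592b9946] (by decide +kernel))
noncomputable def rha4c5bcb51a1da0a7 : CRef := CRef.mk (Pat.mk 0xf0000000600000004 0x8000000180000000f0000001e00000004 3 5) 0 0 (step_sound _ 35 [rh5421160f8e9bcf07, (rhf48373e13d2bc128.shift 0 1)] (by decide +kernel))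
noncomputable def rh63821641ca6fcacd : CRef := CRef.mk (Pat.mk 0x80000000b0000000f00000000 0x10000000180000000f0000000f00000018 3 5) 0 0 (step_sound _ 3 [rhddcd04bb31546311, rhe25b0a99195a5d59] (by decide +kernel))
noncomputable def rhc31b6f966e0d7e89 : CRef := CRef.mk (Pat.mk 0x1e0000001800000010 0x3e0000001f00000030 3 6) 0 0 (step_sound _ 33 [(rhc924e5f7a4031fcc.shift 1 0), (rheb0810cc63b001d8.shift 0 1)] (by decide +kernel))
noncomputable def rh95ce53963b10250e : CRef := CRef.mk (Pat.mk 0x1a0000003800000020 0x1b0000003f00000060 3 7) 0 0 (step_sound _ 34 [(rh5c36e97be8af272f.shift 0 1), (rhe25b0a99195a5d59.shift 2 0)] (by decide +kernel))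
noncomputable def rhc6719c6594e47b00 : CRef := CRef.mk (Pat.mk 0x4000000000000001e00000006 0x600000006000000030000001e00000006 3 5) 0 0 (step_sound _ 65 [(rh3244c3cc8379b070.shift 0 1), (rh82bd946b1709a78e.shift 1 0)] (by decide +kernel))
noncomputable def rh85f589451634aebd : CRef := CRef.mk (Pat.mk 0x1c0000001800000030 0x1f0000001f00000030 3 6) 0 0 (step_sound _ 65 [(rhb739f4f82bb681b4.shift 0 1), rhe41609ae3e02089b] (by decide +kernel))
noncomputable def rh6dfc19d8fb05b5e5 : CRef := CRef.mk (Pat.mk 0x600000002000000020000000000000002 0x50000000700000003000000020000000200000002 3 3) 0 0 (step_sound _ 33 [(rh2f68792b6b779e96.shift 1 1), rh3ca48e2a6d60153d] (by decide +kernel))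
noncomputable def rhb49dd4c1c654d6df : CRef := CRef.mk (Pat.mk 0x180000003800000020 0x380000003f00000060 3 7) 0 0 (step_sound _ 34 [(rhab2ad169e49f9c5e.shift 0 1), (rhe25b0a99195a5d59.shift 2 0)] (by decide +kernel))
noncomputable def rhc7fbeba8b6af5dd2 : CRef := CRef.mk (Pat.mk 0x20000000b0000000c00000004 0x80000001e0000000f0000000c00000004 3 5) 0 0 (step_sound _ 99 [(rh5c5e593799055d58.shift 2 0), (rh9f2591205204f08d.shift 0 2)] (by decide +kernel))
noncomputable def rh5dec5e73a267a1c4 : CRef := CRef.mk (Pat.mk 0x100000001c00000008 0x300000001f00000038 3 6) 0 0 (step_sound _ 33 [(rh33e738c4ed385b9f.shift 1 1), rha03f6e28ea70fc7d] (by decide +kernel))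
noncomputable def rhb7aea7a74bead576 : CRef := CRef.mk (Pat.mk 0x600000004000000070000000200000000 0x20000000600000004000000070000001e00000008 3 5) 0 0 (step_sound _ 34 [rh42afa1af9fffa0e1, (rh50fbb5868c909700.shift 1 1)] (by decide +kernel))
noncomputable def rh368871123aeae58d : CRef := CRef.mk (Pat.mk 0x300000000000000030000000100000000 0x30000000300000001000000030000000300000002 3 2) 0 0 (step_sound _ 96 [(rh2f68792b6b779e96.shift 0 1), rhd4b4beefcd67f51e] (by decide +kernel))
noncomputable def rha3353cd3fe4ed8c2 : CRef := CRef.mk (Pat.mk 0xa000000030000000c00000004 0x80000001e0000000f0000000c00000004 3 5) 0 0 (step_sound _ 67 [(rh5c5e593799055d58.shift 2 0), (rh9f2591205204f08d.shift 0 2)] (by decide +kernel))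
noncomputable def rh8247a427a0af2047 : CRef := CRef.mk (Pat.mk 0x18000000190000000800000008 0x40000001f0000001b0000000800000008 3 5) 0 0 (step_sound _ 98 [(rh50fbb5868c909700.shift 2 0), (rh85e7edab4b05d258.shift 0 2)] (by decide +kernel))
noncomputable def rh06e62c5072b6268e : CRef := CRef.mk (Pat.mk 0xf00000006 0x3f0000003e 3 6) 0 0 (step_sound _ 36 [(rh18965a982d73c794.shift 1 0), rh88333dd5482f2e1a] (by decide +kernel))
noncomputable def rh0a99f68e6dd29c1a : CRef := CRef.mk (Pat.mk 0xf000000060000000800000008 0x100000003f0000001e0000000800000008 3 6) 0 0 (step_sound _ 67 [(rh712526e472efe489.shift 1 0), (rhf48373e13d2bc128.shift 0 2)] (by decide +kernel))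
noncomputable def rh94cd0b26ab2bc2ec : CRef := CRef.mk (Pat.mk 0xc0000001c00000010 0x3c0000001f00000030 3 6) 0 0 (step_sound _ 33 [(rhe25b0a99195a5d59.shift 1 0), (rhf9d36e158778ce35.shift 0 1)] (by decide +kernel))
noncomputable def rh9846aa5fdf3b48e0 : CRef := CRef.mk (Pat.mk 0x1e0000001a00000014 0x2000000030000001e0000001e00000034 3 6) 0 0 (step_sound _ 97 [(rh3244c3cc8379b070.shift 0 2), (rhb734fd1d7084f3d7.shift 1 0)] (by decide +kernel))
noncomputable def rh4d8d614e03a7f6ad : CRef := CRef.mk (Pat.mk 0x4000000000000000f0000000c 0xc0000000c000000180000000f0000000c 3 5) 0 0 (step_sound _ 67 [(rh16567ae718d9fd54.shift 2 0), (rh33e738c4ed385b9f.shift 0 1)] (by decide +kernel))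
noncomputable def rhe22850225cacc49d : CRef := CRef.mk (Pat.mk 0x30000000180000001c00000002 0x300000001f0000001e00000003 3 6) 0 0 (step_sound _ 65 [(rh24ae073cf30720c4.shift 1 2), rhcb763b151dc90fdc] (by decide +kernel))
noncomputable def rhf38981051e3cd751 : CRef := CRef.mk (Pat.mk 0xd0000000e00000004 0x8000000180000000f0000001e00000004 3 5) 0 0 (step_sound _ 65 [rh5421160f8e9bcf07, (rhf48373e13d2bc128.shift 0 1)] (by decide +kernel))
noncomputable def rh068ee44ab489816d : CRef := CRef.mk (Pat.mk 0x1a0000001c0000000000000004 0x30000001e0000003c0000000400000004 3 6) 0 0 (step_sound _ 98 [rh0da3f8d18d3a0dfd, (rhf48373e13d2bc128.shift 1 2)] (by decide +kernel))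
noncomputable def rh0d1108b7506a545a : CRef := CRef.mk (Pat.mk 0xb0000000a0000000800000008 0x100000001f0000001b0000000800000008 3 5) 0 0 (step_sound _ 98 [rhc49ca0b9223e2b96, (rhe25b0a99195a5d59.shift 0 2)] (by decide +kernel))
noncomputable def rh08b11757028b735c : CRef := CRef.mk (Pat.mk 0x80000001a0000000a00000010 0x8000000080000001e0000003b00000010 3 6) 0 0 (step_sound _ 36 [(rh2145e1d24b96a57e.shift 3 0), (rhbf14f049e425ac01.shift 0 1)] (by decide +kernel))
noncomputable def rhbe2395328c4d2c99 : CRef := CRef.mk (Pat.mk 0x1a000000020000001800000008 0x300000001e000000130000001800000008 3 6) 0 0 (step_sound _ 98 [(rh8bba9c09a1e3aa82.shift 1 0), (rheb0810cc63b001d8.shift 0 2)] (by decide +kernel))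
noncomputable def rh1ba37ec4f3315245 : CRef := CRef.mk (Pat.mk 0x1a000000020000001800000008 0x100000001e000000330000001800000008 3 6) 0 0 (step_sound _ 98 [(rh8c2ed6f91ff57e60.shift 1 0), (rheb0810cc63b001d8.shift 0 2)] (by decide +kernel))
noncomputable def rh6d64ebafa6b47d4e : CRef := CRef.mk (Pat.mk 0x30000000a000000000000001800000008 0x130000001e000000180000001800000008 3 5) 0 0 (step_sound _ 100 [(rh5419adcd928dba20.shift 0 3), (rh7d7eaefe27cdd7b0.shift 3 0)] (by decide +kernel))
noncomputable def rh5f768b5b6c500018 : CRef := CRef.mk (Pat.mk 0x1200000018000000180000000800000000 0x80000001f00000038000000180000001800000010 3 6) 0 0 (step_sound _ 131 [(rhcd6baf37b3e5de21.shift 0 3), (rhd4b4beefcd67f51e.shift 3 0)] (by decide +kernel))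
noncomputable def rh29121836505d68c8 : CRef := CRef.mk (Pat.mk 0x1e0000000800000030 0x1e0000003f00000030 3 6) 0 0 (step_sound _ 36 [(rhe25b0a99195a5d59.shift 1 1), rhe41609ae3e02089b] (by decide +kernel))
noncomputable def rhfafe3c6a86a63237 : CRef := CRef.mk (Pat.mk 0x40000001c0000000400000004 0x80000000f0000003c0000000400000004 3 6) 0 0 (step_sound _ 99 [(rh2f68792b6b779e96.shift 2 0), (rhe2b63c00a3d7bb73.shift 0 2)] (by decide +kernel))
noncomputable def rh368dc3085932390d : CRef := CRef.mk (Pat.mk 0x30000000c 0xf0000003e 3 6) 0 0 (step_sound _ 4 [rh09d4dfe75d4407d6, rhbda9a27163266cd1] (by decide +kernel))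
noncomputable def rh063064641e383404 : CRef := CRef.mk (Pat.mk 0x1000000010000000100000001000000010000000100000000 0x100000001000000010000000300000003000000030000000100000001 3 2) 0 0 (step_sound _ 97 [rh237041c41aecf93d, (rh55afc6a59410cf00.shift 0 2)] (by decide +kernel))
noncomputable def rhb0c6196f710d9a93 : CRef := CRef.mk (Pat.mk 0x400000004000000070000000400000000 0x400000004000000070000003e00000008 3 6) 0 0 (step_sound _ 35 [(rh55afc6a59410cf00.shift 2 0), (rh89ade209b3e28f13.shift 0 1)] (by decide +kernel))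
noncomputable def rhc1458aadd8a69321 : CRef := CRef.mk (Pat.mk 0x80000000c0000000c00000003 0x800000008000000080000000c0000001e00000013 3 5) 0 0 (step_sound _ 36 [(rh571950d89739e871.shift 2 0), rhca9569cc80abfe76] (by decide +kernel))
noncomputable def rh3839719a7153863b : CRef := CRef.mk (Pat.mk 0x80000000800000008000000080000000800000003 0x800000008000000080000000c0000001e00000013 3 5) 0 0 (step_sound _ 34 [rh05f74740d3e7310b, (rh79877ebd3ef475dd.shift 2 1)] (by decide +kernel))
noncomputable def rh351e2f84a5c68d7e : CRef := CRef.mk (Pat.mk 0xc0000000b0000000800000000 0x140000001e0000000b0000000800000008 3 5) 0 0 (step_sound _ 3 [(rh50fbb5868c909700.shift 2 0), rhc0daf918bbfda8d7] (by decide +kernel))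
noncomputable def rh4a57183b91ec83ec : CRef := CRef.mk (Pat.mk 0x80000000b0000000800000008 0x140000001e0000000b0000000800000008 3 5) 0 0 (step_sound _ 100 [(rh2f68792b6b779e96.shift 3 0), rh3f9dabd3a98bcc1c] (by decide +kernel))
noncomputable def rhe919bb326ebbc4a3 : CRef := CRef.mk (Pat.mk 0x160000000600000004 0x2000000030000001e0000000700000004 3 5) 0 0 (step_sound _ 67 [rh309fd0c3d364cd61, (rheb0810cc63b001d8.shift 0 1)] (by decide +kernel))
noncomputable def rheaeb99d0e7415dec : CRef := CRef.mk (Pat.mk 0x6000000030000000f00000004 0x80000001e0000001b0000000f00000004 3 5) 0 0 (step_sound _ 67 [(rh33e738c4ed385b9f.shift 0 1), rh7ab04f71adbcadbe] (by decide +kernel))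
noncomputable def rh9462503d16fc4086 : CRef := CRef.mk (Pat.mk 0xf00000006 0x380000003f00000006 3 6) 0 0 (step_sound _ 68 [(rh428265de8cd3cd2d.shift 0 1), (rh8284118167888cf9.shift 1 0)] (by decide +kernel))
noncomputable def rhebdccd86670bfd85 : CRef := CRef.mk (Pat.mk 0x4000000040000000c00000014 0x400000004000000040000000f0000003c 3 6) 0 0 (step_sound _ 3 [(rh2145e1d24b96a57e.shift 2 0), rhe2b63c00a3d7bb73] (by decide +kernel))
noncomputable def rhdb21470238c38fba : CRef := CRef.mk (Pat.mk 0x40000001a0000000200000002 0x50000000f0000001a0000000200000002 3 5) 0 0 (step_sound _ 97 [(rh2f68792b6b779e96.shift 1 0), rhfe82b29a01fedb14] (by decide +kernel))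
noncomputable def rh572327e332a5add9 : CRef := CRef.mk (Pat.mk 0x8000000070000000400000004 0x80000003e000000070000000400000004 3 6) 0 0 (step_sound _ 98 [(rh2f68792b6b779e96.shift 2 0), (rh80f90a60d87caa0d.shift 0 2)] (by decide +kernel))
noncomputable def rh98a4fcaada74e41f : CRef := CRef.mk (Pat.mk 0x200000003000000120000001a00000008 0x40000001e00000013000000120000001a00000008 3 5) 0 0 (step_sound _ 130 [(rh2f68792b6b779e96.shift 1 1), rh6264ccdfbfcaa8f6] (by decide +kernel))
noncomputable def rh944e4ef5361e847d : CRef := CRef.mk (Pat.mk 0xf000000030000000a 0xf0000001f0000001e 3 5) 0 0 (step_sound _ 35 [rha6816dee951f7ee6, (rhe25b0a99195a5d59.shift 0 1)] (by decide +kernel))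
noncomputable def rhec05b2065587e384 : CRef := CRef.mk (Pat.mk 0x20000000200000002000000020000000a 0x20000000200000002000000070000001f 3 5) 0 0 (step_sound _ 32 [rh5a72116368e114e5, rh932754581e0f4330] (by decide +kernel))
noncomputable def rh19e5f56d985be461 : CRef := CRef.mk (Pat.mk 0x1000000000000000020000000e00000008 0x1000000010000000330000001e00000008 3 6) 0 0 (step_sound _ 36 [(rh3244c3cc8379b070.shift 0 1), (rhfca48bdea898f94b.shift 1 0)] (by decide +kernel))
noncomputable def rhee7c10a10b006fee : CRef := CRef.mk (Pat.mk 0x1000000000000000100000000e00000008 0x100000001000000018000000180000000f00000008 3 5) 0 0 (step_sound _ 67 [(rh53b3c253cb0c65f4.shift 0 1), (rhd932d223c9e56252.shift 3 0)] (by decide +kernel))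
noncomputable def rh81ecab98b92ed1f6 : CRef := CRef.mk (Pat.mk 0x600000003000000100000000e00000008 0x1e00000013000000300000001e00000008 3 6) 0 0 (step_sound _ 132 [(rh361cc68994bd8a63.shift 0 3), (rh481f8e6e6b31660c.shift 1 0)] (by decide +kernel))
noncomputable def rh1bcc0ee4b9efe8d2 : CRef := CRef.mk (Pat.mk 0x20000000200000002000000020000000200000002 0x2000000020000000300000003000000030000000300000002 3 2) 0 0 (step_sound _ 64 [rh3553f66ad66bb717, (rh932754581e0f4330.shift 0 1)] (by decide +kernel))
noncomputable def rhee51f1a3336931e1 : CRef := CRef.mk (Pat.mk 0x40000000f0000000400000000 0x400000004000000040000000f0000001c00000008 3 5) 0 0 (step_sound _ 35 [(rh3e595262c1b737ad.shift 2 0), (rhe25b0a99195a5d59.shift 0 1)] (by decide +kernel))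
noncomputable def rh6ca1648626227d49 : CRef := CRef.mk (Pat.mk 0x1e0000001200000010 0x3f0000001e00000030 3 6) 0 0 (step_sound _ 34 [(rh18965a982d73c794.shift 1 1), rh665fa2b016ee28ae] (by decide +kernel))
noncomputable def rhbdda9243307dd9ea : CRef := CRef.mk (Pat.mk 0x1e0000000200000004 0x2000000030000003e0000000600000004 3 6) 0 0 (step_sound _ 34 [(rh18965a982d73c794.shift 1 1), rh309fd0c3d364cd61] (by decide +kernel))
noncomputable def rhaf17eb84a3b16ad2 : CRef := CRef.mk (Pat.mk 0x1e0000001800000012 0x1e0000001f00000033 3 6) 0 0 (step_sound _ 33 [rhbf14f049e425ac01, (rheb0810cc63b001d8.shift 0 1)] (by decide +kernel))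
noncomputable def rh8a88abf038d31fd2 : CRef := CRef.mk (Pat.mk 0xc0000001e00000000 0xc0000007e00000007 3 7) 0 0 (step_sound _ 37 [rheae1728ff4a56756, (rhf48373e13d2bc128.shift 2 1)] (by decide +kernel))
noncomputable def rhe9d8323f401b0a0c : CRef := CRef.mk (Pat.mk 0x4000000070000000400000008 0x400000004000000070000003e00000008 3 6) 0 0 (step_sound _ 35 [(rh2145e1d24b96a57e.shift 2 0), (rh89ade209b3e28f13.shift 0 1)] (by decide +kernel))
noncomputable def rh45410035e9d8a2d6 : CRef := CRef.mk (Pat.mk 0x200000002000000030000000200000002 0x2000000020000000300000003000000030000000300000002 3 2) 0 0 (step_sound _ 161 [rh3553f66ad66bb717, (rh932754581e0f4330.shift 0 1)] (by decide +kernel))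
noncomputable def rh12155d67af2d0ad6 : CRef := CRef.mk (Pat.mk 0x100000001c0000001000000010 0x8000000380000001f0000001000000010 3 6) 0 0 (step_sound _ 99 [(rh50fbb5868c909700.shift 3 0), (rhab2ad169e49f9c5e.shift 0 2)] (by decide +kernel))
noncomputable def rh179e624571f4ff6c : CRef := CRef.mk (Pat.mk 0x40000000f00000001000000010000000100000000 0x40000001f00000003000000030000000300000002 3 5) 0 0 (step_sound _ 97 [(rh18965a982d73c794.shift 0 3), rh84704cbf4ecfb89e] (by decide +kernel))
noncomputable def rh50b5135431ad0103 : CRef := CRef.mk (Pat.mk 0x1e000000020000000200000002 0x390000001f000000020000000200000002 3 6) 0 0 (step_sound _ 96 [rh50fbb5868c909700, (rh9890f9d77740bbed.shift 0 3)] (by decide +kernel))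
noncomputable def rh639f5a7496b5499a : CRef := CRef.mk (Pat.mk 0x20000000200000002000000020000000a0000000200000000 0x20000000200000002000000060000001e0000000300000001 3 5) 0 0 (step_sound _ 66 [rh157b220518f94713, (rhd3458b32566d63f7.shift 1 2)] (by decide +kernel))
noncomputable def rhb008b0c579a72809 : CRef := CRef.mk (Pat.mk 0x2000000020000001200000006 0x200000002000000030000003e00000006 3 6) 0 0 (step_sound _ 34 [(rh2145e1d24b96a57e.shift 1 0), rh6493ceb007f59211] (by decide +kernel))
noncomputable def rh95357342a275579b : CRef := CRef.mk (Pat.mk 0x600000018000000180000000800000000 0x80000000f00000018000000180000001800000010 3 5) 0 0 (step_sound _ 131 [(rhb739f4f82bb681b4.shift 0 3), (rhd4b4beefcd67f51e.shift 3 0)] (by decide +kernel))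
noncomputable def rh36d4d92ef3dad5f8 : CRef := CRef.mk (Pat.mk 0x400000004000000060000000600000000 0x400000004000000070000003e00000008 3 6) 0 0 (step_sound _ 35 [(rh55afc6a59410cf00.shift 2 0), (rh79b3c29022acbdf3.shift 0 1)] (by decide +kernel))
noncomputable def rh92d4adfdf411a98a : CRef := CRef.mk (Pat.mk 0xa00000012000000100000001000000000 0xb0000001e000000300000001000000010 3 6) 0 0 (step_sound _ 99 [(rh7174a5174d2fbf5b.shift 0 2), (rh7b1f1fb55310c477.shift 3 0)] (by decide +kernel))
noncomputable def rh78873c55a128b31f : CRef := CRef.mk (Pat.mk 0xe000000090000000800000000 0x140000001e0000000b0000000800000008 3 5) 0 0 (step_sound _ 3 [(rh50fbb5868c909700.shift 2 0), rhd9892b94547901dd] (by decide +kernel))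
noncomputable def rhdb169b9728d937df : CRef := CRef.mk (Pat.mk 0x40000000c000000070000000300000000 0x40000000c0000001f0000001b00000008 3 5) 0 0 (step_sound _ 67 [(rh18965a982d73c794.shift 0 1), rh78974448101547fe] (by decide +kernel))
noncomputable def rh924247b13d4870c5 : CRef := CRef.mk (Pat.mk 0x6000000180000000800000008 0x100000001f000000380000000800000008 3 6) 0 0 (step_sound _ 99 [(rhb739f4f82bb681b4.shift 0 2), (rhd5b1a91e1b03cfdf.shift 1 0)] (by decide +kernel))
noncomputable def rh4aa40e417e65ec51 : CRef := CRef.mk (Pat.mk 0x20000001a0000000200000002 0x40000000f0000001e0000000200000002 3 5) 0 0 (step_sound _ 98 [(rh2f68792b6b779e96.shift 1 0), (rh43cbe8b40a1a7398.shift 0 2)] (by decide +kernel))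
noncomputable def rhc6913a8a85547f10 : CRef := CRef.mk (Pat.mk 0x90000000d00000001 0x1b0000001f00000003 3 5) 0 0 (step_sound _ 33 [(rh33e738c4ed385b9f.shift 0 1), rhe9d682012dbceb06] (by decide +kernel))
noncomputable def rh5394ee3082c48d83 : CRef := CRef.mk (Pat.mk 0x20000001a0000000200000002 0x4000000070000003e0000000200000002 3 6) 0 0 (step_sound _ 66 [(rh3244c3cc8379b070.shift 0 2), (rha1c46167a1310ec1.shift 1 0)] (by decide +kernel))
noncomputable def rh40ff0d2e086625d3 : CRef := CRef.mk (Pat.mk 0x100000001000000090000000d 0x100000001000000010000001b0000001f 3 5) 0 0 (step_sound _ 1 [rh33e738c4ed385b9f, rhc9ca25976740a074] (by decide +kernel))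
noncomputable def rh7716f6817108179d : CRef := CRef.mk (Pat.mk 0x300000002000000100000001800000018 0x1b0000001e000000100000001800000018 3 5) 0 0 (step_sound _ 100 [(rh5c5e593799055d58.shift 3 0), rhbbc353da154e327d] (by decide +kernel))
noncomputable def rha500528c73c4c93d : CRef := CRef.mk (Pat.mk 0x1a00000012000000100000001000000000 0x3b0000001e000000100000001000000010 3 6) 0 0 (step_sound _ 99 [(rh7b1f1fb55310c477.shift 3 0), (rh9ce9666211d7d662.shift 0 3)] (by decide +kernel))
noncomputable def rh65268541442490ca : CRef := CRef.mk (Pat.mk 0xc000000050000001c00000004 0x20000001e0000000f0000001c00000004 3 5) 0 0 (step_sound _ 65 [rh50457521e58be46d, (rhd6e447e81774439e.shift 0 1)] (by decide +kernel))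
noncomputable def rh0e7026a0a3f6e059 : CRef := CRef.mk (Pat.mk 0x20000000e00000008 0x30000001f00000038 3 6) 0 0 (step_sound _ 36 [(rh3244c3cc8379b070.shift 0 1), rha03f6e28ea70fc7d] (by decide +kernel))
noncomputable def rh419a4a553e54f4ed : CRef := CRef.mk (Pat.mk 0x1e000000020000000000000004 0x30000003e000000060000000400000004 3 6) 0 0 (step_sound _ 129 [(rh3244c3cc8379b070.shift 0 3), (rh47b6dad44b634851.shift 1 0)] (by decide +kernel))
noncomputable def rh96b9bdd38434146b : CRef := CRef.mk (Pat.mk 0x400000004000000050000000700000001 0x20000000600000007000000070000000700000001 3 3) 0 0 (step_sound _ 129 [(rh50fbb5868c909700.shift 1 1), rh9a8c4a319e3e8680] (by decide +kernel))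
noncomputable def rhaf61538b68a500a8 : CRef := CRef.mk (Pat.mk 0x1e00000040 0x70000003e00000060 3 7) 0 0 (step_sound _ 65 [(rh09fecbf45ebb0375.shift 1 0), (rh3244c3cc8379b070.shift 0 1)] (by decide +kernel))
noncomputable def rh9ad393a91d4473bb : CRef := CRef.mk (Pat.mk 0x100000001000000010000001400000012 0x100000001000000010000001f00000033 3 6) 0 0 (step_sound _ 33 [rhbe0e43a3bc50a43f, rhcaa7ba44a31c4370] (by decide +kernel))
noncomputable def rh6e0d4a5e44329c0c : CRef := CRef.mk (Pat.mk 0xf000000000000000800000008 0x180000001f000000180000000800000008 3 5) 0 0 (step_sound _ 67 [rh763788a68c67bc0c, (rhe25b0a99195a5d59.shift 0 2)] (by decide +kernel))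
noncomputable def rhb0e53d8c2bdf7515 : CRef := CRef.mk (Pat.mk 0x200000003000000010000000400000004 0x2000000020000000200000003000000070000000600000004 3 3) 0 0 (step_sound _ 65 [(rh493ba90d7b88e72e.shift 0 1), (rhbe0e43a3bc50a43f.shift 1 0)] (by decide +kernel))
noncomputable def rhe02032acf8c36925 : CRef := CRef.mk (Pat.mk 0x800000004000000040000001e 0xc0000000c00000004000000070000001e 3 5) 0 0 (step_sound _ 33 [rh3244c3cc8379b070, (rhbd55d8419891313d.shift 1 0)] (by decide +kernel))
noncomputable def rh87475298ccf721dd : CRef := CRef.mk (Pat.mk 0x40000000b0000000e00000004 0xa0000001e0000000b0000000e00000004 3 5) 0 0 (step_sound _ 99 [rh0e40e213923dfc13, (rh5c5e593799055d58.shift 2 0)] (by decide +kernel))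
noncomputable def rh9dc6f17ef8893ffe : CRef := CRef.mk (Pat.mk 0x1a0000000600000006 0x3000000030000001e0000000600000006 3 5) 0 0 (step_sound _ 97 [(rh2145e1d24b96a57e.shift 1 0), rh5e05da03898e7023] (by decide +kernel))
noncomputable def rh492a02e0f2edd80c : CRef := CRef.mk (Pat.mk 0xa000000080000001e00000008 0x40000000f000000380000001e00000008 3 6) 0 0 (step_sound _ 98 [(rh4503a2d502ef3aef.shift 0 1), (rh50fbb5868c909700.shift 2 0)] (by decide +kernel))
noncomputable def rhdad13e0b9ac1721a : CRef := CRef.mk (Pat.mk 0x2000000020000000200000002000000020000000000000002 0x200000002000000020000000300000003000000030000000200000002 3 2) 0 0 (step_sound _ 96 [rh852b5c206ef1ef98, (rh932754581e0f4330.shift 0 2)] (by decide +kernel))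
noncomputable def rh713222115fc6921e : CRef := CRef.mk (Pat.mk 0x200000002000000020000000a0000000c00000000 0x200000002000000020000001b0000000f00000001 3 5) 0 0 (step_sound _ 32 [(rh79877ebd3ef475dd.shift 0 1), rhcf54373e383838fa] (by decide +kernel))
noncomputable def rhebe91ba2252dc497 : CRef := CRef.mk (Pat.mk 0x2000000060000000200000002 0x30000000300000003000000060000000600000006 3 3) 0 0 (step_sound _ 129 [rh3ca48e2a6d60153d, (rhd4b4beefcd67f51e.shift 1 0)] (by decide +kernel))
noncomputable def rh59b8ab533772ff61 : CRef := CRef.mk (Pat.mk 0x1c000000180000000400000004 0x30000001f0000001c0000000400000004 3 5) 0 0 (step_sound _ 97 [(rhb739f4f82bb681b4.shift 0 2), rhea1977e228a6d74a] (by decide +kernel))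
noncomputable def rhd5fd3c11469d29be : CRef := CRef.mk (Pat.mk 0xc0000000e00000001 0xe0000007e00000003 3 7) 0 0 (step_sound _ 36 [(rh79b3c29022acbdf3.shift 1 1), rh80fcd6d0a18cb2dd] (by decide +kernel))
noncomputable def rhcb6952fe9694bd0c : CRef := CRef.mk (Pat.mk 0x3000000030000000400000004 0x2000000020000000200000003000000070000000600000004 3 3) 0 0 (step_sound _ 129 [(rh493ba90d7b88e72e.shift 0 1), (rhbe0e43a3bc50a43f.shift 1 0)] (by decide +kernel))
noncomputable def rh98fcea515a9bb6d4 : CRef := CRef.mk (Pat.mk 0x4000000040000001400000006 0x400000004000000040000003e00000007 3 6) 0 0 (step_sound _ 35 [rh0c1db84848fdfb70, (rh18965a982d73c794.shift 1 0)] (by decide +kernel))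
noncomputable def rh3bdbd3888abd9dc8 : CRef := CRef.mk (Pat.mk 0x1400000016 0x3e00000037 3 6) 0 0 (step_sound _ 35 [(rh18965a982d73c794.shift 1 0), rhc8b21ffc3825c72d] (by decide +kernel))
noncomputable def rh42a8aa31729a4595 : CRef := CRef.mk (Pat.mk 0x80000000a0000000a00000010 0x8000000080000000b0000001e00000030 3 6) 0 0 (step_sound _ 36 [(rh2145e1d24b96a57e.shift 3 0), rh7174a5174d2fbf5b] (by decide +kernel))
noncomputable def rh1da0b1a9875f0c00 : CRef := CRef.mk (Pat.mk 0x1c000000020000000200000002 0x30000001f000000030000000200000002 3 5) 0 0 (step_sound _ 97 [rha25c0e62bb8d55c9, (rheb0810cc63b001d8.shift 0 2)] (by decide +kernel))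
noncomputable def rh23bcc2d6a6c0f37c : CRef := CRef.mk (Pat.mk 0x400000004000000030000000700000000 0x400000004000000070000001f00000018 3 5) 0 0 (step_sound _ 35 [rh49bdc49f6b132823, (rhf48373e13d2bc128.shift 0 1)] (by decide +kernel))
noncomputable def rh7936093adf4c2c8c : CRef := CRef.mk (Pat.mk 0x10000000000000001000000010000000100000000 0x2000000030000000300000001000000030000000300000002 3 2) 0 0 (step_sound _ 128 [(rh44f453b84f013105.shift 0 1), rhd29a1fb688eae70f] (by decide +kernel))
noncomputable def rh662eeb3af1b04bbf : CRef := CRef.mk (Pat.mk 0x2000000022000000220000000a0000001200000000 0x2000000022000000220000003e0000001300000001 3 6) 0 0 (step_sound _ 68 [rh5710f30ba40ee3ec, (rheea67dfebd0f8008.shift 4 1)] (by decide +kernel))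
noncomputable def rh65909b08999dc522 : CRef := CRef.mk (Pat.mk 0x2000000020000000200000006 0x10000000300000003000000020000000600000006 3 3) 0 0 (step_sound _ 128 [rhc4c7faa0ddd5da42, rhffd04209dc8ea796] (by decide +kernel))
noncomputable def rhe991b0a7f5491f5b : CRef := CRef.mk (Pat.mk 0x1c000000040000000400000004 0x20000003e000000070000000400000004 3 6) 0 0 (step_sound _ 97 [(rh50fbb5868c909700.shift 1 0), (rhaf9f2efc81a8312b.shift 0 2)] (by decide +kernel))
noncomputable def rh32019bf1263c37aa : CRef := CRef.mk (Pat.mk 0x1a000000020000000200000002 0x30000001f000000030000000200000002 3 5) 0 0 (step_sound _ 98 [rha25c0e62bb8d55c9, (rheb0810cc63b001d8.shift 0 2)] (by decide +kernel))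
noncomputable def rh60f82781c006f894 : CRef := CRef.mk (Pat.mk 0x1c00000008000000080000000800000000 0x1f00000038000000080000000800000008 3 6) 0 0 (step_sound _ 100 [(rh71222050f2c63a3a.shift 3 0), (rhad5d8fc3675c15dd.shift 0 3)] (by decide +kernel))
noncomputable def rha15790e26373b21e : CRef := CRef.mk (Pat.mk 0x1000000010000000020000000a0000000a 0x1000000010000000130000001e0000000b 3 5) 0 0 (step_sound _ 36 [rh01e48cd9f335aa73, (rh3c88ce959c0e423f.shift 3 0)] (by decide +kernel))
noncomputable def rh5311728e12ac92c9 : CRef := CRef.mk (Pat.mk 0x400000006000000030000000f00000000 0x40000001e0000001b0000000f00000008 3 5) 0 0 (step_sound _ 99 [(rh18965a982d73c794.shift 0 2), rh215ee3f3abaea373] (by decide +kernel))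
noncomputable def rh40811da85268475d : CRef := CRef.mk (Pat.mk 0x400000038 0x1f0000003c 3 6) 0 0 (step_sound _ 33 [(rh09d4dfe75d4407d6.shift 1 0), rh5013872860cb36fd] (by decide +kernel))
noncomputable def rh6b91fec65d08eb0f : CRef := CRef.mk (Pat.mk 0x800000008000000090000001800000000 0x8000000080000000f0000001e00000004 3 5) 0 0 (step_sound _ 34 [(rh23e41f97710e9f38.shift 0 1), (rh932754581e0f4330.shift 2 0)] (by decide +kernel))
noncomputable def rh6bed4ff6bae53cf3 : CRef := CRef.mk (Pat.mk 0x600000012000000020000000200000000 0x1000000070000001e000000020000000200000002 3 5) 0 0 (step_sound _ 98 [(rh52dc0b448901c5de.shift 0 1), (rh71222050f2c63a3a.shift 1 0)] (by decide +kernel))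
noncomputable def rh535662eee1e1c911 : CRef := CRef.mk (Pat.mk 0x20000000200000002000000160000000000000000 0x200000002000000020000001f0000000300000001 3 5) 0 0 (step_sound _ 32 [rh681aaf50e7ee2c91, (rh79877ebd3ef475dd.shift 0 1)] (by decide +kernel))
noncomputable def rh22d7ce585793bf1d : CRef := CRef.mk (Pat.mk 0xe000000050000000c 0x1e0000000f0000003c 3 6) 0 0 (step_sound _ 33 [(rh18965a982d73c794.shift 0 1), rh4a0b10776449c3e9] (by decide +kernel))
noncomputable def rh793d1229eb04b5e4 : CRef := CRef.mk (Pat.mk 0x1e00000014000000080000000000000000 0x100000001f0000001c000000080000000800000008 3 5) 0 0 (step_sound _ 99 [(rhb0c1e7919d9be92d.shift 2 0), (rhb739f4f82bb681b4.shift 0 3)] (by decide +kernel))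
noncomputable def rhb379f99078aafa2d : CRef := CRef.mk (Pat.mk 0x400000004000000070000000400000000 0x400000004000000070000001e0000000a 3 5) 0 0 (step_sound _ 33 [rh42afa1af9fffa0e1, (rh932754581e0f4330.shift 1 0)] (by decide +kernel))
noncomputable def rh114f4abf4ea101c9 : CRef := CRef.mk (Pat.mk 0x100000002000000020000000200000000 0x1000000010000000300000003000000020000000200000002 3 2) 0 0 (step_sound _ 96 [rh7b1f1fb55310c477, (rhc89253ff58c66167.shift 0 1)] (by decide +kernel))
noncomputable def rh7176893643e0a9ff : CRef := CRef.mk (Pat.mk 0xe00000004000000040000000400000000 0x3e00000007000000040000000400000004 3 6) 0 0 (step_sound _ 97 [(rh2612b4f73ba7c3b3.shift 0 3), (rh7b1f1fb55310c477.shift 1 0)] (by decide +kernel))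
noncomputable def rhd0421c4690b8aace : CRef := CRef.mk (Pat.mk 0x200000038 0x1f0000003c 3 6) 0 0 (step_sound _ 34 [(rh09d4dfe75d4407d6.shift 1 0), rh5013872860cb36fd] (by decide +kernel))
noncomputable def rh9b1d2b302c3acb96 : CRef := CRef.mk (Pat.mk 0x40000003e 0x3c0000007f 3 7) 0 0 (step_sound _ 36 [rh2d8edb255b5ae37b, (rh33e738c4ed385b9f.shift 1 0)] (by decide +kernel))
noncomputable def rh958e22a455eb4637 : CRef := CRef.mk (Pat.mk 0x800000006000000060000000400000000 0x80000003e000000070000000400000004 3 6) 0 0 (step_sound _ 99 [(rh2612b4f73ba7c3b3.shift 0 2), (rh71222050f2c63a3a.shift 2 0)] (by decide +kernel))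
noncomputable def rh57e44ccac7e36dd6 : CRef := CRef.mk (Pat.mk 0x180000000a0000001800000008 0x40000003c0000000f0000001800000008 3 6) 0 0 (step_sound _ 66 [(rh50457521e58be46d.shift 1 0), (rhb739f4f82bb681b4.shift 0 1)] (by decide +kernel))
noncomputable def rh3cc5c7fb74c49f61 : CRef := CRef.mk (Pat.mk 0x3800000004 0x7c0000000f 3 7) 0 0 (step_sound _ 3 [(rh18965a982d73c794.shift 2 0), rh1ed7a3503fa50fc8] (by decide +kernel))
noncomputable def rh7951a28c43f03428 : CRef := CRef.mk (Pat.mk 0x8000000070000000c0000000400000000 0x40000003c0000000f0000000c0000000c00000008 3 6) 0 0 (step_sound _ 130 [(rh572132728df34c43.shift 0 3), (rhd4b4beefcd67f51e.shift 2 0)] (by decide +kernel))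
noncomputable def rh039efe07c35de3d4 : CRef := CRef.mk (Pat.mk 0x40000001c0000000400000004 0xa0000000f0000001c0000000400000004 3 5) 0 0 (step_sound _ 99 [rh277b01412deaec89, (rh2f68792b6b779e96.shift 2 0)] (by decide +kernel))
noncomputable def rh9cac931137f1cfa0 : CRef := CRef.mk (Pat.mk 0x180000001a0000000800000008 0x40000001f0000001b0000000800000008 3 5) 0 0 (step_sound _ 98 [(rh50fbb5868c909700.shift 2 0), (rh710860539a4c4362.shift 0 2)] (by decide +kernel))
noncomputable def rhc7091031673fac6a : CRef := CRef.mk (Pat.mk 0x180000001a0000000800000008 0x40000001e0000003b0000000800000008 3 6) 0 0 (step_sound _ 98 [(rh50fbb5868c909700.shift 2 0), (rhc8b21ffc3825c72d.shift 0 2)] (by decide +kernel))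
noncomputable def rh28f098fed0292080 : CRef := CRef.mk (Pat.mk 0x38000000120000000800000008 0x60000003e0000003b0000000800000008 3 6) 0 0 (step_sound _ 98 [(rhc8b21ffc3825c72d.shift 0 2), (rhea1977e228a6d74a.shift 1 0)] (by decide +kernel))
noncomputable def rh3a020e182dfd1d54 : CRef := CRef.mk (Pat.mk 0xc00000006 0x3e0000000f 3 6) 0 0 (step_sound _ 36 [(rh18965a982d73c794.shift 1 0), rh97d0766f3afe0efe] (by decide +kernel))
noncomputable def rh5045a7dd3c2710bf : CRef := CRef.mk (Pat.mk 0x8000000080000000b0000000800000000 0x8000000080000000b0000001e00000014 3 5) 0 0 (step_sound _ 36 [rh3c2f980063a11105, (rh55afc6a59410cf00.shift 3 0)] (by decide +kernel))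
noncomputable def rhefb7103f834424c5 : CRef := CRef.mk (Pat.mk 0x8000000080000000900000018 0x800000008000000080000001f0000001c 3 5) 0 0 (step_sound _ 34 [(rh85a605aac6183f28.shift 2 0), rhab22b5b56e7b3243] (by decide +kernel))
noncomputable def rh87ee923877636e52 : CRef := CRef.mk (Pat.mk 0x60000000f00000000 0x60000003f00000038 3 6) 0 0 (step_sound _ 4 [(rh8ef9dd588f33bbde.shift 1 0), rh96851dee118c1ba3] (by decide +kernel))
noncomputable def rhc38f566cab2818e5 : CRef := CRef.mk (Pat.mk 0x100000003000000020000000000000000 0x1000000010000000100000003000000030000000200000002 3 2) 0 0 (step_sound _ 160 [(rh2145e1d24b96a57e.shift 0 2), rh79ad7b82ec8c35e2] (by decide +kernel))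
noncomputable def rha7149f89a51ff247 : CRef := CRef.mk (Pat.mk 0x1e000000060000000200000000 0x2000000030000001e000000060000000600000004 3 5) 0 0 (step_sound _ 129 [(rh3244c3cc8379b070.shift 0 3), (rhd4b4beefcd67f51e.shift 1 0)] (by decide +kernel))
noncomputable def rh4aacfccc127959e4 : CRef := CRef.mk (Pat.mk 0x8000000080000000b0000000800000000 0x800000008000000080000000f0000001c00000004 3 5) 0 0 (step_sound _ 34 [(rh0690e8e61650bb00.shift 0 1), (rh932754581e0f4330.shift 2 0)] (by decide +kernel))
noncomputable def rh09cc63d7f7fdcb16 : CRef := CRef.mk (Pat.mk 0xa0000000b00000001 0x1b0000001f00000003 3 5) 0 0 (step_sound _ 34 [(rh33e738c4ed385b9f.shift 0 1), rh7b030ba967bf927e] (by decide +kernel))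
noncomputable def rh614d49646b6cfdb1 : CRef := CRef.mk (Pat.mk 0x8000000080000000b0000000900000000 0x8000000080000001b0000001f00000004 3 5) 0 0 (step_sound _ 34 [(rh932754581e0f4330.shift 2 0), (rhed94a3f3b1c12c87.shift 0 1)] (by decide +kernel))
noncomputable def rhb40ea67d868c9330 : CRef := CRef.mk (Pat.mk 0x1400000006 0x3e0000000f 3 6) 0 0 (step_sound _ 35 [(rh18965a982d73c794.shift 1 0), rh97d0766f3afe0efe] (by decide +kernel))
noncomputable def rhbbe16ff26f7822db : CRef := CRef.mk (Pat.mk 0xc0000000f000000000000000000000000 0x40000000c0000000f000000180000000800000008 3 5) 0 0 (step_sound _ 67 [(rh3cb04db3dd2b6a55.shift 2 0), (rhe25b0a99195a5d59.shift 0 2)] (by decide +kernel))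
noncomputable def rhf5c3cbaae13e41de : CRef := CRef.mk (Pat.mk 0x40000000e000000040000000000000000 0x80000003c0000000f000000040000000400000004 3 6) 0 0 (step_sound _ 131 [(rhea7a1800d6f053bd.shift 2 0), (rhf9d36e158778ce35.shift 0 3)] (by decide +kernel))
noncomputable def rh684e729394fba19d : CRef := CRef.mk (Pat.mk 0x4000000070000000400000004 0x80000003c0000000f0000000400000004 3 6) 0 0 (step_sound _ 99 [(rh2f68792b6b779e96.shift 2 0), (rh572132728df34c43.shift 0 2)] (by decide +kernel))
noncomputable def rh6e1825f2fd15117b : CRef := CRef.mk (Pat.mk 0x20000001e0000000000000002 0x4000000060000003e0000000300000002 3 6) 0 0 (step_sound _ 33 [(rha1c46167a1310ec1.shift 1 0), (rheb0810cc63b001d8.shift 0 1)] (by decide +kernel))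
noncomputable def rh4274f4328cb9f3fd : CRef := CRef.mk (Pat.mk 0xf00000001 0x1f0000003b 3 6) 0 0 (step_sound _ 4 [rh96851dee118c1ba3, rhb25fef5ffc153beb] (by decide +kernel))
noncomputable def rhd7b4b649fe663581 : CRef := CRef.mk (Pat.mk 0x200000001f00000004 0x600000007f0000001c 3 7) 0 0 (step_sound _ 37 [(rh33e738c4ed385b9f.shift 2 1), rhaaea62e49e55dbb4] (by decide +kernel))
noncomputable def rhee06b87c7471f87e : CRef := CRef.mk (Pat.mk 0x80000000e0000000800000008 0x40000003c0000000f0000000800000008 3 6) 0 0 (step_sound _ 98 [(rh50fbb5868c909700.shift 2 0), (rhf9d36e158778ce35.shift 0 2)] (by decide +kernel))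
noncomputable def rh3cefe9651deae9e5 : CRef := CRef.mk (Pat.mk 0x40000000a0000001e00000008 0x40000000e0000000a0000001e0000000b 3 5) 0 0 (step_sound _ 1 [(rh8b14df1b185c100a.shift 1 0), rheb0810cc63b001d8] (by decide +kernel))
noncomputable def rhacc4a64c803ef3be : CRef := CRef.mk (Pat.mk 0xc0000000a0000000800000008 0x100000003c0000000f0000000800000008 3 6) 0 0 (step_sound _ 100 [(rh2f68792b6b779e96.shift 3 0), (rh72297cd55a503360.shift 0 2)] (by decide +kernel))
noncomputable def rhe753c2bd6bb4eeba : CRef := CRef.mk (Pat.mk 0xc00000030 0x1f0000003c 3 6) 0 0 (step_sound _ 33 [(rhd6e447e81774439e.shift 1 0), rhea383a553bc42003] (by decide +kernel))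
noncomputable def rhfed57f23c5f345ee : CRef := CRef.mk (Pat.mk 0x30000000b0000000200000002 0x40000001f0000001b0000000200000002 3 5) 0 0 (step_sound _ 98 [(rh2f68792b6b779e96.shift 1 0), (rhbca71ab025ef4262.shift 0 2)] (by decide +kernel))
noncomputable def rh95f73988d2dec2c0 : CRef := CRef.mk (Pat.mk 0xc00000030 0xf0000007c 3 7) 0 0 (step_sound _ 3 [rhdbcea10a0fbe5ba6, (rhf48373e13d2bc128.shift 2 0)] (by decide +kernel))
noncomputable def rh28821ab6edbc94f9 : CRef := CRef.mk (Pat.mk 0x2c0000003c00000000 0x3c0000003e00000007 3 6) 0 0 (step_sound _ 33 [(rh361cc68994bd8a63.shift 1 1), rheae1728ff4a56756] (by decide +kernel))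
noncomputable def rhfd89e568aa128d8c : CRef := CRef.mk (Pat.mk 0x80000000f000000000000000000000004 0x80000000f0000001c0000000c00000004 3 5) 0 0 (step_sound _ 67 [(rhe25b0a99195a5d59.shift 0 2), (rhf9582ff5662029e8.shift 2 0)] (by decide +kernel))
noncomputable def rh23abf5530e846b74 : CRef := CRef.mk (Pat.mk 0x80000000b0000000a0000000800000000 0x8000000080000000b0000001e0000001800000010 3 5) 0 0 (step_sound _ 68 [(rh5419adcd928dba20.shift 0 2), (rhd4b4beefcd67f51e.shift 3 0)] (by decide +kernel))
noncomputable def rh426f8837fd31e7d5 : CRef := CRef.mk (Pat.mk 0x1a00000010000000040000000400000004 0x1e00000037000000040000000400000004 3 6) 0 0 (step_sound _ 130 [(rhe25b0a99195a5d59.shift 1 3), rheda2b94d1e8eeca0] (by decide +kernel))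
noncomputable def rh6d358513f5f5c93f : CRef := CRef.mk (Pat.mk 0x900000008000000080000000800000008 0x40000001f00000018000000080000000800000008 3 5) 0 0 (step_sound _ 100 [(rh2f68792b6b779e96.shift 3 0), (rhaeb617a54744e672.shift 0 1)] (by decide +kernel))
noncomputable def rh5ea3d241ccccc747 : CRef := CRef.mk (Pat.mk 0x400000019000000080000000b00000002 0x40000000f00000019000000090000000b00000002 3 5) 0 0 (step_sound _ 131 [rh464589950ffbd03d, (rh50fbb5868c909700.shift 2 1)] (by decide +kernel))
noncomputable def rhcf7a8bf02a398215 : CRef := CRef.mk (Pat.mk 0x1a000000100000000400000004 0x30000001e000000340000000400000004 3 6) 0 0 (step_sound _ 98 [(rhe25b0a99195a5d59.shift 1 2), rhea1977e228a6d74a] (by decide +kernel))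
noncomputable def rhb6e139a614cb25d6 : CRef := CRef.mk (Pat.mk 0x10000000100000001000000010000000100000001 0x1000000010000000300000003000000030000000300000001 3 2) 0 0 (step_sound _ 65 [rh422dc31de97871b4, (rh55afc6a59410cf00.shift 0 1)] (by decide +kernel))
noncomputable def rhf3e6b0bf8a4f2a45 : CRef := CRef.mk (Pat.mk 0x10000000120000001600000010 0x200000003000000030000000130000001e00000018 3 6) 0 0 (step_sound _ 132 [(rh44f453b84f013105.shift 4 0), rh9b8480194ae23710] (by decide +kernel))
noncomputable def rhd28bd38ce071d913 : CRef := CRef.mk (Pat.mk 0x10000000130000001600000014 0xa0000001e000000130000001600000014 3 5) 0 0 (step_sound _ 97 [(rh2145e1d24b96a57e.shift 1 0), rh31101839337486c6] (by decide +kernel))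
noncomputable def rh992751159dc10a79 : CRef := CRef.mk (Pat.mk 0x100000000c00000008000000090000000300000002 0x10000000180000000f00000009000000090000000300000002 3 5) 0 0 (step_sound _ 163 [(rh2f68792b6b779e96.shift 3 2), rh9e9b3c64536b2df8] (by decide +kernel))
noncomputable def rh27719b6e2adbad4c : CRef := CRef.mk (Pat.mk 0x400000018000000090000000b00000002 0x40000000f00000019000000090000000b00000002 3 5) 0 0 (step_sound _ 131 [(rh50fbb5868c909700.shift 2 1), rhe8f0a18f2c1c6bea] (by decide +kernel))
noncomputable def rh114380420d2c6317 : CRef := CRef.mk (Pat.mk 0x8000000080000001a0000001800000000 0x8000000080000001b0000001f00000004 3 5) 0 0 (step_sound _ 34 [(rh5c36e97be8af272f.shift 0 1), (rh932754581e0f4330.shift 2 0)] (by decide +kernel))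
noncomputable def rheef6b50757f0d6f2 : CRef := CRef.mk (Pat.mk 0x1800000003000000030000000000000000 0x20000001e00000003000000030000000100000001 3 5) 0 0 (step_sound _ 129 [rh1e309b005ffa1b36, (rhb2a0b9ccfb5cecd5.shift 0 3)] (by decide +kernel))
noncomputable def rh91efaa808a7d31ec : CRef := CRef.mk (Pat.mk 0x200000001800000010000000120000000300000001 0x20000000300000001e00000012000000120000000300000001 3 6) 0 0 (step_sound _ 164 [(rh2f68792b6b779e96.shift 4 2), rhc9a36aad54b02462] (by decide +kernel))
noncomputable def rhe8d85c7fbf4f79bb : CRef := CRef.mk (Pat.mk 0x1e00000000000000020000001c 0x30000001e00000004000000060000003c 3 6) 0 0 (step_sound _ 34 [rhea1977e228a6d74a, (rhf48373e13d2bc128.shift 1 0)] (by decide +kernel))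
noncomputable def rhdc95b01dcc13556e : CRef := CRef.mk (Pat.mk 0x1a000000100000000200000002 0x40000001e000000330000000200000002 3 6) 0 0 (step_sound _ 98 [rhe1a85963a7a8727e, (rhe25b0a99195a5d59.shift 1 2)] (by decide +kernel))
noncomputable def rh219bc6cd81a44066 : CRef := CRef.mk (Pat.mk 0x80000000b0000000e0000000c 0x60000001e0000000b0000000e0000000c 3 5) 0 0 (step_sound _ 97 [(rh2145e1d24b96a57e.shift 1 0), rh5501401ca587e475] (by decide +kernel))
noncomputable def rh6fc4ab7f79db0319 : CRef := CRef.mk (Pat.mk 0xe00000020 0x1f0000003c 3 6) 0 0 (step_sound _ 4 [(rhd6e447e81774439e.shift 1 0), rhea383a553bc42003] (by decide +kernel))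
noncomputable def rh5108aaa789497f8e : CRef := CRef.mk (Pat.mk 0x7e00000000 0x7f0000003c 3 7) 0 0 (step_sound _ 3 [rha03f6e28ea70fc7d, (rheb0810cc63b001d8.shift 2 0)] (by decide +kernel))
noncomputable def rh5d54cb79a67f97ab : CRef := CRef.mk (Pat.mk 0x100000003000000020000000000000000 0x1000000010000000100000003000000030000000200000002 3 2) 0 0 (step_sound _ 33 [rh7b1f1fb55310c477, (rhe072fffdd2fccf38.shift 0 1)] (by decide +kernel))
noncomputable def rh332d72a610d43947 : CRef := CRef.mk (Pat.mk 0x7e00000000 0x7f0000003c 3 7) 0 0 (step_sound _ 4 [(rhe25b0a99195a5d59.shift 1 0), rhfbc236671041ce85] (by decide +kernel))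
noncomputable def rh991b8e21f1003e1c : CRef := CRef.mk (Pat.mk 0x1e000000000000000200000004 0x30000001e000000030000000600000004 3 5) 0 0 (step_sound _ 65 [rh54e2670cb103b129, (rheb0810cc63b001d8.shift 0 2)] (by decide +kernel))
noncomputable def rh52970e956c8449d1 : CRef := CRef.mk (Pat.mk 0x80000001a0000000e0000000c 0x60000000f0000001a0000000e0000000c 3 5) 0 0 (step_sound _ 97 [(rh2145e1d24b96a57e.shift 1 0), rh876344954e856662] (by decide +kernel))
noncomputable def rhe8844c4d903d0295 : CRef := CRef.mk (Pat.mk 0xc0000001a0000001a0000000200000000 0xf0000001b0000001e0000000200000002 3 5) 0 0 (step_sound _ 128 [rh0eb24269525fc5fc, (rhab22b5b56e7b3243.shift 0 3)] (by decide +kernel))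
noncomputable def rhc300cce783feec26 : CRef := CRef.mk (Pat.mk 0x2000000020000001a0000000100000000 0x2000000020000001a0000000f00000005 3 5) 0 0 (step_sound _ 33 [rh932754581e0f4330, rhef77c6b312a36259] (by decide +kernel))
noncomputable def rhe482ee30a2733b5f : CRef := CRef.mk (Pat.mk 0x10000000100000002000000020000000000000000 0x1000000010000000100000003000000030000000200000002 3 2) 0 0 (step_sound _ 96 [(rh2145e1d24b96a57e.shift 0 2), rh79ad7b82ec8c35e2] (by decide +kernel))
noncomputable def rh4e595d372ef6c4b9 : CRef := CRef.mk (Pat.mk 0x180000001a00000018 0x180000001f0000001f 3 5) 0 0 (step_sound _ 1 [rh6e1685e3533aff0e, rhb3425fba9db279e9, rhd8be3b7ca6adb62f, rhda02c4ce0b224328] (by decide +kernel))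
noncomputable def rh4b687b01c54530ec : CRef := CRef.mk (Pat.mk 0x60000001400000010 0x70000003e00000030 3 6) 0 0 (step_sound _ 35 [rhc6055bb2ecf924ac, (rhf48373e13d2bc128.shift 1 1)] (by decide +kernel))
noncomputable def rh4a83ee87db3b6ac3 : CRef := CRef.mk (Pat.mk 0x200000007000000040000000500000000 0x20000000700000007000000050000000500000001 3 3) 0 0 (step_sound _ 64 [rh71222050f2c63a3a, (rh8b14df1b185c100a.shift 0 1)] (by decide +kernel))
noncomputable def rhc2f06c7a97a2ad79 : CRef := CRef.mk (Pat.mk 0x80000001c000000040000000c00000000 0x20000000f0000001c000000040000000c00000008 3 5) 0 0 (step_sound _ 130 [(rh277b01412deaec89.shift 0 1), (rh55afc6a59410cf00.shift 2 0)] (by decide +kernel))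
noncomputable def rhc0ac9049ec85fb93 : CRef := CRef.mk (Pat.mk 0x40000000d0000002000000008 0x4000000040000000c0000000f0000007800000008 3 7) 0 0 (step_sound _ 35 [(rh36cf33ca80b33456.shift 0 1), (rhc89253ff58c66167.shift 2 0)] (by decide +kernel))
noncomputable def rh16ffe17ea6ad3735 : CRef := CRef.mk (Pat.mk 0x80000001c0000000c0000000400000000 0x4000000060000000f0000001c0000000c0000000c00000008 3 5) 0 0 (step_sound _ 130 [(rh277b01412deaec89.shift 0 1), (rh3e595262c1b737ad.shift 2 1), (rhd4b4beefcd67f51e.shift 2 0)] (by decide +kernel))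
noncomputable def rh3f09e2870ec06b4b : CRef := CRef.mk (Pat.mk 0xc0000001c000000040000000000000000 0x20000000f0000001c000000040000000400000004 3 5) 0 0 (step_sound _ 129 [(rh40241bd608e5be1a.shift 1 0), (rhb739f4f82bb681b4.shift 0 3)] (by decide +kernel))
noncomputable def rha3e1d11cef3fbde8 : CRef := CRef.mk (Pat.mk 0x40000001e0000000400000000 0x200000002000000070000001e0000000400000004 3 5) 0 0 (step_sound _ 97 [(rh3244c3cc8379b070.shift 0 2), (rhfc7c29d8e65d775f.shift 1 0)] (by decide +kernel))
noncomputable def rhf021c72e3c8b318d : CRef := CRef.mk (Pat.mk 0x1e000000080000000e0000000800000000 0x20000001e0000000b0000000e0000000c00000004 3 5) 0 0 (step_sound _ 97 [(rh57d80d31d58beaa0.shift 1 0), (rheb0810cc63b001d8.shift 0 3)] (by decide +kernel))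
noncomputable def rhcb3126c3a6169a30 : CRef := CRef.mk (Pat.mk 0xc0000001c0000000c0000000800000000 0x20000000f0000001c0000000c0000000c00000004 3 5) 0 0 (step_sound _ 34 [(rh277b01412deaec89.shift 0 1), (rh932754581e0f4330.shift 2 0)] (by decide +kernel))
noncomputable def rh147fc9d3b8351d24 : CRef := CRef.mk (Pat.mk 0xd0000000c0000000c 0x18000000180000000f0000000c0000000c 3 5) 0 0 (step_sound _ 99 [(rh5c5e593799055d58.shift 2 0), rh7e143111a189f2ad] (by decide +kernel))
noncomputable def rhdb54fd31e80d373c : CRef := CRef.mk (Pat.mk 0x80000000a0000001a0000000000000010 0x80000001f0000001b0000001000000010 3 5) 0 0 (step_sound _ 98 [rh3b18e0ae14543051, (rhb739f4f82bb681b4.shift 0 2)] (by decide +kernel))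
noncomputable def rh89810a54557d14e5 : CRef := CRef.mk (Pat.mk 0x20000000200000002000000030000001000000000 0x20000000200000002000000070000001e00000004 3 5) 0 0 (step_sound _ 34 [rha5a7323224298132, (rhd3458b32566d63f7.shift 1 1)] (by decide +kernel))
noncomputable def rhd43983cdd3dd9c09 : CRef := CRef.mk (Pat.mk 0x10000000100000001000000190000000800000000 0x100000001000000010000001b0000000f00000002 3 5) 0 0 (step_sound _ 33 [rh2120aabfffe04691, (rhd3458b32566d63f7.shift 0 1)] (by decide +kernel))
noncomputable def rh4c063b89d42a2070 : CRef := CRef.mk (Pat.mk 0x100000003c00000000 0x300000003e00000007 3 6) 0 0 (step_sound _ 1 [rh2ee61895a6499355, (rh80fcd6d0a18cb2dd.shift 1 0)] (by decide +kernel))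
noncomputable def rh01d64f4b25e9d366 : CRef := CRef.mk (Pat.mk 0x80000001e00000000 0x180000001f00000038 3 6) 0 0 (step_sound _ 4 [rh6765e7960b108c8d, (rhe25b0a99195a5d59.shift 1 0)] (by decide +kernel))
noncomputable def rh41b4ffe1b33a1fe8 : CRef := CRef.mk (Pat.mk 0xa0000001a00000010 0x1b0000001f00000018 3 5) 0 0 (step_sound _ 34 [(rh3244c3cc8379b070.shift 0 1), rh6765e7960b108c8d] (by decide +kernel))
noncomputable def rh312db2f1e4a01342 : CRef := CRef.mk (Pat.mk 0xd0000000c00000008 0x800000018000000180000000f0000000c0000000c 3 5) 0 0 (step_sound _ 99 [(rh503dd4575245365b.shift 2 0), rh7e143111a189f2ad] (by decide +kernel))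
noncomputable def rhcf7ab90986f1232c : CRef := CRef.mk (Pat.mk 0x8000000180000000b0000001000000000 0x1000000018000000180000000b0000001e0000000c 3 5) 0 0 (step_sound _ 35 [rh3c2f980063a11105, (rha707fb719e87fe6e.shift 3 0)] (by decide +kernel))
noncomputable def rhc47d136131bd21d0 : CRef := CRef.mk (Pat.mk 0x180000000a0000001a00000008 0x40000001e0000000b0000001e00000008 3 5) 0 0 (step_sound _ 98 [(rh50fbb5868c909700.shift 2 0), (rh5ef1c85688574b5a.shift 0 1)] (by decide +kernel))
noncomputable def rhdea6676667090562 : CRef := CRef.mk (Pat.mk 0x20000001a000000000000000400000004 0x30000001e000000030000000600000004 3 5) 0 0 (step_sound _ 65 [(rh01e48cd9f335aa73.shift 0 2), (rhbe0e43a3bc50a43f.shift 1 0)] (by decide +kernel))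
noncomputable def rha745e8f203115b26 : CRef := CRef.mk (Pat.mk 0x80000000a0000000a0000001e00000000 0x40000000c0000000e0000000a0000001e00000003 3 5) 0 0 (step_sound _ 1 [(rhb2f8cf715f80bee2.shift 1 0), rheb0810cc63b001d8] (by decide +kernel))
noncomputable def rhd92709f94034dab9 : CRef := CRef.mk (Pat.mk 0x20000001a0000001e00000000 0x1000000030000001e0000001e00000003 3 5) 0 0 (step_sound _ 1 [rh5e05da03898e7023, rheb0810cc63b001d8] (by decide +kernel))
noncomputable def rhbeb7aa8aa1e01d6a : CRef := CRef.mk (Pat.mk 0x20000000200000002000000030000000200000000 0x2000000030000000300000003000000030000000200000002 3 2) 0 0 (step_sound _ 96 [(rh5c5e593799055d58.shift 0 2), rhe286c75f2739cce2] (by decide +kernel))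
noncomputable def rhba5deae707c50fd1 : CRef := CRef.mk (Pat.mk 0x180000000c00000018 0x780000001f00000018 3 7) 0 0 (step_sound _ 33 [(rh572132728df34c43.shift 1 1), rhb739f4f82bb681b4] (by decide +kernel))
noncomputable def rh99958e6426785a6d : CRef := CRef.mk (Pat.mk 0x38000000180000000000000008 0x60000003f000000380000000800000008 3 6) 0 0 (step_sound _ 98 [(rh0da3f8d18d3a0dfd.shift 1 0), (rhad5d8fc3675c15dd.shift 0 2)] (by decide +kernel))
noncomputable def rha24cfbb3f5c145dd : CRef := CRef.mk (Pat.mk 0xc0000000c0000001800000008 0x100000003c0000000f0000001800000008 3 6) 0 0 (step_sound _ 100 [(rh2ed427353258d8dd.shift 0 1), (rh2f68792b6b779e96.shift 3 0)] (by decide +kernel))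
noncomputable def rhef83908086235c44 : CRef := CRef.mk (Pat.mk 0xf00000000000000180000000800000000 0x80000000f00000018000000180000001800000010 3 5) 0 0 (step_sound _ 99 [(rhd4b4beefcd67f51e.shift 3 0), (rhe25b0a99195a5d59.shift 0 3)] (by decide +kernel))
noncomputable def rh02c669351ff79c08 : CRef := CRef.mk (Pat.mk 0x1c0000000a0000000000000008 0x300000001e0000000b0000000800000008 3 6) 0 0 (step_sound _ 132 [(rh2ee61895a6499355.shift 0 2), (rh9e3edb185cc347de.shift 3 0)] (by decide +kernel))
noncomputable def rh3b561a44bf49d6bc : CRef := CRef.mk (Pat.mk 0x1e000000080000000000000008 0x70000003e000000080000000800000008 3 6) 0 0 (step_sound _ 129 [(rh3244c3cc8379b070.shift 0 3), (rh4f4723d1a3b6bc60.shift 1 0)] (by decide +kernel))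
noncomputable def rh9397e1ef1fd877be : CRef := CRef.mk (Pat.mk 0xd0000000c0000000800000000 0x18000000180000000f0000000c0000000c00000004 3 5) 0 0 (step_sound _ 131 [(rh03dfdf12d5937476.shift 2 0), (rh7e143111a189f2ad.shift 0 1)] (by decide +kernel))
noncomputable def rh775b78df42231b16 : CRef := CRef.mk (Pat.mk 0x40000001f 0x1e0000007f 3 7) 0 0 (step_sound _ 35 [rh33e738c4ed385b9f, (rh79b3c29022acbdf3.shift 1 0)] (by decide +kernel))
noncomputable def rh02e98550f039353a : CRef := CRef.mk (Pat.mk 0x100000000700000016 0x180000003f00000036 3 6) 0 0 (step_sound _ 35 [(rh428265de8cd3cd2d.shift 0 1), (rhbca71ab025ef4262.shift 1 0)] (by decide +kernel))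
noncomputable def rh001df559c085f6ec : CRef := CRef.mk (Pat.mk 0x6000000060000000200000001 0x2000000020000000200000006000000060000000700000001 3 3) 0 0 (step_sound _ 129 [(rh3e595262c1b737ad.shift 1 1), rh79877ebd3ef475dd] (by decide +kernel))
noncomputable def rhb677d5483aaebfd8 : CRef := CRef.mk (Pat.mk 0x400000004000000000000000f00000000 0x40000000c000000180000000f00000018 3 5) 0 0 (step_sound _ 67 [(rh33e738c4ed385b9f.shift 0 1), rh5ef6dfbd1c7ee9de] (by decide +kernel))
noncomputable def rh926290641404bff9 : CRef := CRef.mk (Pat.mk 0x200000002000000020000000000000002 0x50000000700000007000000020000000200000002 3 3) 0 0 (step_sound _ 33 [rh3ca48e2a6d60153d, (rh44f453b84f013105.shift 1 0)] (by decide +kernel))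
noncomputable def rh69d6a940d84a8d74 : CRef := CRef.mk (Pat.mk 0xc00000018000000080000000000000008 0xf0000003c000000080000000800000008 3 6) 0 0 (step_sound _ 98 [(rh9e07f76261b05888.shift 2 0), (rhe2b63c00a3d7bb73.shift 0 3)] (by decide +kernel))
noncomputable def rh06c96bdcdd06e437 : CRef := CRef.mk (Pat.mk 0xc0000001a 0x1f0000003b 3 6) 0 0 (step_sound _ 33 [rh474e234485f2465c, rhb739f4f82bb681b4] (by decide +kernel))
noncomputable def rh8e9a52cb52d6b507 : CRef := CRef.mk (Pat.mk 0xe00000008000000080000000800000000 0xf0000003c000000080000000800000008 3 6) 0 0 (step_sound _ 98 [(rh6292bd8784ece55f.shift 0 3), (rh7b1f1fb55310c477.shift 2 0)] (by decide +kernel))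
noncomputable def rhfd9bf52e4153cf20 : CRef := CRef.mk (Pat.mk 0xe00000008000000080000000800000000 0x1f00000038000000080000000800000008 3 6) 0 0 (step_sound _ 100 [(rha8a796402646755e.shift 1 0), (rhb739f4f82bb681b4.shift 0 3)] (by decide +kernel))
noncomputable def rhd3cb84f43d1823f0 : CRef := CRef.mk (Pat.mk 0xf00000008000000080000000800000000 0x180000000f000000080000000c0000000c00000004 3 5) 0 0 (step_sound _ 163 [(rh33e738c4ed385b9f.shift 0 4), (rh7928877f9bf74a91.shift 2 0)] (by decide +kernel))
noncomputable def rhde6855bd4bb88943 : CRef := CRef.mk (Pat.mk 0x7000000070000000000000004 0x180000001f000000070000000400000004 3 5) 0 0 (step_sound _ 99 [(rh18965a982d73c794.shift 0 2), rh63bb75a038171f49] (by decide +kernel))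
noncomputable def rh8e3641487fbeb4ed : CRef := CRef.mk (Pat.mk 0x1e000000100000000000000010 0x380000001f000000100000001000000010 3 6) 0 0 (step_sound _ 131 [(rh9e07f76261b05888.shift 3 0), (rhec46bd5500c722c9.shift 0 3)] (by decide +kernel))
noncomputable def rh77a20c8e0241bc50 : CRef := CRef.mk (Pat.mk 0x1e00000010000000000000000800000000 0x40000001f00000018000000080000000800000008 3 5) 0 0 (step_sound _ 99 [(rhb739f4f82bb681b4.shift 0 3), (rhc93583770a36d0f1.shift 2 0)] (by decide +kernel))
noncomputable def rhbbf7d90ba7a19a17 : CRef := CRef.mk (Pat.mk 0x1e00000014000000100000001000000000 0x1e0000001f000000300000001000000010 3 6) 0 0 (step_sound _ 99 [(rh6494f8aa5ec0db11.shift 0 2), (rh7b1f1fb55310c477.shift 3 0)] (by decide +kernel))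
noncomputable def rh9b5f1d0019ee4eb9 : CRef := CRef.mk (Pat.mk 0x1e00000010000000000000001000000000 0x80000001f00000018000000100000001000000010 3 5) 0 0 (step_sound _ 99 [(rhb739f4f82bb681b4.shift 0 3), (rhdd1b84382d19bcbb.shift 3 0)] (by decide +kernel))
noncomputable def rh2cf3811cd806da5b : CRef := CRef.mk (Pat.mk 0x8000000080000000c00000018 0x800000008000000080000001f00000038 3 6) 0 0 (step_sound _ 33 [(rh6e1f502161d2d285.shift 1 0), rhb739f4f82bb681b4] (by decide +kernel))
noncomputable def rh82393b48a1e151ba : CRef := CRef.mk (Pat.mk 0x700000003000000010000000500000000 0x40000000700000003000000030000000700000006 3 3) 0 0 (step_sound _ 33 [rh55afc6a59410cf00, (rh807d78fa6ca78542.shift 1 0)] (by decide +kernel))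
noncomputable def rh2b183b6f04e1cb6e : CRef := CRef.mk (Pat.mk 0x20000000200000002000000020000000800000038 0x20000000200000002000000060000001f00000038 3 6) 0 0 (step_sound _ 34 [rhc02b3aee7ab87ee1, (rhd3458b32566d63f7.shift 1 1)] (by decide +kernel))
noncomputable def rh7857370417d15f39 : CRef := CRef.mk (Pat.mk 0x4000000020000000300000003000000000000000400000000 0x4000000060000000300000003000000020000000600000006 3 3) 0 0 (step_sound _ 65 [rh7bed6280d5711866, (rhbaefcd01e0a8bca3.shift 1 2)] (by decide +kernel))
noncomputable def rhf9d2a08dfa934231 : CRef := CRef.mk (Pat.mk 0x10000000100000001000000000000000100000000 0x2000000030000000300000001000000030000000300000002 3 2) 0 0 (step_sound _ 64 [(rh44f453b84f013105.shift 0 1), rhd29a1fb688eae70f] (by decide +kernel))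
noncomputable def rh8f94fa36ae1e9d19 : CRef := CRef.mk (Pat.mk 0x20000000200000002000000000000000200000000 0x1000000030000000300000002000000060000000600000004 3 3) 0 0 (step_sound _ 65 [(rh3ca48e2a6d60153d.shift 0 1), (rhd29a1fb688eae70f.shift 1 0)] (by decide +kernel))
noncomputable def rh279390dc89a6bb3a : CRef := CRef.mk (Pat.mk 0x1000000020000000600000003 0x300000003000000020000000700000007 3 3) 0 0 (step_sound _ 97 [rh50fbb5868c909700, rh518d6f6eeebddcb2] (by decide +kernel))
noncomputable def rh52b3bc442b8c6b35 : CRef := CRef.mk (Pat.mk 0x180000000c000000080000000800000000 0x3c0000000f000000080000000800000008 3 6) 0 0 (step_sound _ 97 [(rh33bb7e99691e14a2.shift 1 0), (rh53b3c253cb0c65f4.shift 0 3)] (by decide +kernel))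
noncomputable def rhc9d54926efc329d5 : CRef := CRef.mk (Pat.mk 0x1000000010000000100000001000000010000000000000001 0x100000001000000010000000300000003000000030000000100000001 3 2) 0 0 (step_sound _ 97 [rh27b30caf12b8c6e2, (rh55afc6a59410cf00.shift 0 2)] (by decide +kernel))
noncomputable def rh4522ea7bef838818 : CRef := CRef.mk (Pat.mk 0xf00000006000000020000000200000000 0x180000000f00000006000000060000000600000004 3 5) 0 0 (step_sound _ 34 [(rh55afc6a59410cf00.shift 1 0), (rh63bb75a038171f49.shift 0 1)] (by decide +kernel))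
noncomputable def rh3bc899f5e1481d41 : CRef := CRef.mk (Pat.mk 0x2000000010000000100000001000000000000000100000000 0x2000000030000000100000001000000030000000300000002 3 2) 0 0 (step_sound _ 64 [(rhbaefcd01e0a8bca3.shift 0 2), rhd29a1fb688eae70f] (by decide +kernel))
noncomputable def rh41835ba1dc72c0ef : CRef := CRef.mk (Pat.mk 0x200000003800000018 0x700000003f00000018 3 7) 0 0 (step_sound _ 34 [(rh33e738c4ed385b9f.shift 2 1), rh4baa30ac13a5afd1] (by decide +kernel))
noncomputable def rh0e555e8b4aaee7e2 : CRef := CRef.mk (Pat.mk 0xc0000000b000000000000000800000000 0x40000000c0000000f000000180000000800000008 3 5) 0 0 (step_sound _ 67 [rh3e4b55a8c31e7aae, (rh50fbb5868c909700.shift 2 1)] (by decide +kernel))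
noncomputable def rh91eb3399626b81be : CRef := CRef.mk (Pat.mk 0x60000000b000000000000000800000000 0x70000003f000000180000000800000008 3 6) 0 0 (step_sound _ 98 [rh2bbc4934553ffbfd, (rh79b3c29022acbdf3.shift 0 3)] (by decide +kernel))
noncomputable def rhbad97a0fc5ad232d : CRef := CRef.mk (Pat.mk 0x80000001a0000000600000006 0x60000000f0000001a0000000600000006 3 5) 0 0 (step_sound _ 97 [(rh2145e1d24b96a57e.shift 1 0), rhe8ba100882c6d16d] (by decide +kernel))
noncomputable def rh5b76b39fbfaa23b1 : CRef := CRef.mk (Pat.mk 0xc0000000e000000000000001000000000 0xf0000003e000000300000001000000010 3 6) 0 0 (step_sound _ 100 [(rh2bbc4934553ffbfd.shift 1 0), (rhe3060b190bc0bc78.shift 0 3)] (by decide +kernel))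
noncomputable def rhbb5a9587afe30530 : CRef := CRef.mk (Pat.mk 0x200000000000000060000000300000000 0x20000000200000002000000060000000700000005 3 3) 0 0 (step_sound _ 97 [rh932754581e0f4330, (rhd4b4beefcd67f51e.shift 1 0)] (by decide +kernel))
noncomputable def rhfca472774fde86a0 : CRef := CRef.mk (Pat.mk 0xc0000000f000000000000001000000000 0xc0000000f000000180000001800000018 3 5) 0 0 (step_sound _ 67 [(rh7bed6280d5711866.shift 2 0), (rhe25b0a99195a5d59.shift 0 2)] (by decide +kernel))
noncomputable def rh02236cae5f77c8e6 : CRef := CRef.mk (Pat.mk 0x60000000e00000008 0x60000003f00000038 3 6) 0 0 (step_sound _ 36 [rha03f6e28ea70fc7d, (rhf48373e13d2bc128.shift 1 1)] (by decide +kernel))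
noncomputable def rh7475811764a812de : CRef := CRef.mk (Pat.mk 0x3000000030000000200000004 0x2000000020000000200000003000000030000000700000004 3 3) 0 0 (step_sound _ 129 [(rh503dd4575245365b.shift 0 1), (rhd3458b32566d63f7.shift 1 0)] (by decide +kernel))
noncomputable def rh38d88ed43fa202c6 : CRef := CRef.mk (Pat.mk 0x10000000f000000010000000100000000 0x1000000010000001f000000030000000300000002 3 5) 0 0 (step_sound _ 65 [(rh18965a982d73c794.shift 0 2), rhd4b4beefcd67f51e] (by decide +kernel))
noncomputable def rhb687ca735479b4da : CRef := CRef.mk (Pat.mk 0x20000000200000002000000020000000400000000 0x1000000030000000300000002000000020000000600000004 3 3) 0 0 (step_sound _ 160 [(rh50fbb5868c909700.shift 0 2), rhdd25e32394858bbd] (by decide +kernel))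
noncomputable def rh3ab5c2a171313cdf : CRef := CRef.mk (Pat.mk 0x1e000000100000001000000010 0x200000003e000000170000001000000010 3 6) 0 0 (step_sound _ 101 [(rh2f68792b6b779e96.shift 4 0), (rheae1728ff4a56756.shift 0 2)] (by decide +kernel))
noncomputable def rh721d8ecdcc29ae89 : CRef := CRef.mk (Pat.mk 0xe0000001a0000003800000000 0x10000000100000001e0000001b0000003800000020 3 6) 0 0 (step_sound _ 100 [(rh571950d89739e871.shift 3 0), (rheb0810cc63b001d8.shift 0 2)] (by decide +kernel))
noncomputable def rh2d3cfdad8a2a86a9 : CRef := CRef.mk (Pat.mk 0x20000001e00000000 0x60000003e00000007 3 6) 0 0 (step_sound _ 37 [(rh3f8766e6ecb455ce.shift 1 1), rheae1728ff4a56756] (by decide +kernel))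
noncomputable def rh823293f69a08ad12 : CRef := CRef.mk (Pat.mk 0x600000003000000040000000c00000000 0x80000001e00000007000000040000000c00000008 3 5) 0 0 (step_sound _ 98 [(rh55afc6a59410cf00.shift 2 0), (rh712526e472efe489.shift 0 1)] (by decide +kernel))
noncomputable def rhfbf32aaaa4505e73 : CRef := CRef.mk (Pat.mk 0xe000000000000000e00000004 0x80000000f000000180000000f00000004 3 5) 0 0 (step_sound _ 67 [(rh1642ef1127830c20.shift 0 1), (rh5c5e593799055d58.shift 2 0)] (by decide +kernel))
noncomputable def rh41a0b53fa256048c : CRef := CRef.mk (Pat.mk 0x60000000700000008 0x70000003f00000018 3 6) 0 0 (step_sound _ 35 [(rh79b3c29022acbdf3.shift 0 1), rhe25b0a99195a5d59] (by decide +kernel))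
noncomputable def rh155e6e50148888bc : CRef := CRef.mk (Pat.mk 0xe0000000c0000000800000008 0x100000003e0000000f0000000800000008 3 6) 0 0 (step_sound _ 100 [(rh2f68792b6b779e96.shift 3 0), (rhaf9f2efc81a8312b.shift 0 2)] (by decide +kernel))
noncomputable def rhb5bfb93a69499a93 : CRef := CRef.mk (Pat.mk 0x10000000100000001000000000000000200000000 0x10000000300000003000000030000000200000002 3 2) 0 0 (step_sound _ 65 [rh1f1e441d7d62538e, (rhbe0e43a3bc50a43f.shift 0 1)] (by decide +kernel))
noncomputable def rhdf2a0c4db5cecb38 : CRef := CRef.mk (Pat.mk 0x4000000060000000a0000000e00000000 0x4000000070000003e0000000e00000008 3 6) 0 0 (step_sound _ 66 [(rh55afc6a59410cf00.shift 2 0), (rhb762f327c85d41a0.shift 0 1)] (by decide +kernel))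
noncomputable def rhf209f58e82193771 : CRef := CRef.mk (Pat.mk 0xf000000000000000c00000000 0x180000000f000000180000000c00000004 3 5) 0 0 (step_sound _ 131 [(rh33e738c4ed385b9f.shift 0 3), rhd649337939d95a05] (by decide +kernel))
noncomputable def rh2591032a0e7f4182 : CRef := CRef.mk (Pat.mk 0x200000003c00000000 0x300000003e00000007 3 6) 0 0 (step_sound _ 1 [(rh80fcd6d0a18cb2dd.shift 1 0), rhd6f64f2d70aac170] (by decide +kernel))
noncomputable def rh25bdc949d023a4d1 : CRef := CRef.mk (Pat.mk 0x100000001e000000000000000800000000 0x10000000180000001f000000080000000800000008 3 5) 0 0 (step_sound _ 67 [(rh6835955021d3aba9.shift 0 1), (rh71222050f2c63a3a.shift 3 0)] (by decide +kernel))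
noncomputable def rh3b822c12dc2c4f39 : CRef := CRef.mk (Pat.mk 0x7000000040000000500000002 0x500000007000000070000000700000002 3 3) 0 0 (step_sound _ 33 [(rh5c5e593799055d58.shift 1 0), rhdb2909ac5c854515] (by decide +kernel))
noncomputable def rh15a206fde95ee1c3 : CRef := CRef.mk (Pat.mk 0xe000000080000000800000004 0x10000000180000000f000000080000000c00000004 3 5) 0 0 (step_sound _ 131 [(rh79877ebd3ef475dd.shift 2 0), (rhdab32775f5c78fcf.shift 0 1)] (by decide +kernel))
noncomputable def rh20aaab6250709fa0 : CRef := CRef.mk (Pat.mk 0x40000000e00000010 0x70000003e00000030 3 6) 0 0 (step_sound _ 36 [(rhe25b0a99195a5d59.shift 1 0), (rhe3060b190bc0bc78.shift 0 1)] (by decide +kernel))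
noncomputable def rhdd4fe9fd28ed4c0f : CRef := CRef.mk (Pat.mk 0x1e00000000 0x700000003e00000007 3 7) 0 0 (step_sound _ 37 [(rh9890f9d77740bbed.shift 1 1), rheae1728ff4a56756] (by decide +kernel))
noncomputable def rh1c365c76821ab000 : CRef := CRef.mk (Pat.mk 0x500000005000000050000000000000000 0x50000000500000005000000070000000700000002 3 3) 0 0 (step_sound _ 33 [(rhc50a9cb3b374a536.shift 0 1), rhe38ad39d05c44887] (by decide +kernel))
noncomputable def rhf9a6286f1d5377a2 : CRef := CRef.mk (Pat.mk 0x3000000020000000200000000 0x1000000010000000100000003000000030000000200000002 3 2) 0 0 (step_sound _ 128 [rh7b1f1fb55310c477, (rhe072fffdd2fccf38.shift 0 1)] (by decide +kernel))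
noncomputable def rha828c73cac252083 : CRef := CRef.mk (Pat.mk 0x4000000010000000600000006000000000000000000000000 0x4000000050000000700000006000000020000000200000002 3 3) 0 0 (step_sound _ 65 [rh2f3e416c6263c0c2, (rhee230b994cc8b773.shift 1 2)] (by decide +kernel))
noncomputable def rh817d4ba7eecccf7e : CRef := CRef.mk (Pat.mk 0x3000000020000000600000000 0x10000000300000003000000020000000600000006 3 3) 0 0 (step_sound _ 129 [(rh55afc6a59410cf00.shift 1 0), rhe286c75f2739cce2] (by decide +kernel))
noncomputable def rh89da563484db6020 : CRef := CRef.mk (Pat.mk 0xf0000000c000000080000000000000000 0x180000001f0000000c000000080000000800000008 3 5) 0 0 (step_sound _ 35 [(rh763788a68c67bc0c.shift 0 1), (rh7b1f1fb55310c477.shift 2 0)] (by decide +kernel))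
noncomputable def rhece3f14d484173c8 : CRef := CRef.mk (Pat.mk 0x400000006000000070000000400000000 0x80000000c0000001e000000070000000400000004 3 5) 0 0 (step_sound _ 99 [(rh18965a982d73c794.shift 0 2), (rha707fb719e87fe6e.shift 2 0)] (by decide +kernel))
noncomputable def rhaeeea70758289f91 : CRef := CRef.mk (Pat.mk 0x20000000500000001000000050000000200000000 0x2000000070000000500000005000000050000000700000002 3 3) 0 0 (step_sound _ 98 [(rh8b14df1b185c100a.shift 0 2), rhe38ad39d05c44887] (by decide +kernel))
noncomputable def rha53095e9deeca150 : CRef := CRef.mk (Pat.mk 0x40000000100000007000000020000000000000000 0x4000000040000000500000007000000060000000200000002 3 3) 0 0 (step_sound _ 130 [rh27f593b3ddfbb7cd, (rh5c5e593799055d58.shift 1 2)] (by decide +kernel))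
noncomputable def rh2abc0c2990dfbd23 : CRef := CRef.mk (Pat.mk 0x8000000080000000b0000001000000000 0x8000000080000000b0000001e00000014 3 5) 0 0 (step_sound _ 35 [rh3c2f980063a11105, (rh55afc6a59410cf00.shift 3 0)] (by decide +kernel))
noncomputable def rh7f8022033f135641 : CRef := CRef.mk (Pat.mk 0x1a0000000a000000080000000800000000 0x1e0000003b000000080000000800000008 3 6) 0 0 (step_sound _ 130 [(rh78eadeed1cc7dfb8.shift 1 0), (rheb0810cc63b001d8.shift 0 3)] (by decide +kernel))
noncomputable def rha43277a93dc44e8f : CRef := CRef.mk (Pat.mk 0x1000000010000000100000001000000010000000100000000 0x1000000030000000300000003000000030000000100000001 3 2) 0 0 (step_sound _ 97 [(rh55afc6a59410cf00.shift 0 2), rha707fb719e87fe6e] (by decide +kernel))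
noncomputable def rh257fa66c90152105 : CRef := CRef.mk (Pat.mk 0x40000000500000005000000050000000000000000 0x40000000500000005000000070000000700000002 3 3) 0 0 (step_sound _ 33 [(rh79877ebd3ef475dd.shift 1 1), rhe38ad39d05c44887] (by decide +kernel))
noncomputable def rha3b69f5d63cf6454 : CRef := CRef.mk (Pat.mk 0x200000001e00000000 0x600000003e00000007 3 7) 0 0 (step_sound _ 37 [(rh33e738c4ed385b9f.shift 2 1), rheae1728ff4a56756] (by decide +kernel))
noncomputable def rh14cfe43629e24c8a : CRef := CRef.mk (Pat.mk 0x600000000000000020000000200000002 0x50000000700000003000000020000000200000002 3 3) 0 0 (step_sound _ 97 [(rh2f68792b6b779e96.shift 1 1), rh3ca48e2a6d60153d] (by decide +kernel))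
noncomputable def rh9823d795ad2dac56 : CRef := CRef.mk (Pat.mk 0x20000003c00000000 0x30000003e00000070 3 7) 0 0 (step_sound _ 33 [(rh3244c3cc8379b070.shift 0 1), (rh4ad5fc38f1b69f65.shift 1 0)] (by decide +kernel))
noncomputable def rh3dd695ff357950cb : CRef := CRef.mk (Pat.mk 0x20000000200000001000000000000000100000000 0x20000000300000003000000030000000100000001 3 2) 0 0 (step_sound _ 64 [(rh1006c02ae4212ff0.shift 0 1), rh488955a31400a0ac] (by decide +kernel))
noncomputable def rh54b0138fc9c15391 : CRef := CRef.mk (Pat.mk 0xb000000080000000800000004 0x10000000180000000f000000080000000c00000004 3 5) 0 0 (step_sound _ 131 [(rh79877ebd3ef475dd.shift 2 0), (rhddcd04bb31546311.shift 0 1)] (by decide +kernel))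
noncomputable def rh4a70aea49c133224 : CRef := CRef.mk (Pat.mk 0x20000000000000007000000010000000500000000 0x20000000700000007000000050000000500000004 3 3) 0 0 (step_sound _ 129 [(rh1006c02ae4212ff0.shift 0 1), (rh3b5346b2e316d790.shift 1 0)] (by decide +kernel))
noncomputable def rhd1ac2257341302d0 : CRef := CRef.mk (Pat.mk 0x20000000000000007000000010000000400000000 0x2000000020000000600000007000000050000000400000004 3 3) 0 0 (step_sound _ 129 [(rh3b5346b2e316d790.shift 1 0), (rh5c5e593799055d58.shift 0 2)] (by decide +kernel))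
noncomputable def rha510588bba5f6b6d : CRef := CRef.mk (Pat.mk 0x200000007000000010000000400000000 0x2000000020000000600000007000000050000000400000004 3 3) 0 0 (step_sound _ 66 [(rh7b1f1fb55310c477.shift 1 0), (rh8045a4749be85c44.shift 0 1)] (by decide +kernel))
noncomputable def rh2e87ce83aebd21d7 : CRef := CRef.mk (Pat.mk 0x10000000100000001000000000000000300000000 0x2000000030000000300000001000000010000000300000002 3 2) 0 0 (step_sound _ 64 [(rh44f453b84f013105.shift 0 1), rh55afc6a59410cf00] (by decide +kernel))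
noncomputable def rh0588d2c7f2cab5e9 : CRef := CRef.mk (Pat.mk 0x10000000000000003000000020000000000000000 0x1000000010000000100000003000000030000000200000002 3 2) 0 0 (step_sound _ 128 [(rh2145e1d24b96a57e.shift 0 2), rh79ad7b82ec8c35e2] (by decide +kernel))
noncomputable def rh4053c12da95c0aa0 : CRef := CRef.mk (Pat.mk 0x10000000300000003000000010000000000000000 0x10000000300000003000000030000000300000003 3 2) 0 0 (step_sound _ 33 [rh9b4df57cddcda711, (rh9e07f76261b05888.shift 0 1)] (by decide +kernel))
noncomputable def rh072ce4b569e16e7a : CRef := CRef.mk (Pat.mk 0x20000000200000002000000000000000300000000 0x20000000200000002000000060000000700000005 3 3) 0 0 (step_sound _ 65 [rh932754581e0f4330, (rhd29a1fb688eae70f.shift 1 0)] (by decide +kernel))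
noncomputable def rh5cbe34a540eef4f6 : CRef := CRef.mk (Pat.mk 0xe000000020000000200000002 0x1000000030000001f000000020000000200000002 3 5) 0 0 (step_sound _ 128 [(rh6279f4d0e372f7fa.shift 0 1), rhffd04209dc8ea796] (by decide +kernel))
noncomputable def rh11c908474401bff1 : CRef := CRef.mk (Pat.mk 0x300000000000000020000000200000002 0x50000000700000006000000020000000200000002 3 3) 0 0 (step_sound _ 97 [(rh44f453b84f013105.shift 1 0), (rh50fbb5868c909700.shift 0 1)] (by decide +kernel))
noncomputable def rhc52876b7d6d5e639 : CRef := CRef.mk (Pat.mk 0x100000002000000020000000200000002 0x50000000700000006000000020000000200000002 3 3) 0 0 (step_sound _ 130 [(rh9c0a5dbd188ab718.shift 0 1), (rhbaefcd01e0a8bca3.shift 1 0)] (by decide +kernel))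
noncomputable def rh4d3f507ea3e2b158 : CRef := CRef.mk (Pat.mk 0x80000000f000000000000000400000000 0x8000000080000000f0000001c0000000400000004 3 5) 0 0 (step_sound _ 67 [(rh0db119afefb5ebc7.shift 2 0), (rhe25b0a99195a5d59.shift 0 2)] (by decide +kernel))
noncomputable def rhb8566e9a0302f73d : CRef := CRef.mk (Pat.mk 0x100000001000000030000000100000001 0x1000000010000000300000003000000030000000300000001 3 2) 0 0 (step_sound _ 97 [rh2f68792b6b779e96, (rh3e595262c1b737ad.shift 0 1)] (by decide +kernel))
noncomputable def rh1f01239ae2eb1687 : CRef := CRef.mk (Pat.mk 0x10000000100000001000000010000000100000001 0x1000000010000000300000003000000030000000300000001 3 2) 0 0 (step_sound _ 97 [rh2f68792b6b779e96, (rhd4b4beefcd67f51e.shift 0 1)] (by decide +kernel))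
noncomputable def rhf17b5c6197c16752 : CRef := CRef.mk (Pat.mk 0x20000000e00000002 0x60000003e00000007 3 6) 0 0 (step_sound _ 36 [(rhe9d682012dbceb06.shift 1 0), rheb0810cc63b001d8] (by decide +kernel))
noncomputable def rh2a3d50defe729df3 : CRef := CRef.mk (Pat.mk 0x7000000080000000400000004 0x180000000f000000180000000c00000004 3 5) 0 0 (step_sound _ 99 [rh76470ef0e61bbc2e, (rhe25b0a99195a5d59.shift 0 2)] (by decide +kernel))
noncomputable def rh8e95de002c6f51c7 : CRef := CRef.mk (Pat.mk 0x300000002000000000000000200000002 0x50000000700000006000000020000000200000002 3 3) 0 0 (step_sound _ 65 [(rh44f453b84f013105.shift 1 0), (rh50fbb5868c909700.shift 0 1)] (by decide +kernel))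
noncomputable def rh96c1151e6736a65d : CRef := CRef.mk (Pat.mk 0xe00000004000000000000000400000004 0xf0000003c000000040000000400000004 3 6) 0 0 (step_sound _ 99 [(rh04253f50b6dd0619.shift 2 0), (rh6292bd8784ece55f.shift 0 3)] (by decide +kernel))
noncomputable def rhdaa94fbf024044dd : CRef := CRef.mk (Pat.mk 0x5000000050000000500000006 0x20000000300000007000000050000000700000006 3 3) 0 0 (step_sound _ 129 [rh47ab86d89ce68610, (rhffd04209dc8ea796.shift 1 0)] (by decide +kernel))
noncomputable def rhe989621af1e4961c : CRef := CRef.mk (Pat.mk 0x10000000100000001400000018 0x1000000010000000300000001f00000018 3 6) 0 0 (step_sound _ 35 [rh34517e326ddb5b25, (rh5c5e593799055d58.shift 3 0)] (by decide +kernel))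
noncomputable def rh08684cd56c1cb78e : CRef := CRef.mk (Pat.mk 0xa0000000a0000000a0000000a 0x50000000f0000001a0000000a0000000a 3 5) 0 0 (step_sound _ 98 [(rh50fbb5868c909700.shift 2 0), rh92dfa4e252fd939c] (by decide +kernel))
noncomputable def rh5127e5a2c1eeaad8 : CRef := CRef.mk (Pat.mk 0x10000000000000001c00000018 0x1000000010000000300000001f00000018 3 6) 0 0 (step_sound _ 68 [rh34517e326ddb5b25, (rh5c5e593799055d58.shift 3 0)] (by decide +kernel))
noncomputable def rh585cb2b6fc629abf : CRef := CRef.mk (Pat.mk 0x4000000010000000500000007000000000000000000000000 0x4000000050000000700000007000000020000000200000002 3 3) 0 0 (step_sound _ 65 [rh08edf065357d68e5, (rhee230b994cc8b773.shift 1 2)] (by decide +kernel))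
noncomputable def rhd444dcb48ef11957 : CRef := CRef.mk (Pat.mk 0xb000000080000000800000008 0x10000000180000001f000000080000000800000008 3 5) 0 0 (step_sound _ 132 [(rh14c650b81439982e.shift 0 1), (rhbaefcd01e0a8bca3.shift 3 0)] (by decide +kernel))
noncomputable def rhf8c981c5d1d372d6 : CRef := CRef.mk (Pat.mk 0x1e00000014 0x7f0000001e 3 7) 0 0 (step_sound _ 3 [(rh2612b4f73ba7c3b3.shift 1 0), rhb739f4f82bb681b4] (by decide +kernel))
noncomputable def rh8af01850008ce7c3 : CRef := CRef.mk (Pat.mk 0x30000000000000001000000010000000100000000 0x2000000030000000100000001000000030000000300000002 3 2) 0 0 (step_sound _ 128 [(rh2f68792b6b779e96.shift 0 2), rhd29a1fb688eae70f] (by decide +kernel))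
noncomputable def rhd012110982cde18e : CRef := CRef.mk (Pat.mk 0x20000000000000002000000020000000200000000 0x1000000030000000300000002000000060000000600000004 3 3) 0 0 (step_sound _ 129 [(rh3ca48e2a6d60153d.shift 0 1), (rhd29a1fb688eae70f.shift 1 0)] (by decide +kernel))
noncomputable def rh874a93a326de5814 : CRef := CRef.mk (Pat.mk 0x80000000800000008000000080000000a00000000 0x80000000800000008000000180000001f00000004 3 5) 0 0 (step_sound _ 34 [(rh8801e8897ac0f840.shift 0 1), (rh932754581e0f4330.shift 2 0)] (by decide +kernel))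
noncomputable def rh0d419f8af7b85169 : CRef := CRef.mk (Pat.mk 0x30000000200000000000000020000000200000000 0x1000000030000000200000002000000030000000300000001 3 2) 0 0 (step_sound _ 97 [(rh50fbb5868c909700.shift 0 2), rh7928877f9bf74a91] (by decide +kernel))
noncomputable def rh751f91025c6ba4fe : CRef := CRef.mk (Pat.mk 0x2000000020000000100000001 0x20000000200000003000000030000000300000001 3 2) 0 0 (step_sound _ 129 [rh88f1a525075bdbb4, rheea67dfebd0f8008] (by decide +kernel))
noncomputable def rhb12b6feead69bbcb : CRef := CRef.mk (Pat.mk 0x20000000200000002000000000000000e00000000 0x20000000200000002000000030000001f00000004 3 5) 0 0 (step_sound _ 65 [(rh55afc6a59410cf00.shift 1 0), (rh83a364e17e439917.shift 0 1)] (by decide +kernel))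
noncomputable def rh990f2a74d3707a53 : CRef := CRef.mk (Pat.mk 0x800000008000000000000001e 0x80000000800000008000000380000001f 3 6) 0 0 (step_sound _ 36 [(rh33e738c4ed385b9f.shift 1 0), rhc819099e3528846d] (by decide +kernel))
noncomputable def rheba69208ec1d6f97 : CRef := CRef.mk (Pat.mk 0x800000008000000000000000f00000000 0x800000008000000180000001f00000018 3 5) 0 0 (step_sound _ 67 [rh2aa7c1d375387a4e, (rh33e738c4ed385b9f.shift 0 1)] (by decide +kernel))
noncomputable def rha1447db93ca109b8 : CRef := CRef.mk (Pat.mk 0x1000000010000000100000003 0x20000000300000003000000010000000300000003 3 2) 0 0 (step_sound _ 129 [rh47ab86d89ce68610, rhbaefcd01e0a8bca3] (by decide +kernel))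
noncomputable def rh0128904edcdedfa8 : CRef := CRef.mk (Pat.mk 0x800000008000000080000000e0000000000000000 0x800000008000000080000001f0000001800000010 3 5) 0 0 (step_sound _ 36 [rh06dad6edb7ce8d9c, (rhd3458b32566d63f7.shift 3 1)] (by decide +kernel))
noncomputable def rhfcf5e7ae266cd72e : CRef := CRef.mk (Pat.mk 0x10000000300000001000000010000000100000000 0x1000000010000000300000003000000030000000300000001 3 2) 0 0 (step_sound _ 97 [(rh55a1f6c57a317ce6.shift 0 1), rh71222050f2c63a3a] (by decide +kernel))
noncomputable def rh26d2b5bcb258fc1d : CRef := CRef.mk (Pat.mk 0x400000004000000140000000c00000000 0x400000004000000040000001c0000000f00000002 3 5) 0 0 (step_sound _ 33 [(rh4b6e729f69f75d56.shift 0 1), (rh932754581e0f4330.shift 1 0)] (by decide +kernel))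
noncomputable def rh8ce2f13debfaa789 : CRef := CRef.mk (Pat.mk 0x180000000c000000080000000800000000 0x380000001f000000080000000800000008 3 6) 0 0 (step_sound _ 100 [(rh71222050f2c63a3a.shift 3 0), (rhab2ad169e49f9c5e.shift 0 3)] (by decide +kernel))
noncomputable def rh2655ba5189834a5b : CRef := CRef.mk (Pat.mk 0x60000000c000000040000000400000000 0xf0000003c000000040000000400000004 3 6) 0 0 (step_sound _ 100 [rh06e7be76729e4c2a, (rhf48373e13d2bc128.shift 1 3)] (by decide +kernel))
noncomputable def rhc25ad3976f9657c5 : CRef := CRef.mk (Pat.mk 0x300000001000000010000000700000000 0x10000000300000003000000030000000700000005 3 3) 0 0 (step_sound _ 65 [(rh2145e1d24b96a57e.shift 0 1), rh9b32778d424b58d6] (by decide +kernel))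
noncomputable def rh26d136862c8f0c30 : CRef := CRef.mk (Pat.mk 0xf0000000a0000000a0000000200000000 0x180000000f0000000a0000000e0000000600000004 3 5) 0 0 (step_sound _ 34 [(rh55afc6a59410cf00.shift 1 0), (rhcf9240a90a4519c3.shift 0 1)] (by decide +kernel))
noncomputable def rhf3276dbea3628a1a : CRef := CRef.mk (Pat.mk 0x60000000c000000040000000400000000 0xf0000003c000000040000000400000004 3 6) 0 0 (step_sound _ 131 [(rh6292bd8784ece55f.shift 0 3), (rh71222050f2c63a3a.shift 2 0)] (by decide +kernel))
noncomputable def rh446ab9ffb3faaa7b : CRef := CRef.mk (Pat.mk 0x4000000070000000600000010 0x400000004000000070000001f00000018 3 5) 0 0 (step_sound _ 35 [rh26296021211e31e0, (rhf48373e13d2bc128.shift 0 1)] (by decide +kernel))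
noncomputable def rh91682cd2ad8d7576 : CRef := CRef.mk (Pat.mk 0x1c00000008000000020000000300000001 0x1f0000003a000000020000000300000001 3 6) 0 0 (step_sound _ 129 [(rha03f6e28ea70fc7d.shift 0 3), rhee230b994cc8b773] (by decide +kernel))
noncomputable def rh12f10507d42085b0 : CRef := CRef.mk (Pat.mk 0x1c00000008000000010000000300000002 0x1f0000000f000000010000000300000002 3 5) 0 0 (step_sound _ 96 [rh2145e1d24b96a57e, (rh81076d3993588649.shift 0 3)] (by decide +kernel))
noncomputable def rhd9474782a2680774 : CRef := CRef.mk (Pat.mk 0x2000000020000000600000002000000020000000100000000 0x2000000020000000600000006000000060000000300000003 3 3) 0 0 (step_sound _ 33 [(rh2867a7c45dfd885a.shift 1 0), rh932754581e0f4330] (by decide +kernel))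
noncomputable def rhc94597eb09ef68b2 : CRef := CRef.mk (Pat.mk 0x40000001e000000180000000c00000000 0x40000001e0000001b0000000f00000002 3 5) 0 0 (step_sound _ 33 [rh3ea8f185d13574b4, (rh53b3c253cb0c65f4.shift 0 1)] (by decide +kernel))
noncomputable def rhbce5a81d218abb3c : CRef := CRef.mk (Pat.mk 0x4000000020000001e0000000000000000 0x4000000060000003e0000000300000002 3 6) 0 0 (step_sound _ 98 [rh9c40a739b57d6d20, (rhf48373e13d2bc128.shift 1 2)] (by decide +kernel))
noncomputable def rh7a5caf50380aa00f : CRef := CRef.mk (Pat.mk 0xc0000000e0000001a0000000800000000 0xc0000000e0000001a0000000f00000006 3 5) 0 0 (step_sound _ 33 [rh3cf2764919f34f47, (rh71222050f2c63a3a.shift 1 0)] (by decide +kernel))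
noncomputable def rh0e6924d680f6455d : CRef := CRef.mk (Pat.mk 0x20000000200000002000000010000000000000000 0x2000000020000000200000003000000030000000100000001 3 2) 0 0 (step_sound _ 96 [rh42548283029e2a39, (rh5c5e593799055d58.shift 0 2)] (by decide +kernel))
noncomputable def rh67ae3f00abe2d22d : CRef := CRef.mk (Pat.mk 0x400000000000000020000001e00000000 0x400000004000000060000003e00000003 3 6) 0 0 (step_sound _ 66 [rh981be6707e4d9088, (rhf48373e13d2bc128.shift 1 1)] (by decide +kernel))
noncomputable def rh2e488f599d10d45a : CRef := CRef.mk (Pat.mk 0x400000004000000080000001c00000000 0x4000000040000003c0000001f00000003 3 6) 0 0 (step_sound _ 33 [rh316d0c7c5292e4bb, (rhec46bd5500c722c9.shift 0 1)] (by decide +kernel))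
noncomputable def rhd5a70f59fea8f3da : CRef := CRef.mk (Pat.mk 0x2000000000000001c0000000e00000000 0x2000000030000001f0000003e00000004 3 6) 0 0 (step_sound _ 65 [(rha03f6e28ea70fc7d.shift 0 1), rhb1085e0e51093b6e] (by decide +kernel))
noncomputable def rhc648f6a26d503573 : CRef := CRef.mk (Pat.mk 0x1e0000001000000038 0x1e0000001f0000003c 3 6) 0 0 (step_sound _ 33 [(rh23e41f97710e9f38.shift 1 0), (rheb0810cc63b001d8.shift 0 1)] (by decide +kernel))
noncomputable def rh4dde45b6cee3e19c : CRef := CRef.mk (Pat.mk 0x6000000000000001e00000000 0x400000006000000030000001e00000003 3 5) 0 0 (step_sound _ 1 [rh3cf27b620d27ca9a, rheb0810cc63b001d8] (by decide +kernel))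
noncomputable def rha85076c68f1f3e46 : CRef := CRef.mk (Pat.mk 0x80000000c0000000d000000000000000000000000 0xc0000000c0000000f000000180000001800000008 3 5) 0 0 (step_sound _ 67 [(rh2d65c91b9f714cee.shift 0 1), (rh3cb04db3dd2b6a55.shift 2 0)] (by decide +kernel))
noncomputable def rh2ebbcfe90e0f250d : CRef := CRef.mk (Pat.mk 0x100000001e00000000 0x180000001f00000038 3 6) 0 0 (step_sound _ 4 [(rhe25b0a99195a5d59.shift 1 0), rhef7515d0e7cb1d2b] (by decide +kernel))
noncomputable def rh00e4849a9c0a8d60 : CRef := CRef.mk (Pat.mk 0x80000000800000018000000070000000400000000 0x80000001800000018000000170000003e00000010 3 6) 0 0 (step_sound _ 36 [(rh3b5346b2e316d790.shift 3 0), (rh68691964b29f233d.shift 0 1)] (by decide +kernel))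
noncomputable def rh269647d82b3acda8 : CRef := CRef.mk (Pat.mk 0x10000000000000002000000020000000200000000 0x10000000300000003000000030000000200000002 3 2) 0 0 (step_sound _ 128 [rh4b555cfb2752cddc, (rhcfdf45280693d3da.shift 0 1)] (by decide +kernel))
noncomputable def rh40bfdbfb16eaa264 : CRef := CRef.mk (Pat.mk 0x6000000000000001e00000000 0x400000006000000030000001e00000003 3 5) 0 0 (step_sound _ 65 [(rh3244c3cc8379b070.shift 0 1), rh7b9752c74db2176f] (by decide +kernel))
noncomputable def rhbd3d56d68aaa590e : CRef := CRef.mk (Pat.mk 0x380000000800000038 0x380000001f00000078 3 7) 0 0 (step_sound _ 34 [(rheea1a90336e79c71.shift 0 1), (rhf48373e13d2bc128.shift 2 0)] (by decide +kernel))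
noncomputable def rh1314431eddc75183 : CRef := CRef.mk (Pat.mk 0x2000000000000000f0000000100000000 0x200000002000000020000001f0000000300000001 3 5) 0 0 (step_sound _ 97 [rh54d1d3f05f0ed5a2, (rh5c5e593799055d58.shift 0 1)] (by decide +kernel))
noncomputable def rh2df96f83c49a9883 : CRef := CRef.mk (Pat.mk 0x8000000100000001e00000000 0x80000000800000008000000180000001f00000004 3 5) 0 0 (step_sound _ 67 [(rh37d9ceebb86d75d1.shift 2 0), (rh53b3c253cb0c65f4.shift 0 1)] (by decide +kernel))
noncomputable def rh235fe8d40f8e6f8a : CRef := CRef.mk (Pat.mk 0xc000000180000000c 0x1f000000780000000c 3 7) 0 0 (step_sound _ 37 [(rh18965a982d73c794.shift 2 0), (rhc02b3aee7ab87ee1.shift 0 1)] (by decide +kernel))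
noncomputable def rhf73f84e8c2adef2f : CRef := CRef.mk (Pat.mk 0x3000000040000001e 0x30000003f0000001e 3 6) 0 0 (step_sound _ 36 [(rh33e738c4ed385b9f.shift 1 0), rhb90d198c2da154ec] (by decide +kernel))
noncomputable def rhb3888086d5460b3f : CRef := CRef.mk (Pat.mk 0x380000000800000070 0x380000001f00000078 3 7) 0 0 (step_sound _ 34 [(rh09d4dfe75d4407d6.shift 2 0), (rheea1a90336e79c71.shift 0 1)] (by decide +kernel))
noncomputable def rh5914ddd44e1a2b6e : CRef := CRef.mk (Pat.mk 0x6000000000000001e00000000 0x400000006000000060000001e00000003 3 5) 0 0 (step_sound _ 1 [(rh7d7eaefe27cdd7b0.shift 1 0), rheb0810cc63b001d8] (by decide +kernel))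
noncomputable def rhc79769c0453a04d3 : CRef := CRef.mk (Pat.mk 0x3e00000010 0xff0000001c 3 8) 0 0 (step_sound _ 3 [(rh2612b4f73ba7c3b3.shift 2 0), rhb739f4f82bb681b4] (by decide +kernel))
noncomputable def rhb22d6bdf23873da3 : CRef := CRef.mk (Pat.mk 0x2000000000000001e0000000200000000 0x2000000030000003e0000000600000004 3 6) 0 0 (step_sound _ 34 [(rh18965a982d73c794.shift 1 1), rhb1085e0e51093b6e] (by decide +kernel))
noncomputable def rh730cf79924e223fc : CRef := CRef.mk (Pat.mk 0x2000000000000000e0000000600000000 0x2000000030000003e0000000600000004 3 6) 0 0 (step_sound _ 68 [(rh18965a982d73c794.shift 1 1), rhb1085e0e51093b6e] (by decide +kernel))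
noncomputable def rhebbf0f79de50f641 : CRef := CRef.mk (Pat.mk 0x400000006000000180000000c00000000 0x4000000060000001e0000000f00000002 3 5) 0 0 (step_sound _ 33 [(rh53b3c253cb0c65f4.shift 0 1), (rhecb97fed8c7f1286.shift 1 0)] (by decide +kernel))
noncomputable def rhdc235d1700be4e20 : CRef := CRef.mk (Pat.mk 0x3e0000000000000003000000010000000000000000 0x3e0000000600000003000000030000000100000001 3 6) 0 0 (step_sound _ 129 [rh42548283029e2a39, (rh80fcd6d0a18cb2dd.shift 1 4)] (by decide +kernel))
noncomputable def rh8195a2d7794c7cd2 : CRef := CRef.mk (Pat.mk 0x3c00000000 0x3e00000077 3 7) 0 0 (step_sound _ 33 [(rh4ad5fc38f1b69f65.shift 1 0), rheae1728ff4a56756] (by decide +kernel))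
noncomputable def rhfbe734d7f1523424 : CRef := CRef.mk (Pat.mk 0x6000000000000000c0000001c 0x200000006000000060000000f0000001c 3 5) 0 0 (step_sound _ 33 [rhb739f4f82bb681b4, (rhdb2909ac5c854515.shift 1 0)] (by decide +kernel))
noncomputable def rhdcddfa9f86531f39 : CRef := CRef.mk (Pat.mk 0x4000000000000002c0000001c00000000 0x4000000040000003c0000001e00000003 3 6) 0 0 (step_sound _ 33 [(rh361cc68994bd8a63.shift 1 1), rh981be6707e4d9088] (by decide +kernel))
noncomputable def rh653e3a2a6ec47080 : CRef := CRef.mk (Pat.mk 0x6000000020000003c00000000 0x400000006000000020000003e00000007 3 6) 0 0 (step_sound _ 1 [(rh80fcd6d0a18cb2dd.shift 1 0), rhad7492a02e601b5b] (by decide +kernel))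
noncomputable def rh4e474fff1e6bbb84 : CRef := CRef.mk (Pat.mk 0x18000000000000000f00000000 0x1000000018000000180000000f00000018 3 5) 0 0 (step_sound _ 67 [(rh33e738c4ed385b9f.shift 0 1), rh7a463014b1a15a7b] (by decide +kernel))
noncomputable def rh741304a5e4709799 : CRef := CRef.mk (Pat.mk 0x2000000020000000300000002000000020000000400000000 0x2000000020000000300000003000000030000000600000006 3 3) 0 0 (step_sound _ 33 [rh3fb8aab4fcdc27e5, (rh55afc6a59410cf00.shift 1 0)] (by decide +kernel))
noncomputable def rh4315e95d631a9818 : CRef := CRef.mk (Pat.mk 0xc0000000c0000000b0000000000000000 0xc0000000c0000000f0000001800000018 3 5) 0 0 (step_sound _ 35 [rh5f11ee373cbffcaa, (rh7b1f1fb55310c477.shift 2 0)] (by decide +kernel))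
noncomputable def rh441cab25a9dc9d0c : CRef := CRef.mk (Pat.mk 0x100000001e000000140000001400000000 0x100000001e000000170000003c00000008 3 6) 0 0 (step_sound _ 35 [(rh932754581e0f4330.shift 3 0), (rhfe30433439f14678.shift 0 1)] (by decide +kernel))
noncomputable def rhb23658ecdd7ce5df : CRef := CRef.mk (Pat.mk 0x2000000030000000600000000 0x20000000200000002000000030000000700000005 3 3) 0 0 (step_sound _ 129 [rh03dfdf12d5937476, (rh55afc6a59410cf00.shift 1 0)] (by decide +kernel))
noncomputable def rha240d968d16a7f4e : CRef := CRef.mk (Pat.mk 0x20000000f0000000c0000000000000000 0x80000001a0000000f0000000c0000000400000004 3 5) 0 0 (step_sound _ 34 [(rh5421160f8e9bcf07.shift 0 1), (rh7b1f1fb55310c477.shift 1 0)] (by decide +kernel))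
noncomputable def rh5610213daa1b6928 : CRef := CRef.mk (Pat.mk 0x600000006000000160000000000000000 0x6000000060000001e0000000300000003 3 5) 0 0 (step_sound _ 33 [(rh71222050f2c63a3a.shift 1 0), rh84f01cf2134210c0] (by decide +kernel))
noncomputable def rhb721fc7336e8a22d : CRef := CRef.mk (Pat.mk 0xc0000000e0000001a0000000800000000 0xc0000000e0000001a0000000f00000006 3 5) 0 0 (step_sound _ 34 [rh42558e9c3b58f747, (rh932754581e0f4330.shift 2 0)] (by decide +kernel))
noncomputable def rh487d1c85f5a48961 : CRef := CRef.mk (Pat.mk 0x4000000060000001a0000000800000000 0x4000000060000001e0000000f00000002 3 5) 0 0 (step_sound _ 33 [(rh71222050f2c63a3a.shift 1 0), (rhda02c4ce0b224328.shift 0 1)] (by decide +kernel))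
noncomputable def rh6eea962ac0fe17b9 : CRef := CRef.mk (Pat.mk 0x40000000d0000000c0000000400000000 0x40000000f0000003c0000000600000002 3 6) 0 0 (step_sound _ 68 [(rh157b220518f94713.shift 1 0), (rhab22b5b56e7b3243.shift 0 2)] (by decide +kernel))
noncomputable def rhf6bad20b5b13e059 : CRef := CRef.mk (Pat.mk 0x7000000050000000500000000 0x2000000020000000200000007000000070000000500000001 3 3) 0 0 (step_sound _ 129 [rh71222050f2c63a3a, (rhe072fffdd2fccf38.shift 1 1)] (by decide +kernel))
noncomputable def rh52db8f9374849729 : CRef := CRef.mk (Pat.mk 0x8000000080000000c0000001e00000000 0x40000000c0000000c0000000c0000001e00000003 3 5) 0 0 (step_sound _ 130 [(rh50fbb5868c909700.shift 2 1), rh981be6707e4d9088] (by decide +kernel))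
noncomputable def rh1d0561441a8f1dfc : CRef := CRef.mk (Pat.mk 0x7000000060000000d0000000800000000 0x100000007000000060000000f0000001a00000002 3 5) 0 0 (step_sound _ 65 [rh40241bd608e5be1a, (rhe25b0a99195a5d59.shift 0 1)] (by decide +kernel))
end Crest.Agent.S0047.Helper85.Cert
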