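import Crest.Agent.Lib.S0047.Helper85CertPL3F0
import Crest.Agent.Lib.S0047.Helper85CertPL3F1
import Crest.Agent.Lib.S0047.Helper85CertPL3F2
import Crest.Agent.Lib.S0047.Helper85CertPL3F3
import Crest.Agent.Lib.S0047.Helper85CertPL3F4
import Crest.Agent.Lib.S0047.Helper85CertPL3F5
set_option autoImplicit false
set_option linter.all false
set_option Elab.async false
namespace Crest.Agent.S0047.Helper85.Cert
open Crest.Agent.S0047.Helper85

noncomputable def rh6c59ce14113da07f : CRef := CRef.mk (Pat.mk 0x10000000100000001000000010000000000000000 0x2000000030000000300000001000000030000000300000002 4 2) 0 0 (step_sound _ 161 [(rh2f68792b6b779e96.shift 0 2), rh8c3839f9b9075f23] (by decide +kernel))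
noncomputable def rh592c7139d2c44767 : CRef := CRef.mk (Pat.mk 0x3c00000000 0x70000003e00000007 4 6) 0 0 (step_sound _ 65 [rh00b511fddce6f168, (rh3f8766e6ecb455ce.shift 1 1)] (by decide +kernel))
noncomputable def rhcab3157f7bdcba3e : CRef := CRef.mk (Pat.mk 0x20000000200000002000000020000000000000000 0x4000000060000000600000002000000030000000300000001 4 3) 0 0 (step_sound _ 162 [(rh2f68792b6b779e96.shift 1 2), rha8bc3cae4d77a08f] (by decide +kernel))
noncomputable def rh1741680720c097b4 : CRef := CRef.mk (Pat.mk 0x2000000020000000200000002 0x50000000700000007000000020000000200000002 4 3) 0 0 (step_sound _ 130 [rh76a03e5c89c078ed, (rhbaefcd01e0a8bca3.shift 1 0)] (by decide +kernel))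
noncomputable def rh373b7625e672cfd8 : CRef := CRef.mk (Pat.mk 0x200000002000000020000000200000000 0x50000000700000007000000020000000200000002 4 3) 0 0 (step_sound _ 130 [(rh2f68792b6b779e96.shift 1 1), rhffd0ff6f60fa3c9a] (by decide +kernel))
noncomputable def rhc4526fc8abf298b6 : CRef := CRef.mk (Pat.mk 0x20000000200000002000000020000000000000000 0x1000000030000000300000002000000030000000300000001 4 2) 0 0 (step_sound _ 160 [(rh50fbb5868c909700.shift 0 2), rhe4441baab75a6f73] (by decide +kernel))
noncomputable def rh8ff3dde5b1c639e0 : CRef := CRef.mk (Pat.mk 0x20000000200000002000000020000000000000000 0x1000000030000000300000002000000060000000600000004 4 3) 0 0 (step_sound _ 160 [(rh50fbb5868c909700.shift 0 2), rha613ffd40b6c9d24] (by decide +kernel))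
noncomputable def rhef50fe823a140c7d : CRef := CRef.mk (Pat.mk 0x1e0000000200000000 0x200000002000000030000003e0000000600000004 4 6) 0 0 (step_sound _ 34 [(rh18965a982d73c794.shift 1 1), rhbdb8dfd08861fbf7] (by decide +kernel))
noncomputable def rh989d47d0e3b00ee1 : CRef := CRef.mk (Pat.mk 0xc00000004000000080000001800000000 0x100000003c0000000f000000080000001800000010 4 6) 0 0 (step_sound _ 99 [(rh55afc6a59410cf00.shift 3 0), (rhc0ddb33d3a52722b.shift 0 1)] (by decide +kernel))
noncomputable def rh5abfc4c9d959be03 : CRef := CRef.mk (Pat.mk 0x200000002000000020000000200000000 0x1000000030000000300000002000000060000000600000004 4 3) 0 0 (step_sound _ 34 [(rh55afc6a59410cf00.shift 1 0), (rh5bd4bc0c2c48140c.shift 0 1)] (by decide +kernel))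
noncomputable def rh15f443a9a462a99b : CRef := CRef.mk (Pat.mk 0x400000004000000140000000400000000 0x400000004000000040000001c0000000f0000000a 4 5) 0 0 (step_sound _ 35 [(rh55afc6a59410cf00.shift 2 0), rh79aa4491e544c688] (by decide +kernel))
noncomputable def rh7e3c8e958e52c358 : CRef := CRef.mk (Pat.mk 0x100000001a000000080000003000000000 0x100000001e0000003f0000003000000020 4 6) 0 0 (step_sound _ 68 [(rh2a41a9a10546c25c.shift 0 1), (rh55afc6a59410cf00.shift 4 0)] (by decide +kernel))
noncomputable def rh24591666f633f108 : CRef := CRef.mk (Pat.mk 0x1800000038000000000000002000000000 0x180000003f000000700000002000000020 4 7) 0 0 (step_sound _ 69 [(rh60e456fe7528adcc.shift 0 2), (rh7b1f1fb55310c477.shift 4 0)] (by decide +kernel))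
noncomputable def rhe2aaa4986b725c6a : CRef := CRef.mk (Pat.mk 0x80000000700000001 0x180000001f0000003b 4 6) 0 0 (step_sound _ 35 [(rh33e738c4ed385b9f.shift 0 1), rhf3baec4a0a3dd35e] (by decide +kernel))
noncomputable def rh72e22f8ff4816922 : CRef := CRef.mk (Pat.mk 0x3800000014 0x70000003e00000036 4 6) 0 0 (step_sound _ 34 [rh4f8edb321cf5b49d, (rheb0810cc63b001d8.shift 1 0)] (by decide +kernel))
noncomputable def rhc4055b4872d6fb38 : CRef := CRef.mk (Pat.mk 0x200000002000000020000000200000000 0x50000000700000007000000020000000200000002 4 3) 0 0 (step_sound _ 128 [(rh50fbb5868c909700.shift 0 1), rhd22616887d452319] (by decide +kernel))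
noncomputable def rhced6d86d2069808b : CRef := CRef.mk (Pat.mk 0x100000001000000010000000100000000 0x2000000030000000300000001000000030000000300000002 4 2) 0 0 (step_sound _ 33 [rh55afc6a59410cf00, (rh73f605273a09a9d0.shift 0 1)] (by decide +kernel))
noncomputable def rh6eff4158bb400f47 : CRef := CRef.mk (Pat.mk 0x20000000200000002000000020000000000000000 0x20000000200000002000000070000000700000005 4 3) 0 0 (step_sound _ 34 [rh73329e8902d29e57, (rhd3458b32566d63f7.shift 1 1)] (by decide +kernel))
noncomputable def rhebd8d587d84b45f0 : CRef := CRef.mk (Pat.mk 0x700000006000000020000000200000000 0x180000003f00000007000000060000000600000004 4 6) 0 0 (step_sound _ 34 [(rh55afc6a59410cf00.shift 1 0), (rhb33c6c3f599de8c2.shift 0 1)] (by decide +kernel))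
noncomputable def rhf63ba49971cb5664 : CRef := CRef.mk (Pat.mk 0x80000001e000000080000002000000000 0x80000001e0000003f0000003000000010 4 6) 0 0 (step_sound _ 68 [rh176bf8ff26c334a2, (rhe25b0a99195a5d59.shift 1 2)] (by decide +kernel))
noncomputable def rhd59313b56f2e7bb3 : CRef := CRef.mk (Pat.mk 0x40000003800000020 0x60000003e00000037 4 6) 0 0 (step_sound _ 34 [rh0de499e0455c9c14, (rh3244c3cc8379b070.shift 1 1)] (by decide +kernel))
noncomputable def rh70543c5e7e75eabe : CRef := CRef.mk (Pat.mk 0x7c00000010 0x70000007f0000001c 4 7) 0 0 (step_sound _ 3 [rhba89ab7cb81bcc90, (rheb0810cc63b001d8.shift 2 0)] (by decide +kernel))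
noncomputable def rha93a5dd541ab8209 : CRef := CRef.mk (Pat.mk 0xf00000000 0x380000001f00000038 4 6) 0 0 (step_sound _ 68 [(rh428265de8cd3cd2d.shift 0 1), rhf270fa1f24348253] (by decide +kernel))
noncomputable def rh3fc3a7fb6866dcd4 : CRef := CRef.mk (Pat.mk 0xf00000000 0x380000001f00000038 4 6) 0 0 (step_sound _ 4 [rh96851dee118c1ba3, rhd82640f02a0caa69] (by decide +kernel))
noncomputable def rhb705031692dfe65f : CRef := CRef.mk (Pat.mk 0xf000000000000000400000000 0x8000000080000001c0000000f000000040000000400000004 4 5) 0 0 (step_sound _ 131 [(rh00d6a6e3c7e3bb40.shift 2 0), (rh33e738c4ed385b9f.shift 0 3)] (by decide +kernel))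
noncomputable def rh0e1c7743dbcfdc44 : CRef := CRef.mk (Pat.mk 0x4000000140000000400000018 0x4000000040000003c0000001f00000018 4 6) 0 0 (step_sound _ 35 [(rh2145e1d24b96a57e.shift 2 0), rh7eaa670c72ebaf48] (by decide +kernel))
noncomputable def rhd5d193521cc593a5 : CRef := CRef.mk (Pat.mk 0x8000000280000000800000008 0x40000001f000000780000000800000008 4 7) 0 0 (step_sound _ 98 [(rh126557da767e56cc.shift 0 2), (rh50fbb5868c909700.shift 2 0)] (by decide +kernel))
noncomputable def rh8cdd36b03d57a2f6 : CRef := CRef.mk (Pat.mk 0x20000000200000002000000020000000000000000 0x20000000200000002000000070000000700000005 4 3) 0 0 (step_sound _ 32 [(rh79877ebd3ef475dd.shift 0 1), rhbd097c4034f102b6] (by decide +kernel))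
noncomputable def rh4fb657239f791bb7 : CRef := CRef.mk (Pat.mk 0x3800000058 0x70000003f00000078 4 7) 0 0 (step_sound _ 34 [(rh2fe78cc5ca4405d8.shift 2 0), rhba89ab7cb81bcc90] (by decide +kernel))
noncomputable def rh9e97bba44c1b13e4 : CRef := CRef.mk (Pat.mk 0x3c00000000 0x700000003e00000007 4 7) 0 0 (step_sound _ 69 [rh21d582c147e7e118, (rh33e738c4ed385b9f.shift 2 1)] (by decide +kernel))
noncomputable def rheb100aab8ed4573d : CRef := CRef.mk (Pat.mk 0x1e00000000000000100000000000000000 0x80000001f00000038000000100000001000000010 4 6) 0 0 (step_sound _ 100 [rh0e310d024965cb08, (rhe25b0a99195a5d59.shift 1 3)] (by decide +kernel))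
noncomputable def rh01483ff9cba2f6ac : CRef := CRef.mk (Pat.mk 0x30000000200000002000000000000000000000000 0x1000000030000000300000002000000030000000300000001 4 2) 0 0 (step_sound _ 65 [(rh50fbb5868c909700.shift 0 2), rhe4441baab75a6f73] (by decide +kernel))
noncomputable def rh934b7b499abbb98b : CRef := CRef.mk (Pat.mk 0x400000004000000050000000400000000 0x40000000400000004000000070000001e0000000a 4 5) 0 0 (step_sound _ 33 [(rh932754581e0f4330.shift 1 0), rhe0ca45ceb65066f5] (by decide +kernel))
noncomputable def rhf7ddab02e367f378 : CRef := CRef.mk (Pat.mk 0x1e000000000000001000000000 0x380000001f000000300000001000000010 4 6) 0 0 (step_sound _ 132 [rh33d58c89cb76451a, (rh33e738c4ed385b9f.shift 1 3)] (by decide +kernel))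
noncomputable def rhd1779d7de7f8215b : CRef := CRef.mk (Pat.mk 0x30000000200000002000000000000000000000000 0x1000000030000000300000002000000060000000600000004 4 3) 0 0 (step_sound _ 65 [(rh50fbb5868c909700.shift 0 2), rha613ffd40b6c9d24] (by decide +kernel))
noncomputable def rhb18e6c78a554867d : CRef := CRef.mk (Pat.mk 0x1e 0x770000003e 4 7) 0 0 (step_sound _ 33 [rh3244c3cc8379b070, (rh790acd67f4fffd04.shift 1 0)] (by decide +kernel))
noncomputable def rhceed0e29dfbc434b : CRef := CRef.mk (Pat.mk 0xf000000000000000400000000 0x800000008000000180000000f0000000c0000000400000004 4 5) 0 0 (step_sound _ 131 [(rh33e738c4ed385b9f.shift 0 3), (rh580df77fe152422b.shift 2 0)] (by decide +kernel))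
noncomputable def rhe401600d466b97cd : CRef := CRef.mk (Pat.mk 0x1e00000000 0x70000003e00000070 4 7) 0 0 (step_sound _ 65 [(rh2aac33c566332a8c.shift 1 0), (rh3244c3cc8379b070.shift 0 1)] (by decide +kernel))
noncomputable def rh4c622fddc53a5f99 : CRef := CRef.mk (Pat.mk 0x3c 0x770000003e 4 7) 0 0 (step_sound _ 37 [(rh33e738c4ed385b9f.shift 2 0), rh7fb660bc21ce4329] (by decide +kernel))
noncomputable def rh56a24c72f1c55520 : CRef := CRef.mk (Pat.mk 0x1e 0x770000003e 4 7) 0 0 (step_sound _ 37 [(rh428265de8cd3cd2d.shift 1 0), rhb383fa265348aff0] (by decide +kernel))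
noncomputable def rh210e2d9c685c857e : CRef := CRef.mk (Pat.mk 0x7800000018 0xe00000007f00000038 4 8) 0 0 (step_sound _ 70 [(rh33e738c4ed385b9f.shift 3 1), rh551a9ca0f9b08dd5] (by decide +kernel))
noncomputable def rh662eb0e511c11564 : CRef := CRef.mk (Pat.mk 0x4000000020000000300000003000000000000000000000000 0x4000000060000000300000003000000060000000600000006 4 3) 0 0 (step_sound _ 65 [rh820d4e04d5dcd02e, (rhbaefcd01e0a8bca3.shift 1 2)] (by decide +kernel))
noncomputable def rha8148b9bb2ff3cb1 : CRef := CRef.mk (Pat.mk 0x20000001e0000000000000000 0x400000004000000060000003e0000000300000002 4 6) 0 0 (step_sound _ 98 [rh031a926e4a883687, (rhf48373e13d2bc128.shift 1 2)] (by decide +kernel))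
noncomputable def rh1757c5eb72c15b0f : CRef := CRef.mk (Pat.mk 0x1e000000100000001000000000 0x10000000300000001f000000180000001800000008 4 6) 0 0 (step_sound _ 132 [(rh33e738c4ed385b9f.shift 1 3), rhd8cb74bcdd15c853] (by decide +kernel))
noncomputable def rh3803a9d93c35859b : CRef := CRef.mk (Pat.mk 0x1000000030000000100000006000000000000000000000000 0x100000003000000030000000700000006000000040000000400000004 4 3) 0 0 (step_sound _ 129 [(rh046c5eb18e55a239.shift 1 0), (rh2145e1d24b96a57e.shift 0 3)] (by decide +kernel))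
noncomputable def rh431ac01d143f4d95 : CRef := CRef.mk (Pat.mk 0xa0000000a0000000800000008 0x100000003b0000001f0000000800000008 4 6) 0 0 (step_sound _ 100 [(rh2f68792b6b779e96.shift 3 0), (rh60a781551e50bc18.shift 0 2)] (by decide +kernel))
noncomputable def rhbce063337ec5c2e2 : CRef := CRef.mk (Pat.mk 0xb0000000e0000000c 0x1a0000001e0000000b0000000e0000000c 4 5) 0 0 (step_sound _ 97 [(rh2145e1d24b96a57e.shift 1 0), rh6ca9ab4dec5e9e3c] (by decide +kernel))
noncomputable def rh29b7e98b94f1a2ca : CRef := CRef.mk (Pat.mk 0x200000003800000020 0x670000003e00000030 4 7) 0 0 (step_sound _ 34 [(rh33e738c4ed385b9f.shift 2 1), rhd1d05263fabc0227] (by decide +kernel))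
noncomputable def rh919f6bb3a52329d4 : CRef := CRef.mk (Pat.mk 0xa0000000a0000000a000000080000000800000000 0xa0000000b0000003e0000000e0000000c0000000800000008 4 6) 0 0 (step_sound _ 98 [(rh5fc67bac28a8b5bb.shift 1 2), rhe26c6061a271458d] (by decide +kernel))
noncomputable def rh1f4ebbec1782c0b3 : CRef := CRef.mk (Pat.mk 0x80000002800000020000000200000002000000020 0xf0000007c00000030000000200000002000000020 4 7) 0 0 (step_sound _ 132 [(rha9fbfd4bb8cf890b.shift 0 4), (rhffd04209dc8ea796.shift 4 0)] (by decide +kernel))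
noncomputable def rh7430a052bcb4bacd : CRef := CRef.mk (Pat.mk 0x8000000280000000800000008 0x40000000f0000007c0000000800000008 4 7) 0 0 (step_sound _ 98 [(rh50fbb5868c909700.shift 2 0), (rh8c25cb665ab79ec0.shift 0 2)] (by decide +kernel))
noncomputable def rhd716e2ab31203e19 : CRef := CRef.mk (Pat.mk 0x800000008000000380000000800000000 0x40000000c0000001f000000380000000800000008 4 6) 0 0 (step_sound _ 130 [(rh50fbb5868c909700.shift 2 1), rhdc2f40eca053486f] (by decide +kernel))
noncomputable def rh5ad9898cc32ef511 : CRef := CRef.mk (Pat.mk 0x20000000200000002000000020000000000000000 0x1000000030000000300000002000000060000000600000004 4 3) 0 0 (step_sound _ 160 [rh257d7200ab2a6828, (rh50fbb5868c909700.shift 0 2)] (by decide +kernel))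
noncomputable def rh77133da666bdab96 : CRef := CRef.mk (Pat.mk 0x140000001e00000018 0x30000000300000001f0000001e00000018 4 6) 0 0 (step_sound _ 65 [(rh3244c3cc8379b070.shift 0 1), (rh6b315ff015ab736a.shift 1 0)] (by decide +kernel))
noncomputable def rh968ba7b0df7e4096 : CRef := CRef.mk (Pat.mk 0x200000002000000020000000200000000 0x1000000030000000300000002000000030000000300000001 4 2) 0 0 (step_sound _ 160 [rha3729a4a67ef3381, (rhffd04209dc8ea796.shift 0 1)] (by decide +kernel))
noncomputable def rhc85cc95794737cf7 : CRef := CRef.mk (Pat.mk 0x2000000020000000200000002 0x50000000700000007000000020000000200000002 4 3) 0 0 (step_sound _ 128 [rhae372274d1226efc, rhffd04209dc8ea796] (by decide +kernel))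
noncomputable def rh7054db60a5a4b771 : CRef := CRef.mk (Pat.mk 0x200000002000000020000000200000002 0x6000000060000000700000003000000030000000300000002 4 3) 0 0 (step_sound _ 161 [(rh44f453b84f013105.shift 1 1), rhad7f3a7ca7906542] (by decide +kernel))
noncomputable def rh775ca1963e850b80 : CRef := CRef.mk (Pat.mk 0x3c00000000 0x70000003e00000007 4 6) 0 0 (step_sound _ 1 [(rh80fcd6d0a18cb2dd.shift 1 0), rhe902c9e8f416b192] (by decide +kernel))
noncomputable def rha657070f4efcd1c9 : CRef := CRef.mk (Pat.mk 0x30000000200000002000000000000000400000000 0x30000000300000002000000070000000700000001 4 3) 0 0 (step_sound _ 65 [(rhd3458b32566d63f7.shift 1 1), rhe4441baab75a6f73] (by decide +kernel))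
noncomputable def rh06db8ceda6269a47 : CRef := CRef.mk (Pat.mk 0x1e00000000 0x3e00000077 4 7) 0 0 (step_sound _ 1 [rheb0810cc63b001d8, (rhf3baec4a0a3dd35e.shift 1 0)] (by decide +kernel))
noncomputable def rh0d378fd9e8917c5a : CRef := CRef.mk (Pat.mk 0x3c00000000 0x70000003e00000070 4 7) 0 0 (step_sound _ 5 [rhd1d05263fabc0227, (rhe25b0a99195a5d59.shift 2 0)] (by decide +kernel))
noncomputable def rh185f35b8bd8ec37f : CRef := CRef.mk (Pat.mk 0x3c00000000 0x3e00000077 4 7) 0 0 (step_sound _ 5 [rh0de499e0455c9c14, (rhe25b0a99195a5d59.shift 2 0)] (by decide +kernel))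
noncomputable def rha74f39e184c8d1a6 : CRef := CRef.mk (Pat.mk 0xb000000080000000800000000 0x380000001f000000180000000800000008 4 6) 0 0 (step_sound _ 98 [rh4ab9c4dc4d42970a, (rhe25b0a99195a5d59.shift 0 2)] (by decide +kernel))
noncomputable def rhebbfc1325fb53d6f : CRef := CRef.mk (Pat.mk 0x20000000200000002000000000000000100000000 0x20000000200000002000000070000000700000005 4 3) 0 0 (step_sound _ 65 [(rh79877ebd3ef475dd.shift 0 1), rhbd097c4034f102b6] (by decide +kernel))
noncomputable def rhff763b75cad9671b : CRef := CRef.mk (Pat.mk 0x20000000200000002000000000000000400000000 0x20000000200000002000000070000000700000005 4 3) 0 0 (step_sound _ 65 [rh73329e8902d29e57, (rhd3458b32566d63f7.shift 1 1)] (by decide +kernel))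
noncomputable def rha3bd7f1e5cbcdd2e : CRef := CRef.mk (Pat.mk 0xa0000000a0000000800000000 0x1000000010000000180000001e0000000f0000000800000008 4 5) 0 0 (step_sound _ 100 [(rh215e11e099257d75.shift 3 0), (rhda02c4ce0b224328.shift 0 2)] (by decide +kernel))
noncomputable def rh5d91ec4eb06a1f14 : CRef := CRef.mk (Pat.mk 0x80000000a0000000800000000 0x100000001000000018000000780000001f0000000800000008 4 7) 0 0 (step_sound _ 100 [(rh0b786d94a31538a6.shift 0 2), (rh215e11e099257d75.shift 3 0)] (by decide +kernel))
noncomputable def rh500a083f39e7580c : CRef := CRef.mk (Pat.mk 0xf000000000000000800000000 0x380000001f000000180000000800000008 4 6) 0 0 (step_sound _ 132 [(rh428265de8cd3cd2d.shift 0 3), rh64561099ab483bc5] (by decide +kernel))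
noncomputable def rh41140eaa67c26838 : CRef := CRef.mk (Pat.mk 0x3c00000000 0x3e00000077 4 7) 0 0 (step_sound _ 1 [rh33a7b9fd74f4f44a, (rh80fcd6d0a18cb2dd.shift 1 0)] (by decide +kernel))
noncomputable def rh372df23d0ec787b3 : CRef := CRef.mk (Pat.mk 0x40000001e0000001a0000000000000000 0x70000001e0000001e0000000300000003 4 5) 0 0 (step_sound _ 129 [(rh3244c3cc8379b070.shift 0 3), rhe58a7845769190f3] (by decide +kernel))
noncomputable def rhc9de03f9731897d4 : CRef := CRef.mk (Pat.mk 0x10000000100000001000000010000000000000000 0x2000000030000000300000001000000030000000300000002 4 2) 0 0 (step_sound _ 33 [rh9f113608394b30d0, (rhd3458b32566d63f7.shift 0 1)] (by decide +kernel))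
noncomputable def rh41b8be278618af7d : CRef := CRef.mk (Pat.mk 0x1000000020000000300000002 0x40000000700000007000000020000000300000003 4 3) 0 0 (step_sound _ 97 [rh50fbb5868c909700, rh769be3fe24eee174] (by decide +kernel))
noncomputable def rh6634224c868ed3af : CRef := CRef.mk (Pat.mk 0xc0000000a00000030 0x1f0000007e00000030 4 7) 0 0 (step_sound _ 36 [(rh4ca5dae25f5c14ff.shift 0 1), (rhab22b5b56e7b3243.shift 1 0)] (by decide +kernel))
noncomputable def rhf8802b2664e41e7f : CRef := CRef.mk (Pat.mk 0x7000000080000000800000000 0x380000001f000000180000000800000008 4 6) 0 0 (step_sound _ 99 [rh4ab9c4dc4d42970a, (rhe25b0a99195a5d59.shift 0 2)] (by decide +kernel))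
noncomputable def rhc40d12ada704558c : CRef := CRef.mk (Pat.mk 0x300000002800000060 0x7c0000003f00000060 4 7) 0 0 (step_sound _ 34 [(rhbd2e91c3fdbfa961.shift 0 1), (rhc10214bf3fe8094a.shift 2 0)] (by decide +kernel))
noncomputable def rh85edaa7e257fdb26 : CRef := CRef.mk (Pat.mk 0x30000000f0000000c 0x18000000180000001f0000000f0000000c 4 5) 0 0 (step_sound _ 67 [(rh33e738c4ed385b9f.shift 0 1), rh6b315ff015ab736a] (by decide +kernel))
noncomputable def rhd5889c99d29bf7d6 : CRef := CRef.mk (Pat.mk 0x1e000000040000000000000000 0x200000002000000070000001e000000040000000400000004 4 5) 0 0 (step_sound _ 129 [(rh3244c3cc8379b070.shift 0 3), (rha40d42a2e34c408d.shift 1 0)] (by decide +kernel))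
noncomputable def rhdc29ce31a7530d3c : CRef := CRef.mk (Pat.mk 0x3000000030000000200000004 0x6000000060000000600000003000000030000000600000004 4 3) 0 0 (step_sound _ 129 [(rh5fa50b509d4ce753.shift 0 1), (rhd3458b32566d63f7.shift 1 0)] (by decide +kernel))
noncomputable def rh360933a1a234373a : CRef := CRef.mk (Pat.mk 0x70000000c00000000 0x800000008000000180000000f0000001c00000004 4 5) 0 0 (step_sound _ 67 [rh5ba2d67652840f34, (rhe25b0a99195a5d59.shift 0 1)] (by decide +kernel))
noncomputable def rh29be859f2f9fac63 : CRef := CRef.mk (Pat.mk 0x20000000300000002000000020000000400000000 0x200000002000000020000000300000003000000030000000600000006 4 3) 0 0 (step_sound _ 33 [(rh55afc6a59410cf00.shift 1 0), rhc4c6de062e376aad] (by decide +kernel))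
noncomputable def rha50dbbf62b1eb32d : CRef := CRef.mk (Pat.mk 0x30000000200000002000000040000000000000000 0x30000000300000002000000070000000700000001 4 3) 0 0 (step_sound _ 65 [(rh55afc6a59410cf00.shift 1 1), rhe4441baab75a6f73] (by decide +kernel))
noncomputable def rh20966da26a1c2ae8 : CRef := CRef.mk (Pat.mk 0x200000002000000020000000200000000 0x4000000060000000600000002000000030000000300000001 4 3) 0 0 (step_sound _ 32 [rh932754581e0f4330, (rh9a369cb82ea472da.shift 0 1)] (by decide +kernel))
noncomputable def rh6e6e5f8fc4ce133b : CRef := CRef.mk (Pat.mk 0x10000000700000005000000040000000800000000 0x100000001000000010000000700000007000000060000000c0000000c 4 4) 0 0 (step_sound _ 34 [(rh55afc6a59410cf00.shift 2 0), rhba47bac67ba000c3] (by decide +kernel))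
noncomputable def rhac3d6389f960a17c : CRef := CRef.mk (Pat.mk 0x400000004000000050000000400000000 0x40000000400000004000000070000001e0000000a 4 5) 0 0 (step_sound _ 33 [rh4dbe158d8949f701, (rh932754581e0f4330.shift 1 0)] (by decide +kernel))
noncomputable def rhd3d8609b2253d0cd : CRef := CRef.mk (Pat.mk 0x1c000000380000002000000000 0x8000000080000001c0000003f0000003700000004 4 6) 0 0 (step_sound _ 66 [(rh031a926e4a883687.shift 1 0), (rh8d917b916e5f3510.shift 0 1), (rhcc2be1f880c5ea3e.shift 0 1)] (by decide +kernel))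
noncomputable def rhf762bcda196c9e5f : CRef := CRef.mk (Pat.mk 0x3400000020 0x70000003e00000070 4 7) 0 0 (step_sound _ 35 [rhd1d05263fabc0227, (rhe25b0a99195a5d59.shift 2 0)] (by decide +kernel))
noncomputable def rhd5358021be058853 : CRef := CRef.mk (Pat.mk 0x400000000000000000000001e00000000 0x400000006000000070000001e00000003 4 5) 0 0 (step_sound _ 65 [(rh3244c3cc8379b070.shift 0 1), rh946c4afeba2488e2] (by decide +kernel))
noncomputable def rh46baee19951a66e7 : CRef := CRef.mk (Pat.mk 0x20000000200000002000000020000000000000000 0x1000000030000000300000002000000060000000600000004 4 3) 0 0 (step_sound _ 34 [rh46137ff9626501bb, (rhd3458b32566d63f7.shift 1 1)] (by decide +kernel))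
noncomputable def rh771d065bdc85bf2d : CRef := CRef.mk (Pat.mk 0x200000002000000020000000200000000 0x1000000030000000300000002000000030000000300000001 4 2) 0 0 (step_sound _ 32 [rh932754581e0f4330, (rhe62cab2ff5ad6fe2.shift 0 1)] (by decide +kernel))
noncomputable def rha88074a3111006bb : CRef := CRef.mk (Pat.mk 0x1a0000001a00000000 0x1000000010000000300000001e0000001b00000008 4 6) 0 0 (step_sound _ 66 [(rh5ba2d67652840f34.shift 1 0), (rheb0810cc63b001d8.shift 0 1)] (by decide +kernel))
noncomputable def rh3d698f173c8bf4e4 : CRef := CRef.mk (Pat.mk 0x1a0000001800000000 0x1000000010000000300000001f0000001800000008 4 6) 0 0 (step_sound _ 66 [(rh5ba2d67652840f34.shift 1 0), (rhb739f4f82bb681b4.shift 0 1)] (by decide +kernel))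
noncomputable def rh473b2f7acaa88f87 : CRef := CRef.mk (Pat.mk 0x3400000020 0x3e00000077 4 7) 0 0 (step_sound _ 35 [rh0de499e0455c9c14, (rhe25b0a99195a5d59.shift 2 0)] (by decide +kernel))
noncomputable def rh39ee55465d7f1610 : CRef := CRef.mk (Pat.mk 0x100000003800000020 0x370000003e00000060 4 7) 0 0 (step_sound _ 34 [(rhe25b0a99195a5d59.shift 2 0), (rhedf6b6c69a16cbd5.shift 0 1)] (by decide +kernel))
noncomputable def rh876086c78aa9d0e6 : CRef := CRef.mk (Pat.mk 0x20000003800000000 0x70000003e00000007 4 6) 0 0 (step_sound _ 34 [rh00b511fddce6f168, (rh3f8766e6ecb455ce.shift 1 1)] (by decide +kernel))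
noncomputable def rh4dd2faa61b7c7561 : CRef := CRef.mk (Pat.mk 0x18000000090000000900000009 0x70000001f0000000b0000000900000009 4 5) 0 0 (step_sound _ 98 [(rh50fbb5868c909700.shift 2 0), rh88bb1f3bd94c46c0] (by decide +kernel))
noncomputable def rhd8773b87aec2b621 : CRef := CRef.mk (Pat.mk 0x2000000060000001a0000000000000000 0x400000006000000060000001a0000000f00000007 4 5) 0 0 (step_sound _ 33 [(rha707fb719e87fe6e.shift 1 0), rhd630af2e39ca770f] (by decide +kernel))
noncomputable def rh47aee474a240d3ee : CRef := CRef.mk (Pat.mk 0x20000000e 0x770000003e 4 7) 0 0 (step_sound _ 4 [rh3244c3cc8379b070, (rh9cf60041f0c0abcb.shift 1 0)] (by decide +kernel))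
noncomputable def rh4f01fe223ae1129c : CRef := CRef.mk (Pat.mk 0x6000000060000000200000001 0x3000000030000000300000006000000060000000300000001 4 3) 0 0 (step_sound _ 129 [rh79877ebd3ef475dd, (rh7b9fbdf6d2d059e4.shift 0 1)] (by decide +kernel))
noncomputable def rh3423e5ac208fb65b : CRef := CRef.mk (Pat.mk 0x40000001e000000000000000000000000 0x400000004000000040000001e000000070000000200000002 4 5) 0 0 (step_sound _ 65 [(rhcf80391c5046a495.shift 1 0), (rheb0810cc63b001d8.shift 0 2)] (by decide +kernel))
noncomputable def rh3e34a007a92efc93 : CRef := CRef.mk (Pat.mk 0x1e0000000800000008 0x4000000040000000f0000003e0000000800000008 4 6) 0 0 (step_sound _ 97 [(rh3244c3cc8379b070.shift 0 2), (rhe859f1c93cf12c3b.shift 1 0)] (by decide +kernel))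
noncomputable def rhd085fda4eebe4cce : CRef := CRef.mk (Pat.mk 0x2000000000000000f000000040000000400000000 0x6000000060000000f0000001c0000000c00000008 4 5) 0 0 (step_sound _ 67 [(rh8c2c5b3f2a5bd7dc.shift 1 0), (rhe25b0a99195a5d59.shift 0 2)] (by decide +kernel))
noncomputable def rh7ffb1222ee134497 : CRef := CRef.mk (Pat.mk 0x100000006000000020000001a0000001800000000 0x10000000b0000001e0000000a0000001a0000001800000010 4 5) 0 0 (step_sound _ 161 [(rh50fbb5868c909700.shift 0 2), rhf47612affc8bedf7] (by decide +kernel))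
noncomputable def rh3abbcec94d8897a0 : CRef := CRef.mk (Pat.mk 0x4000000000000001e0000000800000000 0x400000004000000070000001e0000000b00000002 4 5) 0 0 (step_sound _ 98 [(rh2145e1d24b96a57e.shift 2 1), rhae036cc4ef671676] (by decide +kernel))
noncomputable def rhfbd83019c2daa28e : CRef := CRef.mk (Pat.mk 0x600000016000000100000000400000000 0x60000001e000000330000000600000006 4 6) 0 0 (step_sound _ 99 [rh057b4130fe0cd6b1, (rhe25b0a99195a5d59.shift 1 2)] (by decide +kernel))
noncomputable def rh40e92d090f40bc26 : CRef := CRef.mk (Pat.mk 0x600000016000000100000000000000000 0x4000000060000001e000000330000000200000002 4 6) 0 0 (step_sound _ 99 [rh9a011a4d0ec8f646, (rhe25b0a99195a5d59.shift 1 2)] (by decide +kernel))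
noncomputable def rhf9a76243124d3ab1 : CRef := CRef.mk (Pat.mk 0x38000000180000000000000000 0x8000000080000001f00000078000000180000001000000010 4 7) 0 0 (step_sound _ 131 [(rh3e595262c1b737ad.shift 3 1), (rha40d42a2e34c408d.shift 3 0), (rhf60aa8aede119d3b.shift 0 3)] (by decide +kernel))
noncomputable def rhfcffa0a9e99c8fd4 : CRef := CRef.mk (Pat.mk 0xf000000000000000800000000 0x380000001f000000180000000800000008 4 6) 0 0 (step_sound _ 67 [rh4ab9c4dc4d42970a, (rhe25b0a99195a5d59.shift 0 2)] (by decide +kernel))
noncomputable def rhe7d208b70c184706 : CRef := CRef.mk (Pat.mk 0x4000000020000000600000002 0x10000000700000007000000020000000600000006 4 3) 0 0 (step_sound _ 97 [(rh2f68792b6b779e96.shift 1 0), rh3da62da861143b9a] (by decide +kernel))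
noncomputable def rh5799bc112efcbb34 : CRef := CRef.mk (Pat.mk 0x60000000200000002000000010000000000000000 0x60000000600000002000000070000000700000004 4 3) 0 0 (step_sound _ 65 [(rh8c3839f9b9075f23.shift 1 0), (rh932754581e0f4330.shift 0 1)] (by decide +kernel))
noncomputable def rhb02f9c2bd63f56db : CRef := CRef.mk (Pat.mk 0xe00000002 0x3e00000077 4 7) 0 0 (step_sound _ 36 [rheb0810cc63b001d8, (rhf3baec4a0a3dd35e.shift 1 0)] (by decide +kernel))
noncomputable def rh36f5b7631f426395 : CRef := CRef.mk (Pat.mk 0x30000000200000002000000010000000000000000 0x30000000300000002000000070000000700000004 4 3) 0 0 (step_sound _ 65 [(rh932754581e0f4330.shift 0 1), rha613ffd40b6c9d24] (by decide +kernel))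
noncomputable def rhfb3d17e383b10002 : CRef := CRef.mk (Pat.mk 0x200000016 0x770000003e 4 7) 0 0 (step_sound _ 3 [rh3244c3cc8379b070, (rh790acd67f4fffd04.shift 1 0)] (by decide +kernel))
noncomputable def rhc0fdbedd668582ed : CRef := CRef.mk (Pat.mk 0x180000003800000040 0x180000003f00000067 4 7) 0 0 (step_sound _ 34 [(rh96851dee118c1ba3.shift 2 0), rhcc2be1f880c5ea3e] (by decide +kernel))
noncomputable def rh976a48eb1c80a12f : CRef := CRef.mk (Pat.mk 0x2000000020000000300000000 0x1000000030000000300000002000000030000000300000001 4 2) 0 0 (step_sound _ 129 [rh932754581e0f4330, (rhe62cab2ff5ad6fe2.shift 0 1)] (by decide +kernel))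
noncomputable def rh8fb96b2877771c9d : CRef := CRef.mk (Pat.mk 0x4000000020000000200000003 0x10000000700000007000000020000000300000003 4 3) 0 0 (step_sound _ 97 [(rh2f68792b6b779e96.shift 1 0), rhe62cab2ff5ad6fe2] (by decide +kernel))
noncomputable def rh16e5c0d4749f5d02 : CRef := CRef.mk (Pat.mk 0x580000003800000000 0x780000003f00000007 4 7) 0 0 (step_sound _ 34 [(rh361cc68994bd8a63.shift 2 1), rhcc2be1f880c5ea3e] (by decide +kernel))
noncomputable def rh20927f0bb3db88dd : CRef := CRef.mk (Pat.mk 0xe0000000d 0x700000007e0000000f 4 7) 0 0 (step_sound _ 36 [(rh226655e3fe6b4a8a.shift 1 0), rh80fcd6d0a18cb2dd] (by decide +kernel))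
noncomputable def rh88e70b8df69afeaa : CRef := CRef.mk (Pat.mk 0x10000000e0000000c 0x730000007e0000000c 4 7) 0 0 (step_sound _ 36 [(rh226655e3fe6b4a8a.shift 1 0), (rh3f8766e6ecb455ce.shift 0 1)] (by decide +kernel))
noncomputable def rh3820f35d5e705bec : CRef := CRef.mk (Pat.mk 0x30000000100000001000000000000000000000000 0x2000000030000000300000001000000030000000300000002 4 2) 0 0 (step_sound _ 64 [(rh2f68792b6b779e96.shift 0 2), rh8c3839f9b9075f23] (by decide +kernel))
noncomputable def rh4f50c7f5e3268c57 : CRef := CRef.mk (Pat.mk 0x1e000000180000002800000000 0x8000000080000001e0000001f0000003800000010 4 6) 0 0 (step_sound _ 65 [(rh9ded7a8c954dee2a.shift 1 0), (rheb0810cc63b001d8.shift 0 2)] (by decide +kernel))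
noncomputable def rh5e05d77759f5ac2b : CRef := CRef.mk (Pat.mk 0x60000001e0000000a0000000000000000 0x60000001e0000003e0000000300000003 4 6) 0 0 (step_sound _ 68 [(rhe25b0a99195a5d59.shift 1 2), rhe58a7845769190f3] (by decide +kernel))
noncomputable def rh7a01ceef61f02523 : CRef := CRef.mk (Pat.mk 0x3c00000030000000000000001e 0x40000003c0000003e000000070000001e 4 6) 0 0 (step_sound _ 66 [rh8930dc815b78a6eb, (rheb0810cc63b001d8.shift 1 2)] (by decide +kernel))
noncomputable def rhee0d311f64c2e394 : CRef := CRef.mk (Pat.mk 0x1f000000000000001000000000 0x700000003f000000180000001000000010 4 7) 0 0 (step_sound _ 133 [(rh428265de8cd3cd2d.shift 1 3), rhe1c24ac49f32fcdb] (by decide +kernel))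
noncomputable def rhff0344660548fdb5 : CRef := CRef.mk (Pat.mk 0x1e00000018000000200000000200000000 0x1e0000001f000000330000000200000002 4 6) 0 0 (step_sound _ 97 [(rheb0810cc63b001d8.shift 0 3), rhfa1fd02f2964f598] (by decide +kernel))
noncomputable def rhea3c5b0f6ced13cf : CRef := CRef.mk (Pat.mk 0x180000001800000050 0x3c000000ff00000070 4 8) 0 0 (step_sound _ 34 [(rh29353add4831558c.shift 2 0), (rh47688a8720dc0294.shift 1 0), (rhab2ad169e49f9c5e.shift 0 1), (rhcf86d050071af9b3.shift 1 0)] (by decide +kernel))
noncomputable def rhe9f7038a3721aaf9 : CRef := CRef.mk (Pat.mk 0x80000001800000028000000080000000800000000 0x800000018000000380000001f0000000c00000008 4 6) 0 0 (step_sound _ 100 [(rh71222050f2c63a3a.shift 3 0), (rh852e818bc8629e77.shift 0 1)] (by decide +kernel))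
noncomputable def rh367118e0bf0473e0 : CRef := CRef.mk (Pat.mk 0x20000000200000002000000020000000000000000 0x4000000060000000600000002000000030000000300000001 4 3) 0 0 (step_sound _ 32 [(rh79877ebd3ef475dd.shift 0 1), rhe867068ce7ea9877] (by decide +kernel))
noncomputable def rh9bb7d10ce98dcee4 : CRef := CRef.mk (Pat.mk 0x10000000100000001000000010000000100000000 0x100000001000000030000000300000003000000030000000100000001 4 2) 0 0 (step_sound _ 129 [(rh2f68792b6b779e96.shift 0 1), rhf2568c0049eb2085] (by decide +kernel))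
noncomputable def rh2c7435f6fae6c77b : CRef := CRef.mk (Pat.mk 0x1000000050000000500000000000000020000000000000000 0x5000000050000000500000007000000060000000200000002 4 3) 0 0 (step_sound _ 97 [(rhbe0e43a3bc50a43f.shift 0 2), (rhe83f0679b86b6627.shift 1 0)] (by decide +kernel))
noncomputable def rh3c8f4260c625d1ca : CRef := CRef.mk (Pat.mk 0xb000000080000000800000008 0x140000001e0000001b000000080000000800000008 4 5) 0 0 (step_sound _ 132 [(rh607ed1844ec41151.shift 0 1), (rhbaefcd01e0a8bca3.shift 3 0)] (by decide +kernel))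
noncomputable def rh3b00e9e9432b8f40 : CRef := CRef.mk (Pat.mk 0x1e00000000 0x700000003e00000007 4 7) 0 0 (step_sound _ 1 [(rhd584a578337d0023.shift 1 0), rheb0810cc63b001d8] (by decide +kernel))
noncomputable def rh8dcdd87a0d2a2a69 : CRef := CRef.mk (Pat.mk 0x20000003c00000004 0x30000007f0000003c 4 7) 0 0 (step_sound _ 33 [(rh3244c3cc8379b070.shift 0 1), rhde9d00c321feac37] (by decide +kernel))
noncomputable def rhe6bdd62e1711df0b : CRef := CRef.mk (Pat.mk 0x40000000f 0x3f0000003f 4 6) 0 0 (step_sound _ 36 [rh428265de8cd3cd2d, rhca6a4af813f68cee] (by decide +kernel))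
noncomputable def rh3038ab5f74634e6d : CRef := CRef.mk (Pat.mk 0x400000004000000040000000600000000 0x400000004000000040000003c0000000f00000008 4 6) 0 0 (step_sound _ 35 [(rh55afc6a59410cf00.shift 2 0), (rh90892cdc1810d809.shift 0 1)] (by decide +kernel))
noncomputable def rh7ab09f375cd5d482 : CRef := CRef.mk (Pat.mk 0x1000000030000000100000001 0x30000000300000003000000030000000300000003 4 2) 0 0 (step_sound _ 129 [rh4dec404a6c0e229a, rhbaefcd01e0a8bca3] (by decide +kernel))
noncomputable def rh274a837cd7eaa569 : CRef := CRef.mk (Pat.mk 0x60000000200000002000000000000000000000000 0x4000000060000000600000002000000030000000300000001 4 3) 0 0 (step_sound _ 65 [(rh2f68792b6b779e96.shift 1 2), rha8bc3cae4d77a08f] (by decide +kernel))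
noncomputable def rha0ae8adeb1dbcf8d : CRef := CRef.mk (Pat.mk 0x3800000020 0x3e00000077 4 7) 0 0 (step_sound _ 34 [rh0de499e0455c9c14, (rhe25b0a99195a5d59.shift 2 0)] (by decide +kernel))
noncomputable def rhb2afcb5db661472f : CRef := CRef.mk (Pat.mk 0x3800000020 0x70000003e00000070 4 7) 0 0 (step_sound _ 34 [rhd1d05263fabc0227, (rhe25b0a99195a5d59.shift 2 0)] (by decide +kernel))
noncomputable def rhd8406b09026060f8 : CRef := CRef.mk (Pat.mk 0x4000000060000000400000004 0xa0000003e000000070000000400000004 4 6) 0 0 (step_sound _ 97 [(rh50fbb5868c909700.shift 1 0), rh861ee9d7304b9753] (by decide +kernel))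
noncomputable def rh0de078aa0be653b2 : CRef := CRef.mk (Pat.mk 0x2000000030000000200000002 0x1000000070000000700000006000000030000000300000002 4 3) 0 0 (step_sound _ 129 [(rh44f453b84f013105.shift 1 0), (rha77f215723363df0.shift 0 1)] (by decide +kernel))
noncomputable def rhe9937ce8bcea713a : CRef := CRef.mk (Pat.mk 0x400000004000000000000000e00000000 0x400000004000000040000000f0000007c 4 7) 0 0 (step_sound _ 3 [rhc21a95c499b3efdb, (rhff0f29cb645b05f7.shift 2 0)] (by decide +kernel))
noncomputable def rh7618364b9b53dd13 : CRef := CRef.mk (Pat.mk 0x8000000000000000f00000000 0x800000008000000180000001f00000038 4 6) 0 0 (step_sound _ 4 [rh29829bad606ebc04, rh96851dee118c1ba3] (by decide +kernel))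
noncomputable def rha4a12d84bf1ba206 : CRef := CRef.mk (Pat.mk 0x80000000c0000000b000000080000000000000000 0x80000000c0000000f0000001c0000000c0000000c 4 5) 0 0 (step_sound _ 98 [(rh53e41f96b2b88c97.shift 2 0), (rhe25b0a99195a5d59.shift 0 2)] (by decide +kernel))
noncomputable def rh9bbc9ceb88931d93 : CRef := CRef.mk (Pat.mk 0x40000000000000007000000080000000000000000 0x4000000040000000c0000000f000000180000000800000008 4 5) 0 0 (step_sound _ 99 [(rh28afc5b167f84184.shift 2 0), (rhe25b0a99195a5d59.shift 0 2)] (by decide +kernel))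
noncomputable def rh42d32bf970c9c157 : CRef := CRef.mk (Pat.mk 0x1e00000000 0x3e00000077 4 7) 0 0 (step_sound _ 5 [(rh96851dee118c1ba3.shift 1 0), rh9d1db2a55d27de19] (by decide +kernel))
noncomputable def rh65b5ceb5fe90b1cc : CRef := CRef.mk (Pat.mk 0x4000000000000000f000000000000000000000000 0x4000000040000000c0000000f000000180000000800000008 4 5) 0 0 (step_sound _ 67 [(rh28afc5b167f84184.shift 2 0), (rhe25b0a99195a5d59.shift 0 2)] (by decide +kernel))
noncomputable def rh3927159016129638 : CRef := CRef.mk (Pat.mk 0x8000000000000000f000000000000000000000000 0x800000008000000180000000f0000000c0000000400000004 4 5) 0 0 (step_sound _ 131 [(rh281c6819542c66e6.shift 2 0), (rh33e738c4ed385b9f.shift 0 3)] (by decide +kernel))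
noncomputable def rh0734553501313b0b : CRef := CRef.mk (Pat.mk 0x20000000600000012000000000000000000000000 0x200000006000000060000001e000000070000000700000002 4 5) 0 0 (step_sound _ 98 [rh37e540d481210cc1, (rh55a1f6c57a317ce6.shift 1 1)] (by decide +kernel))
noncomputable def rhee4c4dd27f5d0359 : CRef := CRef.mk (Pat.mk 0x1c0000001c 0x700000007f0000001c 4 7) 0 0 (step_sound _ 37 [rh15c6bd118a09e701, (rh18965a982d73c794.shift 2 0)] (by decide +kernel))
noncomputable def rh9fb8d9a485d0650b : CRef := CRef.mk (Pat.mk 0x80000000a0000000e0000000c 0x160000001e0000000b0000000e0000000c 4 5) 0 0 (step_sound _ 97 [(rh2145e1d24b96a57e.shift 1 0), rh9258736a7488cc35] (by decide +kernel))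
noncomputable def rhb559d0193d870d1d : CRef := CRef.mk (Pat.mk 0x20000000600000016000000000000000000000000 0x6000000060000001e000000030000000300000003 4 5) 0 0 (step_sound _ 65 [rh46530d756bdf8511, (rh84f01cf2134210c0.shift 0 1), (rhea7a1800d6f053bd.shift 1 0)] (by decide +kernel))
noncomputable def rh3e1b7b343686dca1 : CRef := CRef.mk (Pat.mk 0x1e00000000 0x380000001f00000038 4 6) 0 0 (step_sound _ 4 [rha4e794e69630f173, (rhe25b0a99195a5d59.shift 1 0)] (by decide +kernel))
noncomputable def rh42e615827c8908b1 : CRef := CRef.mk (Pat.mk 0x8000000080000000c0000000800000000 0x8000000080000001f0000007800000010 4 7) 0 0 (step_sound _ 36 [(rh55afc6a59410cf00.shift 3 0), (rh5c5a2014709044d0.shift 0 1)] (by decide +kernel))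
noncomputable def rh8d5397c29a6031ac : CRef := CRef.mk (Pat.mk 0xc00000008000000080000000800000000 0x100000003c0000000f000000080000000800000008 4 6) 0 0 (step_sound _ 98 [(rh7b1f1fb55310c477.shift 2 0), (rhc0ddb33d3a52722b.shift 0 1)] (by decide +kernel))
noncomputable def rhdf8b9aa233deec1e : CRef := CRef.mk (Pat.mk 0x80000000c0000000800000008 0x100000007c0000000f0000000800000008 4 7) 0 0 (step_sound _ 100 [(rh0bb882ba86b2372d.shift 0 2), (rh2f68792b6b779e96.shift 3 0)] (by decide +kernel))
noncomputable def rh215fef6ef21eb5a3 : CRef := CRef.mk (Pat.mk 0x8000000180000000800000008 0x40000000f0000007c0000000800000008 4 7) 0 0 (step_sound _ 98 [(rh3c3e23a02e82b2ed.shift 0 2), (rh50fbb5868c909700.shift 2 0)] (by decide +kernel))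
noncomputable def rha257ce2eb8d2d0a3 : CRef := CRef.mk (Pat.mk 0x2000000020000000200000002000000020000000100000000 0x2000000060000000600000006000000060000000300000003 4 3) 0 0 (step_sound _ 98 [rh2e95f0771a0e88ed, (rh55afc6a59410cf00.shift 1 2)] (by decide +kernel))
noncomputable def rh38791ac5737ed75e : CRef := CRef.mk (Pat.mk 0x20000000e 0x770000003e 4 7) 0 0 (step_sound _ 4 [rh3244c3cc8379b070, (rh790acd67f4fffd04.shift 1 0)] (by decide +kernel))
noncomputable def rhc93d66701fcafc81 : CRef := CRef.mk (Pat.mk 0x200000006000000020000000800000008 0x40000000600000006000000020000000f0000001f 4 5) 0 0 (step_sound _ 33 [(rha707fb719e87fe6e.shift 1 0), rhcca48c881f96823d] (by decide +kernel))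
noncomputable def rh7654d7b92c96fe12 : CRef := CRef.mk (Pat.mk 0x3c00000000 0x700000003e00000007 4 7) 0 0 (step_sound _ 1 [(rh80fcd6d0a18cb2dd.shift 1 0), rhdf4d0e51ca454953] (by decide +kernel))
noncomputable def rhe81f6c93ba574c46 : CRef := CRef.mk (Pat.mk 0xe00000000000000040000000400000004 0x1f0000007c000000040000000400000004 4 7) 0 0 (step_sound _ 99 [(rh1006c02ae4212ff0.shift 2 0), (rh8ee80cc30e93a344.shift 0 3)] (by decide +kernel))
noncomputable def rh6206d00fae46d42a : CRef := CRef.mk (Pat.mk 0x1e0000001000000000 0x800000008000000380000001f0000001000000010 4 6) 0 0 (step_sound _ 100 [rh25ec400f5d5d81da, (rh33e738c4ed385b9f.shift 1 2)] (by decide +kernel))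
noncomputable def rh61325f73ebf98108 : CRef := CRef.mk (Pat.mk 0x3c 0x770000003e 4 7) 0 0 (step_sound _ 33 [rh1c65e071dd020d9e, (rh3f8766e6ecb455ce.shift 1 0)] (by decide +kernel))
noncomputable def rhf7c3976a2c30dd83 : CRef := CRef.mk (Pat.mk 0x10000000e00000004 0x30000003e00000076 4 7) 0 0 (step_sound _ 36 [(rh3f8766e6ecb455ce.shift 0 1), (rh9ab60d74117ac343.shift 1 0)] (by decide +kernel))
noncomputable def rhd7aab4aaf85105fc : CRef := CRef.mk (Pat.mk 0x800000009000000080000000800000000 0x140000001c0000000f000000080000000800000008 4 5) 0 0 (step_sound _ 130 [(rh50fbb5868c909700.shift 2 1), rh7863099457501ed0] (by decide +kernel))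
noncomputable def rhd64ac1b1180c5fc8 : CRef := CRef.mk (Pat.mk 0x7c 0x3c000000ff 4 8) 0 0 (step_sound _ 35 [rh01cc9eaefce5f3df, (rh3244c3cc8379b070.shift 2 0)] (by decide +kernel))
noncomputable def rhcb4b35a0771db4b4 : CRef := CRef.mk (Pat.mk 0x3000000030000000200000001 0x6000000060000000600000003000000030000000300000001 4 3) 0 0 (step_sound _ 129 [(rh5fa50b509d4ce753.shift 0 1), rh79877ebd3ef475dd] (by decide +kernel))
noncomputable def rh707da0ab4034fd36 : CRef := CRef.mk (Pat.mk 0x10000000500000000000000020000000200000000 0x4000000050000000700000006000000060000000200000002 4 3) 0 0 (step_sound _ 97 [(rh87d5e4118780fa3b.shift 1 0), (rhcfdf45280693d3da.shift 0 1)] (by decide +kernel))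
noncomputable def rhaa4d9de99c4ea825 : CRef := CRef.mk (Pat.mk 0x8000000080000000c0000000800000000 0x8000000080000000f0000007c00000010 4 7) 0 0 (step_sound _ 36 [(rh55afc6a59410cf00.shift 3 0), (rhdeca8db941583de2.shift 0 1)] (by decide +kernel))
noncomputable def rh25208373db83e521 : CRef := CRef.mk (Pat.mk 0x100000001000000010000000100000000 0x2000000030000000300000001000000030000000300000002 4 2) 0 0 (step_sound _ 161 [rhae770c7baa4b41bb, (rhbaefcd01e0a8bca3.shift 0 1)] (by decide +kernel))
noncomputable def rh6eb76252a9026692 : CRef := CRef.mk (Pat.mk 0xf000000040000000000000000 0x8000000080000001c0000000f000000040000000400000004 4 5) 0 0 (step_sound _ 131 [(rh33e738c4ed385b9f.shift 0 3), (rhf9366b6a121593ef.shift 2 0)] (by decide +kernel))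
noncomputable def rhfb2f47ebeee1de4a : CRef := CRef.mk (Pat.mk 0x800000008000000080000002800000000 0x8000000080000000f0000007c00000010 4 7) 0 0 (step_sound _ 36 [(rh55afc6a59410cf00.shift 3 0), (rha9fbfd4bb8cf890b.shift 0 1)] (by decide +kernel))
noncomputable def rh8a358951c2c8d454 : CRef := CRef.mk (Pat.mk 0xf0000000000000000000000040000000400000000 0xf0000001c0000000c0000000c0000000400000004 4 5) 0 0 (step_sound _ 131 [(rhdc2416c54392aa5a.shift 2 0), (rhe25b0a99195a5d59.shift 0 4)] (by decide +kernel))
noncomputable def rhc2317bc8b67231c5 : CRef := CRef.mk (Pat.mk 0x100000001800000000000000000000000e 0x100000001800000008000000780000001f 4 7) 0 0 (step_sound _ 35 [(rh04253f50b6dd0619.shift 3 0), rha11dfd15f08f96e3] (by decide +kernel))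
noncomputable def rhd8d4cce516c2bbae : CRef := CRef.mk (Pat.mk 0x1000000000000000000000000e0000000800000000 0x100000001000000010000000780000001f0000000800000008 4 7) 0 0 (step_sound _ 100 [(rh481f8e6e6b31660c.shift 1 1), rh7333118865554678, (rhb8022f71dc28021b.shift 0 2)] (by decide +kernel))
noncomputable def rh2c56be22e7e0e355 : CRef := CRef.mk (Pat.mk 0x400000004000000000000003c00000000 0x400000006000000030000003e00000007 4 6) 0 0 (step_sound _ 1 [rh4c8489731a7ad500, (rh80fcd6d0a18cb2dd.shift 1 0)] (by decide +kernel))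
noncomputable def rhd0e8c2498b2d628e : CRef := CRef.mk (Pat.mk 0x20000000200000002000000020000000200000000 0x2000000030000000300000003000000030000000300000002 4 2) 0 0 (step_sound _ 128 [rh1f411efd0fbcce31, (rh50fbb5868c909700.shift 0 1)] (by decide +kernel))
noncomputable def rh1440f6a1c37c6417 : CRef := CRef.mk (Pat.mk 0x60000001a000000100000000000000000 0x4000000060000001e000000330000000200000002 4 6) 0 0 (step_sound _ 98 [rh9a011a4d0ec8f646, (rhe25b0a99195a5d59.shift 1 2)] (by decide +kernel))
noncomputable def rh20ad642af64d9dda : CRef := CRef.mk (Pat.mk 0x1000000000000000000000000e0000000800000000 0x100000001000000010000000780000001f0000000800000008 4 7) 0 0 (step_sound _ 100 [(rh481f8e6e6b31660c.shift 1 1), rh7333118865554678, (rh9578164826709400.shift 0 2)] (by decide +kernel))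
noncomputable def rhd049a89e5ce2375e : CRef := CRef.mk (Pat.mk 0x16000000020000000800000008 0x300000001e000000330000001800000008 4 6) 0 0 (step_sound _ 99 [(rh9c9de8a82d5e4ca8.shift 1 0), (rheb0810cc63b001d8.shift 0 2)] (by decide +kernel))
noncomputable def rh11495b026e5f79b6 : CRef := CRef.mk (Pat.mk 0x12000000020000000a0000000a 0x340000001e0000000b0000000a0000000a 4 6) 0 0 (step_sound _ 98 [(rh2f68792b6b779e96.shift 1 0), rh4d477abd4f690b79] (by decide +kernel))
noncomputable def rh4c17ebe7a9bef7b6 : CRef := CRef.mk (Pat.mk 0x3000000060000001000000000000000080000000800000000 0x130000001e0000001000000018000000180000000800000008 4 5) 0 0 (step_sound _ 164 [(rh2fe78cc5ca4405d8.shift 0 5), (rhbe1d2bd23b186e81.shift 3 0)] (by decide +kernel))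
noncomputable def rh9f6a08ae3740cdc0 : CRef := CRef.mk (Pat.mk 0x1e000000180000000000000010 0x63000000fe0000001c0000001000000010 4 8) 0 0 (step_sound _ 129 [(rh3244c3cc8379b070.shift 0 3), (rhb33c6c3f599de8c2.shift 2 0)] (by decide +kernel))
noncomputable def rhe4331c6b06ac49c3 : CRef := CRef.mk (Pat.mk 0x1e000000000000000000000008 0x300000001f000000380000000800000008 4 6) 0 0 (step_sound _ 68 [rh25d86a43cf0edb04, (rhe25b0a99195a5d59.shift 1 2)] (by decide +kernel))
noncomputable def rh91b04a9b8fefda9e : CRef := CRef.mk (Pat.mk 0x60000000300000018000000080000000000000000 0x100000001e0000001b00000018000000080000000800000008 4 5) 0 0 (step_sound _ 164 [(rh16cbd58a1619e6a8.shift 3 0), (rh361cc68994bd8a63.shift 0 4)] (by decide +kernel))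
noncomputable def rh54c220d2e6f99d03 : CRef := CRef.mk (Pat.mk 0x100000003e00000000 0x18000000ff000000e0 4 8) 0 0 (step_sound _ 67 [(rh0cb6a409506b34ea.shift 2 0), (rh53b3c253cb0c65f4.shift 0 1)] (by decide +kernel))
noncomputable def rh80cc27999209e7f7 : CRef := CRef.mk (Pat.mk 0x160000000200000018000000080000000000000000 0x1e0000003b00000018000000080000000800000008 4 6) 0 0 (step_sound _ 163 [(rh484ebe2f1178c5b2.shift 1 0), (rheb0810cc63b001d8.shift 0 4)] (by decide +kernel))
noncomputable def rha34a16d8d94daec2 : CRef := CRef.mk (Pat.mk 0x400000004000000040000001400000000 0x40000000400000004000000070000003e00000008 4 6) 0 0 (step_sound _ 35 [(rh55afc6a59410cf00.shift 2 0), (rh6268334d767980dd.shift 0 1)] (by decide +kernel))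
noncomputable def rh90a6607759a9843a : CRef := CRef.mk (Pat.mk 0x2000000030000000f0000000c 0x180000001e0000001b0000000f0000000c 4 5) 0 0 (step_sound _ 67 [(rh33e738c4ed385b9f.shift 0 1), rh6ca9ab4dec5e9e3c] (by decide +kernel))
noncomputable def rh050a702ec6979877 : CRef := CRef.mk (Pat.mk 0x30000000200000002000000040000000000000000 0x30000000300000002000000070000000700000001 4 3) 0 0 (step_sound _ 65 [rh1f3a6ba70a310ab1, (rh55afc6a59410cf00.shift 1 1)] (by decide +kernel))
noncomputable def rhe391af62c2a85c90 : CRef := CRef.mk (Pat.mk 0x200000003800000004 0x370000003e00000006 4 6) 0 0 (step_sound _ 34 [(rh7fb660bc21ce4329.shift 0 1), (rheb0810cc63b001d8.shift 1 0)] (by decide +kernel))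
noncomputable def rh3dfe711bc4e0747d : CRef := CRef.mk (Pat.mk 0x180000003c000000100000000000000000 0x180000003f000000170000001000000010 4 6) 0 0 (step_sound _ 36 [(rh7b1f1fb55310c477.shift 3 0), (rhcc2be1f880c5ea3e.shift 0 2)] (by decide +kernel))
noncomputable def rh0c928d324d409faa : CRef := CRef.mk (Pat.mk 0x100000007c00000000 0x1c0000007f00000007 4 7) 0 0 (step_sound _ 67 [(rh3244c3cc8379b070.shift 2 1), rhcc2be1f880c5ea3e] (by decide +kernel))
noncomputable def rh27400cbf5ec32612 : CRef := CRef.mk (Pat.mk 0x3000000060000000000000008000000080000000800000000 0x130000001e0000001800000018000000080000000800000008 4 5) 0 0 (step_sound _ 164 [(rh2d9fb7ccdcfc0559.shift 3 0), (rh2fe78cc5ca4405d8.shift 0 5)] (by decide +kernel))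
noncomputable def rh829cc808255f735e : CRef := CRef.mk (Pat.mk 0xa0000000a000000080000000800000000 0x100000001e0000003b000000080000000800000008 4 6) 0 0 (step_sound _ 132 [(rh2f68792b6b779e96.shift 3 1), rhd62c7752c27835a7] (by decide +kernel))
noncomputable def rh623a731171d66e50 : CRef := CRef.mk (Pat.mk 0x6000000060000000300000000 0x3000000030000000300000006000000060000000300000001 4 3) 0 0 (step_sound _ 129 [(rh7b9fbdf6d2d059e4.shift 0 1), rh932754581e0f4330] (by decide +kernel))
noncomputable def rh878c03cc42e824bf : CRef := CRef.mk (Pat.mk 0x80000000e0000000800000000 0x100000001000000018000000180000000f0000000800000008 4 5) 0 0 (step_sound _ 100 [(rh215e11e099257d75.shift 3 0), (rh53b3c253cb0c65f4.shift 0 2)] (by decide +kernel))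
noncomputable def rh5fe841841c5ff45f : CRef := CRef.mk (Pat.mk 0x20000000a0000000a0000000a00000008 0x50000001f0000001a0000000a0000000a00000008 4 5) 0 0 (step_sound _ 130 [(rh2f68792b6b779e96.shift 1 1), rh414217460fb55255] (by decide +kernel))
noncomputable def rh80a1a8a4c64205ff : CRef := CRef.mk (Pat.mk 0x100000006000000020000000a000000080000000800000008 0x1000000030000001e0000001a0000001a000000080000000800000008 4 5) 0 0 (step_sound _ 193 [(rh50fbb5868c909700.shift 0 3), rhfdf6bac2613ab53a] (by decide +kernel))
noncomputable def rh73f29fe7b81e564e : CRef := CRef.mk (Pat.mk 0x60000000200000008000000080000000800000008 0x1e0000003b00000018000000080000000800000008 4 6) 0 0 (step_sound _ 132 [(rh87b8e29bd0215c24.shift 0 1), (rhbaefcd01e0a8bca3.shift 3 0)] (by decide +kernel))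
noncomputable def rhc44aa952c63836fd : CRef := CRef.mk (Pat.mk 0x700000010 0x380000001f00000038 4 6) 0 0 (step_sound _ 35 [rh96851dee118c1ba3, rhd82640f02a0caa69] (by decide +kernel))
noncomputable def rh12082b6d9880954e : CRef := CRef.mk (Pat.mk 0x120000000a0000000a0000000a 0x1000000130000001f0000000a0000000a0000000a 4 5) 0 0 (step_sound _ 128 [rhce86f4a73dda16b9, rhffd04209dc8ea796] (by decide +kernel))
noncomputable def rhd3e6eb62f45782ee : CRef := CRef.mk (Pat.mk 0x4800000038000000180000000000000000 0x680000003f000000380000001000000010 4 7) 0 0 (step_sound _ 36 [(rh551a9ca0f9b08dd5.shift 0 2), (rh7b1f1fb55310c477.shift 3 0)] (by decide +kernel))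
noncomputable def rhc311820c698ef129 : CRef := CRef.mk (Pat.mk 0x8000000200000000c00000004 0x800000008000000780000001f00000004 4 7) 0 0 (step_sound _ 67 [(rh5c5e593799055d58.shift 2 0), (rhcadd85ff2a73e8c7.shift 0 1)] (by decide +kernel))
noncomputable def rh950c481d8beba90e : CRef := CRef.mk (Pat.mk 0xc00000006000000030000000800000000 0x100000003c0000001e0000000b0000000800000008 4 6) 0 0 (step_sound _ 99 [(rh18965a982d73c794.shift 0 2), (rhd2987d494005f708.shift 1 0)] (by decide +kernel))
noncomputable def rh2df5afcfc4cfd1fc : CRef := CRef.mk (Pat.mk 0xf000000000000000800000008 0x380000001f000000300000001800000008 4 6) 0 0 (step_sound _ 132 [(rh428265de8cd3cd2d.shift 0 3), (rhe480d4d80f0531a6.shift 1 0)] (by decide +kernel))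
noncomputable def rh880b34c8d02001a7 : CRef := CRef.mk (Pat.mk 0xc000000080000000c0000000400000000 0x40000000c000000080000000f0000003c00000010 4 6) 0 0 (step_sound _ 35 [(rh50fbb5868c909700.shift 2 1), rhfe557af9112f51d6] (by decide +kernel))
noncomputable def rh56253274bb095044 : CRef := CRef.mk (Pat.mk 0x40000003800000020 0x60000003e00000037 4 6) 0 0 (step_sound _ 34 [(rh3244c3cc8379b070.shift 1 1), rhdceeca65bdd8095a] (by decide +kernel))
noncomputable def rhf6de93de3ce300a0 : CRef := CRef.mk (Pat.mk 0x4000000000000000e000000000000000000000000 0x4000000040000000c0000001f000000780000000800000008 4 7) 0 0 (step_sound _ 67 [(rh28afc5b167f84184.shift 2 0), (rh8ee80cc30e93a344.shift 0 2)] (by decide +kernel))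
noncomputable def rh915c3ff3d4fe3a39 : CRef := CRef.mk (Pat.mk 0x80000003c 0x3f0000003f 4 6) 0 0 (step_sound _ 33 [(rh3f8766e6ecb455ce.shift 1 0), rhd0ed6ce702d0de55] (by decide +kernel))
noncomputable def rhae8d21abc86b555a : CRef := CRef.mk (Pat.mk 0x20000000e00000000 0x70000003e00000070 4 7) 0 0 (step_sound _ 36 [(rh2aac33c566332a8c.shift 1 0), (rh3244c3cc8379b070.shift 0 1)] (by decide +kernel))
noncomputable def rhc9ac229b3c77cd55 : CRef := CRef.mk (Pat.mk 0x200000002000000020000000200000000 0x20000000200000002000000070000000700000005 4 3) 0 0 (step_sound _ 32 [rh932754581e0f4330, rhf3cdd189c46cffe9] (by decide +kernel))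
noncomputable def rhe9f9259b2da8d967 : CRef := CRef.mk (Pat.mk 0x80000000c0000000800000008 0x10000000780000001f0000000800000008 4 7) 0 0 (step_sound _ 100 [(rh2f68792b6b779e96.shift 3 0), (rh574fdbf07bdd18b9.shift 0 2)] (by decide +kernel))
noncomputable def rhb2a7df0d7b400654 : CRef := CRef.mk (Pat.mk 0xc00000004000000060000000400000000 0x20000000f0000003c000000060000000400000004 4 6) 0 0 (step_sound _ 99 [(rh30c8e93810233a6c.shift 0 1), (rh71222050f2c63a3a.shift 2 0)] (by decide +kernel))
noncomputable def rhca405e350c462817 : CRef := CRef.mk (Pat.mk 0x8000000180000000800000008 0x40000000f0000007c0000000800000008 4 7) 0 0 (step_sound _ 98 [(rh50fbb5868c909700.shift 2 0), (rhdeca8db941583de2.shift 0 2)] (by decide +kernel))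
noncomputable def rha5cf35586593d4a9 : CRef := CRef.mk (Pat.mk 0x7000000000000000000000008000000080000000c00000000 0x1f000000180000001800000008000000080000000c00000004 4 5) 0 0 (step_sound _ 131 [(rh7ef83fb89d82184e.shift 0 1), (rh932754581e0f4330.shift 2 0)] (by decide +kernel))
noncomputable def rh4d7d70d053228994 : CRef := CRef.mk (Pat.mk 0x8000000000000001e00000000 0x800000008000000380000001f00000014 4 6) 0 0 (step_sound _ 68 [rh060f4b610bd533ed, (rh33e738c4ed385b9f.shift 1 1)] (by decide +kernel))
noncomputable def rhad7f111fb10ea859 : CRef := CRef.mk (Pat.mk 0x4000000000000001e000000000000000000000000 0x400000004000000040000001e000000070000000200000002 4 5) 0 0 (step_sound _ 65 [(rh02ef15e22aa7db92.shift 1 0), (rheb0810cc63b001d8.shift 0 2)] (by decide +kernel))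
noncomputable def rh9abf3184422a6047 : CRef := CRef.mk (Pat.mk 0x4000000000000000f0000000000000000 0x4000000040000000c0000000f0000001c00000008 4 5) 0 0 (step_sound _ 35 [(rh3296438309676d7e.shift 2 0), (rhe25b0a99195a5d59.shift 0 1)] (by decide +kernel))
noncomputable def rhcfe87efe7b6820a8 : CRef := CRef.mk (Pat.mk 0x20000001c000000040000001000000070 0x30000001e000000040000003e00000074 4 7) 0 0 (step_sound _ 97 [(rh3244c3cc8379b070.shift 0 3), (rh38b727f6eb6cee07.shift 1 0)] (by decide +kernel))
noncomputable def rha526367301f98c3f : CRef := CRef.mk (Pat.mk 0x160000000600000002 0x300000003000000030000001e0000000600000006 4 5) 0 0 (step_sound _ 97 [rh3da62da861143b9a, (rh3e595262c1b737ad.shift 1 0), rh52dc0b448901c5de] (by decide +kernel))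
noncomputable def rh3b2b05f77630fe70 : CRef := CRef.mk (Pat.mk 0x200000003800000040 0x370000003e00000060 4 7) 0 0 (step_sound _ 34 [(rh7fb660bc21ce4329.shift 0 1), (rh96851dee118c1ba3.shift 2 0)] (by decide +kernel))
noncomputable def rh45beebce8c11cf6a : CRef := CRef.mk (Pat.mk 0x3800000024 0x70000003e00000036 4 6) 0 0 (step_sound _ 34 [rhd1d05263fabc0227, (rheb0810cc63b001d8.shift 1 0)] (by decide +kernel))
noncomputable def rh20ee5c2c4c3a9878 : CRef := CRef.mk (Pat.mk 0x80000000c0000000800000008 0x140000003c0000000f0000000800000008 4 6) 0 0 (step_sound _ 98 [(rh50fbb5868c909700.shift 2 0), rhc0ddb33d3a52722b] (by decide +kernel))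
noncomputable def rhcde3019c0fe95f01 : CRef := CRef.mk (Pat.mk 0x4000000070000000600000004 0xc0000000c0000000c000000070000001e00000004 4 5) 0 0 (step_sound _ 35 [(rh5fa50b509d4ce753.shift 1 0), (rhf48373e13d2bc128.shift 0 1)] (by decide +kernel))
noncomputable def rhe342e74196eab19c : CRef := CRef.mk (Pat.mk 0x1c0000001e00000000 0x200000002000000030000001f0000001e00000004 4 5) 0 0 (step_sound _ 65 [(rh3244c3cc8379b070.shift 0 1), rhbdb8dfd08861fbf7] (by decide +kernel))
noncomputable def rh808f571e1d6baf80 : CRef := CRef.mk (Pat.mk 0x100000001e000000000000002000000000 0x100000003e000000670000002000000020 4 7) 0 0 (step_sound _ 65 [(rh4979f9db0d330878.shift 1 0), (rheb0810cc63b001d8.shift 0 2)] (by decide +kernel))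
noncomputable def rh5117ef794a583ff1 : CRef := CRef.mk (Pat.mk 0x1e000000020000000000000000 0x2000000030000003e000000060000000400000004 4 6) 0 0 (step_sound _ 66 [(rh18965a982d73c794.shift 1 2), rh38a0850c9fea941e] (by decide +kernel))
noncomputable def rhf9dc53ff440b8418 : CRef := CRef.mk (Pat.mk 0x3e00000000 0x7f0000003e 4 7) 0 0 (step_sound _ 2 [rh317ceab58ecdf45b, (rheb0810cc63b001d8.shift 1 0)] (by decide +kernel))
noncomputable def rhd1564cc1f0e06cc8 : CRef := CRef.mk (Pat.mk 0x20000001e0000000000000000 0x400000004000000060000003e0000000300000002 4 6) 0 0 (step_sound _ 33 [(rhc333e2570e2bbdf1.shift 1 0), (rheb0810cc63b001d8.shift 0 1)] (by decide +kernel))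
noncomputable def rh211a6c48392e6e74 : CRef := CRef.mk (Pat.mk 0x3e 0x3c000000ff 4 8) 0 0 (step_sound _ 36 [rh30d951fefd654979, (rh33e738c4ed385b9f.shift 1 0)] (by decide +kernel))
noncomputable def rh7dc512b965165b81 : CRef := CRef.mk (Pat.mk 0x20000000e0000001800000000 0x1000000010000000330000001e0000001800000008 4 6) 0 0 (step_sound _ 68 [(rh3244c3cc8379b070.shift 0 2), (rh5ba2d67652840f34.shift 1 0)] (by decide +kernel))
noncomputable def rh00c644645561e9be : CRef := CRef.mk (Pat.mk 0x200000002000000020000000200000000 0x50000000700000007000000020000000200000002 4 3) 0 0 (step_sound _ 128 [(rh50fbb5868c909700.shift 0 1), rhc0681f90f27d666e] (by decide +kernel))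
noncomputable def rhf60cdf71a14eca6b : CRef := CRef.mk (Pat.mk 0xf000000040000000000000000 0x8000000080000001c0000000f000000040000000400000004 4 5) 0 0 (step_sound _ 131 [(rh33e738c4ed385b9f.shift 0 3), (rh4821dcf828b9d7bf.shift 2 0)] (by decide +kernel))
noncomputable def rh66a680d68bbb6197 : CRef := CRef.mk (Pat.mk 0xf000000010000000000000000 0x200000002000000030000001f000000030000000100000001 4 5) 0 0 (step_sound _ 129 [(rh21ff067999dca58e.shift 0 1), (rh7b030ba967bf927e.shift 0 2), rhadf429772c25fde0] (by decide +kernel))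
noncomputable def rh60ef2a009b7c316e : CRef := CRef.mk (Pat.mk 0xfc00000000 0x38000000fe00000007 4 8) 0 0 (step_sound _ 68 [(rh3244c3cc8379b070.shift 3 1), rh55c4ed4acec0f063] (by decide +kernel))
noncomputable def rh874593e3f05c8191 : CRef := CRef.mk (Pat.mk 0x40000000f000000030000000200000000 0x40000000f0000001f0000001e00000008 4 5) 0 0 (step_sound _ 67 [rh6a7d78a202a43da8, (rhe25b0a99195a5d59.shift 0 2)] (by decide +kernel))
noncomputable def rh1a8cdb83c5887f7d : CRef := CRef.mk (Pat.mk 0x40000007800000008 0x6000000ff00000038 4 8) 0 0 (step_sound _ 34 [(rh3244c3cc8379b070.shift 1 1), rh3696295804471b76] (by decide +kernel))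
noncomputable def rh22de5993038d04b0 : CRef := CRef.mk (Pat.mk 0x1e000000000000001000000000 0x8000000380000001f000000100000001000000010 4 6) 0 0 (step_sound _ 132 [(rh33e738c4ed385b9f.shift 1 3), rhf82c39c189d08f68] (by decide +kernel))
noncomputable def rh00c1a02c588da1b0 : CRef := CRef.mk (Pat.mk 0xf000000000000000800000000 0x4000000040000000c0000000f000000180000000800000008 4 5) 0 0 (step_sound _ 67 [(rhb1a251d9bff81766.shift 2 0), (rhe25b0a99195a5d59.shift 0 2)] (by decide +kernel))
noncomputable def rhfb28531584c90d61 : CRef := CRef.mk (Pat.mk 0x1e00000006000000000000001000000000 0x1f0000003e000000300000001000000010 4 6) 0 0 (step_sound _ 100 [(rhe25b0a99195a5d59.shift 1 3), rhe85809167142bbcd] (by decide +kernel))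
noncomputable def rh1775efe41f56ac70 : CRef := CRef.mk (Pat.mk 0x200000002000000030000000200000002 0x100000003000000070000001e000000030000000300000002 4 5) 0 0 (step_sound _ 99 [rh8797c67fe3ac847a, (rha77f215723363df0.shift 0 1)] (by decide +kernel))
noncomputable def rh50e736ca27d8bdbd : CRef := CRef.mk (Pat.mk 0x40000001e000000000000000000000000 0x400000004000000060000001e000000030000000200000002 4 5) 0 0 (step_sound _ 65 [(rh4821dcf828b9d7bf.shift 1 0), (rheb0810cc63b001d8.shift 0 2)] (by decide +kernel))
noncomputable def rh12457512f49e4e69 : CRef := CRef.mk (Pat.mk 0x40000001c000000140000001400000000 0x4000000040000001c0000001f0000003600000002 4 6) 0 0 (step_sound _ 33 [(rh3128b9c68936017c.shift 0 1), (rh932754581e0f4330.shift 1 0)] (by decide +kernel))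
noncomputable def rhfc0fa269c989ad37 : CRef := CRef.mk (Pat.mk 0x200000012000000020000000200000000 0x5000000070000001e000000020000000200000002 4 5) 0 0 (step_sound _ 130 [(rh2f68792b6b779e96.shift 1 1), rh9fa863152efb40d1] (by decide +kernel))
noncomputable def rh4a0183ed70e2bd2d : CRef := CRef.mk (Pat.mk 0x1e000000000000001000000000 0x8000000180000001f000000300000001000000010 4 6) 0 0 (step_sound _ 68 [rhb03ead900b8630b0, (rhe25b0a99195a5d59.shift 1 2)] (by decide +kernel))
noncomputable def rhc6563beaa1184505 : CRef := CRef.mk (Pat.mk 0x3c00000000 0x70000003e00000007 4 6) 0 0 (step_sound _ 1 [rh71dc3b1b14d867eb, (rh80fcd6d0a18cb2dd.shift 1 0)] (by decide +kernel))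
noncomputable def rh6b0a7e6e36ea45de : CRef := CRef.mk (Pat.mk 0xe000000000000000400000000 0x8000000080000007c0000001f000000040000000400000004 4 7) 0 0 (step_sound _ 131 [(rh00d6a6e3c7e3bb40.shift 2 0), (rha11dfd15f08f96e3.shift 0 3)] (by decide +kernel))
noncomputable def rhd776eb44f7a8b71d : CRef := CRef.mk (Pat.mk 0x7000000040000000500000000 0x2000000020000000300000007000000050000000500000005 4 3) 0 0 (step_sound _ 129 [rh00d6a6e3c7e3bb40, (rh7b1f1fb55310c477.shift 1 0)] (by decide +kernel))
noncomputable def rh698361c8a3307363 : CRef := CRef.mk (Pat.mk 0x5000000040000000500000002000000000000000000000000 0x5000000050000000700000007000000020000000200000002 4 3) 0 0 (step_sound _ 65 [(rheea67dfebd0f8008.shift 1 2), rhfaf1a2bc47312130] (by decide +kernel))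
noncomputable def rhb02ca35181966ef3 : CRef := CRef.mk (Pat.mk 0x4000000160000001400000000 0x400000004000000040000001e0000003700000002 4 6) 0 0 (step_sound _ 67 [rhb91b7df0d06c1d96, (rhe25b0a99195a5d59.shift 1 1)] (by decide +kernel))
noncomputable def rh25fcade0632ba659 : CRef := CRef.mk (Pat.mk 0x20000000200000006000000160000000000000000 0x40000000600000006000000060000001e0000000300000001 4 5) 0 0 (step_sound _ 162 [(rh2f68792b6b779e96.shift 1 2), rh942e9ba56a890c66] (by decide +kernel))
noncomputable def rh09d9f2ed3f61f767 : CRef := CRef.mk (Pat.mk 0x1e000000000000001000000000 0x380000001f000000300000001000000010 4 6) 0 0 (step_sound _ 68 [rh7ea42b47bb00ce47, (rhe25b0a99195a5d59.shift 1 2)] (by decide +kernel))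
noncomputable def rh320c6d97c59498d4 : CRef := CRef.mk (Pat.mk 0x7000000080000000000000008 0x380000001f000000180000000800000008 4 6) 0 0 (step_sound _ 99 [rh67b333ba8f3c6687, (rhe25b0a99195a5d59.shift 0 2)] (by decide +kernel))
noncomputable def rh9aab2e37f490e5ca : CRef := CRef.mk (Pat.mk 0x1800000008000000080000000800000000 0x40000003c0000000f000000080000000800000008 4 6) 0 0 (step_sound _ 130 [(rh50fbb5868c909700.shift 2 1), rhfe0270f45009c77d] (by decide +kernel))
noncomputable def rh089e83b51fb664ca : CRef := CRef.mk (Pat.mk 0x1800000004000000000000000400000000 0x8000000080000007c0000000f0000000c0000000400000004 4 7) 0 0 (step_sound _ 99 [(rh580df77fe152422b.shift 2 0), (rhd69c262cd33b94b3.shift 0 3)] (by decide +kernel))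
noncomputable def rh401f65ca58b25384 : CRef := CRef.mk (Pat.mk 0xf000000100000000000000001 0x30000001f000000330000000100000001 4 6) 0 0 (step_sound _ 100 [rh2a02695054c83069, (rhe25b0a99195a5d59.shift 1 2)] (by decide +kernel))
noncomputable def rh350f4d781f5692f6 : CRef := CRef.mk (Pat.mk 0x80000000f00000000000000000000000400000000 0x8000000080000000f0000001c0000000c0000000400000004 4 5) 0 0 (step_sound _ 99 [(rh18daa16230dec9b2.shift 2 0), (rhe25b0a99195a5d59.shift 0 3)] (by decide +kernel))
noncomputable def rh12a4aa43a438d841 : CRef := CRef.mk (Pat.mk 0x1e000000000000000000000004 0x30000003e000000070000000400000004 4 6) 0 0 (step_sound _ 65 [rhc382f93a2be69a0f, (rheb0810cc63b001d8.shift 0 2)] (by decide +kernel))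
noncomputable def rhf2e43f1d0e5f7c46 : CRef := CRef.mk (Pat.mk 0x180000000c000000040000001000000000 0x180000003f000000370000001000000010 4 6) 0 0 (step_sound _ 97 [(rh53b3c253cb0c65f4.shift 0 3), rh861a59032aac395a] (by decide +kernel))
noncomputable def rhdc09afd880248b87 : CRef := CRef.mk (Pat.mk 0x1c000000020000000000000002 0x70000003e000000030000000200000002 4 6) 0 0 (step_sound _ 97 [rhddb5e72fae96c92e, (rheb0810cc63b001d8.shift 0 2)] (by decide +kernel))
noncomputable def rhd5f3672bdd02e5db : CRef := CRef.mk (Pat.mk 0x600000004000000040000000400000000 0x80000003e00000007000000040000000400000004 4 6) 0 0 (step_sound _ 97 [(rh7b1f1fb55310c477.shift 1 0), (rh861ee9d7304b9753.shift 0 1)] (by decide +kernel))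
noncomputable def rh41a1b2973e38e20a : CRef := CRef.mk (Pat.mk 0x100000000f000000000000000000000001 0x330000001f000000030000000100000001 4 6) 0 0 (step_sound _ 100 [rh2a02695054c83069, (rh33e738c4ed385b9f.shift 1 3)] (by decide +kernel))
noncomputable def rh19f989cddda8aa20 : CRef := CRef.mk (Pat.mk 0x6000000060000000600000006 0x90000003f000000070000000600000006 4 6) 0 0 (step_sound _ 96 [rh50fbb5868c909700, rh861ee9d7304b9753] (by decide +kernel))
noncomputable def rh027270c32f8feda9 : CRef := CRef.mk (Pat.mk 0xf000000040000000000000001 0x200000002000000070000001f000000070000000500000005 4 5) 0 0 (step_sound _ 129 [rh489612c7fc5d3fc7, (rhc2c7bae8f445c890.shift 1 0)] (by decide +kernel))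
noncomputable def rh51ce417ab3822512 : CRef := CRef.mk (Pat.mk 0x1000000038000000000000000800000000 0x10000000780000001f0000000800000008 4 7) 0 0 (step_sound _ 67 [(rh71222050f2c63a3a.shift 3 0), (rhf0f55c4504412200.shift 0 2)] (by decide +kernel))
noncomputable def rhbb8ddf6556e5ee9b : CRef := CRef.mk (Pat.mk 0xc0000000e00000002 0xc0000007e00000073 4 7) 0 0 (step_sound _ 36 [(rh0cb6a409506b34ea.shift 1 0), rheb0810cc63b001d8] (by decide +kernel))
noncomputable def rhcd8ace9fca182ce7 : CRef := CRef.mk (Pat.mk 0x80000000c0000000c0000000c 0x60000000f0000003c0000000c0000000c 4 6) 0 0 (step_sound _ 98 [(rh50fbb5868c909700.shift 2 0), rhcf85c92937975d4d] (by decide +kernel))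
noncomputable def rhd765db0836a344b1 : CRef := CRef.mk (Pat.mk 0x40000000c0000001c00000008 0x10000000360000007f0000001c00000008 4 7) 0 0 (step_sound _ 65 [(rh186435f7016e87db.shift 1 0), (rhb739f4f82bb681b4.shift 0 1)] (by decide +kernel))
noncomputable def rhc9613fc5bab58382 : CRef := CRef.mk (Pat.mk 0x80000000c0000000800000008 0x10000000780000001f0000000800000008 4 7) 0 0 (step_sound _ 100 [(rh2f68792b6b779e96.shift 3 0), (rh69012675dfdb1a5b.shift 0 2)] (by decide +kernel))
noncomputable def rh089abf6bf8f7bf1a : CRef := CRef.mk (Pat.mk 0x40000000c0000001c00000008 0x8000000180000003c0000000f0000001c00000018 4 6) 0 0 (step_sound _ 65 [(rhb739f4f82bb681b4.shift 0 1), (rhc0623366f982994b.shift 1 0)] (by decide +kernel))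
noncomputable def rhf2362e95aa73f806 : CRef := CRef.mk (Pat.mk 0x200000002000000070000000700000000 0x40000000600000006000000070000001f00000018 4 5) 0 0 (step_sound _ 35 [rh822a66c22e949fd4, (rhf48373e13d2bc128.shift 0 1)] (by decide +kernel))
noncomputable def rhea5191d2c77df728 : CRef := CRef.mk (Pat.mk 0x16000000060000000200000000 0x300000003000000030000001e000000060000000600000004 4 5) 0 0 (step_sound _ 129 [(rh52dc0b448901c5de.shift 0 1), (rh7b9fbdf6d2d059e4.shift 0 1), (rhd4b4beefcd67f51e.shift 1 0)] (by decide +kernel))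
noncomputable def rhefdf9cd76c60b61a : CRef := CRef.mk (Pat.mk 0x80000001c00000014 0x800000008000000380000001f00000034 4 6) 0 0 (step_sound _ 99 [rh3ce854f4a795c89f, (rh5c5e593799055d58.shift 2 0)] (by decide +kernel))
noncomputable def rh1c5e426035d52e9a : CRef := CRef.mk (Pat.mk 0x40000000e0000000a 0x400000004000000040000001f0000007a 4 7) 0 0 (step_sound _ 98 [(rh5c5e593799055d58.shift 1 0), rh8ee80cc30e93a344] (by decide +kernel))
noncomputable def rh92604ba3b53b1003 : CRef := CRef.mk (Pat.mk 0x80000000c0000000f00000000 0xc0000000c0000000c0000000c0000000f00000018 4 5) 0 0 (step_sound _ 3 [(rh7f9f3607ee25a93b.shift 2 0), rhe25b0a99195a5d59] (by decide +kernel))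
noncomputable def rh57eff74f907e72e6 : CRef := CRef.mk (Pat.mk 0x3000000030000000e00000006 0xc0000001f0000001b0000000e00000006 4 5) 0 0 (step_sound _ 98 [(rh2f68792b6b779e96.shift 1 0), rhbd74dafabdc61080] (by decide +kernel))
noncomputable def rh2ac3b44a053bbad4 : CRef := CRef.mk (Pat.mk 0x18000000180000001000000038 0x40000001f000000380000001c000000f8 4 8) 0 0 (step_sound _ 35 [(rh79b3c29022acbdf3.shift 2 0), rhc647a25a08ddf0ec] (by decide +kernel))
noncomputable def rhda36a7c0cf2c25e2 : CRef := CRef.mk (Pat.mk 0x8000000000000000c0000000e00000000 0x8000000080000000f0000003e00000014 4 6) 0 0 (step_sound _ 99 [rh58f49594b41e4958, (rh932754581e0f4330.shift 2 0)] (by decide +kernel))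
noncomputable def rh46e96750e1785b7c : CRef := CRef.mk (Pat.mk 0x8000000000000000c0000000e00000000 0x8000000080000000f0000007e00000070 4 7) 0 0 (step_sound _ 36 [(rh0cb6a409506b34ea.shift 1 0), (rh3098af7943687178.shift 1 0), (rhe3060b190bc0bc78.shift 0 1)] (by decide +kernel))
noncomputable def rh32e32f03ae89b559 : CRef := CRef.mk (Pat.mk 0x200000002000000020000000200000000 0x50000000700000007000000020000000200000002 4 3) 0 0 (step_sound _ 130 [(rh2f68792b6b779e96.shift 1 1), rh8c7e6c931af72977] (by decide +kernel))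
noncomputable def rhdd21cabff6f8c986 : CRef := CRef.mk (Pat.mk 0x800000008000000380000000800000000 0x40000000c0000000f0000003c0000000800000008 4 6) 0 0 (step_sound _ 130 [(rh50fbb5868c909700.shift 2 1), rh5c85ecece8738fce] (by decide +kernel))
noncomputable def rhdc0a4287ab9db7aa : CRef := CRef.mk (Pat.mk 0x10000000080000000c0000000800000000 0x100000007c0000000f0000000800000008 4 7) 0 0 (step_sound _ 100 [(rh71222050f2c63a3a.shift 3 0), (rhd69c262cd33b94b3.shift 0 2)] (by decide +kernel))
noncomputable def rh15a3403100bccd1e : CRef := CRef.mk (Pat.mk 0xc000000080000000c0000000c00000000 0x20000000f0000003c0000000c0000000c00000008 4 6) 0 0 (step_sound _ 98 [(rh7b1f1fb55310c477.shift 2 0), (rhcf85c92937975d4d.shift 0 1)] (by decide +kernel))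
noncomputable def rh521a035f40f9b51e : CRef := CRef.mk (Pat.mk 0x1c000000080000000400000004 0x20000003f0000003f0000000400000004 4 6) 0 0 (step_sound _ 66 [(rh4dc133ee0ba1420a.shift 0 2), rhcf85c92937975d4d] (by decide +kernel))
noncomputable def rhe406382ac8e67cee : CRef := CRef.mk (Pat.mk 0x20000000a0000000c0000000c 0x1c0000001e0000000b0000000c0000000c 4 5) 0 0 (step_sound _ 99 [(rh5c5e593799055d58.shift 2 0), rh9258736a7488cc35] (by decide +kernel))
noncomputable def rh4983c44f3a2eb597 : CRef := CRef.mk (Pat.mk 0x100000001e0000000000000000 0x800000008000000180000001f0000003000000010 4 6) 0 0 (step_sound _ 99 [(rh53b3c253cb0c65f4.shift 0 2), (rhea719cc8bd0bdd28.shift 1 0)] (by decide +kernel))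
noncomputable def rhc6e8aa08dd3f1e41 : CRef := CRef.mk (Pat.mk 0x200000003c000000000000000000000010 0x370000003e000000100000001000000010 4 6) 0 0 (step_sound _ 68 [(rh7fb660bc21ce4329.shift 0 3), (rh9e3edb185cc347de.shift 4 0)] (by decide +kernel))
noncomputable def rhf9fc252bb8290774 : CRef := CRef.mk (Pat.mk 0x1e000000000000000000000008 0x300000001f000000380000000800000008 4 6) 0 0 (step_sound _ 132 [(rh33e738c4ed385b9f.shift 1 3), rhe6989bd5d2a25a0e] (by decide +kernel))
noncomputable def rhb103f40a53fe1424 : CRef := CRef.mk (Pat.mk 0x200000003800000000 0x700000003e00000007 4 7) 0 0 (step_sound _ 34 [rh21d582c147e7e118, (rh33e738c4ed385b9f.shift 2 1)] (by decide +kernel))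
noncomputable def rhdac5010f5d5b1870 : CRef := CRef.mk (Pat.mk 0xb0000000f00000004 0x18000000180000000f0000000f0000001c 4 5) 0 0 (step_sound _ 3 [rh6b315ff015ab736a, rhe25b0a99195a5d59] (by decide +kernel))
noncomputable def rh0ae6781f52b10e08 : CRef := CRef.mk (Pat.mk 0x120000001e00000008 0x10000000300000001e0000003f00000008 4 6) 0 0 (step_sound _ 66 [(rhf48373e13d2bc128.shift 1 1), rhf8993406b52adb5c] (by decide +kernel))
noncomputable def rh7d34d9fd8414533e : CRef := CRef.mk (Pat.mk 0x40000001e000000020000000000000008 0x400000004000000040000001f0000003a0000000800000008 4 6) 0 0 (step_sound _ 162 [rh54e416ca24d7c506, (rh5c5e593799055d58.shift 1 2)] (by decide +kernel))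
noncomputable def rhe9ef74b53c7b2f8b : CRef := CRef.mk (Pat.mk 0x1e00000004000000000000000400000000 0x20000001f0000003c000000040000000400000004 4 6) 0 0 (step_sound _ 100 [(rhe25b0a99195a5d59.shift 1 3), rhf13dec36350f192c] (by decide +kernel))
noncomputable def rh05b021e620dd7487 : CRef := CRef.mk (Pat.mk 0x400000003c00000008 0xc0000000ff00000038 4 8) 0 0 (step_sound _ 38 [(rh33e738c4ed385b9f.shift 3 1), rh3696295804471b76] (by decide +kernel))
noncomputable def rh6cf8b6956f09736d : CRef := CRef.mk (Pat.mk 0x1e0000001000000000 0x1000000010000000300000001f0000001800000008 4 6) 0 0 (step_sound _ 35 [(rh5ba2d67652840f34.shift 1 0), (rhb739f4f82bb681b4.shift 0 1)] (by decide +kernel))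
noncomputable def rhbbf26ec00122a913 : CRef := CRef.mk (Pat.mk 0x1e00000014 0x700000007f0000001c 4 7) 0 0 (step_sound _ 3 [(rh226655e3fe6b4a8a.shift 1 0), rhb739f4f82bb681b4] (by decide +kernel))
noncomputable def rhdf5e0509ee58d8b5 : CRef := CRef.mk (Pat.mk 0x100000001e0000000400000000 0x800000008000000180000001f0000003400000010 4 6) 0 0 (step_sound _ 36 [rh3441484a69e677ec, (rhe25b0a99195a5d59.shift 1 1)] (by decide +kernel))
noncomputable def rh9c71485ed59a17cd : CRef := CRef.mk (Pat.mk 0x40000001f00000000 0x1c0000007f00000070 4 7) 0 0 (step_sound _ 67 [(rh0cb6a409506b34ea.shift 1 0), (rh33e738c4ed385b9f.shift 0 1)] (by decide +kernel))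
noncomputable def rh41823a304801edf1 : CRef := CRef.mk (Pat.mk 0x10000000700000008 0x3b0000001f00000018 4 6) 0 0 (step_sound _ 35 [(rh790acd67f4fffd04.shift 0 1), rhe25b0a99195a5d59] (by decide +kernel))
noncomputable def rh6e96e90a79333766 : CRef := CRef.mk (Pat.mk 0xa0000000700000000 0x1b0000001f00000038 4 6) 0 0 (step_sound _ 35 [(rh33e738c4ed385b9f.shift 0 1), rh75c6fff53e4cbd6e] (by decide +kernel))
noncomputable def rh4f828ba34ace724d : CRef := CRef.mk (Pat.mk 0x400000006000000080000000800000000 0x40000000f0000007c0000000800000008 4 7) 0 0 (step_sound _ 99 [(rh7b1f1fb55310c477.shift 2 0), (rhc21a95c499b3efdb.shift 0 2)] (by decide +kernel))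
noncomputable def rh605b675802f6a18d : CRef := CRef.mk (Pat.mk 0x10000000180000001e0000000600000000 0x4000000340000001f0000001e0000000600000002 4 6) 0 0 (step_sound _ 97 [(rh1a04a21d60cc1b23.shift 1 0), (rh3244c3cc8379b070.shift 0 2)] (by decide +kernel))
noncomputable def rh113e957afa7c17ad : CRef := CRef.mk (Pat.mk 0xe0000000600000000 0x200000002000000030000003e0000000600000004 4 6) 0 0 (step_sound _ 68 [(rh18965a982d73c794.shift 1 1), rhbdb8dfd08861fbf7] (by decide +kernel))
noncomputable def rhed843b407a12b975 : CRef := CRef.mk (Pat.mk 0x8000000000000001a0000001e00000010 0x1800000038000000300000001e0000001e00000013 4 6) 0 0 (step_sound _ 1 [(rh4f92b6ce9f3964c8.shift 1 0), rheb0810cc63b001d8] (by decide +kernel))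
noncomputable def rh11f90d1613f54b5a : CRef := CRef.mk (Pat.mk 0x40000000e000000040000000000000008 0x80000003c0000000f000000040000000c00000008 4 6) 0 0 (step_sound _ 34 [(rhb974196174068d7d.shift 0 1), (rhd3458b32566d63f7.shift 2 0)] (by decide +kernel))
noncomputable def rh263c9acc72a4db32 : CRef := CRef.mk (Pat.mk 0x200000003000000030000000000000004 0x6000000060000000600000003000000030000000600000004 4 3) 0 0 (step_sound _ 161 [(rh5c5e593799055d58.shift 0 2), (rha19e283393efed2a.shift 1 0)] (by decide +kernel))
noncomputable def rh6ecdfec06e7e2472 : CRef := CRef.mk (Pat.mk 0x200000000000000020000000300000000 0x1000000030000000300000002000000030000000300000001 4 2) 0 0 (step_sound _ 97 [rh932754581e0f4330, (rhe62cab2ff5ad6fe2.shift 0 1)] (by decide +kernel))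
noncomputable def rh4e7d078a5067a680 : CRef := CRef.mk (Pat.mk 0x1000000030000000700000000 0x30000000300000003000000030000000700000005 4 3) 0 0 (step_sound _ 128 [(rh2145e1d24b96a57e.shift 0 1), rhb32faae6e8187273] (by decide +kernel))
noncomputable def rh3afd92a68366ae78 : CRef := CRef.mk (Pat.mk 0xe0000000600000002 0x3f0000003e00000003 4 6) 0 0 (step_sound _ 68 [(rh18965a982d73c794.shift 1 1), rhf6d72ac90bd26cb0] (by decide +kernel))
noncomputable def rhe1decf49bf0c740c : CRef := CRef.mk (Pat.mk 0x200000003000000030000000000000004 0x3000000030000000300000003000000030000000600000004 4 3) 0 0 (step_sound _ 161 [(rh5c5e593799055d58.shift 0 2), rhe1921443f9792fea] (by decide +kernel))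
noncomputable def rh1bee81a1f5ade0d9 : CRef := CRef.mk (Pat.mk 0x6000000020000001e0000000600000000 0x1000000070000003e0000001e0000000600000002 4 6) 0 0 (step_sound _ 98 [(rh932754581e0f4330.shift 1 0), (rhae8938145796a1d1.shift 0 1)] (by decide +kernel))
noncomputable def rhc56443a5eeac2e95 : CRef := CRef.mk (Pat.mk 0x6000000020000001e0000000600000000 0x70000003e0000001f0000000600000002 4 6) 0 0 (step_sound _ 98 [(rh736db707a18c880a.shift 0 2), (rh932754581e0f4330.shift 1 0)] (by decide +kernel))
noncomputable def rh224c880ba0316e80 : CRef := CRef.mk (Pat.mk 0x10000000180000001e00000004 0x2000000330000001f0000001e00000004 4 6) 0 0 (step_sound _ 65 [(rh3244c3cc8379b070.shift 0 1), rhdab0e6f012231ab6] (by decide +kernel))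
noncomputable def rhf11e6787aafa4f24 : CRef := CRef.mk (Pat.mk 0x8000000180000001e0000000c 0x60000000f0000001b0000001e0000000c 4 5) 0 0 (step_sound _ 98 [(rh50fbb5868c909700.shift 2 0), rhc30999405e79726f] (by decide +kernel))
noncomputable def rhe8e7a93c577942af : CRef := CRef.mk (Pat.mk 0xc000000080000000d 0xf0000007c0000000f 4 7) 0 0 (step_sound _ 36 [rh24ae073cf30720c4, rhda90a22cb7305047] (by decide +kernel))
noncomputable def rh0708313d48b1246a : CRef := CRef.mk (Pat.mk 0x1e0000000600000000 0x200000002000000330000001e0000000600000004 4 6) 0 0 (step_sound _ 100 [(rh33e738c4ed385b9f.shift 1 2), rhbdb8dfd08861fbf7] (by decide +kernel))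
noncomputable def rh3e0b38310ac09007 : CRef := CRef.mk (Pat.mk 0x2000000038 0x770000003e 4 7) 0 0 (step_sound _ 2 [(rh33e738c4ed385b9f.shift 2 0), rh7fb660bc21ce4329] (by decide +kernel))
noncomputable def rh78c7f3b6ffd4fc5f : CRef := CRef.mk (Pat.mk 0x80000000c0000001000000010 0x8000000080000001f0000007800000010 4 7) 0 0 (step_sound _ 35 [(rh2145e1d24b96a57e.shift 3 0), (rh4ca5dae25f5c14ff.shift 0 1)] (by decide +kernel))
noncomputable def rh911e40e388b93c31 : CRef := CRef.mk (Pat.mk 0xd0000000e00000000 0x800000008000000180000000f0000001e00000004 4 5) 0 0 (step_sound _ 65 [rh5ba2d67652840f34, (rhf48373e13d2bc128.shift 0 1)] (by decide +kernel))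
noncomputable def rh946f1e01568ec15f : CRef := CRef.mk (Pat.mk 0x1c000000060000000200000002 0x200000002000000030000001f0000003e0000000700000002 4 6) 0 0 (step_sound _ 97 [rha25c0e62bb8d55c9, (rhbdb8dfd08861fbf7.shift 0 1), (rhf6d72ac90bd26cb0.shift 0 1)] (by decide +kernel))
noncomputable def rh9e0207d335cd87aa : CRef := CRef.mk (Pat.mk 0x80000000e000000040000001400000000 0x2000000020000000f0000001e000000360000001400000010 4 6) 0 0 (step_sound _ 129 [rh8d56556d3b71b433, (rhc89253ff58c66167.shift 1 1), (rhe072fffdd2fccf38.shift 1 1)] (by decide +kernel))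
noncomputable def rh3bc836f910446139 : CRef := CRef.mk (Pat.mk 0x3c000000080000000000000010 0x700000003f000000180000001000000010 4 7) 0 0 (step_sound _ 133 [(rh33e738c4ed385b9f.shift 2 3), rhf19877b8e445d26d] (by decide +kernel))
noncomputable def rhb77b6b67800ceea6 : CRef := CRef.mk (Pat.mk 0x1e00000004000000000000000400000000 0x2000000020000001e00000007000000060000000400000004 4 5) 0 0 (step_sound _ 97 [(rhb11d41c808e1ab4d.shift 1 0), (rheb0810cc63b001d8.shift 0 3)] (by decide +kernel))
noncomputable def rh05abfddbb8cd8708 : CRef := CRef.mk (Pat.mk 0xf0000000b000000000000000800000000 0x800000008000000180000000f0000000f0000001c0000000800000008 4 5) 0 0 (step_sound _ 163 [(rh33e738c4ed385b9f.shift 0 4), rhc392c23d3ec4eaa4] (by decide +kernel))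
noncomputable def rhe1ef59f9ff87186c : CRef := CRef.mk (Pat.mk 0x1e000000040000000000000000 0x200000002000000070000001e000000040000000400000004 4 5) 0 0 (step_sound _ 129 [(rh3244c3cc8379b070.shift 0 3), (rhc2c7bae8f445c890.shift 1 0)] (by decide +kernel))
noncomputable def rhfbb6e9c3d41bd7d5 : CRef := CRef.mk (Pat.mk 0x1a00000006000000000000001000000000 0x1b0000001f000000300000001000000010 4 6) 0 0 (step_sound _ 99 [(rh53b3c253cb0c65f4.shift 0 3), rh8d56556d3b71b433] (by decide +kernel))
noncomputable def rh21ac9bebfa81b974 : CRef := CRef.mk (Pat.mk 0x7000000030000000c00000000 0x180000001f0000001b0000000c00000004 4 5) 0 0 (step_sound _ 99 [(rh18965a982d73c794.shift 0 2), rh7eaf814fd0a6a93e] (by decide +kernel))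
noncomputable def rhed95296174ee961f : CRef := CRef.mk (Pat.mk 0x3c00000008 0x3f0000003f 4 6) 0 0 (step_sound _ 1 [(rh80fcd6d0a18cb2dd.shift 1 0), rhd526f9b20c752965] (by decide +kernel))
noncomputable def rha32499dd13d8c04a : CRef := CRef.mk (Pat.mk 0x80000001c000000000000000000000010 0x380000001f000000300000001000000010 4 6) 0 0 (step_sound _ 68 [(rh3ce854f4a795c89f.shift 0 2), (rh9e07f76261b05888.shift 3 0)] (by decide +kernel))
noncomputable def rhd01d3ea7be1268a4 : CRef := CRef.mk (Pat.mk 0x40000000e000000000000000000000008 0x40000001f000000780000000800000008 4 7) 0 0 (step_sound _ 67 [(rh8ee80cc30e93a344.shift 0 2), (rh9e07f76261b05888.shift 2 0)] (by decide +kernel))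
noncomputable def rh75737889aa2eafb8 : CRef := CRef.mk (Pat.mk 0x40000000c0000000c00000004 0xa0000000f0000003c0000000c00000004 4 6) 0 0 (step_sound _ 99 [(rh5c5e593799055d58.shift 2 0), rhcf85c92937975d4d] (by decide +kernel))
noncomputable def rhd2f04bd8cfbf81b3 : CRef := CRef.mk (Pat.mk 0xf0000000c00000008 0xc0000000c0000001c0000000f0000000c00000008 4 5) 0 0 (step_sound _ 99 [(rh33e738c4ed385b9f.shift 0 2), (rh7f9f3607ee25a93b.shift 2 0)] (by decide +kernel))
noncomputable def rh411646f6a841c00f : CRef := CRef.mk (Pat.mk 0xe0000000c00000004 0x80000007c0000000f0000000c00000004 4 7) 0 0 (step_sound _ 99 [(rh5c5e593799055d58.shift 2 0), (rhff7d63dcb3cf9f74.shift 0 2)] (by decide +kernel))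
noncomputable def rh8da2e9a224dd46c2 : CRef := CRef.mk (Pat.mk 0xe000000040000000000000004 0x7c0000000f000000040000000400000004 4 7) 0 0 (step_sound _ 131 [(rh9e3edb185cc347de.shift 2 0), (rhff7d63dcb3cf9f74.shift 0 3)] (by decide +kernel))
noncomputable def rh8578a1184370ad23 : CRef := CRef.mk (Pat.mk 0x38000000100000000000000010 0x1f00000078000000100000001000000010 4 7) 0 0 (step_sound _ 131 [(rh9e07f76261b05888.shift 3 0), (rhf60aa8aede119d3b.shift 0 3)] (by decide +kernel))
noncomputable def rhfcbe31f2f547bfce : CRef := CRef.mk (Pat.mk 0x8000000180000001e00000004 0x20000000f0000001f0000001e00000004 4 5) 0 0 (step_sound _ 65 [rh2f32edc41b016dfb, (rh3244c3cc8379b070.shift 0 1)] (by decide +kernel))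
noncomputable def rh41a1676d63eee227 : CRef := CRef.mk (Pat.mk 0x80000001a0000001e00000004 0x20000000f0000001e0000001e00000007 4 5) 0 0 (step_sound _ 1 [rh2f32edc41b016dfb, rheb0810cc63b001d8] (by decide +kernel))
noncomputable def rhea2ba495190a41d9 : CRef := CRef.mk (Pat.mk 0x1e000000000000000000000010 0x380000001f000000300000001000000010 4 6) 0 0 (step_sound _ 132 [(rh33e738c4ed385b9f.shift 1 3), rh9bbaff47e0079bc9] (by decide +kernel))
noncomputable def rh08061ce37c0b8068 : CRef := CRef.mk (Pat.mk 0x40000000e000000000000000800000000 0x40000000f0000007c0000000800000008 4 7) 0 0 (step_sound _ 67 [(rh7b1f1fb55310c477.shift 2 0), (rhc21a95c499b3efdb.shift 0 2)] (by decide +kernel))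
noncomputable def rhcfde16a7ff36af03 : CRef := CRef.mk (Pat.mk 0x40000001e000000000000000000000000 0x400000004000000040000001e000000070000000200000002 4 5) 0 0 (step_sound _ 65 [(rhadf429772c25fde0.shift 1 0), (rheb0810cc63b001d8.shift 0 2)] (by decide +kernel))
noncomputable def rh412d230494194d0a : CRef := CRef.mk (Pat.mk 0x1e00000018 0x7000000fe0000001c 4 8) 0 0 (step_sound _ 65 [(rh3244c3cc8379b070.shift 0 1), (rh6fb4f7b37b190fce.shift 1 0)] (by decide +kernel))
noncomputable def rh779f81b5d898c236 : CRef := CRef.mk (Pat.mk 0x18000000380000000800000000 0xc0000000c0000000c00000018000000380000001f00000004 4 6) 0 0 (step_sound _ 131 [(rh7b9fbdf6d2d059e4.shift 2 1), rh852e818bc8629e77] (by decide +kernel))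
noncomputable def rh2dfa8f5b164cf72e : CRef := CRef.mk (Pat.mk 0xf000000000000001400000000 0x180000000f000000180000001c00000014 4 5) 0 0 (step_sound _ 67 [rh9645a90eaed9f0ef, (rhe25b0a99195a5d59.shift 0 2)] (by decide +kernel))
noncomputable def rh80650b8e93363f1e : CRef := CRef.mk (Pat.mk 0x800000008000000180000000800000000 0x8000000080000007c0000000f00000004 4 7) 0 0 (step_sound _ 34 [(rh0bb882ba86b2372d.shift 0 1), (rh932754581e0f4330.shift 2 0)] (by decide +kernel))
noncomputable def rhfb48bea540f6436d : CRef := CRef.mk (Pat.mk 0x20000000200000002000000020000000000000000 0x1000000030000000300000002000000030000000300000001 4 2) 0 0 (step_sound _ 160 [rh1f3a6ba70a310ab1, (rh50fbb5868c909700.shift 0 2)] (by decide +kernel))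
noncomputable def rh56f48a1cf2cc742b : CRef := CRef.mk (Pat.mk 0x40000001e0000001a0000002000000000 0x70000001e0000001e0000003300000002 4 6) 0 0 (step_sound _ 129 [(rh3244c3cc8379b070.shift 0 3), rhe96dbaacc3e725e0] (by decide +kernel))
noncomputable def rh4b3ad4612c87ab32 : CRef := CRef.mk (Pat.mk 0x1000000070000000d0000000400000000 0x10000000500000005000000070000000f0000001e00000008 4 5) 0 0 (step_sound _ 35 [(rh3e595262c1b737ad.shift 2 0), (rhca66a6c9bd00a506.shift 0 1)] (by decide +kernel))
noncomputable def rh63adde8ab423512b : CRef := CRef.mk (Pat.mk 0x1e000000100000000800000000 0x1000000010000000180000001f000000180000000800000008 4 5) 0 0 (step_sound _ 67 [(rh215e11e099257d75.shift 3 0), (rhb739f4f82bb681b4.shift 0 2)] (by decide +kernel))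
noncomputable def rhfd1936ef8fb0ac4b : CRef := CRef.mk (Pat.mk 0x200000001f00000000 0x600000007f0000001e 4 7) 0 0 (step_sound _ 3 [(rh7d1eb0a2ac11b171.shift 1 0), rhe25b0a99195a5d59] (by decide +kernel))
noncomputable def rh5eb116785a745a33 : CRef := CRef.mk (Pat.mk 0x600000004000000040000000400000000 0x80000000f0000003c000000040000000400000004 4 6) 0 0 (step_sound _ 131 [(rh2f68792b6b779e96.shift 2 1), rh9aef13a18dc2ca8c] (by decide +kernel))
noncomputable def rhc9696e4650cbd493 : CRef := CRef.mk (Pat.mk 0x1000000010000000100000001000000010000000000000000 0x100000001000000030000000300000003000000030000000100000001 4 2) 0 0 (step_sound _ 97 [(rh55afc6a59410cf00.shift 0 2), rh84c6bba3847605f7] (by decide +kernel))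
noncomputable def rhb5860f65207a2f21 : CRef := CRef.mk (Pat.mk 0x10000000180000001800000008 0xc0000000c0000001f000000380000001800000018 4 6) 0 0 (step_sound _ 99 [(rh3da62da861143b9a.shift 2 0), rhc647a25a08ddf0ec, (rhfc7c29d8e65d775f.shift 3 0)] (by decide +kernel))
noncomputable def rh89828354c362fe41 : CRef := CRef.mk (Pat.mk 0x140000003800000000 0x360000003e00000007 4 6) 0 0 (step_sound _ 34 [(rh3244c3cc8379b070.shift 1 1), rh55c4ed4acec0f063] (by decide +kernel))
noncomputable def rh3810f46837bebff9 : CRef := CRef.mk (Pat.mk 0x40000001e000000180000002000000000 0x40000001e0000001f0000003300000002 4 6) 0 0 (step_sound _ 65 [rhe96dbaacc3e725e0, (rheb0810cc63b001d8.shift 0 2)] (by decide +kernel))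
noncomputable def rhed28f44ebe588c02 : CRef := CRef.mk (Pat.mk 0x80000000a0000001e00000004 0x20000000f0000003e0000001e00000004 4 6) 0 0 (step_sound _ 68 [rh2f32edc41b016dfb, (rh33e738c4ed385b9f.shift 1 1)] (by decide +kernel))
noncomputable def rh58f04f31e8d442df : CRef := CRef.mk (Pat.mk 0x1c00000008000000000000000800000000 0x100000003c0000000f000000080000000800000008 4 6) 0 0 (step_sound _ 67 [(rh2f68792b6b779e96.shift 3 1), rhfe0270f45009c77d] (by decide +kernel))
noncomputable def rh3947d1dfff0afc6c : CRef := CRef.mk (Pat.mk 0x1e00000000 0x70000003e00000070 4 7) 0 0 (step_sound _ 5 [rh2912624a36249f28, (rh96851dee118c1ba3.shift 1 0)] (by decide +kernel))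
noncomputable def rh2b8e5f16c5d7ff0a : CRef := CRef.mk (Pat.mk 0x1000000016000000060000000000000000 0x2000000330000001e000000060000000400000004 4 6) 0 0 (step_sound _ 99 [(rh33e738c4ed385b9f.shift 1 3), rh38a0850c9fea941e] (by decide +kernel))
noncomputable def rhbfe376cd40aaedfb : CRef := CRef.mk (Pat.mk 0x400000003800000020 0x600000003e00000037 4 7) 0 0 (step_sound _ 34 [rh0de499e0455c9c14, (rh428265de8cd3cd2d.shift 2 1)] (by decide +kernel))
noncomputable def rh424e12a4b1ec0cb3 : CRef := CRef.mk (Pat.mk 0xc00000008000000180000000800000000 0x100000003c0000000f000000180000000800000008 4 6) 0 0 (step_sound _ 98 [(rh7b1f1fb55310c477.shift 2 0), (rhd88e1e5c6d7f696b.shift 0 1)] (by decide +kernel))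
noncomputable def rh1be27a990f50e06b : CRef := CRef.mk (Pat.mk 0x400000008000000180000001c00000000 0x40000000c0000001c0000001f0000000b 4 5) 0 0 (step_sound _ 98 [(rh7b1f1fb55310c477.shift 2 0), rhbedc17f53a3d22d1] (by decide +kernel))
noncomputable def rha9a69d57f9167c99 : CRef := CRef.mk (Pat.mk 0x1800000008000000080000000800000000 0x40000001f00000038000000080000000800000008 4 6) 0 0 (step_sound _ 100 [(rh71222050f2c63a3a.shift 3 0), (rhc647a25a08ddf0ec.shift 0 1)] (by decide +kernel))
noncomputable def rhbd74c53779ca277f : CRef := CRef.mk (Pat.mk 0x400000008000000180000000800000000 0x40000001f000000780000000800000008 4 7) 0 0 (step_sound _ 98 [(rh4ca5dae25f5c14ff.shift 0 2), (rh7b1f1fb55310c477.shift 2 0)] (by decide +kernel))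
noncomputable def rh9f6be1258f06c13a : CRef := CRef.mk (Pat.mk 0x1e000000000000001000000000 0x8000000080000001f000000380000001000000010 4 6) 0 0 (step_sound _ 68 [rh2dcd947d82678d24, (rhe25b0a99195a5d59.shift 1 2)] (by decide +kernel))
noncomputable def rhcef93a29c93c96c9 : CRef := CRef.mk (Pat.mk 0x180000007800000000 0x380000007f0000000e 4 7) 0 0 (step_sound _ 2 [rh51924d4efec90539, (rh80fcd6d0a18cb2dd.shift 2 0)] (by decide +kernel))
noncomputable def rh4a92560bd1e2a36a : CRef := CRef.mk (Pat.mk 0x3000000030000000200000004 0x6000000060000000600000003000000030000000600000004 4 3) 0 0 (step_sound _ 129 [(rh5db479c9ce22a9b1.shift 0 1), (rhd3458b32566d63f7.shift 1 0)] (by decide +kernel))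
noncomputable def rhb0c2c62f63c289c4 : CRef := CRef.mk (Pat.mk 0x20000001e0000000800000000 0x400000004000000060000003e0000000b00000002 4 6) 0 0 (step_sound _ 98 [rh079470f290abda33, (rhf48373e13d2bc128.shift 1 2)] (by decide +kernel))
noncomputable def rhbb7d1d4d2314f280 : CRef := CRef.mk (Pat.mk 0x3000000030000000000000005 0x10000000300000003000000030000000700000007 4 3) 0 0 (step_sound _ 129 [rh9e3edb185cc347de, rhfc56e58601063804] (by decide +kernel))
noncomputable def rh7e4e9158a74749f1 : CRef := CRef.mk (Pat.mk 0xe0000000c0000000c00000008 0x2000000130000001e0000000f0000000c00000008 4 5) 0 0 (step_sound _ 100 [(rh2f68792b6b779e96.shift 3 0), (rhe4f9133a81c1dbc5.shift 0 1)] (by decide +kernel))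
noncomputable def rhee95c19ccb9d5067 : CRef := CRef.mk (Pat.mk 0x4000000020000000600000006000000000000000000000000 0x4000000060000000600000006000000030000000300000003 4 3) 0 0 (step_sound _ 65 [rh46530d756bdf8511, (rhee230b994cc8b773.shift 1 2)] (by decide +kernel))
noncomputable def rha2b37da49d51aaf0 : CRef := CRef.mk (Pat.mk 0x180000001e00000018 0x30000000300000001f0000001e00000018 4 6) 0 0 (step_sound _ 100 [(rh5c5e593799055d58.shift 3 0), rhf9bd4bdd448a5193] (by decide +kernel))
noncomputable def rh7f0fa6c019c0f31a : CRef := CRef.mk (Pat.mk 0x60000001a0000001000000000 0x400000004000000060000001e0000003300000002 4 6) 0 0 (step_sound _ 66 [rh031a926e4a883687, (rhe25b0a99195a5d59.shift 1 1)] (by decide +kernel))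
noncomputable def rhe37dad6db99b3864 : CRef := CRef.mk (Pat.mk 0x60000000e000000080000000000000000 0x40000003e0000000f000000080000000800000008 4 6) 0 0 (step_sound _ 35 [(rh4589d2072275b567.shift 0 1), (rh7b1f1fb55310c477.shift 2 0)] (by decide +kernel))
noncomputable def rh5266926b0536d92e : CRef := CRef.mk (Pat.mk 0xe0000000400000004 0x8000000080000007c0000000f0000000c00000004 4 7) 0 0 (step_sound _ 99 [(rh69755ef358ebfd54.shift 2 0), (rhff7d63dcb3cf9f74.shift 0 2)] (by decide +kernel))
noncomputable def rh4b4ad80ec7facee3 : CRef := CRef.mk (Pat.mk 0xf000000000000000800000000 0x40000001c0000000f000000180000000800000008 4 5) 0 0 (step_sound _ 67 [rh9076f8194e929cdb, (rhe25b0a99195a5d59.shift 0 2)] (by decide +kernel))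
noncomputable def rhcf668ee91c6c7c24 : CRef := CRef.mk (Pat.mk 0x60000000300000008000000080000000800000000 0x100000001e0000001b00000018000000080000000800000008 4 5) 0 0 (step_sound _ 164 [(rh2d9fb7ccdcfc0559.shift 3 0), (rh361cc68994bd8a63.shift 0 4)] (by decide +kernel))
noncomputable def rh4c60faed9e5f228f : CRef := CRef.mk (Pat.mk 0x3000000030000000600000000 0x6000000060000000600000003000000030000000600000004 4 3) 0 0 (step_sound _ 129 [(rh55afc6a59410cf00.shift 1 0), (rh5fa50b509d4ce753.shift 0 1)] (by decide +kernel))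
noncomputable def rhbb30446677a12c7e : CRef := CRef.mk (Pat.mk 0xf000000000000001400000000 0x180000000f000000180000001c00000014 4 5) 0 0 (step_sound _ 131 [(rh33e738c4ed385b9f.shift 0 3), rh60fd8cc80dd27878] (by decide +kernel))
noncomputable def rh94fefe9909522fb2 : CRef := CRef.mk (Pat.mk 0x700000006000000080000000000000000 0x4000000040000000f0000001e000000080000000800000008 4 5) 0 0 (step_sound _ 99 [(rha40d42a2e34c408d.shift 2 0), (rhf48373e13d2bc128.shift 0 3)] (by decide +kernel))
noncomputable def rh03e1d4b712fd50ef : CRef := CRef.mk (Pat.mk 0x200000003000000050000000000000000 0x2000000020000000600000007000000070000000400000004 4 3) 0 0 (step_sound _ 161 [(rh475253e964ed1313.shift 1 0), (rh5c5e593799055d58.shift 0 2)] (by decide +kernel))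
noncomputable def rh996a252bb6676df7 : CRef := CRef.mk (Pat.mk 0xf00000008000000000000001400000000 0x180000000f00000008000000180000001c00000014 4 5) 0 0 (step_sound _ 163 [(rh33e738c4ed385b9f.shift 0 4), (rh8bf2458b77264f10.shift 2 0)] (by decide +kernel))
noncomputable def rh0ebca5a27374feaf : CRef := CRef.mk (Pat.mk 0x2000000020000000200000002000000000000000500000000 0x100000003000000030000000200000002000000020000000700000005 4 3) 0 0 (step_sound _ 192 [rh2cd606a0db19f4de, (rh50fbb5868c909700.shift 0 3)] (by decide +kernel))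
noncomputable def rh0561ee7b4bab7c3a : CRef := CRef.mk (Pat.mk 0x80000000d000000000000001400000000 0x180000000f000000180000001c00000014 4 5) 0 0 (step_sound _ 97 [(rh33e738c4ed385b9f.shift 0 3), rh60fd8cc80dd27878] (by decide +kernel))
noncomputable def rhba68f42d885e5165 : CRef := CRef.mk (Pat.mk 0xe000000100000000800000000 0x4000000040000000c0000000f000000180000000800000008 4 5) 0 0 (step_sound _ 67 [(rhb1a251d9bff81766.shift 2 0), (rhb739f4f82bb681b4.shift 0 2)] (by decide +kernel))
noncomputable def rh438ef3803f1c81a0 : CRef := CRef.mk (Pat.mk 0xe0000001c00000008 0x14000000370000003e0000001c00000008 4 6) 0 0 (step_sound _ 98 [(rh2145e1d24b96a57e.shift 2 0), rhee752aa48069abb2] (by decide +kernel))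
noncomputable def rh6897eecf51c64c9d : CRef := CRef.mk (Pat.mk 0x700000006000000000000000800000000 0x4000000040000000f0000001e000000080000000800000008 4 5) 0 0 (step_sound _ 99 [(rh95a80f84f48ac358.shift 2 0), (rhf48373e13d2bc128.shift 0 3)] (by decide +kernel))
noncomputable def rh466a2277bc06011f : CRef := CRef.mk (Pat.mk 0x1000000020000000200000003 0x40000000700000007000000020000000300000003 4 3) 0 0 (step_sound _ 97 [rh50fbb5868c909700, rh9a369cb82ea472da] (by decide +kernel))
noncomputable def rhaacf70e012801c10 : CRef := CRef.mk (Pat.mk 0x10000000b0000000d000000000000001400000000 0x100000001000000010000000b0000000f0000001a0000001c00000014 4 5) 0 0 (step_sound _ 67 [(rh2818863d77d69ed0.shift 2 0), (rhca66a6c9bd00a506.shift 0 2)] (by decide +kernel))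
noncomputable def rhd82838cc02270304 : CRef := CRef.mk (Pat.mk 0xf000000040000000000000008 0x80000001c0000000f000000040000000c0000000c 4 5) 0 0 (step_sound _ 131 [(rh33e738c4ed385b9f.shift 0 3), (rhbded93168f6e24bf.shift 2 0)] (by decide +kernel))
noncomputable def rh92a79156df2ec221 : CRef := CRef.mk (Pat.mk 0x1e000000100000001000000000 0x10000000300000001f000000180000001800000008 4 6) 0 0 (step_sound _ 67 [(rh7ff601fc6d1f05ff.shift 1 0), (rhb739f4f82bb681b4.shift 0 2)] (by decide +kernel))
noncomputable def rhaf893ed53d7bc740 : CRef := CRef.mk (Pat.mk 0x6000000070000000c000000000000000000000000 0x40000001e0000000f0000000c000000080000000800000008 4 5) 0 0 (step_sound _ 163 [(rh046c5eb18e55a239.shift 2 0), (rh18965a982d73c794.shift 0 4)] (by decide +kernel))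
noncomputable def rhb0ff507e4f54b400 : CRef := CRef.mk (Pat.mk 0x100000000e000000000000000400000000 0x800000008000000180000000f0000000c0000000400000004 4 5) 0 0 (step_sound _ 131 [(rh53b3c253cb0c65f4.shift 0 3), (rh580df77fe152422b.shift 2 0)] (by decide +kernel))
noncomputable def rh6de94a1805bc67e2 : CRef := CRef.mk (Pat.mk 0x1e000000000000000400000000 0x30000003e000000070000000400000004 4 6) 0 0 (step_sound _ 129 [(rh3244c3cc8379b070.shift 0 3), rhf52438b2b41d0174] (by decide +kernel))
noncomputable def rh4f79c519b7f04720 : CRef := CRef.mk (Pat.mk 0x1e000000000000000200000000 0x400000004000000060000001e000000030000000200000002 4 5) 0 0 (step_sound _ 65 [(rh215e11e099257d75.shift 1 0), (rheb0810cc63b001d8.shift 0 2)] (by decide +kernel))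
noncomputable def rh59377470057f4368 : CRef := CRef.mk (Pat.mk 0x1e000000000000000400000000 0x200000002000000070000001e000000040000000400000004 4 5) 0 0 (step_sound _ 129 [(rh3244c3cc8379b070.shift 0 3), (rh95a80f84f48ac358.shift 1 0)] (by decide +kernel))
noncomputable def rhd0f2e39b54bcbf0d : CRef := CRef.mk (Pat.mk 0x1e000000000000000400000000 0x2000000070000001e000000060000000400000004 4 5) 0 0 (step_sound _ 129 [(rh054b4055d420681e.shift 1 0), (rh3244c3cc8379b070.shift 0 3)] (by decide +kernel))
noncomputable def rhed7f4536f5081a67 : CRef := CRef.mk (Pat.mk 0x80000000c00000008000000100000000000000000 0x80000001f0000007c000000100000001000000010 4 7) 0 0 (step_sound _ 100 [(rh08edf065357d68e5.shift 3 0), (rh5c5a2014709044d0.shift 0 3), (rhdeca8db941583de2.shift 0 3)] (by decide +kernel))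
noncomputable def rhf97d6b5e6e25a95d : CRef := CRef.mk (Pat.mk 0x40000000e000000020000000800000000 0x40000001f0000003b0000000800000008 4 6) 0 0 (step_sound _ 100 [rh5b18f4340a453a5c, (rheb0810cc63b001d8.shift 0 2)] (by decide +kernel))
noncomputable def rh3c3208cbc4cf3115 : CRef := CRef.mk (Pat.mk 0x200000002000000020000000500000000 0x4000000060000000600000002000000030000000700000004 4 3) 0 0 (step_sound _ 161 [(rh209ed1dd068a3ceb.shift 1 0), (rh79877ebd3ef475dd.shift 0 1)] (by decide +kernel))
noncomputable def rh032b9293535eedef : CRef := CRef.mk (Pat.mk 0x80000000c0000000800000010 0x8000000080000001f0000007800000010 4 7) 0 0 (step_sound _ 36 [(rh2145e1d24b96a57e.shift 3 0), (rh5c5a2014709044d0.shift 0 1)] (by decide +kernel))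
noncomputable def rh93d0ab6869fe0f11 : CRef := CRef.mk (Pat.mk 0x20000000300000000000000050000000000000000 0x3000000030000000700000006000000070000000700000004 4 3) 0 0 (step_sound _ 97 [(rh2818863d77d69ed0.shift 0 1), (rh47dece01c1595e79.shift 1 0), (rh752c9303f297f9fa.shift 0 1)] (by decide +kernel))
noncomputable def rheb7109f38bea040d : CRef := CRef.mk (Pat.mk 0x20000000300000000000000050000000000000000 0x3000000030000000700000007000000070000000600000004 4 3) 0 0 (step_sound _ 97 [(rh2f6cd3183cec8379.shift 0 2), (rh47dece01c1595e79.shift 1 0), (rhc7a10ee8d0d37048.shift 0 1)] (by decide +kernel))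
noncomputable def rhd86ffd7f98293937 : CRef := CRef.mk (Pat.mk 0x10000000e000000000000000400000000 0x200000002000000070000001e000000040000000400000004 4 5) 0 0 (step_sound _ 129 [(rh95a80f84f48ac358.shift 1 0), (rhf48373e13d2bc128.shift 0 3)] (by decide +kernel))
noncomputable def rh71b0012dd1d2fc9e : CRef := CRef.mk (Pat.mk 0xc0000003c00000000 0x3c0000003f00000007 4 6) 0 0 (step_sound _ 1 [(rh80fcd6d0a18cb2dd.shift 1 0), rhc11db2955b78c5fd] (by decide +kernel))
noncomputable def rh476eccabcfbdd1bd : CRef := CRef.mk (Pat.mk 0x16000000060000000000000000 0x2000000030000001e000000070000000400000004 4 5) 0 0 (step_sound _ 99 [rh38a0850c9fea941e, (rheb0810cc63b001d8.shift 0 2)] (by decide +kernel))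
noncomputable def rh26ddc4471ca3f46d : CRef := CRef.mk (Pat.mk 0x1e000000000000000400000000 0x2000000070000003e000000040000000400000004 4 6) 0 0 (step_sound _ 129 [(rh2752ff847d671a96.shift 1 0), (rh3244c3cc8379b070.shift 0 3)] (by decide +kernel))
noncomputable def rhd2c5d35a81143964 : CRef := CRef.mk (Pat.mk 0xc0000000c000000000000001800000000 0x100000003c0000000f000000080000001800000010 4 6) 0 0 (step_sound _ 67 [(rh55afc6a59410cf00.shift 3 0), (rhc0ddb33d3a52722b.shift 0 1)] (by decide +kernel))
noncomputable def rhde32e0b5ff3be9cc : CRef := CRef.mk (Pat.mk 0x1000000060000000200000002000000000000000000000000 0x1000000070000000600000002000000030000000300000001 4 3) 0 0 (step_sound _ 65 [rha8bc3cae4d77a08f, (rhffd04209dc8ea796.shift 0 2)] (by decide +kernel))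
noncomputable def rh87dbd44ef47ebcf2 : CRef := CRef.mk (Pat.mk 0x4000000020000000200000002000000020000000200000000 0x600000006000000020000000300000003000000030000000200000002 4 3) 0 0 (step_sound _ 193 [(rh2f68792b6b779e96.shift 1 3), rh3f44037e5442bcb5] (by decide +kernel))
noncomputable def rhfc74dae190a15da9 : CRef := CRef.mk (Pat.mk 0x40000000c0000001c0000000000000000 0x2000000070000003f0000001c0000000400000004 4 6) 0 0 (step_sound _ 97 [rh77e5fdcadba6b29b, (rhb739f4f82bb681b4.shift 0 2)] (by decide +kernel))
noncomputable def rh565855a8a81f37f3 : CRef := CRef.mk (Pat.mk 0xc00000014000000140000000000000000 0x8000000080000000f0000003c0000001c0000001000000010 4 6) 0 0 (step_sound _ 99 [(rh1b30fad02acc208f.shift 2 0), (rhe2b63c00a3d7bb73.shift 0 3)] (by decide +kernel))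
noncomputable def rhebb306d4866abd5e : CRef := CRef.mk (Pat.mk 0x700000004000000040000000000000000 0xa0000000f0000001c000000040000000400000004 4 5) 0 0 (step_sound _ 34 [(rh50fbb5868c909700.shift 1 1), rhfe21fdd79c5e4aa7] (by decide +kernel))
noncomputable def rhbd4a6537fbbb09be : CRef := CRef.mk (Pat.mk 0x1e000000000000000800000000 0x300000001f000000380000000800000008 4 6) 0 0 (step_sound _ 132 [(rh33e738c4ed385b9f.shift 1 3), rh9f812c79cd5b9ff1] (by decide +kernel))
noncomputable def rhae665e80bb3d31ac : CRef := CRef.mk (Pat.mk 0x1e000000000000001000000000 0x380000001f000000300000001000000010 4 6) 0 0 (step_sound _ 68 [rh849cac83c18cae97, (rhe25b0a99195a5d59.shift 1 2)] (by decide +kernel))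
noncomputable def rhd82abaa6e8ce82e9 : CRef := CRef.mk (Pat.mk 0x160000001400000004 0x2000000030000001e0000003700000004 4 6) 0 0 (step_sound _ 67 [(rhe25b0a99195a5d59.shift 1 1), rhe4f9133a81c1dbc5] (by decide +kernel))
noncomputable def rh47c07cd0cc865f65 : CRef := CRef.mk (Pat.mk 0x1e00000000 0x70000003e00000007 4 6) 0 0 (step_sound _ 1 [rh4c6d407c2048a5bb, rheb0810cc63b001d8] (by decide +kernel))
noncomputable def rhcaeacf3220b45d90 : CRef := CRef.mk (Pat.mk 0xc0000001e0000000400000000 0xc0000000c0000000c0000001e0000000700000002 4 5) 0 0 (step_sound _ 163 [rhb91b7df0d06c1d96, (rhee230b994cc8b773.shift 2 1)] (by decide +kernel))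
noncomputable def rh39c2ed036c30a2d9 : CRef := CRef.mk (Pat.mk 0x80000002800000030000000200000002000000000 0xf0000007c00000030000000200000002000000020 4 7) 0 0 (step_sound _ 132 [(rh7b1f1fb55310c477.shift 4 0), (rha9fbfd4bb8cf890b.shift 0 4)] (by decide +kernel))
noncomputable def rhde24d9cffc396911 : CRef := CRef.mk (Pat.mk 0x80000000a0000000a0000000a00000000 0x8000000080000000b0000003e0000000e00000004 4 6) 0 0 (step_sound _ 34 [(rh932754581e0f4330.shift 2 0), (rhd4138be29732e1c5.shift 0 1)] (by decide +kernel))
noncomputable def rha448e4252868b3e6 : CRef := CRef.mk (Pat.mk 0xa000000080000000800000000 0x4000000040000000c0000000f0000007c0000000800000008 4 7) 0 0 (step_sound _ 98 [(rh7b24c4ccc068b0b2.shift 2 0), (rhb1a251d9bff81766.shift 2 0), (rhc21a95c499b3efdb.shift 0 2)] (by decide +kernel))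
noncomputable def rh1e803a780da5fd4e : CRef := CRef.mk (Pat.mk 0x1e0000000400000004 0x800000008000000380000001f0000000c00000004 4 6) 0 0 (step_sound _ 100 [rh0c78ac79b1848ffb, (rh33e738c4ed385b9f.shift 1 2)] (by decide +kernel))
noncomputable def rh909a2d8dd124b4f3 : CRef := CRef.mk (Pat.mk 0x14000000140000001c 0x760000007f0000001c 4 7) 0 0 (step_sound _ 35 [rh34517e326ddb5b25, (rhb762f327c85d41a0.shift 1 0), (rhf987458f2696f0ee.shift 1 1)] (by decide +kernel))
noncomputable def rh9935478c09cd7ebd : CRef := CRef.mk (Pat.mk 0x400000005000000040000000400000000 0xa0000001e00000007000000040000000400000004 4 5) 0 0 (step_sound _ 129 [rh2120c2cf0ca2d550, (rh50fbb5868c909700.shift 1 1)] (by decide +kernel))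
noncomputable def rhb034511df68c2fcf : CRef := CRef.mk (Pat.mk 0x80000000a0000000800000008 0x100000007c0000000f0000000800000008 4 7) 0 0 (step_sound _ 100 [(rh2f68792b6b779e96.shift 3 0), (rhedf3a755fe019897.shift 0 2)] (by decide +kernel))
noncomputable def rhed5eaf5283335fff : CRef := CRef.mk (Pat.mk 0xe000000080000000800000000 0x380000001f000000180000000800000008 4 6) 0 0 (step_sound _ 96 [rh4ab9c4dc4d42970a, (rhe25b0a99195a5d59.shift 0 2)] (by decide +kernel))
noncomputable def rh12ad1c7b44d9d92f : CRef := CRef.mk (Pat.mk 0x80000000a0000000c0000000e00000000 0x40000000c0000000f0000003c0000000e00000002 4 6) 0 0 (step_sound _ 68 [rh10cb971017e37b6b, (rh18965a982d73c794.shift 1 1)] (by decide +kernel))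
noncomputable def rh6307fc4d772d6085 : CRef := CRef.mk (Pat.mk 0x2000000060000000200000001 0x1000000030000000300000002000000060000000700000001 4 3) 0 0 (step_sound _ 129 [(rh3da62da861143b9a.shift 0 1), rh79877ebd3ef475dd] (by decide +kernel))
noncomputable def rh7027ce4ce300084a : CRef := CRef.mk (Pat.mk 0xc00000004000000050000000600000000 0x40000000c0000003e000000070000000600000004 4 6) 0 0 (step_sound _ 65 [(rh5c5e593799055d58.shift 1 1), rhe835e2ef61e86731] (by decide +kernel))
noncomputable def rh6c99e6ce2f2414cd : CRef := CRef.mk (Pat.mk 0x400000006000000040000000500000000 0x60000000600000006000000060000000700000003 4 3) 0 0 (step_sound _ 129 [(rh50fbb5868c909700.shift 1 1), rhe456bdb15bf707f7] (by decide +kernel))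
noncomputable def rh629fadcbae30118c : CRef := CRef.mk (Pat.mk 0x10000000e000000000000000400000000 0x2000000070000001e000000060000000400000004 4 5) 0 0 (step_sound _ 129 [(rh054b4055d420681e.shift 1 0), (rhf48373e13d2bc128.shift 0 3)] (by decide +kernel))
noncomputable def rhd45e3ae46e6d7252 : CRef := CRef.mk (Pat.mk 0xf000000000000000800000000 0x40000000c0000000f0000001c0000000800000008 4 5) 0 0 (step_sound _ 67 [(rh7b24c4ccc068b0b2.shift 2 0), (rhe25b0a99195a5d59.shift 0 2)] (by decide +kernel))
noncomputable def rhdb019b0e908810fb : CRef := CRef.mk (Pat.mk 0x8000000180000000800000008 0x40000001f000000780000000800000008 4 7) 0 0 (step_sound _ 98 [(rh4ca5dae25f5c14ff.shift 0 2), (rh50fbb5868c909700.shift 2 0)] (by decide +kernel))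
noncomputable def rhadc0edfe7a5300a5 : CRef := CRef.mk (Pat.mk 0x1e000000000000000800000000 0x380000001f000000180000000800000008 4 6) 0 0 (step_sound _ 132 [(rh33e738c4ed385b9f.shift 1 3), rhf2e3f9e8a10a1b25] (by decide +kernel))
noncomputable def rhe5e8802aa288a2a6 : CRef := CRef.mk (Pat.mk 0x40000000e000000000000000600000000 0x2000000070000003e000000040000000600000002 4 6) 0 0 (step_sound _ 66 [(rh932754581e0f4330.shift 1 0), (rhaef2adbbd453a55b.shift 0 1)] (by decide +kernel))
noncomputable def rh42c8ae686d713d97 : CRef := CRef.mk (Pat.mk 0x1000000020000000200000006 0x40000000700000007000000020000000600000006 4 3) 0 0 (step_sound _ 97 [rh50fbb5868c909700, (rh73f605273a09a9d0.shift 1 0)] (by decide +kernel))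
noncomputable def rhd0119768fe59b5c6 : CRef := CRef.mk (Pat.mk 0xe000000040000000600000000 0x2000000070000003e000000040000000600000002 4 6) 0 0 (step_sound _ 130 [(rh932754581e0f4330.shift 1 0), (rhaef2adbbd453a55b.shift 0 1)] (by decide +kernel))
noncomputable def rh99f5660129c74d11 : CRef := CRef.mk (Pat.mk 0x1000000010000000f00000001 0x30000000300000003000000030000001f00000001 4 5) 0 0 (step_sound _ 65 [rh2ddd6c94c59240f8, (rhf48373e13d2bc128.shift 0 1)] (by decide +kernel))
noncomputable def rh6ab5d4c8ddaac48c : CRef := CRef.mk (Pat.mk 0x2000000020000001e00000002 0x30000000300000003000000060000003e00000002 4 6) 0 0 (step_sound _ 66 [rh7b9fbdf6d2d059e4, (rhf48373e13d2bc128.shift 1 1)] (by decide +kernel))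
noncomputable def rh8b8c9c02316f2252 : CRef := CRef.mk (Pat.mk 0x700000004000000040000000400000000 0x50000000700000006000000060000000600000006 4 3) 0 0 (step_sound _ 97 [rh521e60ddfe76d299, (rh7b1f1fb55310c477.shift 1 0)] (by decide +kernel))
noncomputable def rhc52054309d189d77 : CRef := CRef.mk (Pat.mk 0x700000006000000050000000400000000 0x10000000700000006000000070000001e0000000a 4 5) 0 0 (step_sound _ 33 [rh755058703e3b061e, (rh932754581e0f4330.shift 1 0)] (by decide +kernel))
noncomputable def rh50bf2dc507802e74 : CRef := CRef.mk (Pat.mk 0x200000000000000020000000300000000 0x4000000060000000600000002000000030000000300000001 4 3) 0 0 (step_sound _ 97 [rh932754581e0f4330, (rh9a369cb82ea472da.shift 0 1)] (by decide +kernel))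
noncomputable def rh5543c963b98768aa : CRef := CRef.mk (Pat.mk 0x200000002000000020000001e00000000 0x200000003000000030000003e0000001e00000003 4 6) 0 0 (step_sound _ 96 [rh6fcba015dedda42d, (rhc8ae932c55508b78.shift 0 1)] (by decide +kernel))
noncomputable def rh19df57b8626411f8 : CRef := CRef.mk (Pat.mk 0x6000000020000001e00000002 0x10000000f0000003e0000001e00000002 4 6) 0 0 (step_sound _ 68 [(rh33e738c4ed385b9f.shift 1 1), rhfe8f878ea3528191] (by decide +kernel))
noncomputable def rh7182140bdec2c358 : CRef := CRef.mk (Pat.mk 0xa000000080000000800000008 0x100000001c0000001f000000080000000800000008 4 5) 0 0 (step_sound _ 98 [rh44f2ec19b3452892, (rh50fbb5868c909700.shift 2 0)] (by decide +kernel))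
noncomputable def rhf26e0cd23e9b8fcd : CRef := CRef.mk (Pat.mk 0x80000000a000000080000000800000000 0x40000003c0000000f000000080000000800000008 4 6) 0 0 (step_sound _ 130 [(rh50fbb5868c909700.shift 2 1), rhf172468d65d59ef3] (by decide +kernel))
noncomputable def rha0d560dcab205fc1 : CRef := CRef.mk (Pat.mk 0xd0000000e0000000000000000 0x8000000180000000f0000001e0000000400000004 4 5) 0 0 (step_sound _ 97 [rh34b1188e635efc8d, (rhf48373e13d2bc128.shift 0 2)] (by decide +kernel))
noncomputable def rhb29f77e14965ca87 : CRef := CRef.mk (Pat.mk 0x180000000a000000080000000800000000 0x40000001f0000001b000000080000000800000008 4 5) 0 0 (step_sound _ 130 [(rh50fbb5868c909700.shift 2 1), rhd809a56e627c0006] (by decide +kernel))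
noncomputable def rhe5c446e6f9c46d72 : CRef := CRef.mk (Pat.mk 0x80000000a000000080000000800000000 0x10000000380000001f000000080000000800000008 4 6) 0 0 (step_sound _ 132 [(rh2f68792b6b779e96.shift 3 1), rhcc0a408814ee8662] (by decide +kernel))
noncomputable def rh6933f9867dfa8f73 : CRef := CRef.mk (Pat.mk 0x180000000a0000000800000008000000080000000000000000 0x180000000f0000000c00000008000000180000001800000010 4 5) 0 0 (step_sound _ 162 [(rh53b3c253cb0c65f4.shift 0 5), (rha613ffd40b6c9d24.shift 2 0)] (by decide +kernel))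
noncomputable def rhc229a528e61dc272 : CRef := CRef.mk (Pat.mk 0x1800000014000000100000000c00000000 0x10000000380000001f000000180000000c00000004 4 6) 0 0 (step_sound _ 67 [(rh5c5e593799055d58.shift 3 1), rhe62f858ec81d9702] (by decide +kernel))
noncomputable def rh54d4afff399de0db : CRef := CRef.mk (Pat.mk 0x3c00000010000000100000001000000000 0x70000003f00000018000000100000001000000010 4 6) 0 0 (step_sound _ 99 [(rh7b1f1fb55310c477.shift 3 0), (rhba89ab7cb81bcc90.shift 0 3)] (by decide +kernel))
noncomputable def rh96befde64d88ad75 : CRef := CRef.mk (Pat.mk 0xf00000004 0x380000003f00000076 4 7) 0 0 (step_sound _ 36 [(rh9890f9d77740bbed.shift 0 1), (rh9ab60d74117ac343.shift 1 0)] (by decide +kernel))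
noncomputable def rh4a37486e0549b1bc : CRef := CRef.mk (Pat.mk 0xa000000080000000800000008 0x140000001f000000380000000800000008 4 6) 0 0 (step_sound _ 98 [rh428e1bad588924cc, (rh50fbb5868c909700.shift 2 0)] (by decide +kernel))
noncomputable def rh6d5f8f05bc01a0bf : CRef := CRef.mk (Pat.mk 0x2000000020000000000000001f000000000000002800000000 0x2000000030000000180000001f000000100000003800000028 4 6) 0 0 (step_sound _ 132 [(rh428265de8cd3cd2d.shift 0 3), (rhd59d2d9a2f76c372.shift 3 0)] (by decide +kernel))
noncomputable def rh37ae971256d6c809 : CRef := CRef.mk (Pat.mk 0x2000000008000000480000005e0000004000000000 0x2000000078000000580000005f0000005000000010 4 7) 0 0 (step_sound _ 100 [(rh0e5396937237df12.shift 3 0), (rh53b3c253cb0c65f4.shift 0 2)] (by decide +kernel))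
noncomputable def rhea3a44ec6d05e329 : CRef := CRef.mk (Pat.mk 0x4000000000000000300000003000000000000000500000000 0x600000006000000060000000300000003000000020000000700000005 4 3) 0 0 (step_sound _ 65 [rh2818863d77d69ed0, (rh43c85b902ff1747a.shift 0 2)] (by decide +kernel))
noncomputable def rh19425efbd4f76f8f : CRef := CRef.mk (Pat.mk 0x2000000020000000700000000 0x1000000030000000300000002000000060000000700000001 4 3) 0 0 (step_sound _ 129 [(rh5bd4bc0c2c48140c.shift 0 1), rh932754581e0f4330] (by decide +kernel))
noncomputable def rhe25716203317ed02 : CRef := CRef.mk (Pat.mk 0x400000000000000020000000200000002 0x50000000700000007000000020000000200000002 4 3) 0 0 (step_sound _ 97 [rh76a03e5c89c078ed, (rhbaefcd01e0a8bca3.shift 1 0)] (by decide +kernel))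
noncomputable def rh9b8ad790ab017f9c : CRef := CRef.mk (Pat.mk 0x380000000000000000000000040000000600000002 0x780000001f00000004000000040000000600000002 4 7) 0 0 (step_sound _ 130 [(rh4c5c51b0ae60cece.shift 0 4), (rhee230b994cc8b773.shift 1 0)] (by decide +kernel))
noncomputable def rh380057ad9a846aa6 : CRef := CRef.mk (Pat.mk 0x300000003000000000000000040000001c00000002 0x700000003e00000004000000040000001e00000003 4 7) 0 0 (step_sound _ 33 [(rh90b2e5c3f52bfd0e.shift 1 0), rheb0810cc63b001d8] (by decide +kernel))
noncomputable def rh8377e3926ecc23fd : CRef := CRef.mk (Pat.mk 0x7000000040000000020000000300000001 0x7e000000ce000000020000000300000001 4 8) 0 0 (step_sound _ 131 [rh3e6bb9849b9ebbb0, (rhe25b0a99195a5d59.shift 3 3)] (by decide +kernel))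
noncomputable def rhc3115e0f4b0bf27b : CRef := CRef.mk (Pat.mk 0x2000000120000000200000002 0x50000000f0000001e0000000200000002 4 5) 0 0 (step_sound _ 98 [(rh2f68792b6b779e96.shift 1 0), rhfe8f878ea3528191] (by decide +kernel))
noncomputable def rh1182f4eba70209eb : CRef := CRef.mk (Pat.mk 0x1e000000000000000000000004 0x70000003e000000060000000400000004 4 6) 0 0 (step_sound _ 129 [(rh318e14db76c9bf44.shift 1 0), (rh3244c3cc8379b070.shift 0 3)] (by decide +kernel))
noncomputable def rh865cc9999fb6a508 : CRef := CRef.mk (Pat.mk 0x40000003c000000000000000200000002 0x3c0000007f000000020000000200000002 4 7) 0 0 (step_sound _ 97 [(rh04253f50b6dd0619.shift 1 0), (rh5b09f563b9a65cf9.shift 0 3)] (by decide +kernel))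
noncomputable def rh89bc695086cfc533 : CRef := CRef.mk (Pat.mk 0x400000003800000000000000040000003c00000000 0x600000003c00000004000000040000003e00000007 4 7) 0 0 (step_sound _ 130 [(rh428265de8cd3cd2d.shift 2 4), rh927d5f9300832d4e] (by decide +kernel))
noncomputable def rh4d9fcef63ba8be7b : CRef := CRef.mk (Pat.mk 0x3c000000000000000200000002 0x740000003e000000030000000200000002 4 7) 0 0 (step_sound _ 133 [(rh33e738c4ed385b9f.shift 2 3), rh49182c48af89e0f5] (by decide +kernel))
noncomputable def rh1017b4f0f6c2deca : CRef := CRef.mk (Pat.mk 0x1a0000000e00000004 0xa0000000f0000001e0000000e00000004 4 5) 0 0 (step_sound _ 97 [(rh2145e1d24b96a57e.shift 1 0), rh5afe4b57e969447f] (by decide +kernel))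
noncomputable def rh07f471f51b6d0537 : CRef := CRef.mk (Pat.mk 0xc0000000e000000000000000000000002 0xe0000007e000000030000000200000002 4 7) 0 0 (step_sound _ 65 [(rh0127acd528cd93fb.shift 0 2), (rh9e3edb185cc347de.shift 1 0)] (by decide +kernel))
noncomputable def rha32ddaeca2944b71 : CRef := CRef.mk (Pat.mk 0x7800000000000000040000003c00000000 0x7c0000000c000000040000003e00000007 4 7) 0 0 (step_sound _ 98 [(rh80fcd6d0a18cb2dd.shift 2 3), rh81cdd2836921eed0] (by decide +kernel))
noncomputable def rhe4a6f23312945511 : CRef := CRef.mk (Pat.mk 0x80000001c00000000000000020000001e00000000 0x380000001f00000003000000020000001e00000034 4 6) 0 0 (step_sound _ 4 [rh7a92c40a756b9b01, (rhe25b0a99195a5d59.shift 1 0)] (by decide +kernel))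
noncomputable def rh32a95bce23b0895b : CRef := CRef.mk (Pat.mk 0xf000000000000000200000003c 0x180000000f000000000000000370000003e 4 9) 0 0 (step_sound _ 135 [(rh33e738c4ed385b9f.shift 4 3), rh7fb660bc21ce4329] (by decide +kernel))
noncomputable def rh769c8bac0b178383 : CRef := CRef.mk (Pat.mk 0x1a000000020000000200000002 0x50000000f0000001b000000020000000200000002 4 5) 0 0 (step_sound _ 128 [(rhaf5214748099048e.shift 0 1), rhffd04209dc8ea796] (by decide +kernel))
noncomputable def rh2c91f5db07ef7c1d : CRef := CRef.mk (Pat.mk 0x6800000000000000000000001f00000000 0x10000000780000000c000000180000001f00000010 4 7) 0 0 (step_sound _ 67 [(rh08c4f9e8d4ca1896.shift 2 0), (rh33e738c4ed385b9f.shift 0 1)] (by decide +kernel))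
noncomputable def rh7e231784d6994939 : CRef := CRef.mk (Pat.mk 0xc00000000000000080000000f00000000 0x140000001c00000018000000080000000f00000018 4 5) 0 0 (step_sound _ 99 [rh1dace65600ea0423, (rh50fbb5868c909700.shift 2 1)] (by decide +kernel))
noncomputable def rh687076296dd60842 : CRef := CRef.mk (Pat.mk 0x38000000000000001000000010 0xf0000007c000000100000001000000010 4 7) 0 0 (step_sound _ 131 [(rh2613c889e411427e.shift 3 0), (rha9fbfd4bb8cf890b.shift 0 3)] (by decide +kernel))
noncomputable def rh07ff884a7eb6c0ed : CRef := CRef.mk (Pat.mk 0x100000000000000020000000200000002 0x50000000700000007000000020000000200000002 4 3) 0 0 (step_sound _ 97 [rhae372274d1226efc, rhffd04209dc8ea796] (by decide +kernel))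
noncomputable def rhfb561738d3d5d353 : CRef := CRef.mk (Pat.mk 0x4000000000000000a0000001e000000000000001400000000 0x40000000e0000000a0000001e0000000b0000001c00000014 4 5) 0 0 (step_sound _ 67 [(rh2818863d77d69ed0.shift 2 0), (rhbba5fa760adf813e.shift 0 2)] (by decide +kernel))
noncomputable def rhf32297923889a514 : CRef := CRef.mk (Pat.mk 0x38000000000000001000000010 0x1f00000078000000100000001000000010 4 7) 0 0 (step_sound _ 131 [(rh2613c889e411427e.shift 3 0), (rhf60aa8aede119d3b.shift 0 3)] (by decide +kernel))
noncomputable def rh8b73a667499dd2db : CRef := CRef.mk (Pat.mk 0x2000000020000000200000002000000000000000500000000 0x400000006000000060000000200000002000000020000000700000005 4 3) 0 0 (step_sound _ 194 [(rh2f68792b6b779e96.shift 1 3), rh573f5999480e0c5d] (by decide +kernel))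
noncomputable def rh713aa102c81e8ba3 : CRef := CRef.mk (Pat.mk 0xf000000000000000400000004000000000000000a00000000 0xf0000001c0000000400000004000000040000000e0000000a 4 5) 0 0 (step_sound _ 163 [(rhd59d2d9a2f76c372.shift 1 0), (rhe25b0a99195a5d59.shift 0 5)] (by decide +kernel))
noncomputable def rhb6092fb0b30354f3 : CRef := CRef.mk (Pat.mk 0x6000000000000000200000002000000000000000500000000 0x400000006000000060000000200000002000000020000000700000005 4 3) 0 0 (step_sound _ 161 [(rh2f68792b6b779e96.shift 1 3), rh573f5999480e0c5d] (by decide +kernel))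
noncomputable def rh0e744080ad0ddb6e : CRef := CRef.mk (Pat.mk 0x600000000000000020000001e00000000 0x50000000700000003000000020000001e00000003 4 5) 0 0 (step_sound _ 97 [(rh2f68792b6b779e96.shift 1 1), rhf6eaec10ea6e7bec] (by decide +kernel))
noncomputable def rh46d5d5138b86b44a : CRef := CRef.mk (Pat.mk 0x3000000000000000200000006 0x40000000700000007000000020000000600000006 4 3) 0 0 (step_sound _ 65 [rh50fbb5868c909700, (rh73f605273a09a9d0.shift 1 0)] (by decide +kernel))
noncomputable def rh4753b4150c92476d : CRef := CRef.mk (Pat.mk 0x3000000120000001000000010 0x8000000080000001f0000001e0000001000000010 4 5) 0 0 (step_sound _ 67 [(rh5419adcd928dba20.shift 0 2), rhb37b35b7a17a55d8] (by decide +kernel))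
noncomputable def rhdc1641106d7e5aa2 : CRef := CRef.mk (Pat.mk 0xe00000002 0x700000003e00000007 4 7) 0 0 (step_sound _ 36 [(rhd584a578337d0023.shift 1 0), rheb0810cc63b001d8] (by decide +kernel))
noncomputable def rheec62919d3850800 : CRef := CRef.mk (Pat.mk 0xe00000000000000000000001800000010 0xf0000007c000000080000001800000010 4 7) 0 0 (step_sound _ 99 [(rhc21a95c499b3efdb.shift 0 3), (rhff0f29cb645b05f7.shift 3 0)] (by decide +kernel))
noncomputable def rh9e108fd409747b4d : CRef := CRef.mk (Pat.mk 0x400000000000000040000001c00000000 0x40000000400000004000000070000001e0000000a 4 5) 0 0 (step_sound _ 98 [(rh55afc6a59410cf00.shift 2 0), rh642b26d7cba6ff2f] (by decide +kernel))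
noncomputable def rh499fe0919994f2c0 : CRef := CRef.mk (Pat.mk 0x2c00000020 0x70000003e00000070 4 7) 0 0 (step_sound _ 36 [rhd1d05263fabc0227, (rhe25b0a99195a5d59.shift 2 0)] (by decide +kernel))
noncomputable def rh320032c1d3748103 : CRef := CRef.mk (Pat.mk 0x30000000a000000080000000c00000000 0x100000001b0000001f000000080000000c00000004 4 5) 0 0 (step_sound _ 131 [(rh932754581e0f4330.shift 2 0), (rhcaddd010c795f159.shift 0 1)] (by decide +kernel))
noncomputable def rh67f7585349888d93 : CRef := CRef.mk (Pat.mk 0x2c00000024 0x70000003e00000036 4 6) 0 0 (step_sound _ 36 [rhd1d05263fabc0227, (rheb0810cc63b001d8.shift 1 0)] (by decide +kernel))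
noncomputable def rhcf8755d1c81689bc : CRef := CRef.mk (Pat.mk 0x1400000006000000000000003000000020 0x370000003e000000100000003000000020 4 6) 0 0 (step_sound _ 100 [(rh6a8fbe22e34a927e.shift 0 3), (rhff0f29cb645b05f7.shift 4 0)] (by decide +kernel))
noncomputable def rhe4d45683445dc8bf : CRef := CRef.mk (Pat.mk 0x200000002c 0x770000003e 4 7) 0 0 (step_sound _ 4 [(rh33e738c4ed385b9f.shift 2 0), rh7fb660bc21ce4329] (by decide +kernel))
noncomputable def rhca4830bac924863a : CRef := CRef.mk (Pat.mk 0xe0000000200000040000000c000000080 0x7e0000007300000040000000c000000080 4 8) 0 0 (step_sound _ 132 [(rh5bcd5e7712d352f7.shift 1 0), (rheb0810cc63b001d8.shift 0 3)] (by decide +kernel))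
noncomputable def rh40abba5547ad5bff : CRef := CRef.mk (Pat.mk 0xe000000040000000000000004 0x780000001f000000040000000400000004 4 7) 0 0 (step_sound _ 131 [(rh9e3edb185cc347de.shift 2 0), (rha11dfd15f08f96e3.shift 0 3)] (by decide +kernel))
noncomputable def rh74de9f58ab631e29 : CRef := CRef.mk (Pat.mk 0x800000018000000100000000400000004 0x380000001f000000340000000400000004 4 6) 0 0 (step_sound _ 98 [(rh04253f50b6dd0619.shift 2 0), (rh3ce854f4a795c89f.shift 0 2)] (by decide +kernel))
noncomputable def rh36c8a747f7b629a2 : CRef := CRef.mk (Pat.mk 0xc000000040000000c0000000c 0x320000003e0000000f0000000c0000000c 4 6) 0 0 (step_sound _ 97 [rh355f0dc964d44ac2, (rh50fbb5868c909700.shift 1 0)] (by decide +kernel))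
noncomputable def rha5dca8e3b8f67657 : CRef := CRef.mk (Pat.mk 0x18000000100000001e00000010 0x200000003c0000001f0000001e00000010 4 6) 0 0 (step_sound _ 65 [(rh32269cad40c2ff27.shift 1 0), (rh3244c3cc8379b070.shift 0 1)] (by decide +kernel))
noncomputable def rh1c75ff420bea86f0 : CRef := CRef.mk (Pat.mk 0xf000000000000000000000008 0x380000001f000000180000000800000008 4 6) 0 0 (step_sound _ 132 [(rh428265de8cd3cd2d.shift 0 3), rhbcd991bae3026ef1] (by decide +kernel))
noncomputable def rh08920e1658b4280d : CRef := CRef.mk (Pat.mk 0x800000007000000000000000000000010 0x180000001f000000380000001000000010 4 6) 0 0 (step_sound _ 99 [rh145caf37755048e4, (rh33e738c4ed385b9f.shift 0 3)] (by decide +kernel))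
noncomputable def rh2381ca26b8b38d1e : CRef := CRef.mk (Pat.mk 0x1e00000000 0x380000001f00000038 4 6) 0 0 (step_sound _ 68 [(rh33e738c4ed385b9f.shift 1 1), rh7170cc1370c66062] (by decide +kernel))
noncomputable def rh82758c8496cce947 : CRef := CRef.mk (Pat.mk 0xb00000000000000000000000f00000000 0x40000000f00000018000000180000000f00000004 4 5) 0 0 (step_sound _ 67 [rh15173fcb5d0c051a, (rh33e738c4ed385b9f.shift 0 1)] (by decide +kernel))
noncomputable def rh363d6b0cb5f13a5e : CRef := CRef.mk (Pat.mk 0x1600000000000000200000006000000040 0x770000003e00000020000000200000006000000040 4 7) 0 0 (step_sound _ 133 [(rh1ce9175801978a6d.shift 0 4), (rh6f1cbe15c631ee70.shift 5 0)] (by decide +kernel))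
noncomputable def rh33e2e68d6dfbb63c : CRef := CRef.mk (Pat.mk 0x8000000090000000800000008 0x140000001e0000000f0000000800000008 4 5) 0 0 (step_sound _ 98 [rh32269cad40c2ff27, (rh50fbb5868c909700.shift 2 0)] (by decide +kernel))
noncomputable def rh7a7e08304268422e : CRef := CRef.mk (Pat.mk 0x2000000020000000300000000 0x4000000060000000600000002000000030000000300000001 4 3) 0 0 (step_sound _ 129 [rh932754581e0f4330, (rh9a369cb82ea472da.shift 0 1)] (by decide +kernel))
noncomputable def rhca18712e5e5c7b8f : CRef := CRef.mk (Pat.mk 0x10000000100000003000000010000000000000000 0x30000000300000003000000030000000300000003 4 2) 0 0 (step_sound _ 33 [rh8f4050c06a082165, (rhd3458b32566d63f7.shift 0 1)] (by decide +kernel))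
noncomputable def rh67ce2f56e3648f2b : CRef := CRef.mk (Pat.mk 0x2000000120000001a00000012 0x90000000f0000001e0000001a00000012 4 5) 0 0 (step_sound _ 96 [rh50fbb5868c909700, rhd6266f445ea81ffc] (by decide +kernel))
noncomputable def rh6edfd237118cf121 : CRef := CRef.mk (Pat.mk 0x28000000080000000800000008 0x10000000780000001f0000000800000008 4 7) 0 0 (step_sound _ 100 [(rh2f68792b6b779e96.shift 3 0), (rhf0f55c4504412200.shift 0 2)] (by decide +kernel))
noncomputable def rh9ff1a220917d3fae : CRef := CRef.mk (Pat.mk 0x700000010000000000000003000000020 0x380000001f00000030000000100000003000000020 4 6) 0 0 (step_sound _ 132 [(rh87cc7ac0bbadee52.shift 0 3), (rhff0f29cb645b05f7.shift 4 0)] (by decide +kernel))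
noncomputable def rh62dc473afc0a006b : CRef := CRef.mk (Pat.mk 0x38000000100000000800000008 0x40000007f0000003e0000000800000008 4 7) 0 0 (step_sound _ 67 [(rh4dc133ee0ba1420a.shift 1 2), rhc647a25a08ddf0ec] (by decide +kernel))
noncomputable def rh5409b34d2c942dd2 : CRef := CRef.mk (Pat.mk 0x300000008000000080000000f00000000 0x170000001e000000080000000f00000018 4 5) 0 0 (step_sound _ 3 [rh2f2b2654f682833d, rhe25b0a99195a5d59] (by decide +kernel))
noncomputable def rh61fee02b8bd460bd : CRef := CRef.mk (Pat.mk 0x2000000060000000600000004 0x40000000c0000003e000000070000000600000006 4 6) 0 0 (step_sound _ 98 [(rh503dd4575245365b.shift 1 0), rh861ee9d7304b9753] (by decide +kernel))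
noncomputable def rh823892b6ed161c2f : CRef := CRef.mk (Pat.mk 0x1600000002 0x700000003e00000007 4 7) 0 0 (step_sound _ 35 [(rhd584a578337d0023.shift 1 0), rheb0810cc63b001d8] (by decide +kernel))
noncomputable def rh6f468a81574f9425 : CRef := CRef.mk (Pat.mk 0x6000000020000001e00000002 0x10000000f0000003e0000001e00000002 4 6) 0 0 (step_sound _ 96 [rh50fbb5868c909700, (rhac9dd51bd2afaf42.shift 0 1)] (by decide +kernel))
noncomputable def rh0fa4a62bba50784f : CRef := CRef.mk (Pat.mk 0x2000000020000000600000000 0x1000000030000000300000002000000060000000600000004 4 3) 0 0 (step_sound _ 129 [(rh55afc6a59410cf00.shift 1 0), (rh5bd4bc0c2c48140c.shift 0 1)] (by decide +kernel))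
noncomputable def rh264dfd2478cf8f9a : CRef := CRef.mk (Pat.mk 0x280000000c000000200000003000000000 0x10000000380000003f000000200000003000000010 4 6) 0 0 (step_sound _ 101 [(rh2fb004ba2a90c6bc.shift 0 1), (rh932754581e0f4330.shift 4 0)] (by decide +kernel))
noncomputable def rh1a9a2ae96d17eb8e : CRef := CRef.mk (Pat.mk 0x200000002000000000000000700000000 0x4000000060000000600000002000000030000000700000004 4 3) 0 0 (step_sound _ 65 [(rh55afc6a59410cf00.shift 1 0), (rh9a369cb82ea472da.shift 0 1)] (by decide +kernel))
noncomputable def rhdf86f8fc00fe0e3f : CRef := CRef.mk (Pat.mk 0x200000002000000000000000700000000 0x1000000030000000300000002000000030000000700000004 4 3) 0 0 (step_sound _ 65 [(rh55afc6a59410cf00.shift 1 0), (rhe62cab2ff5ad6fe2.shift 0 1)] (by decide +kernel))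
noncomputable def rh48e3b10271527168 : CRef := CRef.mk (Pat.mk 0x80000001c000000060000000000000000 0x20000000f0000001e000000060000000400000004 4 5) 0 0 (step_sound _ 34 [(rh71222050f2c63a3a.shift 2 0), (rhf8d7935e174329d6.shift 0 1)] (by decide +kernel))
noncomputable def rhd654a6742aae8cbc : CRef := CRef.mk (Pat.mk 0xc000000040000001c0000000c 0x320000003e000000170000001c0000000c 4 6) 0 0 (step_sound _ 97 [rh1b685f21a5f72563, (rh50fbb5868c909700.shift 1 0)] (by decide +kernel))
noncomputable def rhee37d230d297e9fd : CRef := CRef.mk (Pat.mk 0x38000000040000000000000004 0x70000003e000000060000000400000004 4 6) 0 0 (step_sound _ 98 [rh9c9bdd729c643b84, (rheb0810cc63b001d8.shift 1 2)] (by decide +kernel))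
noncomputable def rhca48db30f4dde720 : CRef := CRef.mk (Pat.mk 0x14000000020000000200000006 0x70000001e000000030000000600000006 4 5) 0 0 (step_sound _ 97 [(rh2f68792b6b779e96.shift 1 0), rh806436f2a8da4241] (by decide +kernel))
noncomputable def rh6e901b5b428904b8 : CRef := CRef.mk (Pat.mk 0x10000000030000001200000018 0x18000000180000000f0000001e00000018 4 5) 0 0 (step_sound _ 35 [(rh5419adcd928dba20.shift 0 1), rhb4af002c06f20d5a] (by decide +kernel))
noncomputable def rh610b52e0dccc05d9 : CRef := CRef.mk (Pat.mk 0x10000000030000001200000006 0x60000001e000000030000001e00000006 4 5) 0 0 (step_sound _ 34 [(rh2fe78cc5ca4405d8.shift 0 1), rhb0ec3bbf712aa524] (by decide +kernel))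
noncomputable def rh739b1d2a1da9317d : CRef := CRef.mk (Pat.mk 0x4000000020000000200000006 0x10000000700000007000000020000000600000006 4 3) 0 0 (step_sound _ 97 [(rh2f68792b6b779e96.shift 1 0), rh5bd4bc0c2c48140c] (by decide +kernel))
noncomputable def rh57c9388180bd8ef4 : CRef := CRef.mk (Pat.mk 0x200000000000000020000000600000000 0x1000000030000000300000002000000060000000600000004 4 3) 0 0 (step_sound _ 97 [(rh55afc6a59410cf00.shift 1 0), (rh5bd4bc0c2c48140c.shift 0 1)] (by decide +kernel))
noncomputable def rh0226c443106f6ecb : CRef := CRef.mk (Pat.mk 0x200000018000000080000000100000003000000000000000000000000 0x2000000020000001b0000000f0000000300000003000000020000000200000002 4 5) 0 0 (step_sound _ 160 [rh046c5eb18e55a239, (rh0b47df1f5df91fea.shift 0 2), (rh7984335eb04740ea.shift 0 3)] (by decide +kernel))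
noncomputable def rhb5aa4c725956da26 : CRef := CRef.mk (Pat.mk 0x3c000000000000000000000004 0x70000003e000000060000000400000004 4 6) 0 0 (step_sound _ 66 [rh9c9bdd729c643b84, (rheb0810cc63b001d8.shift 1 2)] (by decide +kernel))
noncomputable def rh300eedc557b86950 : CRef := CRef.mk (Pat.mk 0xf00000004 0x3f0000003f 4 6) 0 0 (step_sound _ 4 [rh1e42cdaa2b8276ac, rh96851dee118c1ba3] (by decide +kernel))
noncomputable def rh4c3ef4e44b5ae1eb : CRef := CRef.mk (Pat.mk 0x80000007800000004 0x38000000ff00000006 4 8) 0 0 (step_sound _ 34 [(rh01cc9eaefce5f3df.shift 0 1), (rheb0810cc63b001d8.shift 1 0)] (by decide +kernel))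
noncomputable def rh5325704427762ec5 : CRef := CRef.mk (Pat.mk 0x1e0000000000000010 0x8000000380000001f0000003000000010 4 6) 0 0 (step_sound _ 100 [(rh33e738c4ed385b9f.shift 1 2), rhc6b8be9399e7c6f6] (by decide +kernel))
noncomputable def rhc68444a3d8d82935 : CRef := CRef.mk (Pat.mk 0x1e000000100000001000000000 0x2f0000003e000000100000001000000010 4 6) 0 0 (step_sound _ 4 [rh17659c9d2e0466f4, (rh50fbb5868c909700.shift 3 0)] (by decide +kernel))
noncomputable def rh478b298666d6355a : CRef := CRef.mk (Pat.mk 0x7c000000020000002000000000 0x500000007e000000330000002000000020 4 7) 0 0 (step_sound _ 97 [(rhda68cdcfe2900fb5.shift 1 0), (rheb0810cc63b001d8.shift 0 2)] (by decide +kernel))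
noncomputable def rh8433a740ccb125cd : CRef := CRef.mk (Pat.mk 0x160000001a0000000000000000 0x10000000300000001e0000001b0000000800000008 4 6) 0 0 (step_sound _ 99 [(rh34b1188e635efc8d.shift 1 0), (rheb0810cc63b001d8.shift 0 2)] (by decide +kernel))
noncomputable def rh4a7b438162e4ed40 : CRef := CRef.mk (Pat.mk 0xf000000000000000800000000 0x1c0000001f000000180000000800000008 4 5) 0 0 (step_sound _ 67 [rh463bebd3e3ebaa91, (rhe25b0a99195a5d59.shift 0 2)] (by decide +kernel))
noncomputable def rh0363d47a46978688 : CRef := CRef.mk (Pat.mk 0x80000000a0000000800000008 0x10000000780000001f0000000800000008 4 7) 0 0 (step_sound _ 100 [(rh0b786d94a31538a6.shift 0 2), (rh2f68792b6b779e96.shift 3 0)] (by decide +kernel))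
noncomputable def rh6476892f2a819723 : CRef := CRef.mk (Pat.mk 0x40000000e00000002 0x760000003e00000003 4 7) 0 0 (step_sound _ 36 [(rhb6f72982232a8164.shift 1 1), rheb0810cc63b001d8] (by decide +kernel))
noncomputable def rhdaae84b65b246d22 : CRef := CRef.mk (Pat.mk 0x70000000a 0x380000001f0000001b 4 6) 0 0 (step_sound _ 35 [rh84d84ec8e59a0da5, rhe25b0a99195a5d59] (by decide +kernel))
noncomputable def rh0e88c4a9e4614eb0 : CRef := CRef.mk (Pat.mk 0xa00000008000000080000000800000000 0x100000001f00000038000000080000000800000008 4 6) 0 0 (step_sound _ 132 [rh291a43f919f5465d, (rh2f68792b6b779e96.shift 3 1)] (by decide +kernel))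
noncomputable def rhdf9f2056a37121a5 : CRef := CRef.mk (Pat.mk 0x2000000020000000600000001 0x1000000030000000300000002000000060000000700000001 4 3) 0 0 (step_sound _ 129 [(rh5bd4bc0c2c48140c.shift 0 1), rh79877ebd3ef475dd] (by decide +kernel))
noncomputable def rhdee30487d27d3288 : CRef := CRef.mk (Pat.mk 0x400000004000000070000000400000000 0x80000000c0000003e000000070000000400000004 4 6) 0 0 (step_sound _ 131 [(rh2f68792b6b779e96.shift 2 1), rhe835e2ef61e86731] (by decide +kernel))
noncomputable def rh0c7ea8e21d1faf2f : CRef := CRef.mk (Pat.mk 0x400000000000000000000000f00000000 0x40000000c0000001c0000000f00000018 4 5) 0 0 (step_sound _ 67 [(rh33e738c4ed385b9f.shift 0 1), rh75b5362c65fd1062] (by decide +kernel))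
noncomputable def rh7eb4a07d72ad7934 : CRef := CRef.mk (Pat.mk 0x200000002000000020000000200000000 0x1000000030000000300000002000000060000000600000004 4 3) 0 0 (step_sound _ 160 [rhab6c47cc6555dc65, (rhffd04209dc8ea796.shift 0 1)] (by decide +kernel))
noncomputable def rhf6a203fea93f92ed : CRef := CRef.mk (Pat.mk 0x1e000000000000000000000008 0x300000001f000000380000000800000008 4 6) 0 0 (step_sound _ 68 [rhbf8db6bc06448d66, (rhe25b0a99195a5d59.shift 1 2)] (by decide +kernel))
noncomputable def rh353ebc24c4d595b9 : CRef := CRef.mk (Pat.mk 0xf000000000000000000000004 0x180000000f0000001c0000000c00000004 4 5) 0 0 (step_sound _ 67 [rh958cd49a9106c083, (rhe25b0a99195a5d59.shift 0 2)] (by decide +kernel))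
noncomputable def rh6aa5625770489e83 : CRef := CRef.mk (Pat.mk 0x20000000200000002000000020000000000000000 0x1000000030000000300000002000000030000000300000001 4 2) 0 0 (step_sound _ 32 [rh374dff4f3719a414, (rh79877ebd3ef475dd.shift 0 1)] (by decide +kernel))
noncomputable def rhd5b22fe6fc9aa2ce : CRef := CRef.mk (Pat.mk 0x60000000200000002000000010000000000000000 0x60000000600000002000000070000000700000004 4 3) 0 0 (step_sound _ 65 [(rh932754581e0f4330.shift 0 1), (rh999c66e1f1e798df.shift 1 0)] (by decide +kernel))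
noncomputable def rhc2900996fa1d6026 : CRef := CRef.mk (Pat.mk 0x30000000000000008000000080000000800000008 0x1f0000001c00000018000000080000000800000008 4 5) 0 0 (step_sound _ 132 [(rh73d4f46a69230cec.shift 0 1), (rhbaefcd01e0a8bca3.shift 3 0)] (by decide +kernel))
noncomputable def rhddecff6d593e63e1 : CRef := CRef.mk (Pat.mk 0x60000000200000010000000100000001000000020 0x80000001e0000001b00000010000000100000003000000020 4 6) 0 0 (step_sound _ 132 [(rh1eb4a1b3e6d7569b.shift 0 1), (rhd3458b32566d63f7.shift 4 0)] (by decide +kernel))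
noncomputable def rh1fdcfe071c3d1b68 : CRef := CRef.mk (Pat.mk 0x20000001600000002 0x60000003e00000073 4 7) 0 0 (step_sound _ 35 [(rh2aac33c566332a8c.shift 1 0), rheb0810cc63b001d8] (by decide +kernel))
noncomputable def rh9548c07d1d1f2a1b : CRef := CRef.mk (Pat.mk 0x80000000b0000000800000000 0x100000001000000018000000180000000f0000000800000008 4 5) 0 0 (step_sound _ 100 [(rh1c62b6193297d9e3.shift 0 2), (rh215e11e099257d75.shift 3 0)] (by decide +kernel))
noncomputable def rh59810ecc3e5f50ca : CRef := CRef.mk (Pat.mk 0x800000008000000000000000f00000000 0x800000018000000300000001f00000038 4 6) 0 0 (step_sound _ 4 [rh96851dee118c1ba3, (rhcde3c6e5fb915fb0.shift 1 0)] (by decide +kernel))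
noncomputable def rhc4ec57a3756c3a6c : CRef := CRef.mk (Pat.mk 0x200000002000000020000000200000000 0x20000000200000002000000070000000700000005 4 3) 0 0 (step_sound _ 34 [rh50fc3837f5e8c53a, (rh55afc6a59410cf00.shift 1 0)] (by decide +kernel))
noncomputable def rhcd1c0de20c3b2411 : CRef := CRef.mk (Pat.mk 0x100000001000000010000000000000000600000003 0x10000000100000001000000018000000180000001e0000000b 4 5) 0 0 (step_sound _ 35 [rh18965a982d73c794, (rh18daa16230dec9b2.shift 3 0)] (by decide +kernel))
noncomputable def rhcbbabd6e55c46fe9 : CRef := CRef.mk (Pat.mk 0x30000000000000002000000020000000000000000 0x1000000030000000300000002000000060000000600000004 4 3) 0 0 (step_sound _ 129 [(rh50fbb5868c909700.shift 0 2), rha613ffd40b6c9d24] (by decide +kernel))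
noncomputable def rh40559a4eeccbc478 : CRef := CRef.mk (Pat.mk 0x80000000800000008000000080000000100000000 0x800000008000000080000001c0000001f00000004 4 5) 0 0 (step_sound _ 34 [(rh79877ebd3ef475dd.shift 2 1), rh888f07c7386f44c3] (by decide +kernel))
noncomputable def rhab207950aef22f48 : CRef := CRef.mk (Pat.mk 0x12000000020000000200000002000000020000000100000000 0x40000001f000000030000000200000002000000020000000300000001 4 5) 0 0 (step_sound _ 33 [rh932754581e0f4330, (rh934fac0f6c2e83a8.shift 0 2)] (by decide +kernel))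
noncomputable def rh14d0a004e7a9880b : CRef := CRef.mk (Pat.mk 0x800000008000000080000000d0000000000000000 0x40000000c0000000c000000080000000f0000001800000010 4 5) 0 0 (step_sound _ 162 [rh31dc67b6ff2f62dc, (rh50fbb5868c909700.shift 2 2)] (by decide +kernel))
noncomputable def rh8afa7f9fb8f37868 : CRef := CRef.mk (Pat.mk 0x7000000020000000400000004 0x180000001f0000003f0000000400000004 4 6) 0 0 (step_sound _ 99 [rh4fc80024ed3db095, (rh9ab60d74117ac343.shift 0 2)] (by decide +kernel))
noncomputable def rhbf404de0ef1b873d : CRef := CRef.mk (Pat.mk 0x80000000800000008000000090000000000000000 0x800000008000000080000001f0000001c00000010 4 5) 0 0 (step_sound _ 66 [(rh932754581e0f4330.shift 2 1), rhfe9300be1de59db6] (by decide +kernel))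
noncomputable def rh74cc25b0d7bfca46 : CRef := CRef.mk (Pat.mk 0x400000004000000040000000c00000000 0x400000004000000040000003c0000000f00000002 4 6) 0 0 (step_sound _ 33 [(rh90892cdc1810d809.shift 0 1), (rh932754581e0f4330.shift 1 0)] (by decide +kernel))
noncomputable def rh3d5fe6896eded5b4 : CRef := CRef.mk (Pat.mk 0x100000001800000010000000030000000600000000 0x180000001800000010000000330000003e00000020 4 6) 0 0 (step_sound _ 36 [(rh2fe78cc5ca4405d8.shift 0 1), (rh5c1f114f9263cd24.shift 3 0)] (by decide +kernel))
noncomputable def rh02652b4751f4fcbd : CRef := CRef.mk (Pat.mk 0x8000000090000000900000001000000010000000200000000 0x180000000f0000001b00000001000000010000000300000002 4 5) 0 0 (step_sound _ 32 [rh55afc6a59410cf00, (rhd264a9714cbae18b.shift 0 1)] (by decide +kernel))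
noncomputable def rh4832d4567c02dec0 : CRef := CRef.mk (Pat.mk 0x100000001e000000000000000300000006 0x100000001e000000380000001b0000001e 4 6) 0 0 (step_sound _ 68 [rh67ee58800ef2300e, (rhe25b0a99195a5d59.shift 1 2)] (by decide +kernel))
noncomputable def rh8599f462953abc6e : CRef := CRef.mk (Pat.mk 0x1000000010000000300000000 0x2000000030000000300000001000000030000000300000002 4 2) 0 0 (step_sound _ 128 [rh55afc6a59410cf00, (rh73f605273a09a9d0.shift 0 1)] (by decide +kernel))
noncomputable def rhea4b2a0de401f0a4 : CRef := CRef.mk (Pat.mk 0x20000001200000016000000030000001000000000 0x30000001e00000036000000030000001e00000006 4 6) 0 0 (step_sound _ 130 [(rh665fa2b016ee28ae.shift 0 3), rh8288d9644328b41d] (by decide +kernel))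
noncomputable def rh3040ee3cbf7b2863 : CRef := CRef.mk (Pat.mk 0x20000001200000006000000030000001000000000 0x30000003e00000006000000030000001e00000006 4 6) 0 0 (step_sound _ 130 [(rh6493ceb007f59211.shift 0 3), rh8288d9644328b41d] (by decide +kernel))
noncomputable def rhfdff1d0d86f2dad2 : CRef := CRef.mk (Pat.mk 0x800000000000000000000001e00000000 0x800000008000000380000001f00000030 4 6) 0 0 (step_sound _ 68 [rh04dd406aec75c8ab, (rh33e738c4ed385b9f.shift 1 1)] (by decide +kernel))
noncomputable def rh5d410e570082021e : CRef := CRef.mk (Pat.mk 0x2000000020000000600000001 0x4000000060000000600000002000000060000000700000001 4 3) 0 0 (step_sound _ 129 [(rh73f605273a09a9d0.shift 1 1), rh79877ebd3ef475dd] (by decide +kernel))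
noncomputable def rhe1e47742ff7cd56c : CRef := CRef.mk (Pat.mk 0x20000001600000002 0x730000003e00000006 4 7) 0 0 (step_sound _ 35 [(rh3244c3cc8379b070.shift 0 1), (rhd584a578337d0023.shift 1 0)] (by decide +kernel))
noncomputable def rh57025d4bb74dc34e : CRef := CRef.mk (Pat.mk 0x2000000020000000a0000000f00000000 0x4000000060000000e0000000e0000000f00000018 4 5) 0 0 (step_sound _ 130 [(rh2f68792b6b779e96.shift 1 1), rh75b5362c65fd1062] (by decide +kernel))
noncomputable def rhfae2d0771380d1f3 : CRef := CRef.mk (Pat.mk 0x60000000200000000000000020000000000000000 0x4000000060000000600000002000000030000000300000001 4 3) 0 0 (step_sound _ 97 [(rh2f68792b6b779e96.shift 1 2), rh8aec56c4ee12918c] (by decide +kernel))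
noncomputable def rh6144f90175f939ff : CRef := CRef.mk (Pat.mk 0x30000000100000000000000010000000000000000 0x2000000030000000300000001000000030000000300000002 4 2) 0 0 (step_sound _ 96 [(rh2f68792b6b779e96.shift 0 2), rh8c3839f9b9075f23] (by decide +kernel))
noncomputable def rhed79e5c5ffee0217 : CRef := CRef.mk (Pat.mk 0x200000002000000020000000200000000 0x20000000200000002000000070000000700000005 4 3) 0 0 (step_sound _ 32 [rh72ce697a3a7a83f7, rh932754581e0f4330] (by decide +kernel))
noncomputable def rh6c3345e0eee0f759 : CRef := CRef.mk (Pat.mk 0x1600000002000000100000000800000000 0x80000001e00000033000000100000001800000008 4 6) 0 0 (step_sound _ 131 [(rh80ab4241284bd675.shift 1 0), (rheb0810cc63b001d8.shift 0 3)] (by decide +kernel))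
noncomputable def rhf4b53f8ba1873014 : CRef := CRef.mk (Pat.mk 0x200000002000000020000000100000000 0x4000000060000000600000002000000030000000300000001 4 3) 0 0 (step_sound _ 33 [rh932754581e0f4330, (rh9a369cb82ea472da.shift 0 1)] (by decide +kernel))
noncomputable def rh25dfc596437a33fe : CRef := CRef.mk (Pat.mk 0x6000000060000000200000002 0x30000000300000007000000060000000600000006 4 3) 0 0 (step_sound _ 128 [rh5410b6b3ceda500c, rhffd04209dc8ea796] (by decide +kernel))
noncomputable def rh7e9422e1c9756daf : CRef := CRef.mk (Pat.mk 0xf000000000000000c00000000 0x80000001c0000000f000000040000000c0000000c 4 5) 0 0 (step_sound _ 131 [(rh33e738c4ed385b9f.shift 0 3), (rhec2955f76c307292.shift 2 0)] (by decide +kernel))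
noncomputable def rhf64c13d9a0a60b1f : CRef := CRef.mk (Pat.mk 0x60000000e0000000b0000000000000000 0x60000000e0000000b0000001e0000000e 4 5) 0 0 (step_sound _ 33 [(rh71222050f2c63a3a.shift 1 0), rhc342ddf6d598854b] (by decide +kernel))
noncomputable def rhcf1a700743b70b86 : CRef := CRef.mk (Pat.mk 0x3000000070000000d0000000100000000 0x3000000070000003d0000000f00000006 4 6) 0 0 (step_sound _ 68 [rh81722d4276d1ff59, (rhf48373e13d2bc128.shift 1 2)] (by decide +kernel))
noncomputable def rh9483656c38360087 : CRef := CRef.mk (Pat.mk 0x100000001e000000000000000000000000 0x10000000100000001f000000380000000800000008 4 6) 0 0 (step_sound _ 68 [rh525b9792321e9079, (rhe25b0a99195a5d59.shift 1 2)] (by decide +kernel))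
noncomputable def rh5d1ae49392eada61 : CRef := CRef.mk (Pat.mk 0x100000000700000000 0x380000001f00000038 4 6) 0 0 (step_sound _ 35 [(rh428265de8cd3cd2d.shift 0 1), rhf270fa1f24348253] (by decide +kernel))
noncomputable def rh7c1d186295a6fc01 : CRef := CRef.mk (Pat.mk 0x18000000020000000800000008 0x10000000780000001f0000000800000008 4 7) 0 0 (step_sound _ 67 [(rh0b786d94a31538a6.shift 0 2), (rh2f68792b6b779e96.shift 3 0)] (by decide +kernel))
noncomputable def rh9edb57ed9d6e0e3d : CRef := CRef.mk (Pat.mk 0x1800000002000000000000001800000010 0x780000001f000000080000001800000010 4 7) 0 0 (step_sound _ 99 [(rh0b786d94a31538a6.shift 0 3), (rhff0f29cb645b05f7.shift 3 0)] (by decide +kernel))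
noncomputable def rh1c8f869bea43f3c8 : CRef := CRef.mk (Pat.mk 0xc00000000000000000000000700000008 0x40000000c0000000c000000180000000f00000018 4 5) 0 0 (step_sound _ 35 [rhbbb6dedc7eb1de19, rhe25b0a99195a5d59] (by decide +kernel))
noncomputable def rhe6f00b19f116d7bb : CRef := CRef.mk (Pat.mk 0x1800000000000000000000000f00000000 0x80000001800000010000000380000001f00000008 4 6) 0 0 (step_sound _ 68 [(rh428265de8cd3cd2d.shift 0 1), (rhc28af30c68bc26bc.shift 1 0)] (by decide +kernel))
noncomputable def rhf8303b75bfa0f085 : CRef := CRef.mk (Pat.mk 0xc00000000000000080000000700000000 0x40000000c0000000c000000180000000f00000018 4 5) 0 0 (step_sound _ 35 [(rh33e738c4ed385b9f.shift 0 1), rh3fdb834d0309034b] (by decide +kernel))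
noncomputable def rhc42297b4a2656f14 : CRef := CRef.mk (Pat.mk 0x1a00000002 0x700000003e00000007 4 7) 0 0 (step_sound _ 34 [(rhd584a578337d0023.shift 1 0), rheb0810cc63b001d8] (by decide +kernel))
noncomputable def rhc6338602faf8e7de : CRef := CRef.mk (Pat.mk 0x1a00000002 0x3e00000077 4 7) 0 0 (step_sound _ 34 [rheb0810cc63b001d8, (rhf3baec4a0a3dd35e.shift 1 0)] (by decide +kernel))
noncomputable def rhf387e76ea145b531 : CRef := CRef.mk (Pat.mk 0x2000000060000000200000001 0x4000000060000000600000002000000060000000700000001 4 3) 0 0 (step_sound _ 129 [(rh14f80659e6313cc6.shift 1 1), rh79877ebd3ef475dd] (by decide +kernel))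
noncomputable def rh12cc61a11a9631fa : CRef := CRef.mk (Pat.mk 0xe000000020000001a0000000200000002 0x180000000f0000001b0000001a0000001200000002 4 5) 0 0 (step_sound _ 128 [(rh462e38951f77e0b1.shift 0 1), rhffd04209dc8ea796] (by decide +kernel))
noncomputable def rhb5037a44899b7647 : CRef := CRef.mk (Pat.mk 0xe0000001000000018000000000000000000000000 0x80000000f0000001800000018000000180000001000000010 4 5) 0 0 (step_sound _ 131 [(rh70e33bfdf511e144.shift 3 0), (rhb739f4f82bb681b4.shift 0 4)] (by decide +kernel))
noncomputable def rhbc662e99f765b901 : CRef := CRef.mk (Pat.mk 0xe00000010 0x380000001f00000038 4 6) 0 0 (step_sound _ 36 [rh0e2cddddafe6254b, (rhe25b0a99195a5d59.shift 1 0)] (by decide +kernel))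
noncomputable def rh79bf920132cab629 : CRef := CRef.mk (Pat.mk 0x2000000030000000200000002 0x30000000300000003000000030000000300000003 4 2) 0 0 (step_sound _ 128 [rha52e0141694f1c7d, rhffd04209dc8ea796] (by decide +kernel))
noncomputable def rh416dc1954feaa15a : CRef := CRef.mk (Pat.mk 0x90000000900000001000000090000000800000000 0x100000001900000019000000090000001b0000001a00000010 4 5) 0 0 (step_sound _ 33 [(rh1aef4a1c03bfe1bb.shift 3 0), (rhd3458b32566d63f7.shift 0 1)] (by decide +kernel))
noncomputable def rh84b09c9de005157a : CRef := CRef.mk (Pat.mk 0x200000002000000020000001200000003 0x4000000060000000600000002000000060000001e00000003 4 5) 0 0 (step_sound _ 34 [rh361cc68994bd8a63, (rh73f605273a09a9d0.shift 1 1)] (by decide +kernel))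
noncomputable def rh82ea2bc4edd66ae8 : CRef := CRef.mk (Pat.mk 0xc0000001c000000150000000400000000 0xc0000001e000000170000003c00000018 4 6) 0 0 (step_sound _ 36 [rh4a2be0f3b680dec3, (rh7b1f1fb55310c477.shift 3 0)] (by decide +kernel))
noncomputable def rhbd64b171dbe672bd : CRef := CRef.mk (Pat.mk 0x80000000a0000000e0000000000000000 0x80000003b0000001e0000003000000010 4 6) 0 0 (step_sound _ 68 [(rh3244c3cc8379b070.shift 0 2), (rh625dde73e665edc8.shift 1 0)] (by decide +kernel))
noncomputable def rh471792772a3ab610 : CRef := CRef.mk (Pat.mk 0x2000000030000001200000002 0x40000000600000006000000030000001e00000006 4 5) 0 0 (step_sound _ 34 [(rh14f80659e6313cc6.shift 1 0), (rh2fe78cc5ca4405d8.shift 0 1)] (by decide +kernel))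
noncomputable def rh14583be835be623e : CRef := CRef.mk (Pat.mk 0x1000000000000000100000000b0000000000000000 0x100000001000000018000000180000000f0000000800000008 4 5) 0 0 (step_sound _ 99 [(rh16cbd58a1619e6a8.shift 3 0), (rh1c62b6193297d9e3.shift 0 2)] (by decide +kernel))
noncomputable def rhf702e0fea5f10cea : CRef := CRef.mk (Pat.mk 0x200000002000000020000000100000000 0x20000000200000002000000070000000700000005 4 3) 0 0 (step_sound _ 161 [(rh79877ebd3ef475dd.shift 0 1), rhbd097c4034f102b6] (by decide +kernel))
noncomputable def rh577c490b0f74454b : CRef := CRef.mk (Pat.mk 0x6000000030000000000000010000000100000001000000008 0x1e0000001b0000001800000010000000100000001800000008 4 5) 0 0 (step_sound _ 132 [(rh79877ebd3ef475dd.shift 3 0), (rh9ad510371aedb3ca.shift 0 1)] (by decide +kernel))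
noncomputable def rh0c9e3d603464171f : CRef := CRef.mk (Pat.mk 0x100000000b00000000 0x380000001f00000038 4 6) 0 0 (step_sound _ 34 [(rh428265de8cd3cd2d.shift 0 1), rhf270fa1f24348253] (by decide +kernel))
noncomputable def rh4460d1954bd8412f : CRef := CRef.mk (Pat.mk 0x1600000002 0x3e00000077 4 7) 0 0 (step_sound _ 35 [rheb0810cc63b001d8, (rhf3baec4a0a3dd35e.shift 1 0)] (by decide +kernel))
noncomputable def rhc93798971963b296 : CRef := CRef.mk (Pat.mk 0xf00000008000000000000000800000000 0x1c0000000f00000008000000180000001800000010 4 5) 0 0 (step_sound _ 67 [(rh50fbb5868c909700.shift 2 1), rh98297410a639a85a] (by decide +kernel))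
noncomputable def rhd067f37323654bdf : CRef := CRef.mk (Pat.mk 0x17000000100000001000000000 0x700000003f000000180000001000000010 4 7) 0 0 (step_sound _ 99 [(rh4ab9c4dc4d42970a.shift 1 0), (rh96851dee118c1ba3.shift 0 2)] (by decide +kernel))
noncomputable def rhc4fea9197da840fc : CRef := CRef.mk (Pat.mk 0x11000000120000000200000002 0x50000001f0000003a0000000200000002 4 6) 0 0 (step_sound _ 97 [rh50fbb5868c909700, rh9e79f2d2c32bd380] (by decide +kernel))
noncomputable def rhee0e688672f67a87 : CRef := CRef.mk (Pat.mk 0x800000008000000090000000900000000 0x8000000080000001b0000001f00000014 4 5) 0 0 (step_sound _ 34 [rh7ae42042e41781d5, (rh932754581e0f4330.shift 2 0)] (by decide +kernel))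
noncomputable def rha8001153a5878f26 : CRef := CRef.mk (Pat.mk 0x110000000900000009000000090000000100000000 0x1100000019000000090000001b0000000f00000004 4 5) 0 0 (step_sound _ 35 [rh712368f7c54d3420, (rhbaefcd01e0a8bca3.shift 3 1)] (by decide +kernel))
noncomputable def rh1590578ce4f0e5df : CRef := CRef.mk (Pat.mk 0xf0000000a000000020000000200000000 0x180000000f0000000e0000000e0000000600000004 4 5) 0 0 (step_sound _ 163 [(rh33e738c4ed385b9f.shift 0 4), (rh56baa0110b4515a2.shift 1 0)] (by decide +kernel))
noncomputable def rh313d96db856d4bca : CRef := CRef.mk (Pat.mk 0x800000008000000080000000900000000 0x80000000800000008000000180000001f00000014 4 5) 0 0 (step_sound _ 36 [rh14084a7905a61f95, (rh55afc6a59410cf00.shift 3 0)] (by decide +kernel))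
noncomputable def rh252627aa63cbea32 : CRef := CRef.mk (Pat.mk 0x13000000120000000200000002 0x3c0000001f000000320000000200000002 4 6) 0 0 (step_sound _ 98 [(rh2f68792b6b779e96.shift 1 0), (rh87cc7ac0bbadee52.shift 0 2)] (by decide +kernel))
noncomputable def rhed03980a48e70db0 : CRef := CRef.mk (Pat.mk 0x200000002000000060000000700000000 0x40000000600000006000000070000003f00000018 4 6) 0 0 (step_sound _ 130 [(rh2f68792b6b779e96.shift 1 1), rh8d3134ae48e30f98] (by decide +kernel))
noncomputable def rh2019a3c656cdbc6f : CRef := CRef.mk (Pat.mk 0x3000000030000000200000001 0x2000000020000000200000003000000070000000700000005 4 3) 0 0 (step_sound _ 129 [rh0ff7ca71cb891e23, rh79877ebd3ef475dd] (by decide +kernel))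
noncomputable def rha119c206b24c7836 : CRef := CRef.mk (Pat.mk 0x3000000120000001200000012 0x1c0000001f0000001a0000001200000012 4 5) 0 0 (step_sound _ 98 [(rh2f68792b6b779e96.shift 1 0), rh64a83c5c5f058052] (by decide +kernel))
noncomputable def rh8a88ee17ca308b03 : CRef := CRef.mk (Pat.mk 0x1000000018000000000000001800000002 0x100000001800000008000000780000001f 4 7) 0 0 (step_sound _ 3 [(rh04253f50b6dd0619.shift 3 0), rh0b786d94a31538a6] (by decide +kernel))
noncomputable def rhb701899451b33183 : CRef := CRef.mk (Pat.mk 0xf000000000000001800000000 0x380000001f000000300000001800000008 4 6) 0 0 (step_sound _ 132 [(rh2669f2410bcd13b7.shift 1 0), (rh428265de8cd3cd2d.shift 0 3)] (by decide +kernel))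
noncomputable def rhccb8c10e88567c4c : CRef := CRef.mk (Pat.mk 0xf000000000000001800000000 0x300000001f000000380000001800000008 4 6) 0 0 (step_sound _ 68 [(rh96851dee118c1ba3.shift 0 2), (rh9712ea8d4bb883c2.shift 1 0)] (by decide +kernel))
noncomputable def rh11d8e999cd3bad99 : CRef := CRef.mk (Pat.mk 0x1800000010000000180000000200000000 0x80000001800000010000000380000001f00000008 4 6) 0 0 (step_sound _ 36 [(rh50fbb5868c909700.shift 3 1), rhb44429f4a4392b5e] (by decide +kernel))
noncomputable def rh2560c599d93e9007 : CRef := CRef.mk (Pat.mk 0x7000000100000001e00000000 0x180000001f000000180000001e00000030 4 6) 0 0 (step_sound _ 4 [rh64a83c5c5f058052, (rhe25b0a99195a5d59.shift 1 0)] (by decide +kernel))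
noncomputable def rhe15ea1465ee97e07 : CRef := CRef.mk (Pat.mk 0x1000000010000000100000001000000007 0x800000018000000180000001000000018000000180000000f 4 5) 0 0 (step_sound _ 35 [rh3fc040e777f1679e, (rhe62cab2ff5ad6fe2.shift 3 1)] (by decide +kernel))
noncomputable def rh686c4912ae90cb4f : CRef := CRef.mk (Pat.mk 0x100000001c00000015000000040000000000000000 0x180000001e000000170000003c0000003400000020 4 6) 0 0 (step_sound _ 68 [(rh5c651669912fbab1.shift 3 0), (rhd8a13c7f042cc6ea.shift 2 1), (rhe91bee7c69a3fd21.shift 0 1)] (by decide +kernel))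
noncomputable def rh5a8abb721f11b584 : CRef := CRef.mk (Pat.mk 0x80000000e00000008000000000000000000000000 0x8000000080000000f00000018000000180000001000000010 4 5) 0 0 (step_sound _ 100 [(rh70e33bfdf511e144.shift 3 0), (rhb739f4f82bb681b4.shift 0 3)] (by decide +kernel))
noncomputable def rh17f08a0ad30ba6e8 : CRef := CRef.mk (Pat.mk 0x1e00000000 0x380000001f00000038 4 6) 0 0 (step_sound _ 4 [rh0e2cddddafe6254b, (rhe25b0a99195a5d59.shift 1 0)] (by decide +kernel))
noncomputable def rh09ad8708146b6e1b : CRef := CRef.mk (Pat.mk 0xf00000008000000080000000000000000 0x1c0000000f00000008000000180000001800000010 4 5) 0 0 (step_sound _ 163 [(rh33e738c4ed385b9f.shift 0 4), (rh5c651669912fbab1.shift 2 0)] (by decide +kernel))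
noncomputable def rh4d828c7a40cc68ef : CRef := CRef.mk (Pat.mk 0xe00000008000000080000000800000000 0x10000000180000000f00000008000000180000001800000010 4 5) 0 0 (step_sound _ 36 [(rh55afc6a59410cf00.shift 3 0), (rh9fd75452c654de9b.shift 0 1)] (by decide +kernel))
noncomputable def rhb313b5e181806e33 : CRef := CRef.mk (Pat.mk 0x3000000020000000e000000180000000800000000 0x1b0000007e0000000e000000180000001800000010 4 7) 0 0 (step_sound _ 131 [(rh1eeec04e73117746.shift 1 1), (rh92849c133feb679d.shift 0 1), (rhd4b4beefcd67f51e.shift 3 0)] (by decide +kernel))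
noncomputable def rh29135f63537df41b : CRef := CRef.mk (Pat.mk 0x1e00000010000000000000000600000003 0x380000003e00000010000000100000001e00000003 4 6) 0 0 (step_sound _ 36 [rh361cc68994bd8a63, (rhf5d79617814d6ea1.shift 1 1)] (by decide +kernel))
noncomputable def rh65d03e622566ecd5 : CRef := CRef.mk (Pat.mk 0x1e000000100000000000000000 0x8000000380000001f000000100000001000000010 4 6) 0 0 (step_sound _ 132 [(rh33e738c4ed385b9f.shift 1 3), rha0e9bf4f2fe2c0ad] (by decide +kernel))
noncomputable def rhe8eb75f4f70b9399 : CRef := CRef.mk (Pat.mk 0x800000018000000000000000600000003 0x8000000080000000800000018000000180000001e00000013 4 5) 0 0 (step_sound _ 36 [rh361cc68994bd8a63, (rhb11d41c808e1ab4d.shift 3 0)] (by decide +kernel))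
noncomputable def rhb1385f5583bb96cc : CRef := CRef.mk (Pat.mk 0x200000002000000020000000c0000000000000000 0x200000002000000020000001f0000000700000001 4 5) 0 0 (step_sound _ 65 [rh13104bf9491e5713, (rh55afc6a59410cf00.shift 1 1)] (by decide +kernel))
noncomputable def rhf9c2f95dc5094cc4 : CRef := CRef.mk (Pat.mk 0x200000002000000020000003c00000000 0x200000002000000020000003f00000073 4 7) 0 0 (step_sound _ 5 [rh6cfbe28dec8191c5, (rhe25b0a99195a5d59.shift 2 0)] (by decide +kernel))
noncomputable def rh091b675053b692c6 : CRef := CRef.mk (Pat.mk 0x200000002000000020000003c00000000 0x200000002000000720000003f00000003 4 7) 0 0 (step_sound _ 69 [rh0216c2fed2807390, (rh33e738c4ed385b9f.shift 2 1)] (by decide +kernel))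
noncomputable def rh8673d7dfc83de2e4 : CRef := CRef.mk (Pat.mk 0x80000000a0000000a000000020000001c00000000 0x80000000a0000000a0000003a0000001f00000003 4 6) 0 0 (step_sound _ 68 [(rhbe0e43a3bc50a43f.shift 3 1), rhcdeab269a45ac15f] (by decide +kernel))
noncomputable def rh96b0624c8f941877 : CRef := CRef.mk (Pat.mk 0xa0000000a000000020000001c00000000 0xa0000000a0000000a0000001f00000033 4 6) 0 0 (step_sound _ 4 [rh959c5c144c3e25cf, (rhff0f29cb645b05f7.shift 3 0)] (by decide +kernel))
noncomputable def rh22dcbc5fa97317d3 : CRef := CRef.mk (Pat.mk 0xf00000008000000000000000c00000000 0x180000000f00000008000000180000001c00000014 4 5) 0 0 (step_sound _ 67 [(rh932754581e0f4330.shift 2 0), rh98297410a639a85a] (by decide +kernel))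
noncomputable def rh8e36075d748a2b6b : CRef := CRef.mk (Pat.mk 0x40000000400000004000000050000000400000004 0x40000000c0000003e000000070000000600000004 4 6) 0 0 (step_sound _ 65 [rh1eeec04e73117746, (rh932754581e0f4330.shift 1 1)] (by decide +kernel))
noncomputable def rh7fe11f484215afaf : CRef := CRef.mk (Pat.mk 0x8000000080000000c0000000800000000 0x8000000080000000f0000007c00000010 4 7) 0 0 (step_sound _ 36 [(rh3c3e23a02e82b2ed.shift 0 1), (rh55afc6a59410cf00.shift 3 0)] (by decide +kernel))
noncomputable def rhfea49f007ffffe7c : CRef := CRef.mk (Pat.mk 0x800000008000000180000000800000000 0x800000008000000780000001f00000004 4 7) 0 0 (step_sound _ 34 [(rh69012675dfdb1a5b.shift 0 1), (rh932754581e0f4330.shift 2 0)] (by decide +kernel))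
noncomputable def rh1be51d055abc85b1 : CRef := CRef.mk (Pat.mk 0x1c0000000a0000000000000008 0x70000003e0000000b0000000800000008 4 6) 0 0 (step_sound _ 130 [(rh2b4d888fb0c67d76.shift 0 2), (rh9e07f76261b05888.shift 2 0)] (by decide +kernel))
noncomputable def rhfd0f5594b61bce04 : CRef := CRef.mk (Pat.mk 0x4000000000000000f000000020000000000000000 0x400000004000000040000000f0000001e0000000800000008 4 5) 0 0 (step_sound _ 67 [(rh3704215d5390e7fb.shift 1 0), (rhe25b0a99195a5d59.shift 0 2)] (by decide +kernel))
noncomputable def rhe81e43b7b0027fd6 : CRef := CRef.mk (Pat.mk 0x4000000000000000f000000020000000000000000 0x4000000040000000c0000000f0000001a0000000800000008 4 5) 0 0 (step_sound _ 67 [(rhd302a01a4e6865cd.shift 1 0), (rhe25b0a99195a5d59.shift 0 2)] (by decide +kernel))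
noncomputable def rhbe9d8361593f081c : CRef := CRef.mk (Pat.mk 0xa00000018000000180000000000000000 0x140000001f00000018000000180000000800000008 4 5) 0 0 (step_sound _ 130 [(rhb739f4f82bb681b4.shift 0 3), (rhe443475c6fff10d6.shift 2 0)] (by decide +kernel))
noncomputable def rhb9cf176211527f7d : CRef := CRef.mk (Pat.mk 0x4000000000000000f0000000800000000 0xc0000000c000000180000000f0000000c00000004 4 5) 0 0 (step_sound _ 99 [(rh33e738c4ed385b9f.shift 0 2), (rha52e0141694f1c7d.shift 2 0)] (by decide +kernel))
noncomputable def rh2d0ca3d96697dca1 : CRef := CRef.mk (Pat.mk 0x3f00000000 0x1c0000007f000000e0 4 8) 0 0 (step_sound _ 67 [(rh33e738c4ed385b9f.shift 0 1), (rh75c6fff53e4cbd6e.shift 2 0)] (by decide +kernel))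
noncomputable def rh953c1eac1a354c1a : CRef := CRef.mk (Pat.mk 0x40000000f000000020000000000000000 0x4000000040000000c0000000f0000001a0000000800000008 4 5) 0 0 (step_sound _ 67 [(rhe25b0a99195a5d59.shift 0 2), (rhf71cb1a94bedb48c.shift 1 0)] (by decide +kernel))
noncomputable def rh471ec7ad2e1ad0a3 : CRef := CRef.mk (Pat.mk 0x40000000f000000020000000000000000 0x400000004000000040000000f0000001e0000000800000008 4 5) 0 0 (step_sound _ 67 [(rh1b30fad02acc208f.shift 1 0), (rhe25b0a99195a5d59.shift 0 2)] (by decide +kernel))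
noncomputable def rhf69eab89e5fbfa83 : CRef := CRef.mk (Pat.mk 0x20000000e00000001 0x760000003e00000003 4 7) 0 0 (step_sound _ 36 [(rh790acd67f4fffd04.shift 1 1), rh80fcd6d0a18cb2dd] (by decide +kernel))
noncomputable def rh20553f44f3de3897 : CRef := CRef.mk (Pat.mk 0x700000009 0x380000001f0000001b 4 6) 0 0 (step_sound _ 35 [rhd584a578337d0023, rhe25b0a99195a5d59] (by decide +kernel))
noncomputable def rhb23a1b9289967029 : CRef := CRef.mk (Pat.mk 0x800000008000000090000000800000000 0x800000008000000080000000f0000001c00000014 4 5) 0 0 (step_sound _ 34 [rh2349c2e7487d5ee6, (rh932754581e0f4330.shift 2 0)] (by decide +kernel))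
noncomputable def rhb2de7aa0384527c8 : CRef := CRef.mk (Pat.mk 0x3800000014 0x70000003e00000036 4 6) 0 0 (step_sound _ 34 [rhd0782bcc7d08fb46, (rheb0810cc63b001d8.shift 1 0)] (by decide +kernel))
noncomputable def rh87ac23ce835a3079 : CRef := CRef.mk (Pat.mk 0x60000000200000000000000020000000000000000 0x4000000060000000600000002000000030000000300000001 4 3) 0 0 (step_sound _ 97 [(rh2f68792b6b779e96.shift 1 2), rha8bc3cae4d77a08f] (by decide +kernel))
noncomputable def rh547253f4ee65fcad : CRef := CRef.mk (Pat.mk 0x70000000200000000000000020000000000000000 0x1000000070000000600000002000000030000000300000001 4 3) 0 0 (step_sound _ 97 [(rh50fbb5868c909700.shift 0 2), rha8bc3cae4d77a08f] (by decide +kernel))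
noncomputable def rhdab812c509ef6ac1 : CRef := CRef.mk (Pat.mk 0x70000000b000000080000000800000000 0x180000001f0000000b000000180000001800000010 4 5) 0 0 (step_sound _ 131 [(rh18965a982d73c794.shift 0 3), rh98297410a639a85a] (by decide +kernel))
noncomputable def rh22f45baa268999d1 : CRef := CRef.mk (Pat.mk 0x380000001800000010 0x2000000020000000600000003f0000003f00000010 4 7) 0 0 (step_sound _ 66 [(rh94246470f0e6fdf7.shift 2 0), (rhb14e2588a8d71db8.shift 0 1)] (by decide +kernel))
noncomputable def rh1aae126fdb0efa1d : CRef := CRef.mk (Pat.mk 0x20000000e00000000 0x70000003e00000070 4 7) 0 0 (step_sound _ 36 [(rh3244c3cc8379b070.shift 0 1), (rh60e95adc726bb530.shift 1 0)] (by decide +kernel))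
noncomputable def rh23da68e164a4473d : CRef := CRef.mk (Pat.mk 0x40000000200000002000000020000000a00000002 0x4000000060000000200000002000000070000001e00000003 4 5) 0 0 (step_sound _ 161 [(rh2f68792b6b779e96.shift 1 2), rhacc68be93f66d467] (by decide +kernel))
noncomputable def rhb218dd012aa67386 : CRef := CRef.mk (Pat.mk 0x1000000020000000a0000001a0000000800000000 0x10000001b0000001e0000000a0000001a0000001800000010 4 5) 0 0 (step_sound _ 161 [(rh50fbb5868c909700.shift 0 2), rhcc8f9927b4dba1fd] (by decide +kernel))
noncomputable def rh525ceaec192631ff : CRef := CRef.mk (Pat.mk 0x10000000200000002000000020000000a00000002 0x1000000030000000200000002000000070000001e00000003 4 5) 0 0 (step_sound _ 161 [(rh50fbb5868c909700.shift 0 2), rhacc68be93f66d467] (by decide +kernel))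
noncomputable def rh034c2291f2766f19 : CRef := CRef.mk (Pat.mk 0x200000001000000030000000600000000 0x6000000060000000600000003000000030000000600000004 4 3) 0 0 (step_sound _ 97 [(rh55afc6a59410cf00.shift 1 0), (rh5fa50b509d4ce753.shift 0 1)] (by decide +kernel))
noncomputable def rh05bf8eb0369fa8bf : CRef := CRef.mk (Pat.mk 0x1c000000060000000c00000008 0x2000000330000001e0000000e0000000c00000008 4 6) 0 0 (step_sound _ 132 [(rh04253f50b6dd0619.shift 3 0), (rha91d406a344da597.shift 0 1)] (by decide +kernel))
noncomputable def rh6c6cc8f59caab3aa : CRef := CRef.mk (Pat.mk 0x3800000020 0x70000003e00000067 4 7) 0 0 (step_sound _ 34 [rh2cc7d62e70c02209, (rhe25b0a99195a5d59.shift 2 0)] (by decide +kernel))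
noncomputable def rhc8fd50c44a2112a0 : CRef := CRef.mk (Pat.mk 0x800000008000000280000000800000000 0x8000000080000007c0000000f00000004 4 7) 0 0 (step_sound _ 34 [(rh932754581e0f4330.shift 2 0), (rhe33d9496e10d8eb0.shift 0 1)] (by decide +kernel))
noncomputable def rh92b68440d0c2730d : CRef := CRef.mk (Pat.mk 0x70000000e000000080000000800000000 0x180000003f0000000f000000180000001800000010 4 6) 0 0 (step_sound _ 131 [(rh2612b4f73ba7c3b3.shift 0 3), (rh712526e472efe489.shift 1 1), rh98297410a639a85a] (by decide +kernel))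
noncomputable def rh25d80fb3e0f10f48 : CRef := CRef.mk (Pat.mk 0x700000008000000080000000800000000 0x180000000f00000018000000180000001800000010 4 5) 0 0 (step_sound _ 131 [rh98297410a639a85a, (rhe25b0a99195a5d59.shift 0 3)] (by decide +kernel))
noncomputable def rh9f0212359c7333ba : CRef := CRef.mk (Pat.mk 0x400000004000000140000001400000000 0x400000004000000040000001e0000003700000002 4 6) 0 0 (step_sound _ 33 [(rh3291a16da3e95ed8.shift 0 1), (rh932754581e0f4330.shift 1 0)] (by decide +kernel))
noncomputable def rha034a068234f65b1 : CRef := CRef.mk (Pat.mk 0x40000000200000002000000020000000a00000008 0x4000000060000000200000002000000070000000f00000018 4 5) 0 0 (step_sound _ 161 [rh18272e02605cb3e5, (rh2f68792b6b779e96.shift 1 2)] (by decide +kernel))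
noncomputable def rhb414a72a663b3c56 : CRef := CRef.mk (Pat.mk 0x10000000200000002000000020000000a00000008 0x1000000030000000200000002000000070000000f00000018 4 5) 0 0 (step_sound _ 161 [rh18272e02605cb3e5, (rh50fbb5868c909700.shift 0 2)] (by decide +kernel))
noncomputable def rh2e073d59c97b9182 : CRef := CRef.mk (Pat.mk 0x20000001c00000002 0x760000003e00000003 4 7) 0 0 (step_sound _ 37 [(rh3f8766e6ecb455ce.shift 1 1), rh969f3c6b06e87f8b] (by decide +kernel))
noncomputable def rh048783a900402b25 : CRef := CRef.mk (Pat.mk 0x20000001c00000002 0x60000003e00000073 4 7) 0 0 (step_sound _ 37 [(rh3f8766e6ecb455ce.shift 1 1), rh8c590dcbef2e4cc5] (by decide +kernel))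
noncomputable def rh50cd11c9ca068ca2 : CRef := CRef.mk (Pat.mk 0x1c0000000a 0x380000001f0000001b 4 6) 0 0 (step_sound _ 33 [rh89541de5a22835bc, rheb0810cc63b001d8] (by decide +kernel))
noncomputable def rh376b08d695d5e724 : CRef := CRef.mk (Pat.mk 0x200000000c0000001800000010 0x80000007c0000000f0000001800000010 4 7) 0 0 (step_sound _ 99 [(rh2145e1d24b96a57e.shift 3 0), (rhf0a78ffe77b34783.shift 0 1)] (by decide +kernel))
noncomputable def rh063ad6adbdce28ce : CRef := CRef.mk (Pat.mk 0x14000000160000001400000010 0x20000000b0000001e000000360000001400000010 4 6) 0 0 (step_sound _ 99 [(rh50fbb5868c909700.shift 3 0), (rhfe3b4040a5e9fe0b.shift 0 1)] (by decide +kernel))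
noncomputable def rh610d25f6b6ef2ba3 : CRef := CRef.mk (Pat.mk 0x1000000018000000060000000c00000008 0x2000000370000001e000000060000000c00000008 4 6) 0 0 (step_sound _ 98 [(rh2145e1d24b96a57e.shift 2 0), (rha91d406a344da597.shift 0 1)] (by decide +kernel))
noncomputable def rhddc546c4ff6e8fee : CRef := CRef.mk (Pat.mk 0x18000000030000000e0000000400000000 0x10000000180000000f0000000e0000003c00000010 4 6) 0 0 (step_sound _ 99 [(rh1c62b6193297d9e3.shift 0 3), (rh285e15fe8a0693b9.shift 1 0)] (by decide +kernel))
noncomputable def rh36eea9b8df2ca677 : CRef := CRef.mk (Pat.mk 0x800000009000000080000000800000000 0x140000001c0000000f000000080000000800000008 4 5) 0 0 (step_sound _ 130 [(rh50fbb5868c909700.shift 2 1), rh7f386d483b240640] (by decide +kernel))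
noncomputable def rh35adbd9f2ff9958a : CRef := CRef.mk (Pat.mk 0x1a0000001c00000008 0x4000000060000007f0000001c00000008 4 7) 0 0 (step_sound _ 66 [(rh0f936b2c74e7b815.shift 1 0), (rhb739f4f82bb681b4.shift 0 1)] (by decide +kernel))
noncomputable def rhbc5a29ce023d1fc7 : CRef := CRef.mk (Pat.mk 0xa000000030000000e00000004 0x40000000c0000001e000000070000000e0000000c 4 5) 0 0 (step_sound _ 98 [(rh18965a982d73c794.shift 0 2), (rh843bff6684423d9b.shift 1 0)] (by decide +kernel))
noncomputable def rhf4352fa3d803eb1c : CRef := CRef.mk (Pat.mk 0x40000001c0000001400000000 0x400000004000000040000001e0000003700000002 4 6) 0 0 (step_sound _ 65 [rhb91b7df0d06c1d96, (rhe25b0a99195a5d59.shift 1 1)] (by decide +kernel))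
noncomputable def rh7b1f2bd04e3db55f : CRef := CRef.mk (Pat.mk 0x70000000700000004 0x8000000080000001c0000001f0000000700000004 4 5) 0 0 (step_sound _ 67 [(rh18965a982d73c794.shift 0 1), rh49606a42a30c7ac4] (by decide +kernel))
noncomputable def rhd5fce4f469a53294 : CRef := CRef.mk (Pat.mk 0x20000000280000003800000020 0x40000000600000003f0000003c00000020 4 7) 0 0 (step_sound _ 102 [(rh2f68792b6b779e96.shift 5 0), (rhbe6166da57a5bb98.shift 0 1)] (by decide +kernel))
noncomputable def rh8c2882964e1b5136 : CRef := CRef.mk (Pat.mk 0x20000000200000002000000020000000200000002 0x400000006000000060000000300000003000000030000000200000002 4 3) 0 0 (step_sound _ 96 [rh50fbb5868c909700, (rh769be3fe24eee174.shift 0 2)] (by decide +kernel))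
noncomputable def rhc4a4df455b95b496 : CRef := CRef.mk (Pat.mk 0x60000001e00000008 0x10000000300000003e0000001f00000008 4 6) 0 0 (step_sound _ 68 [(rh33e738c4ed385b9f.shift 1 1), rhda9a6ac589d9ac52] (by decide +kernel))
noncomputable def rhf6c18e63454fa2cd : CRef := CRef.mk (Pat.mk 0x10000000180000001c0000001600000004 0x20000000320000001f0000001e0000001600000004 4 6) 0 0 (step_sound _ 133 [(rh2f68792b6b779e96.shift 4 1), rhc5dd75e340e3755b] (by decide +kernel))
noncomputable def rhd20ed55e5abec856 : CRef := CRef.mk (Pat.mk 0x400000003800000018 0x670000003f00000018 4 7) 0 0 (step_sound _ 34 [(rh428265de8cd3cd2d.shift 2 1), rhba89ab7cb81bcc90] (by decide +kernel))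
noncomputable def rh729a1e81c63887e1 : CRef := CRef.mk (Pat.mk 0x180000003c00000010 0x800000008000000180000003f00000017 4 6) 0 0 (step_sound _ 99 [(rh2145e1d24b96a57e.shift 3 0), rhcc2be1f880c5ea3e] (by decide +kernel))
noncomputable def rh3b734c5288922837 : CRef := CRef.mk (Pat.mk 0x200000002000000020000000200000000 0x4000000060000000600000002000000030000000300000001 4 3) 0 0 (step_sound _ 162 [rh43ae144440a96f18, (rhbaefcd01e0a8bca3.shift 1 1)] (by decide +kernel))
noncomputable def rhc6a82a08e2f3c827 : CRef := CRef.mk (Pat.mk 0xe00000004000000300000001000000000 0x100000001f0000003e000000f00000003000000020 4 8) 0 0 (step_sound _ 100 [(rh79dc0c3e8356dae3.shift 0 2), (rh9ebd639649ea671c.shift 1 2), (rha760027789299d62.shift 1 0)] (by decide +kernel))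
noncomputable def rh7eefefe30c484d3e : CRef := CRef.mk (Pat.mk 0x200000002000000060000000200000018 0x20000000200000002000000060000001f00000078 4 7) 0 0 (step_sound _ 34 [(rh2145e1d24b96a57e.shift 1 1), rh83ec37ff6e78b01f] (by decide +kernel))
noncomputable def rh7a2645c41de6bb59 : CRef := CRef.mk (Pat.mk 0x28000000280000006000000020 0x100000003c0000003f0000006000000020 4 7) 0 0 (step_sound _ 100 [(rh50fbb5868c909700.shift 4 0), (rh5e64ed83648ccede.shift 0 1)] (by decide +kernel))
noncomputable def rh45f8f920635501cc : CRef := CRef.mk (Pat.mk 0x60000000a0000001a0000000900000000 0xa0000000f0000001e0000001b0000001900000010 4 5) 0 0 (step_sound _ 64 [(rh5c5e593799055d58.shift 0 1), rhe4a366042fc12c92] (by decide +kernel))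
noncomputable def rh2af3b6b7d79f2d4f : CRef := CRef.mk (Pat.mk 0x1c000000020000000a00000018 0x30000001e000000030000000f00000019 4 5) 0 0 (step_sound _ 97 [rh292f408239aaddf7, (rheb0810cc63b001d8.shift 0 2)] (by decide +kernel))
noncomputable def rh4e963a2ca4ae7037 : CRef := CRef.mk (Pat.mk 0xa0000000a0000001800000008 0x40000000f0000003e0000003800000008 4 6) 0 0 (step_sound _ 98 [(rh50fbb5868c909700.shift 2 0), (rh75303cba528a2a56.shift 0 1)] (by decide +kernel))
noncomputable def rh6d3a2c23724e267f : CRef := CRef.mk (Pat.mk 0x80000002800000060 0x1f0000007c00000060 4 7) 0 0 (step_sound _ 36 [(rhb739f4f82bb681b4.shift 2 0), (rhf60aa8aede119d3b.shift 0 1)] (by decide +kernel))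
noncomputable def rh4aaae041d8b3d1a3 : CRef := CRef.mk (Pat.mk 0xf00000000000000300000001000000000 0x100000001f00000038000000300000003000000020 4 6) 0 0 (step_sound _ 100 [(rh96851dee118c1ba3.shift 0 3), (rha760027789299d62.shift 1 0)] (by decide +kernel))
noncomputable def rhc9b7a010d6829066 : CRef := CRef.mk (Pat.mk 0x2000000020000000300000000 0x1000000030000000300000002000000030000000300000001 4 2) 0 0 (step_sound _ 129 [rh932754581e0f4330, (rha54302d5ccf5246c.shift 0 1)] (by decide +kernel))
noncomputable def rhd383452b828ec997 : CRef := CRef.mk (Pat.mk 0x180000000800000008000000080000000000000008 0x800000008000000780000001f0000000c0000000c0000000800000008 4 7) 0 0 (step_sound _ 130 [(rh574fdbf07bdd18b9.shift 0 4), (rh5b9fd59b4c745572.shift 2 0)] (by decide +kernel))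
noncomputable def rh9e9bd7b29e46297f : CRef := CRef.mk (Pat.mk 0x2000000020000000200000002000000000000000200000000 0x400000006000000060000000200000002000000030000000300000001 4 3) 0 0 (step_sound _ 194 [(rh2f68792b6b779e96.shift 1 3), rh7a1fb9e9bbbefc11] (by decide +kernel))
noncomputable def rhecf4cf49642b1cf9 : CRef := CRef.mk (Pat.mk 0xc00000004000000040000000400000000 0x20000000f0000003c000000040000000400000004 4 6) 0 0 (step_sound _ 129 [(rh50fbb5868c909700.shift 1 1), rh9aef13a18dc2ca8c] (by decide +kernel))
noncomputable def rh73979d245a8d739c : CRef := CRef.mk (Pat.mk 0x20000000200000002000000020000000000000002 0x1000000070000000700000006000000020000000200000002 4 3) 0 0 (step_sound _ 160 [rh0cc9faf80a401ce3, (rh50fbb5868c909700.shift 0 2)] (by decide +kernel))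
noncomputable def rh80b1d53ec68947d7 : CRef := CRef.mk (Pat.mk 0x20000000200000002000000020000000200000018 0x20000000200000002000000060000001f00000078 4 7) 0 0 (step_sound _ 34 [rh83ec37ff6e78b01f, (rhd3458b32566d63f7.shift 1 1)] (by decide +kernel))
noncomputable def rh449b125e432019b6 : CRef := CRef.mk (Pat.mk 0x2000000020000000200000002000000000000000200000000 0x100000003000000030000000200000002000000030000000300000001 4 2) 0 0 (step_sound _ 192 [(rh50fbb5868c909700.shift 0 3), rh74c4b7a49b7d7017] (by decide +kernel))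
noncomputable def rh5957d29974596bf6 : CRef := CRef.mk (Pat.mk 0x800000008000000080000000c00000060 0x80000000800000008000000380000003f00000060 4 7) 0 0 (step_sound _ 36 [(rh292e135d17d1e2e1.shift 0 1), (rhd6e447e81774439e.shift 2 0)] (by decide +kernel))
noncomputable def rh9dcda93cb40518c6 : CRef := CRef.mk (Pat.mk 0xf0000000b0000000000000000 0x40000001c0000000f0000000f0000001800000018 4 5) 0 0 (step_sound _ 131 [(rh33e738c4ed385b9f.shift 0 3), rhb1cd999401f2b265] (by decide +kernel))
noncomputable def rh5b8ed3f93df90ce5 : CRef := CRef.mk (Pat.mk 0x200000002000000030000000200000002 0x6000000060000000700000003000000030000000200000002 4 3) 0 0 (step_sound _ 162 [rh0daa6b2fbb863075, (rhbaefcd01e0a8bca3.shift 1 1)] (by decide +kernel))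
noncomputable def rh39bac26a3afdee51 : CRef := CRef.mk (Pat.mk 0xa000000080000000800000008 0x40000000f0000007c0000000800000008 4 7) 0 0 (step_sound _ 98 [(rh50fbb5868c909700.shift 2 0), (rhc21a95c499b3efdb.shift 0 2)] (by decide +kernel))
noncomputable def rh78aec13dcd8fd007 : CRef := CRef.mk (Pat.mk 0x20000000600000002000000040000000000000000 0x60000000600000002000000070000000700000001 4 3) 0 0 (step_sound _ 65 [rh33032410a9908d45, (rh55afc6a59410cf00.shift 1 1)] (by decide +kernel))
noncomputable def rhbcf1b1e66d4bd72d : CRef := CRef.mk (Pat.mk 0x600000006000000000000000600000000 0x60000000600000006000000070000000700000001 4 3) 0 0 (step_sound _ 65 [(rh2f68792b6b779e96.shift 1 1), rhe9b180ab0bcbe42c] (by decide +kernel))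
noncomputable def rh7a1afe9117e9e650 : CRef := CRef.mk (Pat.mk 0x18000000180000001000000010 0x200000007c0000001f0000001000000010 4 7) 0 0 (step_sound _ 101 [(rh2820ca9a6c4f41b4.shift 0 2), (rh2f68792b6b779e96.shift 4 0)] (by decide +kernel))
noncomputable def rhfd68868dd6d945e5 : CRef := CRef.mk (Pat.mk 0x800000008000000180000003800000000 0x8000000080000001f0000003f00000004 4 6) 0 0 (step_sound _ 34 [(rh932754581e0f4330.shift 2 0), (rhbe5fc5902345a0b9.shift 0 1)] (by decide +kernel))
noncomputable def rhe4f8474fe4cda69b : CRef := CRef.mk (Pat.mk 0x1c000000080000001c00000010 0x600000007c0000001f0000007c00000010 4 7) 0 0 (step_sound _ 66 [(rh3694ccc47a1810b0.shift 2 0), (rh5c5a2014709044d0.shift 0 1), (rhe2b63c00a3d7bb73.shift 0 1)] (by decide +kernel))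
noncomputable def rh95a11121c361dd3c : CRef := CRef.mk (Pat.mk 0x600000007000000300000001000000000 0x100000001e0000001f000000300000003000000020 4 6) 0 0 (step_sound _ 100 [rh028e7a3a29ebd611, (rhc10214bf3fe8094a.shift 1 2)] (by decide +kernel))
noncomputable def rh56b1b4197d27d114 : CRef := CRef.mk (Pat.mk 0x1a0000001e0000000000000000 0x3000000030000001e0000001e0000000700000004 4 5) 0 0 (step_sound _ 33 [rhaaf1dc7285a08c48, (rheb0810cc63b001d8.shift 0 1)] (by decide +kernel))
noncomputable def rhe2d7daae1577d340 : CRef := CRef.mk (Pat.mk 0x8000000180000001800000000 0x80000000800000008000000380000001f00000004 4 6) 0 0 (step_sound _ 131 [(rh2145e1d24b96a57e.shift 3 1), rh6fae963f33cfdfd7] (by decide +kernel))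
noncomputable def rhc494ba6f81e020dc : CRef := CRef.mk (Pat.mk 0xa0000001e0000000000000004 0x80000000a0000000a0000001e0000000f00000004 4 5) 0 0 (step_sound _ 33 [(rh1c7e31de666bf50b.shift 1 0), (rheb0810cc63b001d8.shift 0 1)] (by decide +kernel))
noncomputable def rh6f98fbe6b3afe1f5 : CRef := CRef.mk (Pat.mk 0x6000000060000000000000006 0x10000000700000007000000060000000600000006 4 3) 0 0 (step_sound _ 33 [(rh2f68792b6b779e96.shift 1 0), rh3a1005f9c0462cb3] (by decide +kernel))
noncomputable def rh17933e796bc30d32 : CRef := CRef.mk (Pat.mk 0x1e0000000a000000080000000800000000 0x30000001e0000000e0000000e0000000c00000004 4 5) 0 0 (step_sound _ 34 [(rh932754581e0f4330.shift 2 0), (rhc1e84657de453407.shift 0 1)] (by decide +kernel))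
noncomputable def rh46a853abec03b753 : CRef := CRef.mk (Pat.mk 0x200000002000000000000000300000000 0x1000000030000000300000002000000030000000300000001 4 2) 0 0 (step_sound _ 65 [rh932754581e0f4330, (rhe62cab2ff5ad6fe2.shift 0 1)] (by decide +kernel))
noncomputable def rh25efc5d5a6c022ff : CRef := CRef.mk (Pat.mk 0x1e000000000000000000000004 0x30000001e000000070000000600000004 4 5) 0 0 (step_sound _ 65 [rhc1e84657de453407, (rheb0810cc63b001d8.shift 0 2)] (by decide +kernel))
noncomputable def rhbd69af06d9001ed4 : CRef := CRef.mk (Pat.mk 0x20000000200000012000000120000001a00000002 0x20000000200000006000000360000001f0000001a00000002 4 6) 0 0 (step_sound _ 98 [(rh2f68792b6b779e96.shift 1 0), (rh3883a51bd7c35ab8.shift 0 1)] (by decide +kernel))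
noncomputable def rh1ef944af1f768ca8 : CRef := CRef.mk (Pat.mk 0x12000000020000001800000008 0x300000001e0000001b0000001800000008 4 6) 0 0 (step_sound _ 132 [(rh3c88ce959c0e423f.shift 3 0), rh665dedd8fe90d789] (by decide +kernel))
noncomputable def rha20a018ab5d9955b : CRef := CRef.mk (Pat.mk 0x8000000070000000c0000000400000000 0x40000003c0000000f0000000c0000000c00000008 4 6) 0 0 (step_sound _ 132 [(rh143fa032a8455572.shift 1 0), (rh3fc040e777f1679e.shift 0 3)] (by decide +kernel))
noncomputable def rh8764409486284182 : CRef := CRef.mk (Pat.mk 0x20000001200000012000000020000000800000008 0x200000002000000120000003e0000000f0000000800000008 4 6) 0 0 (step_sound _ 99 [(rh04253f50b6dd0619.shift 3 0), (rh2af1833e51fc58d4.shift 0 2)] (by decide +kernel))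
noncomputable def rha0b9bdabe07a1148 : CRef := CRef.mk (Pat.mk 0x1000000002000000020000001800000008 0x300000001e0000001b0000001800000008 4 6) 0 0 (step_sound _ 100 [(rh3c88ce959c0e423f.shift 3 0), rh665dedd8fe90d789] (by decide +kernel))
noncomputable def rhad5f467b00db3efe : CRef := CRef.mk (Pat.mk 0x2000000020000000a0000001a00000002 0x60000000600000007000000030000000f0000001a00000002 4 5) 0 0 (step_sound _ 161 [rh1ef6dd4543725f7b, (rh44f453b84f013105.shift 1 1)] (by decide +kernel))
noncomputable def rh406f176c1f3ecae8 : CRef := CRef.mk (Pat.mk 0x20000000100000005000000050000000400000004 0x20000000f0000000d0000000d000000050000000400000004 4 4) 0 0 (step_sound _ 193 [(rh1006c02ae4212ff0.shift 0 2), (rh24d090426dde3b18.shift 1 0)] (by decide +kernel))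
noncomputable def rh1b6ab8b563b61c37 : CRef := CRef.mk (Pat.mk 0x2000000030000000a0000001a00000008 0x40000001e0000001b0000001a0000001a00000008 4 5) 0 0 (step_sound _ 130 [(rh2f68792b6b779e96.shift 1 1), rhf97a056a8e2dffdf] (by decide +kernel))
noncomputable def rh67e470e54af65d94 : CRef := CRef.mk (Pat.mk 0x20000000a0000001800000008 0x10000000330000001f0000001800000008 4 6) 0 0 (step_sound _ 66 [rh2103f37c1c4a3564, (rhb739f4f82bb681b4.shift 0 1)] (by decide +kernel))
noncomputable def rhfae57805eebd0b04 : CRef := CRef.mk (Pat.mk 0x200000002000000020000000a00000018 0x1000000030000000300000002000000030000000f00000018 4 5) 0 0 (step_sound _ 32 [rhc10214bf3fe8094a, (rhe62cab2ff5ad6fe2.shift 0 1)] (by decide +kernel))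
noncomputable def rh37153eeb4ce6ab62 : CRef := CRef.mk (Pat.mk 0x20000000a000000180000000800000000 0xc0000001e0000000f000000180000001800000010 4 5) 0 0 (step_sound _ 131 [(rh6644cf8a6ddd3771.shift 0 1), (rhd4b4beefcd67f51e.shift 3 0)] (by decide +kernel))
noncomputable def rh184c7d6def5da868 : CRef := CRef.mk (Pat.mk 0x8000000020000000a0000001800000000 0x8000000080000000b0000001f0000001800000010 4 5) 0 0 (step_sound _ 99 [(rh55afc6a59410cf00.shift 3 0), (rha546e699303278db.shift 0 1)] (by decide +kernel))
noncomputable def rhc3308e1e57f6856f : CRef := CRef.mk (Pat.mk 0x380000000800000028 0x780000000f0000007c 4 7) 0 0 (step_sound _ 34 [(rh18965a982d73c794.shift 2 1), rh8c25cb665ab79ec0] (by decide +kernel))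
noncomputable def rh1a4e756304dfd4cf : CRef := CRef.mk (Pat.mk 0x600000002000000080000001800000008 0x100000001e0000003b000000180000001800000018 4 6) 0 0 (step_sound _ 132 [(rh9a8c4a319e3e8680.shift 3 0), rhd7d11025448cd964, rhf70aeaf6b8255d0d] (by decide +kernel))
noncomputable def rhe576ca16cb2e680e : CRef := CRef.mk (Pat.mk 0x70000000c0000000400000000 0xc0000003e000000070000000c0000000c00000008 4 6) 0 0 (step_sound _ 130 [(rh1eeec04e73117746.shift 0 1), (rhd4b4beefcd67f51e.shift 2 0)] (by decide +kernel))
noncomputable def rha3bc93d59a5021b5 : CRef := CRef.mk (Pat.mk 0xf000000000000001000000010 0x300000003f000000380000001000000010 4 6) 0 0 (step_sound _ 68 [(rh96851dee118c1ba3.shift 0 2), (rheb90acdf362e49d3.shift 1 0)] (by decide +kernel))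
noncomputable def rhcfc1e46168ba8b3c : CRef := CRef.mk (Pat.mk 0xb0000000f0000000000000000 0x18000000180000000f0000000f0000001c00000004 4 5) 0 0 (step_sound _ 35 [rh79a2cce65bf4035c, (rhe25b0a99195a5d59.shift 0 1)] (by decide +kernel))
noncomputable def rh0b1bf4264049ea13 : CRef := CRef.mk (Pat.mk 0x80000000d0000000800000000 0x100000001000000010000000180000001f0000000800000008 4 5) 0 0 (step_sound _ 100 [(rh24ae073cf30720c4.shift 0 2), (rhb730ba14aa32bdb3.shift 3 0)] (by decide +kernel))
noncomputable def rhff9088ea106d0623 : CRef := CRef.mk (Pat.mk 0x200000002000000020000000f00000000 0x40000000600000006000000060000000f0000001a 4 5) 0 0 (step_sound _ 130 [rh24693ba268d27e4f, (rh2f68792b6b779e96.shift 1 1)] (by decide +kernel))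
noncomputable def rh3b0e71f32745a969 : CRef := CRef.mk (Pat.mk 0x400000008000000030000000700000000 0x40000000c0000001b0000001f00000018 4 5) 0 0 (step_sound _ 35 [rh6a69f092a00ca734, (rhf48373e13d2bc128.shift 0 1)] (by decide +kernel))
noncomputable def rh0e5c69f89d75ac1b : CRef := CRef.mk (Pat.mk 0xb0000000f00000004 0x18000000180000000f0000000f0000001c 4 5) 0 0 (step_sound _ 99 [(rh5c5e593799055d58.shift 2 0), rh63821641ca6fcacd] (by decide +kernel))
noncomputable def rh194b467550bfb614 : CRef := CRef.mk (Pat.mk 0x1e000000180000001000000000 0x300000001e0000001f0000003000000020 4 6) 0 0 (step_sound _ 132 [(rh33e738c4ed385b9f.shift 1 3), rhc1307820daa2ac22] (by decide +kernel))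
noncomputable def rh329833e8e1a2aac2 : CRef := CRef.mk (Pat.mk 0x2000000070000000600000004 0x8000000080000001f0000003f0000000600000004 4 6) 0 0 (step_sound _ 67 [rh49606a42a30c7ac4, (rhb762f327c85d41a0.shift 0 1)] (by decide +kernel))
noncomputable def rhde939a7b51e734f8 : CRef := CRef.mk (Pat.mk 0x70000000600000004 0x8000000080000001c0000003f0000000700000004 4 6) 0 0 (step_sound _ 67 [(rh2612b4f73ba7c3b3.shift 0 1), rh49606a42a30c7ac4] (by decide +kernel))
noncomputable def rh2ad3660c44d24f65 : CRef := CRef.mk (Pat.mk 0x180000003800000020 0x1f0000003f00000060 4 7) 0 0 (step_sound _ 65 [rh95ce53963b10250e, (rhab22b5b56e7b3243.shift 1 1)] (by decide +kernel))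
noncomputable def rha27da208e97a072a : CRef := CRef.mk (Pat.mk 0x380000001a0000000000000008 0x70000003f0000001b0000000800000008 4 6) 0 0 (step_sound _ 98 [(rh0da3f8d18d3a0dfd.shift 1 0), (rh710860539a4c4362.shift 0 2), (rhba89ab7cb81bcc90.shift 0 2)] (by decide +kernel))
noncomputable def rh68da57567b86e05e : CRef := CRef.mk (Pat.mk 0x4000000000000001e00000004 0x600000006000000030000001e00000007 4 5) 0 0 (step_sound _ 1 [rhc6719c6594e47b00, rheb0810cc63b001d8] (by decide +kernel))
noncomputable def rh51221c4dce63f932 : CRef := CRef.mk (Pat.mk 0x400000002000000060000000400000002 0x70000000700000003000000060000000600000002 4 3) 0 0 (step_sound _ 129 [(rh2145e1d24b96a57e.shift 1 1), rh6dfc19d8fb05b5e5] (by decide +kernel))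
noncomputable def rh675eb0a114259074 : CRef := CRef.mk (Pat.mk 0x8000000180000001800000008 0x140000001f000000380000001800000008 4 6) 0 0 (step_sound _ 100 [(rh5c5e593799055d58.shift 3 0), rhc647a25a08ddf0ec] (by decide +kernel))
noncomputable def rh874a213df268dd65 : CRef := CRef.mk (Pat.mk 0x1e0000000e00000008 0x600000006000000070000001e0000000e00000008 4 5) 0 0 (step_sound _ 130 [(rh6f1cbe15c631ee70.shift 2 0), (rhc6719c6594e47b00.shift 0 1)] (by decide +kernel))
noncomputable def rh28733be19412e815 : CRef := CRef.mk (Pat.mk 0x140000001600000004 0x2000000030000003e0000003600000004 4 6) 0 0 (step_sound _ 67 [(rh18965a982d73c794.shift 1 1), rhfe3b4040a5e9fe0b] (by decide +kernel))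
noncomputable def rhc4aee0ebd1246d59 : CRef := CRef.mk (Pat.mk 0x160000000c00000008 0x1000000010000000380000003e0000000f00000008 4 6) 0 0 (step_sound _ 67 [(rh49606a42a30c7ac4.shift 1 0), (rhaf9f2efc81a8312b.shift 0 1)] (by decide +kernel))
noncomputable def rh266d83a60854cf08 : CRef := CRef.mk (Pat.mk 0xa0000000b0000000e0000000400000000 0x40000001e0000000b0000000e0000003c00000010 4 6) 0 0 (step_sound _ 130 [(rh18965a982d73c794.shift 0 3), (rhb7aea7a74bead576.shift 1 0)] (by decide +kernel))
noncomputable def rhef33699dcf79f994 : CRef := CRef.mk (Pat.mk 0x1000000014000000060000000c00000008 0x2000000330000001e0000000e0000000c00000008 4 6) 0 0 (step_sound _ 99 [(rh04253f50b6dd0619.shift 3 0), (rha91d406a344da597.shift 0 1)] (by decide +kernel))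
noncomputable def rh8b6638b1049ebf20 : CRef := CRef.mk (Pat.mk 0xa000000030000000c0000000400000000 0xc0000001e000000070000000c0000000c00000008 4 5) 0 0 (step_sound _ 130 [(rh18965a982d73c794.shift 0 3), (rh368871123aeae58d.shift 2 0)] (by decide +kernel))
noncomputable def rha7629e526a82f635 : CRef := CRef.mk (Pat.mk 0x14000000060000001800000008 0x10000000370000003e0000001800000008 4 6) 0 0 (step_sound _ 68 [(rh5c5e593799055d58.shift 3 0), (rh6a8fbe22e34a927e.shift 0 2)] (by decide +kernel))
noncomputable def rh1aa6872d24f2424f : CRef := CRef.mk (Pat.mk 0x8000000190000001800000008 0x140000001f0000001b0000001800000008 4 5) 0 0 (step_sound _ 100 [(rh5c5e593799055d58.shift 3 0), rh8247a427a0af2047] (by decide +kernel))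
noncomputable def rh23426a3c71018ba6 : CRef := CRef.mk (Pat.mk 0x7000000060000000c00000008 0x8000000380000003f0000003e0000000c00000008 4 6) 0 0 (step_sound _ 99 [(rh06e62c5072b6268e.shift 0 2), rh0a99f68e6dd29c1a, (rh226655e3fe6b4a8a.shift 0 2), (rha4c5bcb51a1da0a7.shift 0 1)] (by decide +kernel))
noncomputable def rh1e635b8b083a169d : CRef := CRef.mk (Pat.mk 0x1e0000001800000014 0x2000000030000001e0000001f00000034 4 6) 0 0 (step_sound _ 33 [rh9846aa5fdf3b48e0, (rheb0810cc63b001d8.shift 0 1)] (by decide +kernel))
noncomputable def rh6d45587e34dd4b63 : CRef := CRef.mk (Pat.mk 0x30000000180000001c000000180000001000000000 0x300000001f0000001e0000001f0000003000000020 4 6) 0 0 (step_sound _ 65 [(rh2d65c91b9f714cee.shift 1 0), (rh39f426ebe0691969.shift 0 1), (rhe22850225cacc49d.shift 0 2)] (by decide +kernel))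
noncomputable def rh803d662a23946203 : CRef := CRef.mk (Pat.mk 0xe0000000c00000008 0x1000000010000000780000007e0000000f00000008 4 7) 0 0 (step_sound _ 68 [(rh226655e3fe6b4a8a.shift 1 1), (rh49606a42a30c7ac4.shift 1 0), (rhaf9f2efc81a8312b.shift 0 1)] (by decide +kernel))
noncomputable def rh98bfe017ab5fead7 : CRef := CRef.mk (Pat.mk 0x180000001e00000008 0x10000000300000001f0000003e00000008 4 6) 0 0 (step_sound _ 65 [(rh3244c3cc8379b070.shift 0 1), (rhf38981051e3cd751.shift 1 0)] (by decide +kernel))
noncomputable def rhaea53370f4d32c68 : CRef := CRef.mk (Pat.mk 0x180000001e0000000000000004 0x30000001f0000003e0000000400000004 4 6) 0 0 (step_sound _ 97 [rh068ee44ab489816d, (rh3244c3cc8379b070.shift 0 2)] (by decide +kernel))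
noncomputable def rh38b2ba8923e3c1fc : CRef := CRef.mk (Pat.mk 0x1e0000001800000010 0x300000003e0000001f00000030 4 6) 0 0 (step_sound _ 100 [(rh33e738c4ed385b9f.shift 1 2), rhc31b6f966e0d7e89] (by decide +kernel))
noncomputable def rhda6245e74943428a : CRef := CRef.mk (Pat.mk 0x1000000006000000180000000800000000 0x18000000180000000f000000180000001800000010 4 5) 0 0 (step_sound _ 99 [(rh4dec404a6c0e229a.shift 3 0), (rhb739f4f82bb681b4.shift 0 2)] (by decide +kernel))
noncomputable def rh2dbb87262884a238 : CRef := CRef.mk (Pat.mk 0x20000000700000008 0x3b0000001f00000018 4 6) 0 0 (step_sound _ 35 [(rhb6f72982232a8164.shift 0 1), rhe25b0a99195a5d59] (by decide +kernel))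
noncomputable def rh328d79551216c3a2 : CRef := CRef.mk (Pat.mk 0x200000000c0000001800000010 0x80000007c0000000f0000001800000010 4 7) 0 0 (step_sound _ 99 [(rh2145e1d24b96a57e.shift 3 0), (rhe33d9496e10d8eb0.shift 0 2)] (by decide +kernel))
noncomputable def rh3c51fbac64b50616 : CRef := CRef.mk (Pat.mk 0x40000003000000014 0x1f0000007e00000076 4 7) 0 0 (step_sound _ 35 [(rh8c12fdbbddc1e7ab.shift 0 1), (rhd526f9b20c752965.shift 1 0)] (by decide +kernel))
noncomputable def rh9e2ed3f70650ed9a : CRef := CRef.mk (Pat.mk 0x80000000a0000000a0000001800000008 0x8000000180000001e0000003b0000001800000008 4 6) 0 0 (step_sound _ 100 [(rh08b11757028b735c.shift 0 1), (rh2f68792b6b779e96.shift 3 0)] (by decide +kernel))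
noncomputable def rh604185c8e904d4d8 : CRef := CRef.mk (Pat.mk 0x80000000a0000001800000008 0x100000007c0000000f0000001800000008 4 7) 0 0 (step_sound _ 66 [(rh1eeec04e73117746.shift 1 0), (rhb739f4f82bb681b4.shift 0 1)] (by decide +kernel))
noncomputable def rh6b49c384df38419b : CRef := CRef.mk (Pat.mk 0x10000000100000001000000010000000000000000 0x2000000030000000300000001000000030000000300000002 4 2) 0 0 (step_sound _ 33 [rh209ed1dd068a3ceb, (rhd3458b32566d63f7.shift 0 1)] (by decide +kernel))
noncomputable def rh0593f92d4e40d456 : CRef := CRef.mk (Pat.mk 0x200000018000000180000000800000000 0x180000001f00000038000000180000001800000010 4 6) 0 0 (step_sound _ 132 [(rh5c5e593799055d58.shift 3 1), rh5f768b5b6c500018] (by decide +kernel))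
noncomputable def rhf7f93c5bcb3c6a1c : CRef := CRef.mk (Pat.mk 0xa0000000a0000000800000008 0x100000001f0000003b0000000800000008 4 6) 0 0 (step_sound _ 100 [(rh2f68792b6b779e96.shift 3 0), (rhe32601bd65ae7334.shift 0 2)] (by decide +kernel))
noncomputable def rh833981c53763488b : CRef := CRef.mk (Pat.mk 0x1800000008000000380000000000000000 0x1000000018000000080000003c0000000f00000004 4 6) 0 0 (step_sound _ 35 [(rh2f68792b6b779e96.shift 3 1), rh322e79f034282812] (by decide +kernel))
noncomputable def rh65883200adaecae6 : CRef := CRef.mk (Pat.mk 0x2000000060000000a00000003 0x60000000600000006000000060000001e00000003 4 5) 0 0 (step_sound _ 34 [rh18965a982d73c794, (rh2ddd6c94c59240f8.shift 1 0)] (by decide +kernel))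
noncomputable def rh8b45a73eaadf2a53 : CRef := CRef.mk (Pat.mk 0x2000000030000000600000000 0x1000000030000000300000002000000030000000700000004 4 3) 0 0 (step_sound _ 129 [(rh55afc6a59410cf00.shift 1 0), (rha77f215723363df0.shift 0 1)] (by decide +kernel))
noncomputable def rh7a3fcd4672601a44 : CRef := CRef.mk (Pat.mk 0x60000000a 0x1f0000007e 4 7) 0 0 (step_sound _ 4 [(rh368dc3085932390d.shift 1 0), rh43cbe8b40a1a7398, rh5db08fca7648325c, rh83ec37ff6e78b01f] (by decide +kernel))
noncomputable def rh507c5779b6f84b86 : CRef := CRef.mk (Pat.mk 0x8000000180000000800000008 0x40000001f000000780000000800000008 4 7) 0 0 (step_sound _ 98 [(rh50fbb5868c909700.shift 2 0), (rh5c5a2014709044d0.shift 0 2)] (by decide +kernel))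
noncomputable def rha4cfe280fdbbd856 : CRef := CRef.mk (Pat.mk 0x1000000160000000c 0x30000007e0000007c 4 7) 0 0 (step_sound _ 35 [(rh3f8766e6ecb455ce.shift 0 1), (rhf5e124ec5c58a2dd.shift 1 0)] (by decide +kernel))
noncomputable def rh75a8828f210a78cf : CRef := CRef.mk (Pat.mk 0xf0000000600000000 0x800000008000000180000000f0000001e00000004 4 5) 0 0 (step_sound _ 35 [rh5ba2d67652840f34, (rhf48373e13d2bc128.shift 0 1)] (by decide +kernel))
noncomputable def rh9a530ec5f80b3a0c : CRef := CRef.mk (Pat.mk 0x1000000020000000200000002000000020000000200000000 0x300000003000000020000000600000006000000060000000200000002 4 3) 0 0 (step_sound _ 193 [(rh063064641e383404.shift 1 0), (rh50fbb5868c909700.shift 0 3)] (by decide +kernel))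
noncomputable def rhd04778868a4a2f1d : CRef := CRef.mk (Pat.mk 0x40000000600000007000000000000000000000000 0x600000006000000070000003e0000000c0000000c 4 6) 0 0 (step_sound _ 66 [(rh3cb04db3dd2b6a55.shift 1 0), (rh820d4e04d5dcd02e.shift 1 0), (rhb0c6196f710d9a93.shift 0 1)] (by decide +kernel))
noncomputable def rhd2f81451d7df0686 : CRef := CRef.mk (Pat.mk 0x80000000b0000000800000000 0x100000001000000010000000180000001f0000000800000008 4 5) 0 0 (step_sound _ 100 [(rh1c62b6193297d9e3.shift 0 2), (rhb730ba14aa32bdb3.shift 3 0)] (by decide +kernel))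
noncomputable def rheaf8d76d5f1e6253 : CRef := CRef.mk (Pat.mk 0x80000000c000000080000000b0000000800000000 0x800000008000000080000000c0000001e0000001b0000000800000008 4 5) 0 0 (step_sound _ 98 [(rh7b1f1fb55310c477.shift 2 0), (rhc1458aadd8a69321.shift 0 2)] (by decide +kernel))
noncomputable def rh18438455e42391e4 : CRef := CRef.mk (Pat.mk 0x40000000800000008000000080000000800000003 0x40000000c00000008000000080000000c0000001e00000013 4 5) 0 0 (step_sound _ 163 [rh3839719a7153863b, (rh50fbb5868c909700.shift 2 2)] (by decide +kernel))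
noncomputable def rhf789a784ed3897da : CRef := CRef.mk (Pat.mk 0x180000001600000004 0x2000000030000003e0000003600000004 4 6) 0 0 (step_sound _ 66 [(rh18965a982d73c794.shift 1 1), rhfe3b4040a5e9fe0b] (by decide +kernel))
noncomputable def rh6f775f978862c9e7 : CRef := CRef.mk (Pat.mk 0x1000000160000000c 0x730000007e0000000c 4 7) 0 0 (step_sound _ 35 [(rh226655e3fe6b4a8a.shift 1 0), (rh3f8766e6ecb455ce.shift 0 1)] (by decide +kernel))
noncomputable def rhbf1c1533caebba13 : CRef := CRef.mk (Pat.mk 0x60000001e00000004 0x2000000030000003e0000001f00000004 4 6) 0 0 (step_sound _ 68 [(rh33e738c4ed385b9f.shift 1 1), rhe919bb326ebbc4a3] (by decide +kernel))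
noncomputable def rh19ccc014c0420082 : CRef := CRef.mk (Pat.mk 0x40000001e0000000400000000 0x400000004000000070000001e0000000700000002 4 5) 0 0 (step_sound _ 97 [(rh3244c3cc8379b070.shift 0 2), rhb91b7df0d06c1d96] (by decide +kernel))
noncomputable def rhe7a001aee0fd70f7 : CRef := CRef.mk (Pat.mk 0xc000000040000001e00000008 0x100000003c000000370000001e00000008 4 6) 0 0 (step_sound _ 65 [(rh3244c3cc8379b070.shift 0 1), (rheaeb99d0e7415dec.shift 1 0)] (by decide +kernel))
noncomputable def rh593418e9f3144df7 : CRef := CRef.mk (Pat.mk 0x8000000040000000e0000001c 0x1800000018000000770000007e0000001c 4 7) 0 0 (step_sound _ 36 [(rh4d8d614e03a7f6ad.shift 1 0), (rh9462503d16fc4086.shift 1 0), (rhe3060b190bc0bc78.shift 0 1)] (by decide +kernel))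
noncomputable def rh806f9faf6621977e : CRef := CRef.mk (Pat.mk 0x2000000040000000c00000014 0x600000006000000040000000f0000003c 4 6) 0 0 (step_sound _ 98 [(rh50fbb5868c909700.shift 1 0), rhebdccd86670bfd85] (by decide +kernel))
noncomputable def rh79822379bae619ed : CRef := CRef.mk (Pat.mk 0x40000001a0000001e00000000 0x50000000f0000001a0000001e00000003 4 5) 0 0 (step_sound _ 1 [rhdb21470238c38fba, rheb0810cc63b001d8] (by decide +kernel))
noncomputable def rh9c6bd04cb14fe0f6 : CRef := CRef.mk (Pat.mk 0x3000000160000001e00000008 0x60000001e00000013000000160000001e00000008 4 5) 0 0 (step_sound _ 129 [(rh2145e1d24b96a57e.shift 1 1), rh98a4fcaada74e41f] (by decide +kernel))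
noncomputable def rh81a928e81d06462b : CRef := CRef.mk (Pat.mk 0x7000000030000000a 0x1f0000001f0000001e 4 5) 0 0 (step_sound _ 67 [(rh18965a982d73c794.shift 0 1), rh944e4ef5361e847d] (by decide +kernel))
noncomputable def rhe2eb0a50aadda6f9 : CRef := CRef.mk (Pat.mk 0x10000000200000002000000020000000a 0x1000000030000000200000002000000070000001f 4 5) 0 0 (step_sound _ 129 [(rh50fbb5868c909700.shift 0 1), rhec05b2065587e384] (by decide +kernel))
noncomputable def rhd1414b9ef45fe3fe : CRef := CRef.mk (Pat.mk 0x30000000600000000000000020000000e00000008 0x30000001e00000010000000330000001e00000008 4 6) 0 0 (step_sound _ 132 [rh19e5f56d985be461, (rh2fe78cc5ca4405d8.shift 0 4)] (by decide +kernel))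
noncomputable def rh5aaeddc16230f4fe : CRef := CRef.mk (Pat.mk 0x1000000000000000000000000e00000008 0x100000001000000018000000780000001f00000008 4 7) 0 0 (step_sound _ 68 [(rh481f8e6e6b31660c.shift 1 0), (rh9578164826709400.shift 0 1), rhee7c10a10b006fee] (by decide +kernel))
noncomputable def rhd458d07fa484bcd2 : CRef := CRef.mk (Pat.mk 0x40000000200000002000000020000000a 0x4000000060000000200000002000000070000001f 4 5) 0 0 (step_sound _ 129 [(rh2f68792b6b779e96.shift 1 1), rhec05b2065587e384] (by decide +kernel))
noncomputable def rha0b04f397db42cda : CRef := CRef.mk (Pat.mk 0x600000003000000000000000f00000008 0x1e00000013000000380000001f00000008 4 6) 0 0 (step_sound _ 68 [(rh428265de8cd3cd2d.shift 0 1), rh81ecab98b92ed1f6] (by decide +kernel))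
noncomputable def rh65848b46e3dc871b : CRef := CRef.mk (Pat.mk 0x80000000b0000000c00000008 0xc0000000c0000001c0000000f0000000c00000008 4 5) 0 0 (step_sound _ 66 [(rh33e738c4ed385b9f.shift 0 2), (rh7f9f3607ee25a93b.shift 2 0)] (by decide +kernel))
noncomputable def rh6476b97e3c9feb9f : CRef := CRef.mk (Pat.mk 0x40000000200000002000000020000000200000002 0x6000000060000000300000003000000030000000300000002 4 3) 0 0 (step_sound _ 161 [rh1bcc0ee4b9efe8d2, (rh2f68792b6b779e96.shift 1 2)] (by decide +kernel))
noncomputable def rhed662ff20e622044 : CRef := CRef.mk (Pat.mk 0x60000000f0000000500000000 0x600000006000000060000000f0000001d00000008 4 5) 0 0 (step_sound _ 129 [(rh5c5e593799055d58.shift 0 1), rhee51f1a3336931e1] (by decide +kernel))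
noncomputable def rh7bc3824673bba745 : CRef := CRef.mk (Pat.mk 0x1e0000001000000010 0x3f0000001f00000030 4 6) 0 0 (step_sound _ 33 [rh6ca1648626227d49, (rheb0810cc63b001d8.shift 0 1)] (by decide +kernel))
noncomputable def rh9aa138e5ed752369 : CRef := CRef.mk (Pat.mk 0x1e0000000000000004 0x2000000030000003e0000000700000004 4 6) 0 0 (step_sound _ 33 [rhbdda9243307dd9ea, (rheb0810cc63b001d8.shift 0 1)] (by decide +kernel))
noncomputable def rh1cd2404d2bb7c086 : CRef := CRef.mk (Pat.mk 0x80000001e000000180000000200000000 0x80000001e0000001f0000003300000010 4 6) 0 0 (step_sound _ 36 [(rh7b1f1fb55310c477.shift 3 0), (rhaf17eb84a3b16ad2.shift 0 1)] (by decide +kernel))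
noncomputable def rh6f235c76ee6d9186 : CRef := CRef.mk (Pat.mk 0x400000007000000040000000400000000 0x400000004000000070000003e0000000c00000008 4 6) 0 0 (step_sound _ 35 [(rh55afc6a59410cf00.shift 2 0), (rhe9d8323f401b0a0c.shift 0 1)] (by decide +kernel))
noncomputable def rh0c63d046cfc0f45c : CRef := CRef.mk (Pat.mk 0x20000001600000000 0x70000003e00000070 4 7) 0 0 (step_sound _ 35 [(rh2aac33c566332a8c.shift 1 0), (rh3244c3cc8379b070.shift 0 1)] (by decide +kernel))
noncomputable def rh70083afbf2722603 : CRef := CRef.mk (Pat.mk 0x1e00000002000000020000000200000000 0x190000003f00000006000000060000000600000004 4 6) 0 0 (step_sound _ 163 [(rh179e624571f4ff6c.shift 1 0), (rh4d4e586abdf65d17.shift 0 1)] (by decide +kernel))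
noncomputable def rh3e6d2e198e88a2d4 : CRef := CRef.mk (Pat.mk 0x10000000200000002000000020000000a0000000200000000 0x1000000030000000200000002000000060000001e0000000300000001 4 5) 0 0 (step_sound _ 193 [(rh50fbb5868c909700.shift 0 3), rh639f5a7496b5499a] (by decide +kernel))
noncomputable def rhc601b8c9b1e8fe0b : CRef := CRef.mk (Pat.mk 0x4000000020000001200000006 0x600000006000000030000003e00000006 4 6) 0 0 (step_sound _ 97 [(rh2f68792b6b779e96.shift 1 0), rhb008b0c579a72809] (by decide +kernel))
noncomputable def rh7d8ccc826229a3f7 : CRef := CRef.mk (Pat.mk 0x20000001a0000001a0000000a00000000 0xc0000000f0000001a0000001a0000001a00000010 4 5) 0 0 (step_sound _ 130 [(rh2f68792b6b779e96.shift 1 1), rh95357342a275579b] (by decide +kernel))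
noncomputable def rhad434d0808e90885 : CRef := CRef.mk (Pat.mk 0x1200000012000000100000001000000000 0x80000001b0000001e000000300000001000000010 4 6) 0 0 (step_sound _ 131 [(rh50fbb5868c909700.shift 3 1), rh92d4adfdf411a98a] (by decide +kernel))
noncomputable def rhdb08ad564569d430 : CRef := CRef.mk (Pat.mk 0xb000000090000000800000000 0x140000001f0000001b0000000800000008 4 5) 0 0 (step_sound _ 98 [rh78873c55a128b31f, (rhe25b0a99195a5d59.shift 0 2)] (by decide +kernel))
noncomputable def rh39eff5bd0fc16dce : CRef := CRef.mk (Pat.mk 0x800000018000000060000000600000000 0x8000000180000003f0000003600000010 4 6) 0 0 (step_sound _ 67 [(rh53b3c253cb0c65f4.shift 0 2), (rhdb169b9728d937df.shift 1 0)] (by decide +kernel))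
noncomputable def rhb3ef9d30c867ac53 : CRef := CRef.mk (Pat.mk 0x10000000d0000000100000001 0x20000000f0000003f0000000100000001 4 6) 0 0 (step_sound _ 97 [rh2f68792b6b779e96, (rh368dc3085932390d.shift 0 2)] (by decide +kernel))
noncomputable def rhfbcc9ef56fb26c14 : CRef := CRef.mk (Pat.mk 0x20000001a0000000a0000000a 0x140000001f0000003a0000000a0000000a 4 6) 0 0 (step_sound _ 98 [(rh2f68792b6b779e96.shift 1 0), rh924247b13d4870c5] (by decide +kernel))
noncomputable def rh07b5a2edd6549fcd : CRef := CRef.mk (Pat.mk 0x20000001a0000000800000008 0x10000000100000003b0000001e0000000800000008 4 6) 0 0 (step_sound _ 66 [(rh3244c3cc8379b070.shift 0 2), (rh49606a42a30c7ac4.shift 1 0)] (by decide +kernel))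
noncomputable def rh4dce03330da63bae : CRef := CRef.mk (Pat.mk 0x20000001a0000000800000008 0x10000000330000001e0000003800000008 4 6) 0 0 (step_sound _ 66 [(rh3244c3cc8379b070.shift 0 2), (rhbbda3e5cf400e6dd.shift 1 0)] (by decide +kernel))
noncomputable def rh26d74deb9636eb38 : CRef := CRef.mk (Pat.mk 0x10000000d0000000500000004 0x8000000080000001f0000001f0000000700000004 4 5) 0 0 (step_sound _ 99 [(rhbfb5770941270498.shift 2 0), (rhc6913a8a85547f10.shift 0 1)] (by decide +kernel))
noncomputable def rhf8fdd0e9b29ba2bc : CRef := CRef.mk (Pat.mk 0x300000002000000000000001e00000018 0x1b0000001e000000300000001e00000018 4 6) 0 0 (step_sound _ 68 [(rh33e738c4ed385b9f.shift 1 1), rh7716f6817108179d] (by decide +kernel))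
noncomputable def rh42f75cf4fd72aafe : CRef := CRef.mk (Pat.mk 0x20000000200000002000000020000000a00000008 0x20000000200000002000000060000001f00000078 4 7) 0 0 (step_sound _ 34 [rh8ee80cc30e93a344, (rhd3458b32566d63f7.shift 1 1)] (by decide +kernel))
noncomputable def rh60044f2725980ceb : CRef := CRef.mk (Pat.mk 0x1200000012000000100000001000000000 0x80000003b0000001e000000100000001000000010 4 6) 0 0 (step_sound _ 131 [(rh50fbb5868c909700.shift 3 1), rha500528c73c4c93d] (by decide +kernel))
noncomputable def rhe368ba9a78aa4ce6 : CRef := CRef.mk (Pat.mk 0x160000000a00000008 0x1000000010000000380000001e0000000b00000008 4 6) 0 0 (step_sound _ 67 [(rh49606a42a30c7ac4.shift 1 0), (rheb0810cc63b001d8.shift 0 1)] (by decide +kernel))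
noncomputable def rhb35e66efa75d67a8 : CRef := CRef.mk (Pat.mk 0x2000000020000000300000004 0x1000000030000000300000002000000030000000700000004 4 3) 0 0 (step_sound _ 129 [(rhd3458b32566d63f7.shift 1 0), (rhe62cab2ff5ad6fe2.shift 0 1)] (by decide +kernel))
noncomputable def rh63665d28061a121c : CRef := CRef.mk (Pat.mk 0x1e000000000000000000000004 0x30000003e000000070000000400000004 4 6) 0 0 (step_sound _ 65 [rh419a4a553e54f4ed, (rheb0810cc63b001d8.shift 0 2)] (by decide +kernel))
noncomputable def rh84a837aeb347ce73 : CRef := CRef.mk (Pat.mk 0x18000000100000007800000008 0x40000001f0000003c0000007800000008 4 7) 0 0 (step_sound _ 67 [(rh3244c3cc8379b070.shift 2 1), rhc647a25a08ddf0ec] (by decide +kernel))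
noncomputable def rha9e2f218ac735723 : CRef := CRef.mk (Pat.mk 0x8000000080000000a0000001e00000000 0x40000000c0000000e0000000e0000001e00000003 4 5) 0 0 (step_sound _ 1 [(rh96b9bdd38434146b.shift 1 0), rheb0810cc63b001d8] (by decide +kernel))
noncomputable def rh14e41ec733e8d930 : CRef := CRef.mk (Pat.mk 0x1e0000001e000000000000000000000000 0x70000001e0000001e000000030000000200000002 4 5) 0 0 (step_sound _ 161 [(rh3244c3cc8379b070.shift 0 4), rh9a011a4d0ec8f646] (by decide +kernel))
noncomputable def rh0089e8c85240cd2b : CRef := CRef.mk (Pat.mk 0x100000001e00000040 0x1c000000ff00000060 4 8) 0 0 (step_sound _ 37 [(rh30d951fefd654979.shift 0 1), (rh96851dee118c1ba3.shift 2 0)] (by decide +kernel))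
noncomputable def rhb8c1ea2d26981606 : CRef := CRef.mk (Pat.mk 0x100000003c00000002 0x1c000000ff00000003 4 8) 0 0 (step_sound _ 33 [(rh30d951fefd654979.shift 0 1), rheb0810cc63b001d8] (by decide +kernel))
noncomputable def rhf5e3ec9eeeedbff8 : CRef := CRef.mk (Pat.mk 0x1c000000180000001000000010 0x200000003f0000001f0000001000000010 4 6) 0 0 (step_sound _ 101 [(rh2f68792b6b779e96.shift 4 0), (rhb14e2588a8d71db8.shift 0 2)] (by decide +kernel))
noncomputable def rh7555d3f6e1c4e93a : CRef := CRef.mk (Pat.mk 0x1e000000020000002800000024 0x30000001e000000020000003e00000066 4 7) 0 0 (step_sound _ 129 [(rh3244c3cc8379b070.shift 0 3), (rh9ad393a91d4473bb.shift 1 0)] (by decide +kernel))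
noncomputable def rh370625f794a30c38 : CRef := CRef.mk (Pat.mk 0x200000003800000018 0x670000003f00000018 4 7) 0 0 (step_sound _ 34 [(rh33e738c4ed385b9f.shift 2 1), rhba89ab7cb81bcc90] (by decide +kernel))
noncomputable def rhb978d8716a693427 : CRef := CRef.mk (Pat.mk 0x1c000000180000000400000004 0x30000001f0000001b0000000600000004 4 5) 0 0 (step_sound _ 97 [rh04395309fba550d6, (rhb739f4f82bb681b4.shift 0 2)] (by decide +kernel))
noncomputable def rh7030f864d3191b45 : CRef := CRef.mk (Pat.mk 0x3000000010000000400000005 0x2000000020000000200000003000000070000000700000005 4 3) 0 0 (step_sound _ 129 [rh9e3edb185cc347de, rhb0e53d8c2bdf7515] (by decide +kernel))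
noncomputable def rhfe223548ec4c10f4 : CRef := CRef.mk (Pat.mk 0xe000000000000000800000008 0x140000001f000000380000000800000008 4 6) 0 0 (step_sound _ 67 [rh428e1bad588924cc, (rh50fbb5868c909700.shift 2 0)] (by decide +kernel))
noncomputable def rh69b4121030002085 : CRef := CRef.mk (Pat.mk 0x800000008000000080000001800000000 0x80000000800000008000000380000001f00000004 4 6) 0 0 (step_sound _ 68 [(rh2145e1d24b96a57e.shift 3 1), rh6fae963f33cfdfd7] (by decide +kernel))
noncomputable def rh38db31790e1ec42d : CRef := CRef.mk (Pat.mk 0x800000004000000040000001c00000010 0xc0000000c00000004000000070000001e00000030 4 6) 0 0 (step_sound _ 33 [(rhe02032acf8c36925.shift 0 1), (rhe25b0a99195a5d59.shift 1 0)] (by decide +kernel))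
noncomputable def rh3bf2848e973b716d : CRef := CRef.mk (Pat.mk 0x8000000140000001e00000008 0x140000003c000000170000001e00000008 4 6) 0 0 (step_sound _ 65 [(rh3244c3cc8379b070.shift 0 1), (rh87475298ccf721dd.shift 1 0)] (by decide +kernel))
noncomputable def rhc3a62e1d6ae06e0b : CRef := CRef.mk (Pat.mk 0x20000000e0000000800000008 0x10000000100000003b0000001e0000000800000008 4 6) 0 0 (step_sound _ 68 [(rh3244c3cc8379b070.shift 0 2), (rh49606a42a30c7ac4.shift 1 0)] (by decide +kernel))
noncomputable def rh35a30ce924b6b0c1 : CRef := CRef.mk (Pat.mk 0x4000000040000001e00000004 0x60000000600000006000000070000001e00000004 4 5) 0 0 (step_sound _ 65 [(rh3244c3cc8379b070.shift 0 1), (rh7f9f3607ee25a93b.shift 1 0)] (by decide +kernel))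
noncomputable def rh912c6c643da5c8c8 : CRef := CRef.mk (Pat.mk 0xa0000001e00000006 0x3000000030000003e0000001e00000006 4 6) 0 0 (step_sound _ 68 [(rh33e738c4ed385b9f.shift 1 1), rh9dc6f17ef8893ffe] (by decide +kernel))
noncomputable def rhcaaa094b79aab627 : CRef := CRef.mk (Pat.mk 0x2000000080000001e0000000c 0xc0000000f000000380000001e0000000c 4 6) 0 0 (step_sound _ 99 [rh492a02e0f2edd80c, (rh5c5e593799055d58.shift 2 0)] (by decide +kernel))
noncomputable def rh7a69239c61afeecc : CRef := CRef.mk (Pat.mk 0xe0000001e00000004 0x2000000030000003e0000001e00000007 4 6) 0 0 (step_sound _ 1 [rh0f936b2c74e7b815, rheb0810cc63b001d8] (by decide +kernel))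
noncomputable def rh812afb51762f5f43 : CRef := CRef.mk (Pat.mk 0x20000000200000002000000020000000000000002 0x300000003000000030000000300000003000000030000000200000002 4 2) 0 0 (step_sound _ 193 [(rh3ca48e2a6d60153d.shift 0 2), rhdad13e0b9ac1721a] (by decide +kernel))
noncomputable def rhd4d2b871e42cedd8 : CRef := CRef.mk (Pat.mk 0x20000000200000002000000080000000c00000000 0x200000002000000020000001f0000000f00000001 4 5) 0 0 (step_sound _ 65 [rh713222115fc6921e, (rhd3458b32566d63f7.shift 1 1)] (by decide +kernel))
noncomputable def rhbdb34f420224b15e : CRef := CRef.mk (Pat.mk 0x200000002000000020000000200000002 0x3000000030000000700000006000000060000000600000002 4 3) 0 0 (step_sound _ 98 [(rh2f68792b6b779e96.shift 1 0), (rhebe91ba2252dc497.shift 0 1)] (by decide +kernel))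
noncomputable def rhd8f454be3f884cbf : CRef := CRef.mk (Pat.mk 0x4000000020000000200000002000000020000000000000002 0x600000006000000020000000300000003000000030000000200000002 4 3) 0 0 (step_sound _ 193 [(rh2f68792b6b779e96.shift 1 3), rhdad13e0b9ac1721a] (by decide +kernel))
noncomputable def rh7dffb8eeb1c1ff2b : CRef := CRef.mk (Pat.mk 0x1c000000080000000c00000004 0x30000001f0000007c0000000f00000004 4 7) 0 0 (step_sound _ 68 [(rh0bb882ba86b2372d.shift 0 1), rh59b8ab533772ff61, (rh62ee6b8370225d67.shift 1 1)] (by decide +kernel))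
noncomputable def rh82ad08b8602b1d20 : CRef := CRef.mk (Pat.mk 0x1000000018000000080000002000000020 0x100000007c0000002f0000002000000020 4 7) 0 0 (step_sound _ 101 [(rh2613c889e411427e.shift 4 0), (rh2820ca9a6c4f41b4.shift 0 2)] (by decide +kernel))
noncomputable def rh221abc7c7e5aa3e2 : CRef := CRef.mk (Pat.mk 0x1e0000000600000002 0x600000006000000070000001e0000000600000002 4 5) 0 0 (step_sound _ 97 [(rh2ddd6c94c59240f8.shift 1 0), (rh3244c3cc8379b070.shift 0 2)] (by decide +kernel))
noncomputable def rhf3f3bfc6f0b9eef2 : CRef := CRef.mk (Pat.mk 0x18000000180000000c0000000c 0x70000001f0000001c0000000c0000000c 4 5) 0 0 (step_sound _ 98 [(rh50fbb5868c909700.shift 2 0), rh59b8ab533772ff61] (by decide +kernel))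
noncomputable def rhe9cfa0ec3e3dafdf : CRef := CRef.mk (Pat.mk 0x1a0000001e00000000 0x200000002000000030000001e0000003e00000004 4 6) 0 0 (step_sound _ 66 [rhbdb8dfd08861fbf7, (rhf48373e13d2bc128.shift 1 1)] (by decide +kernel))
noncomputable def rh238382ac6661bafa : CRef := CRef.mk (Pat.mk 0x6000000160000000000000000 0x400000004000000070000001e0000000300000002 4 5) 0 0 (step_sound _ 67 [rh031a926e4a883687, (rh3244c3cc8379b070.shift 0 2)] (by decide +kernel))
noncomputable def rhb447f348b8f2aaa5 : CRef := CRef.mk (Pat.mk 0x180000001e00000000 0x1c000000fe00000007 4 8) 0 0 (step_sound _ 1 [(rhd5fd3c11469d29be.shift 1 0), rheb0810cc63b001d8] (by decide +kernel))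
noncomputable def rh1e15c3f390712474 : CRef := CRef.mk (Pat.mk 0x1c000000380000002000000000 0x8000000080000001c0000003f0000003700000004 4 6) 0 0 (step_sound _ 66 [(rh031a926e4a883687.shift 1 0), (rh0de499e0455c9c14.shift 0 1), (rh8d917b916e5f3510.shift 0 1), (rhcc2be1f880c5ea3e.shift 0 1)] (by decide +kernel))
noncomputable def rh5d64a5765ea6b71b : CRef := CRef.mk (Pat.mk 0x400000004000000140000000400000000 0x400000004000000040000003e0000000700000002 4 6) 0 0 (step_sound _ 33 [(rh932754581e0f4330.shift 1 0), (rh98fcea515a9bb6d4.shift 0 1)] (by decide +kernel))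
noncomputable def rhd6489c8bf3c9feb1 : CRef := CRef.mk (Pat.mk 0x400000004000000140000001400000000 0x4000000040000003e0000003700000002 4 6) 0 0 (step_sound _ 33 [(rh3bdbd3888abd9dc8.shift 0 1), (rh932754581e0f4330.shift 1 0)] (by decide +kernel))
noncomputable def rh41d9cead9575d01b : CRef := CRef.mk (Pat.mk 0xf00000000000000080000000800000000 0x180000000f00000018000000180000001800000010 4 5) 0 0 (step_sound _ 99 [rh98297410a639a85a, (rhe25b0a99195a5d59.shift 0 3)] (by decide +kernel))
noncomputable def rh358c231171d2d7ca : CRef := CRef.mk (Pat.mk 0x80000000a0000000a0000000800000000 0x8000000080000000b0000001e0000003800000010 4 6) 0 0 (step_sound _ 36 [(rh42a8aa31729a4595.shift 0 1), (rh55afc6a59410cf00.shift 3 0)] (by decide +kernel))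
noncomputable def rhec661ea22c70261a : CRef := CRef.mk (Pat.mk 0x700000008000000000000001800000000 0x180000000f00000018000000180000001800000010 4 5) 0 0 (step_sound _ 131 [(rhe25b0a99195a5d59.shift 0 3), rhe4b19869b6b07514] (by decide +kernel))
noncomputable def rh8cced43fc58d1ba9 : CRef := CRef.mk (Pat.mk 0xa000000020000000a0000000a 0x340000001e0000000b0000000a0000000a 4 6) 0 0 (step_sound _ 98 [rh1a73e645d9e9563b, (rh2f68792b6b779e96.shift 1 0)] (by decide +kernel))
noncomputable def rh459f1a5b6d1b1e06 : CRef := CRef.mk (Pat.mk 0x600000006000000030000000300000000 0x600000006000000070000001f0000001c 4 5) 0 0 (step_sound _ 34 [rh23bcc2d6a6c0f37c, (rh55afc6a59410cf00.shift 1 0)] (by decide +kernel))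
noncomputable def rh532bc91b445cede3 : CRef := CRef.mk (Pat.mk 0x30000000000000003000000030000000000000000 0x4000000070000000700000003000000070000000600000004 4 3) 0 0 (step_sound _ 33 [(rh6f1cbe15c631ee70.shift 0 1), (rh7936093adf4c2c8c.shift 1 0)] (by decide +kernel))
noncomputable def rhc16750d25dcb9f19 : CRef := CRef.mk (Pat.mk 0x10000000100000001000000010000000000000000 0x2000000030000000300000001000000030000000300000002 4 2) 0 0 (step_sound _ 161 [(rh2f68792b6b779e96.shift 0 2), rh999c66e1f1e798df] (by decide +kernel))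
noncomputable def rh57b469c1bf70b264 : CRef := CRef.mk (Pat.mk 0x28000000080000000800000008 0x100000007c0000000f0000000800000008 4 7) 0 0 (step_sound _ 100 [(rh2820ca9a6c4f41b4.shift 0 2), (rh2f68792b6b779e96.shift 3 0)] (by decide +kernel))
noncomputable def rh791139ac7ec5e310 : CRef := CRef.mk (Pat.mk 0x3e000000220000000a0000001200000000 0x600000003e000000220000003e0000001300000001 4 7) 0 0 (step_sound _ 165 [(rh33e738c4ed385b9f.shift 2 4), rh662eeb3af1b04bbf] (by decide +kernel))
noncomputable def rh9c8f00d278e046ae : CRef := CRef.mk (Pat.mk 0x100000001000000000000000300000000 0x2000000030000000300000001000000030000000300000002 4 2) 0 0 (step_sound _ 64 [rh55afc6a59410cf00, (rh73f605273a09a9d0.shift 0 1)] (by decide +kernel))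
noncomputable def rh6e37dd25461b9f64 : CRef := CRef.mk (Pat.mk 0x200000002000000000000000600000000 0x1000000030000000300000002000000060000000600000004 4 3) 0 0 (step_sound _ 65 [(rh55afc6a59410cf00.shift 1 0), (rh65909b08999dc522.shift 0 1)] (by decide +kernel))
noncomputable def rhc1b756b20d90b0db : CRef := CRef.mk (Pat.mk 0xb0000000a000000020000000a 0x3c0000001f0000000a0000000a0000000a 4 6) 0 0 (step_sound _ 98 [(rh2f68792b6b779e96.shift 1 0), rh67b333ba8f3c6687] (by decide +kernel))
noncomputable def rh17ac3f020170dd36 : CRef := CRef.mk (Pat.mk 0xe000000020000000a0000000a 0x190000001f0000001a0000000a0000000a 4 5) 0 0 (step_sound _ 96 [rh50fbb5868c909700, rh6e0d4a5e44329c0c] (by decide +kernel))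
noncomputable def rhc3aca83855756cc0 : CRef := CRef.mk (Pat.mk 0xc00000008000000080000000800000000 0x100000001f00000038000000080000000800000008 4 6) 0 0 (step_sound _ 132 [(rh2f68792b6b779e96.shift 3 1), rh60f82781c006f894] (by decide +kernel))
noncomputable def rhc27c25306004b278 : CRef := CRef.mk (Pat.mk 0x18000000020000000a0000000a 0x10000000180000001b0000001e0000000b 4 5) 0 0 (step_sound _ 132 [(rh04253f50b6dd0619.shift 3 0), rha15790e26373b21e] (by decide +kernel))
noncomputable def rhf3172806ed7dd528 : CRef := CRef.mk (Pat.mk 0x400000002000000030000000f00000000 0x40000001e0000001b0000000f0000000a 4 5) 0 0 (step_sound _ 98 [rh5311728e12ac92c9, (rh71222050f2c63a3a.shift 1 0)] (by decide +kernel))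
noncomputable def rhd9f8fdeeb50c6416 : CRef := CRef.mk (Pat.mk 0x100000001e0000000000000000 0x800000008000000180000001f0000003000000010 4 6) 0 0 (step_sound _ 36 [rh25ec400f5d5d81da, (rhe25b0a99195a5d59.shift 1 1)] (by decide +kernel))
noncomputable def rh7d38be138711e964 : CRef := CRef.mk (Pat.mk 0x800000008000000090000000800000000 0x8000000080000000f0000001e00000014 4 5) 0 0 (step_sound _ 36 [(rh55afc6a59410cf00.shift 3 0), rh6b91fec65d08eb0f] (by decide +kernel))
noncomputable def rhc465be9a3d567854 : CRef := CRef.mk (Pat.mk 0x200000012000000020000000200000000 0x5000000070000001e000000020000000200000002 4 5) 0 0 (step_sound _ 130 [(rh2f68792b6b779e96.shift 1 1), rh6bed4ff6bae53cf3] (by decide +kernel))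
noncomputable def rhcc44d1240f53ff0e : CRef := CRef.mk (Pat.mk 0x20000000200000002000000160000000000000000 0x20000000200000002000000060000001f0000000300000001 4 5) 0 0 (step_sound _ 193 [rh535662eee1e1c911, (rhd3458b32566d63f7.shift 1 2)] (by decide +kernel))
noncomputable def rh99b66b92c21482f2 : CRef := CRef.mk (Pat.mk 0x1e00000008000000180000001800000000 0x1f000000180000001c000000f800000020 4 8) 0 0 (step_sound _ 100 [(rh36d4d92ef3dad5f8.shift 2 0), (rhb739f4f82bb681b4.shift 0 3)] (by decide +kernel))
noncomputable def rh94ffb916e592b6c3 : CRef := CRef.mk (Pat.mk 0xc000000050000000c00000004 0x20000001e0000000f0000003c00000004 4 6) 0 0 (step_sound _ 97 [(rh22d7ce585793bf1d.shift 0 1), (rh50fbb5868c909700.shift 1 0)] (by decide +kernel))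
noncomputable def rhe1987058c8485c44 : CRef := CRef.mk (Pat.mk 0x180000000a0000000800000008 0x40000001f0000003b0000000800000008 4 6) 0 0 (step_sound _ 98 [(rh50fbb5868c909700.shift 2 0), (rhd526f9b20c752965.shift 0 2)] (by decide +kernel))
noncomputable def rha1920a98703bd265 : CRef := CRef.mk (Pat.mk 0x1e00000004000000080000000000000000 0x100000001f0000003c000000080000000800000008 4 6) 0 0 (step_sound _ 100 [rh793d1229eb04b5e4, (rhe25b0a99195a5d59.shift 1 3)] (by decide +kernel))
noncomputable def rh6a53fb15660216ce : CRef := CRef.mk (Pat.mk 0xa00000004000000040000000400000000 0x20000000f0000003c000000040000000400000004 4 6) 0 0 (step_sound _ 130 [(rh50fbb5868c909700.shift 1 1), rh9aef13a18dc2ca8c] (by decide +kernel))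
noncomputable def rhbf917515d9aa5742 : CRef := CRef.mk (Pat.mk 0xc00000004000000040000000400000000 0x20000003e00000007000000040000000400000004 4 6) 0 0 (step_sound _ 129 [(rh50fbb5868c909700.shift 1 1), rh7176893643e0a9ff] (by decide +kernel))
noncomputable def rh01b4f03c98ec0d0c : CRef := CRef.mk (Pat.mk 0x40000000e0000000c0000000400000000 0x2000000070000003e0000000c0000000c00000008 4 6) 0 0 (step_sound _ 35 [(rh7b1f1fb55310c477.shift 2 0), (rhaef2adbbd453a55b.shift 0 1)] (by decide +kernel))
noncomputable def rhb8e826e9da89f6c3 : CRef := CRef.mk (Pat.mk 0x3e 0x3e0000007f 4 7) 0 0 (step_sound _ 34 [(rh3244c3cc8379b070.shift 1 0), rh9b1d2b302c3acb96] (by decide +kernel))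
noncomputable def rh546551bfa61a8651 : CRef := CRef.mk (Pat.mk 0x20000000e0000000c 0x730000007e0000000c 4 7) 0 0 (step_sound _ 36 [(rh226655e3fe6b4a8a.shift 1 0), (rh3244c3cc8379b070.shift 0 1)] (by decide +kernel))
noncomputable def rh1b12056b68d79b76 : CRef := CRef.mk (Pat.mk 0x18000000090000000c0000000800000000 0x180000007f0000000e0000000800000008 4 7) 0 0 (step_sound _ 98 [(rh24ae073cf30720c4.shift 0 3), (rh958e22a455eb4637.shift 1 0)] (by decide +kernel))
noncomputable def rhf177511f2b266add : CRef := CRef.mk (Pat.mk 0xc00000004000000060000000400000000 0x20000000f0000003c000000060000000400000004 4 6) 0 0 (step_sound _ 99 [(rh53cccbb248b8ab65.shift 0 1), (rh71222050f2c63a3a.shift 2 0)] (by decide +kernel))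
noncomputable def rhe07dac2d53c4661b : CRef := CRef.mk (Pat.mk 0x18000000020000001800000008 0x140000003c0000000f0000001800000008 4 6) 0 0 (step_sound _ 67 [(rh2f68792b6b779e96.shift 3 0), rh57e44ccac7e36dd6] (by decide +kernel))
noncomputable def rh84ce78a497965109 : CRef := CRef.mk (Pat.mk 0x1800000002000000180000000800000000 0xc0000003c0000000f000000180000001800000010 4 6) 0 0 (step_sound _ 99 [(rh57e44ccac7e36dd6.shift 0 1), (rhd4b4beefcd67f51e.shift 3 0)] (by decide +kernel))
noncomputable def rh4eb4cc03f0449d82 : CRef := CRef.mk (Pat.mk 0x100000000a000000180000000800000000 0x8000000780000001f000000180000001800000010 4 7) 0 0 (step_sound _ 98 [(rh7951a28c43f03428.shift 1 0), (rhb739f4f82bb681b4.shift 0 2)] (by decide +kernel))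
noncomputable def rh8cfb8aa8cb1cd88d : CRef := CRef.mk (Pat.mk 0xa0000000a00000003 0x1f0000007e00000003 4 7) 0 0 (step_sound _ 36 [(rh9ebd639649ea671c.shift 0 1), rhb2a0b9ccfb5cecd5] (by decide +kernel))
noncomputable def rh27a7c77b643159b5 : CRef := CRef.mk (Pat.mk 0x1800000012000000180000001800000000 0x40000001f0000001b000000180000001800000010 4 5) 0 0 (step_sound _ 99 [(rh7b1f1fb55310c477.shift 3 0), (rh9cac931137f1cfa0.shift 0 1)] (by decide +kernel))
noncomputable def rhe803077baa34fee7 : CRef := CRef.mk (Pat.mk 0x1800000012000000180000001800000000 0x40000001e0000003b000000180000001800000010 4 6) 0 0 (step_sound _ 99 [(rh7b1f1fb55310c477.shift 3 0), (rhc7091031673fac6a.shift 0 1)] (by decide +kernel))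
noncomputable def rh648d16b90d93ef2d : CRef := CRef.mk (Pat.mk 0x18000000120000001800000018 0x260000003e0000003b0000001800000018 4 6) 0 0 (step_sound _ 101 [rh28f098fed0292080, (rh2f68792b6b779e96.shift 4 0)] (by decide +kernel))
noncomputable def rh40cd5211ce5962b9 : CRef := CRef.mk (Pat.mk 0x800000004000000060000000400000000 0x80000003e0000000f0000000400000004 4 6) 0 0 (step_sound _ 99 [(rh3a020e182dfd1d54.shift 0 2), (rh71222050f2c63a3a.shift 2 0)] (by decide +kernel))
noncomputable def rh958767eca8995a60 : CRef := CRef.mk (Pat.mk 0x800000018000000080000000d 0xc0000000c0000000c00000018000000180000000f 4 5) 0 0 (step_sound _ 36 [rh24ae073cf30720c4, (rh7b9fbdf6d2d059e4.shift 2 0)] (by decide +kernel))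
noncomputable def rh735ac9cd7f9b3cee : CRef := CRef.mk (Pat.mk 0x800000008000000090000000800000000 0x800000008000000080000001f0000001c00000010 4 5) 0 0 (step_sound _ 36 [(rh55afc6a59410cf00.shift 3 0), (rhefb7103f834424c5.shift 0 1)] (by decide +kernel))
noncomputable def rh84970c2ccb9fe470 : CRef := CRef.mk (Pat.mk 0x40000000f000000000000000000000000 0x400000004000000040000000f0000001c0000000800000008 4 5) 0 0 (step_sound _ 67 [(rhc38f566cab2818e5.shift 2 0), (rhe25b0a99195a5d59.shift 0 2)] (by decide +kernel))
noncomputable def rhf447a2a4bfcfcd1c : CRef := CRef.mk (Pat.mk 0x1c000000060000000200000000 0x2000000030000001e000000070000000600000004 4 5) 0 0 (step_sound _ 97 [rha7149f89a51ff247, (rheb0810cc63b001d8.shift 0 2)] (by decide +kernel))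
noncomputable def rhf16732e988b907a8 : CRef := CRef.mk (Pat.mk 0x80000000c0000000b0000000000000000 0xc0000000c0000000c0000000f0000001c0000001c 4 5) 0 0 (step_sound _ 35 [rh4aacfccc127959e4, rh5f11ee373cbffcaa, (rhe286c75f2739cce2.shift 2 0)] (by decide +kernel))
noncomputable def rhae2b80f9ef48c322 : CRef := CRef.mk (Pat.mk 0x100000001e00000010000000000000000000000000 0x10000000100000001f00000018000000180000000800000008 4 5) 0 0 (step_sound _ 99 [(rh281c6819542c66e6.shift 3 0), (rhb739f4f82bb681b4.shift 0 3)] (by decide +kernel))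
noncomputable def rh62e913175de1089f : CRef := CRef.mk (Pat.mk 0x80000000b00000001 0x180000001f0000003b 4 6) 0 0 (step_sound _ 34 [(rh33e738c4ed385b9f.shift 0 1), rhf3baec4a0a3dd35e] (by decide +kernel))
noncomputable def rh001ba6edccc1d761 : CRef := CRef.mk (Pat.mk 0x400000004000000160000001e00000000 0x80000000c0000000c0000001e0000001f00000030 4 6) 0 0 (step_sound _ 67 [(rh822a66c22e949fd4.shift 1 0), (rheb0810cc63b001d8.shift 0 1)] (by decide +kernel))
noncomputable def rhb7c7938b7c3b8a55 : CRef := CRef.mk (Pat.mk 0x20000000f00000000 0x3e0000003f00000070 4 7) 0 0 (step_sound _ 36 [(rh2aac33c566332a8c.shift 1 0), (rh9890f9d77740bbed.shift 0 1)] (by decide +kernel))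
noncomputable def rh8720d8615d26237c : CRef := CRef.mk (Pat.mk 0xe00000007000000000000000000000000 0x40000000f0000003f000000380000000800000008 4 6) 0 0 (step_sound _ 99 [(rh79b3c29022acbdf3.shift 0 3), (rh87ee923877636e52.shift 0 2), rhbbe16ff26f7822db] (by decide +kernel))
noncomputable def rhc32688944b7f7dbb : CRef := CRef.mk (Pat.mk 0x4000000040000000e000000000000000000000000 0x40000000c0000001f000000780000000800000008 4 7) 0 0 (step_sound _ 67 [(rh08edf065357d68e5.shift 2 0), (rh8ee80cc30e93a344.shift 0 2)] (by decide +kernel))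
noncomputable def rh9d7eecd03247998a : CRef := CRef.mk (Pat.mk 0x400000006000000070000000000000000 0x80000003c0000001f000000070000000400000004 4 6) 0 0 (step_sound _ 99 [(rh18965a982d73c794.shift 0 2), rhf5c3cbaae13e41de] (by decide +kernel))
noncomputable def rh3f018065b6b6dc8a : CRef := CRef.mk (Pat.mk 0x1800000010000000180000001800000000 0x40000001f00000038000000180000001800000010 4 6) 0 0 (step_sound _ 99 [(rh7b1f1fb55310c477.shift 3 0), (rhc647a25a08ddf0ec.shift 0 1)] (by decide +kernel))
noncomputable def rh072ca38ca0a5522d : CRef := CRef.mk (Pat.mk 0x80000000a0000000800000010 0x8000000080000001f0000007800000010 4 7) 0 0 (step_sound _ 36 [(rh2145e1d24b96a57e.shift 3 0), (rh9ebd639649ea671c.shift 0 1)] (by decide +kernel))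
noncomputable def rh384e57f60b394a53 : CRef := CRef.mk (Pat.mk 0xc00000004000000180000000c00000000 0x100000003c0000000f000000180000000c00000004 4 6) 0 0 (step_sound _ 99 [(rh932754581e0f4330.shift 2 0), (rhd88e1e5c6d7f696b.shift 0 1)] (by decide +kernel))
noncomputable def rhb06e941809a8007f : CRef := CRef.mk (Pat.mk 0x1000000010000000380000000000000008 0x10000000180000007c0000000f00000008 4 7) 0 0 (step_sound _ 35 [(rh1006c02ae4212ff0.shift 3 0), (rh2820ca9a6c4f41b4.shift 0 1)] (by decide +kernel))
noncomputable def rh9b0cad5576ee35a9 : CRef := CRef.mk (Pat.mk 0x1e0000000000000002 0x4000000070000003e0000000300000002 4 6) 0 0 (step_sound _ 97 [(rh3244c3cc8379b070.shift 0 2), rh6e1825f2fd15117b] (by decide +kernel))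
noncomputable def rh61ac970646979e5d : CRef := CRef.mk (Pat.mk 0x80000000700000001 0x180000001f0000003b 4 6) 0 0 (step_sound _ 35 [(rh33e738c4ed385b9f.shift 0 1), rh4274f4328cb9f3fd] (by decide +kernel))
noncomputable def rh27f28fc6ea159c6b : CRef := CRef.mk (Pat.mk 0x1f00000004 0x700000007f0000001c 4 7) 0 0 (step_sound _ 69 [(rh428265de8cd3cd2d.shift 1 1), rhd7b4b649fe663581] (by decide +kernel))
noncomputable def rhaf661323c6e1d2ba : CRef := CRef.mk (Pat.mk 0x1e0000000200000000 0x400000004000000070000003e0000000200000002 4 6) 0 0 (step_sound _ 97 [(rh3244c3cc8379b070.shift 0 2), (rhc333e2570e2bbdf1.shift 1 0)] (by decide +kernel))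
noncomputable def rh86dbe64770be7dae : CRef := CRef.mk (Pat.mk 0x4000000080000001e00000008 0x40000000e0000000b0000001e0000000b 4 5) 0 0 (step_sound _ 65 [(rh3244c3cc8379b070.shift 0 1), rh3cefe9651deae9e5] (by decide +kernel))
noncomputable def rh53141e54dc480be0 : CRef := CRef.mk (Pat.mk 0x80000000a0000000800000008 0x140000003c0000000f0000000800000008 4 6) 0 0 (step_sound _ 98 [(rh50fbb5868c909700.shift 2 0), rhacc4a64c803ef3be] (by decide +kernel))
noncomputable def rhfec2a119712df0ef : CRef := CRef.mk (Pat.mk 0x6000000060000000700000004 0x80000003e0000003e0000000700000004 4 6) 0 0 (step_sound _ 68 [(rh361cc68994bd8a63.shift 0 1), (rhfed57f23c5f345ee.shift 1 0)] (by decide +kernel))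
noncomputable def rh0a9f21384ef6efe7 : CRef := CRef.mk (Pat.mk 0x4000000020000000200000006 0x10000000700000007000000020000000600000006 4 3) 0 0 (step_sound _ 97 [(rh2f68792b6b779e96.shift 1 0), rh65909b08999dc522] (by decide +kernel))
noncomputable def rh38c692001887cc76 : CRef := CRef.mk (Pat.mk 0x600000006000000040000000400000000 0x80000003e00000007000000040000000600000002 4 6) 0 0 (step_sound _ 33 [(rh861ee9d7304b9753.shift 0 1), (rh932754581e0f4330.shift 1 0)] (by decide +kernel))
noncomputable def rha89a299380c25f38 : CRef := CRef.mk (Pat.mk 0x1c000000080000001000000010 0x20000000ff0000003c0000001000000010 4 8) 0 0 (step_sound _ 68 [(rh861ee9d7304b9753.shift 2 0), (rhad5d8fc3675c15dd.shift 0 2)] (by decide +kernel))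
noncomputable def rh5c75ef1ea170a9c9 : CRef := CRef.mk (Pat.mk 0xc0000003c00000000 0x7c0000003e00000007 4 7) 0 0 (step_sound _ 69 [rh28821ab6edbc94f9, (rh33e738c4ed385b9f.shift 2 1)] (by decide +kernel))
noncomputable def rhf8d674b865acf5f3 : CRef := CRef.mk (Pat.mk 0x160000001400000004 0x200000002000000070000001e0000003400000004 4 6) 0 0 (step_sound _ 67 [rh1c1037cb5b3fe471, (rhe25b0a99195a5d59.shift 1 1)] (by decide +kernel))
noncomputable def rh2859277a9ebbf43c : CRef := CRef.mk (Pat.mk 0xf000000000000000000000004 0x180000000f0000001c0000000c00000004 4 5) 0 0 (step_sound _ 131 [(rh33e738c4ed385b9f.shift 0 3), rhfd89e568aa128d8c] (by decide +kernel))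
noncomputable def rhd1fa8140a3eb151f : CRef := CRef.mk (Pat.mk 0x20000000200000003000000020000000000000000 0x30000000300000003000000030000000300000003 4 2) 0 0 (step_sound _ 32 [rh752c9303f297f9fa, (rh79877ebd3ef475dd.shift 0 1)] (by decide +kernel))
noncomputable def rh8c39f7366bbb9df4 : CRef := CRef.mk (Pat.mk 0x1200000010000000140000001400000004 0x80000001e00000037000000140000001400000004 4 6) 0 0 (step_sound _ 131 [rh426f8837fd31e7d5, (rh50fbb5868c909700.shift 3 1)] (by decide +kernel))
noncomputable def rh3821f27595b6ffa5 : CRef := CRef.mk (Pat.mk 0x19000000080000000b0000000a 0x40000000f0000001d000000090000000b0000000a 4 5) 0 0 (step_sound _ 130 [rh5ea3d241ccccc747, (rhffd04209dc8ea796.shift 2 0)] (by decide +kernel))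
noncomputable def rh3e44317e09a2fa76 : CRef := CRef.mk (Pat.mk 0x12000000100000001400000014 0xb0000001e000000340000001400000014 4 6) 0 0 (step_sound _ 99 [(rh50fbb5868c909700.shift 3 0), rhcf7a8bf02a398215] (by decide +kernel))
noncomputable def rh7dd41af14d149511 : CRef := CRef.mk (Pat.mk 0x10000000200000002000000020000000200000002 0x3000000030000000600000006000000060000000600000002 4 3) 0 0 (step_sound _ 161 [(rh50fbb5868c909700.shift 0 2), (rhb6e139a614cb25d6.shift 1 0)] (by decide +kernel))
noncomputable def rh6a115f9db628de91 : CRef := CRef.mk (Pat.mk 0x10000000120000001600000014 0xa0000001e000000130000001e00000014 4 5) 0 0 (step_sound _ 64 [(rh2fe78cc5ca4405d8.shift 0 1), rhd28bd38ce071d913] (by decide +kernel))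
noncomputable def rh12c8cd1d22ea440b : CRef := CRef.mk (Pat.mk 0xc00000008000000090000000b00000002 0x10000000180000001f00000009000000090000000b00000002 4 5) 0 0 (step_sound _ 164 [rh992751159dc10a79, (rhbaefcd01e0a8bca3.shift 3 1)] (by decide +kernel))
noncomputable def rhe5b3481b4f92c984 : CRef := CRef.mk (Pat.mk 0x18000000090000000b0000000a 0x40000000f0000001d000000090000000b0000000a 4 5) 0 0 (step_sound _ 130 [rh27719b6e2adbad4c, (rhffd04209dc8ea796.shift 2 0)] (by decide +kernel))
noncomputable def rhae5f43e8a6821d5e : CRef := CRef.mk (Pat.mk 0x1800000018000000180000001000000000 0x40000001f00000038000000180000001800000008 4 6) 0 0 (step_sound _ 35 [(rh932754581e0f4330.shift 3 0), (rhc647a25a08ddf0ec.shift 0 1)] (by decide +kernel))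
noncomputable def rhb877d4918ed6ab68 : CRef := CRef.mk (Pat.mk 0x800000038000000180000001800000000 0x8000000380000001f0000001f00000004 4 6) 0 0 (step_sound _ 65 [rh114380420d2c6317, (rh24ae073cf30720c4.shift 1 2)] (by decide +kernel))
noncomputable def rhf06a227ba195dbc0 : CRef := CRef.mk (Pat.mk 0x200000002000000030000000200000002 0x6000000060000000700000003000000030000000200000002 4 3) 0 0 (step_sound _ 96 [rh50fbb5868c909700, (rh5fa50b509d4ce753.shift 0 1)] (by decide +kernel))
noncomputable def rh02189d8b3f10096b : CRef := CRef.mk (Pat.mk 0x80000000b0000000b0000000800000000 0x120000001e0000000b0000000b0000000900000001 4 5) 0 0 (step_sound _ 132 [(rh2f68792b6b779e96.shift 3 1), rheef6b50757f0d6f2] (by decide +kernel))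
noncomputable def rh6f00e9497de31a2d : CRef := CRef.mk (Pat.mk 0x1800000010000000120000001300000001 0x20000000300000003e00000012000000120000001300000001 4 6) 0 0 (step_sound _ 165 [rh91efaa808a7d31ec, (rhbaefcd01e0a8bca3.shift 4 1)] (by decide +kernel))
noncomputable def rha3a9ae4397383967 : CRef := CRef.mk (Pat.mk 0x1a00000010000000020000001c 0x30000001e00000034000000060000003c 4 6) 0 0 (step_sound _ 98 [(rhe25b0a99195a5d59.shift 1 2), rhe8d85c7fbf4f79bb] (by decide +kernel))
noncomputable def rhf028dcfba67001c0 : CRef := CRef.mk (Pat.mk 0xa000000100000001200000012 0xc0000001e000000330000001200000012 4 6) 0 0 (step_sound _ 100 [(rh50fbb5868c909700.shift 3 0), rhdc95b01dcc13556e] (by decide +kernel))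
noncomputable def rh95da6d80b4e2034b : CRef := CRef.mk (Pat.mk 0x80000000b0000000e00000008 0xe0000001e0000000b0000000e0000000c 4 5) 0 0 (step_sound _ 2 [rh219bc6cd81a44066, (rh5c5e593799055d58.shift 2 0)] (by decide +kernel))
noncomputable def rh971b3ab80d822487 : CRef := CRef.mk (Pat.mk 0x1e0000000800000008 0x1000000010000000380000001e0000000b00000008 4 6) 0 0 (step_sound _ 33 [(rh49606a42a30c7ac4.shift 1 0), (rheb0810cc63b001d8.shift 0 1)] (by decide +kernel))
noncomputable def rhd039e5a02ea548e4 : CRef := CRef.mk (Pat.mk 0xf000000040000000000000000 0x800000008000000180000000f0000000c0000000400000004 4 5) 0 0 (step_sound _ 131 [(rh33e738c4ed385b9f.shift 0 3), (rhadf429772c25fde0.shift 2 0)] (by decide +kernel))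
noncomputable def rh65dcfd18fd55cba0 : CRef := CRef.mk (Pat.mk 0x40000000f000000000000000000000000 0x400000004000000040000000f0000001c0000000800000008 4 5) 0 0 (step_sound _ 67 [(rh5d54cb79a67f97ab.shift 2 0), (rhe25b0a99195a5d59.shift 0 2)] (by decide +kernel))
noncomputable def rh6feecf28fd3d5237 : CRef := CRef.mk (Pat.mk 0x200000007c00000000 0x300000007f0000003c 4 7) 0 0 (step_sound _ 33 [rh332d72a610d43947, (rh428265de8cd3cd2d.shift 1 1)] (by decide +kernel))
noncomputable def rh2e0f10d207746a3f : CRef := CRef.mk (Pat.mk 0x1c000000180000000200000004 0x30000001f0000001b0000000600000004 4 5) 0 0 (step_sound _ 97 [rh991b8e21f1003e1c, (rhb739f4f82bb681b4.shift 0 2)] (by decide +kernel))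
noncomputable def rhb565b03594c9dec9 : CRef := CRef.mk (Pat.mk 0x8000000180000001e0000000c 0x60000000f0000001b0000001e0000000c 4 5) 0 0 (step_sound _ 65 [(rh3244c3cc8379b070.shift 0 1), rh52970e956c8449d1] (by decide +kernel))
noncomputable def rhe9e21535c03568b2 : CRef := CRef.mk (Pat.mk 0x2000000020000000a000000180000000000000000 0x200000002000000020000000f0000001b0000000100000001 4 5) 0 0 (step_sound _ 96 [rh281c6819542c66e6, (rhc10214bf3fe8094a.shift 0 2)] (by decide +kernel))
noncomputable def rh599a00c5c2098406 : CRef := CRef.mk (Pat.mk 0x80000001a0000001a0000000a00000000 0x40000000f0000001b0000001e0000000a00000002 4 5) 0 0 (step_sound _ 130 [(rh50fbb5868c909700.shift 2 1), rhe8844c4d903d0295] (by decide +kernel))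
noncomputable def rhbd7d57cbe6532a20 : CRef := CRef.mk (Pat.mk 0x200000002000000020000001a0000000000000000 0x200000002000000020000001b0000000f00000005 4 5) 0 0 (step_sound _ 32 [(rh79877ebd3ef475dd.shift 0 1), rhc300cce783feec26] (by decide +kernel))
noncomputable def rh027ca4baf779dc2f : CRef := CRef.mk (Pat.mk 0x4000000050000000500000002000000000000000000000000 0x5000000050000000500000007000000030000000200000002 4 3) 0 0 (step_sound _ 65 [rhe482ee30a2733b5f, (rheea67dfebd0f8008.shift 1 2)] (by decide +kernel))
noncomputable def rh8aa2a5f124f3e758 : CRef := CRef.mk (Pat.mk 0x2000000060000001000000014 0x20000000200000006000000070000003e00000034 4 6) 0 0 (step_sound _ 34 [rh4b687b01c54530ec, (rha3df16ea9c8576c8.shift 1 0), (rhc89253ff58c66167.shift 1 0)] (by decide +kernel))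
noncomputable def rhc7dec398d5b8dc4d : CRef := CRef.mk (Pat.mk 0x40000000e000000180000000c00000000 0x40000000e0000000e0000001a0000000f00000002 4 5) 0 0 (step_sound _ 33 [(rh4a83ee87db3b6ac3.shift 1 0), (rh53b3c253cb0c65f4.shift 0 1)] (by decide +kernel))
noncomputable def rhd64445e5e724fed5 : CRef := CRef.mk (Pat.mk 0x80000001c000000000000000c00000000 0x20000000f0000001c000000040000000c0000000c 4 5) 0 0 (step_sound _ 66 [(rh71222050f2c63a3a.shift 2 0), rhc2f06c7a97a2ad79] (by decide +kernel))
noncomputable def rhb38bc124ef23f2b9 : CRef := CRef.mk (Pat.mk 0x200000007c00000040 0x2000000020000000300000007e00000047 4 7) 0 0 (step_sound _ 101 [(rh2145e1d24b96a57e.shift 5 0), rh21d582c147e7e118] (by decide +kernel))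
noncomputable def rhbfa4950c75e79bf4 : CRef := CRef.mk (Pat.mk 0x80000001c0000000c0000000000000000 0x4000000060000000f0000001c0000000c0000000c0000000c 4 5) 0 0 (step_sound _ 34 [rh16ffe17ea6ad3735, (rh71222050f2c63a3a.shift 2 0)] (by decide +kernel))
noncomputable def rhb998780801da240e : CRef := CRef.mk (Pat.mk 0x40000000c0000001e00000004 0x600000006000000060000000f0000001e00000004 4 5) 0 0 (step_sound _ 65 [(rh3244c3cc8379b070.shift 0 1), (rh7b9fbdf6d2d059e4.shift 1 0)] (by decide +kernel))
noncomputable def rh7c3e2b7b1cb7d416 : CRef := CRef.mk (Pat.mk 0x1c000000180000000c0000000800000000 0x30000001f0000001c0000000c0000000c00000004 4 5) 0 0 (step_sound _ 34 [(rh59b8ab533772ff61.shift 0 1), (rh932754581e0f4330.shift 2 0)] (by decide +kernel))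
noncomputable def rh6cc58692ec716844 : CRef := CRef.mk (Pat.mk 0x1e000000040000000000000000 0x200000002000000030000001e000000060000000400000004 4 5) 0 0 (step_sound _ 129 [(rh3244c3cc8379b070.shift 0 3), (rh5d54cb79a67f97ab.shift 1 0)] (by decide +kernel))
noncomputable def rhef20c9ef58765c2c : CRef := CRef.mk (Pat.mk 0x1c000000180000000e0000000800000000 0x20000001f0000001b0000000e0000000c00000004 4 5) 0 0 (step_sound _ 129 [(rhb739f4f82bb681b4.shift 0 3), rhf021c72e3c8b318d] (by decide +kernel))
noncomputable def rh000f75110575adc4 : CRef := CRef.mk (Pat.mk 0x1000000020000000600000006000000000000000000000000 0x1000000030000000600000006000000030000000300000003 4 3) 0 0 (step_sound _ 65 [rh46530d756bdf8511, (rhffd04209dc8ea796.shift 0 2)] (by decide +kernel))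
noncomputable def rh5de875f4640ad7ae : CRef := CRef.mk (Pat.mk 0x80000001c0000000c0000000800000000 0x60000000f0000001c0000000c0000000c00000004 4 5) 0 0 (step_sound _ 130 [(rh50fbb5868c909700.shift 2 1), rhcb3126c3a6169a30] (by decide +kernel))
noncomputable def rhff273d5184c43958 : CRef := CRef.mk (Pat.mk 0x180000001e00000018 0x30000000300000001f0000001e00000018 4 6) 0 0 (step_sound _ 65 [(rh147fc9d3b8351d24.shift 1 0), (rh3244c3cc8379b070.shift 0 1)] (by decide +kernel))
noncomputable def rh58bf74c0268b4d8f : CRef := CRef.mk (Pat.mk 0x280000002800000060 0x7c0000003f00000060 4 7) 0 0 (step_sound _ 34 [(rhc10214bf3fe8094a.shift 2 0), (rhe33d9496e10d8eb0.shift 0 1)] (by decide +kernel))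
noncomputable def rh3cd11341cd3f7ff5 : CRef := CRef.mk (Pat.mk 0x20000000200000002000000140000000000000000 0x200000002000000020000001f0000000700000001 4 5) 0 0 (step_sound _ 65 [rh535662eee1e1c911, (rh55afc6a59410cf00.shift 1 1)] (by decide +kernel))
noncomputable def rh2abf176b1416536f : CRef := CRef.mk (Pat.mk 0x20000000200000002000000010000001000000000 0x20000000200000002000000070000001f00000004 4 5) 0 0 (step_sound _ 65 [rh89810a54557d14e5, (rh932754581e0f4330.shift 0 1)] (by decide +kernel))
noncomputable def rh5a5471947f56f4c8 : CRef := CRef.mk (Pat.mk 0x14000000040000000400000004 0xa0000003e000000070000000400000004 4 6) 0 0 (step_sound _ 99 [(rh2f68792b6b779e96.shift 2 0), rhe991b0a7f5491f5b] (by decide +kernel))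
noncomputable def rh88129595a1b18399 : CRef := CRef.mk (Pat.mk 0x40000001e000000000000000000000000 0x4000000070000001e000000030000000200000002 4 5) 0 0 (step_sound _ 129 [(rh3244c3cc8379b070.shift 0 3), rh9a011a4d0ec8f646] (by decide +kernel))
noncomputable def rh358a2de5fab0b376 : CRef := CRef.mk (Pat.mk 0x380000001800000000 0x8000000080000001f000000780000001800000010 4 7) 0 0 (step_sound _ 99 [(rh3e595262c1b737ad.shift 3 0), (rhf60aa8aede119d3b.shift 0 2)] (by decide +kernel))
noncomputable def rh1caaa2a8ac000ecb : CRef := CRef.mk (Pat.mk 0xe0000001a00000000 0x1000000010000000300000001e0000001b00000008 4 6) 0 0 (step_sound _ 68 [(rh5ba2d67652840f34.shift 1 0), (rheb0810cc63b001d8.shift 0 1)] (by decide +kernel))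
noncomputable def rhadad53f5e69105d7 : CRef := CRef.mk (Pat.mk 0x7000000050000000000000004 0x2000000020000000300000007000000050000000500000005 4 3) 0 0 (step_sound _ 129 [(rh9e07f76261b05888.shift 1 0), rhf9366b6a121593ef] (by decide +kernel))
noncomputable def rhe914a40c124545dd : CRef := CRef.mk (Pat.mk 0x800000018000000030000001000000000 0x1000000018000000180000000f0000001e0000000c 4 5) 0 0 (step_sound _ 67 [(rh1c62b6193297d9e3.shift 0 2), rhcf7ab90986f1232c] (by decide +kernel))
noncomputable def rhd29842d42f7e7b06 : CRef := CRef.mk (Pat.mk 0x180000000a0000001a0000000c 0x40000001e0000000b0000001e0000000f 4 5) 0 0 (step_sound _ 1 [rh53b3c253cb0c65f4, rhc47d136131bd21d0] (by decide +kernel))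
noncomputable def rh257f96e2b64fa328 : CRef := CRef.mk (Pat.mk 0xa0000001a000000080000000400000000 0xb0000001e0000000b0000000e00000004 4 5) 0 0 (step_sound _ 2 [rhdea6676667090562, (rheea67dfebd0f8008.shift 2 0)] (by decide +kernel))
noncomputable def rh726348c618e59520 : CRef := CRef.mk (Pat.mk 0x80000000a0000001a0000001c00000000 0x40000000c0000000e0000001a0000001f00000003 4 5) 0 0 (step_sound _ 33 [(rh53b3c253cb0c65f4.shift 0 1), rha745e8f203115b26] (by decide +kernel))
noncomputable def rhe5fb709585f480ed : CRef := CRef.mk (Pat.mk 0x8000000180000001a0000001000000000 0x1000000018000000180000001b0000001f0000000c 4 5) 0 0 (step_sound _ 35 [rh114380420d2c6317, (rha707fb719e87fe6e.shift 3 0)] (by decide +kernel))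
noncomputable def rhaa6be28301af3a02 : CRef := CRef.mk (Pat.mk 0x20000001a0000001c00000000 0x1000000030000001e0000001f00000003 4 5) 0 0 (step_sound _ 33 [(rh53b3c253cb0c65f4.shift 0 1), rhd92709f94034dab9] (by decide +kernel))
noncomputable def rhbe5703805fd7fa8f : CRef := CRef.mk (Pat.mk 0xa0000001a0000000200000000 0x400000004000000060000000f0000001a0000000200000002 4 5) 0 0 (step_sound _ 98 [(rh215e11e099257d75.shift 1 0), (rhb739f4f82bb681b4.shift 0 2)] (by decide +kernel))
noncomputable def rh42a040b9296f32ce : CRef := CRef.mk (Pat.mk 0x200000002000000020000000200000016 0x100000003000000030000000200000003000000030000001e 4 5) 0 0 (step_sound _ 32 [rh2fe78cc5ca4405d8, (rhe62cab2ff5ad6fe2.shift 0 1)] (by decide +kernel))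
noncomputable def rh9aa6ac2fc87719f2 : CRef := CRef.mk (Pat.mk 0x20000000200000002000000120000000000000000 0x200000002000000020000001f0000000700000001 4 5) 0 0 (step_sound _ 66 [rh535662eee1e1c911, (rh55afc6a59410cf00.shift 1 1)] (by decide +kernel))
noncomputable def rh710dec5f3612fa45 : CRef := CRef.mk (Pat.mk 0x20000000200000002000000020000001600000000 0x2000000030000000300000003000000030000001e00000002 4 5) 0 0 (step_sound _ 64 [(rh2fe78cc5ca4405d8.shift 0 1), rhbeb7aa8aa1e01d6a] (by decide +kernel))
noncomputable def rh2cc45461b6785525 : CRef := CRef.mk (Pat.mk 0xe0000001c0000000000000000 0x4000000040000003e0000001f0000000300000002 4 6) 0 0 (step_sound _ 65 [rh031a926e4a883687, (rhec46bd5500c722c9.shift 0 2)] (by decide +kernel))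
noncomputable def rhdb7be55f4e507c76 : CRef := CRef.mk (Pat.mk 0x38000000100000003000000008 0x6000000ff0000003f0000003800000008 4 8) 0 0 (step_sound _ 67 [(rh2820ca9a6c4f41b4.shift 0 2), rh99958e6426785a6d, (rhba5deae707c50fd1.shift 1 1)] (by decide +kernel))
noncomputable def rh7549866fad7950b8 : CRef := CRef.mk (Pat.mk 0xc00000008000000180000000800000000 0x100000003c0000000f000000180000000800000008 4 6) 0 0 (step_sound _ 98 [(rh7b1f1fb55310c477.shift 2 0), (rha24cfbb3f5c145dd.shift 0 1)] (by decide +kernel))
noncomputable def rhfcec6b57166e4439 : CRef := CRef.mk (Pat.mk 0x1000000020000000600000002000000000000000000000000 0x1000000070000000600000002000000030000000300000001 4 3) 0 0 (step_sound _ 65 [rh33032410a9908d45, (rhffd04209dc8ea796.shift 0 2)] (by decide +kernel))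
noncomputable def rhdff2e0afc06e57b3 : CRef := CRef.mk (Pat.mk 0x20000001c00000002 0x760000003e00000003 4 7) 0 0 (step_sound _ 37 [(rh3f8766e6ecb455ce.shift 1 1), rhdf4d0e51ca454953] (by decide +kernel))
noncomputable def rh12beb922497b07e1 : CRef := CRef.mk (Pat.mk 0xf000000020000000400000004 0x80000003f0000003e0000000400000004 4 6) 0 0 (step_sound _ 66 [(rh2f68792b6b779e96.shift 2 0), (rhf5e124ec5c58a2dd.shift 0 2)] (by decide +kernel))
noncomputable def rhdbb6d6760fe01f3d : CRef := CRef.mk (Pat.mk 0xe00000004000000300000001000000000 0x100000003e00000037000000300000003000000020 4 6) 0 0 (step_sound _ 132 [(rhaf9f2efc81a8312b.shift 0 3), (rhef83908086235c44.shift 1 0)] (by decide +kernel))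
noncomputable def rh84c1248b7472e3f1 : CRef := CRef.mk (Pat.mk 0xc0000000a0000000800000008 0x100000001f0000003b0000000800000008 4 6) 0 0 (step_sound _ 100 [(rh2f68792b6b779e96.shift 3 0), (rhd526f9b20c752965.shift 0 2)] (by decide +kernel))
noncomputable def rh78c9b3be5b3e8a50 : CRef := CRef.mk (Pat.mk 0x60000000f00000002 0x400000004000000060000003f0000003a 4 6) 0 0 (step_sound _ 98 [rh0cb6a409506b34ea, (rh5c5e593799055d58.shift 1 0)] (by decide +kernel))
noncomputable def rhb5a0a51a8e5939c5 : CRef := CRef.mk (Pat.mk 0x1c0000000a0000000000000008 0x70000003e0000000b0000000800000008 4 6) 0 0 (step_sound _ 97 [rh3b561a44bf49d6bc, (rheb0810cc63b001d8.shift 0 2)] (by decide +kernel))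
noncomputable def rhc54b3ea4d6a74f6e : CRef := CRef.mk (Pat.mk 0xd0000000c000000080000000800000000 0x18000000180000000f0000000c0000000c0000001c00000010 4 5) 0 0 (step_sound _ 36 [(rh55afc6a59410cf00.shift 3 0), (rh9397e1ef1fd877be.shift 0 1)] (by decide +kernel))
noncomputable def rh4759cac65c8c0a08 : CRef := CRef.mk (Pat.mk 0x1000000020000000300000003000000000000000000000000 0x1000000030000000300000003000000060000000600000006 4 3) 0 0 (step_sound _ 65 [rh820d4e04d5dcd02e, (rhffd04209dc8ea796.shift 0 2)] (by decide +kernel))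
noncomputable def rh4e96aff8f0598991 : CRef := CRef.mk (Pat.mk 0x100000000700000006 0x180000003f0000003e 4 6) 0 0 (step_sound _ 4 [rh02e98550f039353a, rh2fe78cc5ca4405d8] (by decide +kernel))
noncomputable def rhea90e7358341a1a4 : CRef := CRef.mk (Pat.mk 0x600000006000000020000000200000000 0x200000002000000020000000600000006000000070000000300000001 4 3) 0 0 (step_sound _ 32 [(rh001df559c085f6ec.shift 0 1), rh932754581e0f4330] (by decide +kernel))
noncomputable def rhcafd34cbf83fdf34 : CRef := CRef.mk (Pat.mk 0x4000000000000000f00000002 0x40000000c0000001c0000000f0000001a 4 5) 0 0 (step_sound _ 130 [(rh3c88ce959c0e423f.shift 1 0), rhb677d5483aaebfd8] (by decide +kernel))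
noncomputable def rhb9396e5ae032b2ca : CRef := CRef.mk (Pat.mk 0x80000000c000000100000001800000000 0x80000007c0000001f000000100000001800000008 4 7) 0 0 (step_sound _ 132 [(rh0bb882ba86b2372d.shift 0 3), (rh4176b1306bc070ea.shift 3 0)] (by decide +kernel))
noncomputable def rh833641646b600e66 : CRef := CRef.mk (Pat.mk 0x10000000300000001000000000000000100000000 0x100000001000000030000000300000003000000030000000100000001 4 2) 0 0 (step_sound _ 64 [(rh2f68792b6b779e96.shift 0 1), rhf2568c0049eb2085] (by decide +kernel))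
noncomputable def rh38c4f86c0727dd31 : CRef := CRef.mk (Pat.mk 0x800000018000000080000000000000008 0x1f0000007c000000080000000800000008 4 7) 0 0 (step_sound _ 130 [(rh4ca5dae25f5c14ff.shift 0 3), (rh5ecc884e79ed7dd3.shift 2 0), rh69d6a940d84a8d74] (by decide +kernel))
end Crest.Agent.S0047.Helper85.Cert
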