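import Crest.Agent.Lib.S0047.Helper85CertPL4F0
import Crest.Agent.Lib.S0047.Helper85CertPL4F1
import Crest.Agent.Lib.S0047.Helper85CertPL4F2
import Crest.Agent.Lib.S0047.Helper85CertPL4F3
import Crest.Agent.Lib.S0047.Helper85CertPL4F4
import Crest.Agent.Lib.S0047.Helper85CertPL4F5
import Crest.Agent.Lib.S0047.Helper85CertPL4F6
import Crest.Agent.Lib.S0047.Helper85CertPL4F7
import Crest.Agent.Lib.S0047.Helper85CertPL4F8
import Crest.Agent.Lib.S0047.Helper85CertPL4F9
set_option autoImplicit false
set_option linter.all false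
set_option Elab.async false
namespace Crest.Agent.S0047.Helper85.Cert
open Crest.Agent.S0047.Helper85

noncomputable def rh5e601430b8bc2e39 : CRef := CRef.mk (Pat.mk 0x400000003800000000 0x670000003e00000007 5 7) 0 0 (step_sound _ 34 [(rh428265de8cd3cd2d.shift 2 1), rh592c7139d2c44767] (by decide +kernel))
noncomputable def rhb95a54ace36dc081 : CRef := CRef.mk (Pat.mk 0x20000000200000002000000000000000000000000 0x500000007000000070000000700000002000000030000000300000001 5 3) 0 0 (step_sound _ 65 [(rh1741680720c097b4.shift 0 2), (rh373b7625e672cfd8.shift 0 1), rhc4526fc8abf298b6, rhcab3157f7bdcba3e] (by decide +kernel))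
noncomputable def rh3a69dc315759d1b4 : CRef := CRef.mk (Pat.mk 0x1e0000000000000000 0x200000002000000030000003e0000000700000004 5 6) 0 0 (step_sound _ 33 [(rheb0810cc63b001d8.shift 0 1), rhef50fe823a140c7d] (by decide +kernel))
noncomputable def rhefddf76ae3f6b005 : CRef := CRef.mk (Pat.mk 0x4000000040000000c0000001c00000000 0x180000003c0000000f0000000c0000001c00000010 5 6) 0 0 (step_sound _ 131 [(rh2f68792b6b779e96.shift 2 1), rh989d47d0e3b00ee1] (by decide +kernel))
noncomputable def rh041ddc1d0a92e8ed : CRef := CRef.mk (Pat.mk 0x400000004000000140000000000000000 0x20000000e0000000e0000000e0000001c0000000f0000000e 5 5) 0 0 (step_sound _ 34 [rh15f443a9a462a99b, (rh373b7625e672cfd8.shift 1 0), (rh5abfc4c9d959be03.shift 1 0)] (by decide +kernel))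
noncomputable def rh051147f7595abe9f : CRef := CRef.mk (Pat.mk 0x40000000400000014000000000000000000000000 0x20000000600000006000000060000001c0000000f0000000e00000002 5 5) 0 0 (step_sound _ 66 [(rh15f443a9a462a99b.shift 0 1), (rh5abfc4c9d959be03.shift 1 1), (rhc4526fc8abf298b6.shift 1 0)] (by decide +kernel))
noncomputable def rhdc109eea5fa255d8 : CRef := CRef.mk (Pat.mk 0x1e00000018000000080000003000000000 0x1e0000001f0000003f0000003000000020 5 6) 0 0 (step_sound _ 97 [rh7e3c8e958e52c358, (rheb0810cc63b001d8.shift 0 3)] (by decide +kernel))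
noncomputable def rhd2de008395203f29 : CRef := CRef.mk (Pat.mk 0x1c00000018000000000000002000000000 0x1c0000007f000000700000002000000020 5 7) 0 0 (step_sound _ 101 [rh24591666f633f108, (rhf48373e13d2bc128.shift 2 3)] (by decide +kernel))
noncomputable def rhdbe30b89b8872db3 : CRef := CRef.mk (Pat.mk 0xf00000002 0x380000003f00000076 5 7) 0 0 (step_sound _ 68 [(rh428265de8cd3cd2d.shift 0 1), (rhe2aaa4986b725c6a.shift 1 0)] (by decide +kernel))
noncomputable def rhf38f9b555022e2b2 : CRef := CRef.mk (Pat.mk 0x30000000140000001000000010 0xf0000003e000000360000001000000010 5 6) 0 0 (step_sound _ 99 [(rh50fbb5868c909700.shift 3 0), (rh72e22f8ff4816922.shift 0 2)] (by decide +kernel))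
noncomputable def rh170c5db12d40392e : CRef := CRef.mk (Pat.mk 0x200000002000000020000000000000000 0x5000000070000000700000007000000060000000600000006 5 3) 0 0 (step_sound _ 33 [rh5abfc4c9d959be03, rhc4055b4872d6fb38, (rhced6d86d2069808b.shift 1 0)] (by decide +kernel))
noncomputable def rh9b8f7cfaa987950d : CRef := CRef.mk (Pat.mk 0x20000000200000002000000000000000000000000 0x500000007000000070000000700000002000000030000000300000001 5 3) 0 0 (step_sound _ 65 [(rh1741680720c097b4.shift 0 2), (rhc4055b4872d6fb38.shift 0 1), rhc4526fc8abf298b6, rhcab3157f7bdcba3e] (by decide +kernel))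
noncomputable def rhe5e051aa16641441 : CRef := CRef.mk (Pat.mk 0x20000000200000002000000000000000000000000 0x500000007000000070000000600000002000000070000000700000005 5 3) 0 0 (step_sound _ 65 [(rh1741680720c097b4.shift 0 2), (rh6c59ce14113da07f.shift 1 0), rh6eff4158bb400f47] (by decide +kernel))
noncomputable def rhcb314898215121fb : CRef := CRef.mk (Pat.mk 0x700000006000000020000000200000000 0x180000003f0000001f000000060000000600000004 5 6) 0 0 (step_sound _ 99 [rhebd8d587d84b45f0, (rhf48373e13d2bc128.shift 0 3)] (by decide +kernel))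
noncomputable def rhd1ab13bb6bc5ff3b : CRef := CRef.mk (Pat.mk 0x1c0000001a000000080000002000000000 0x3c0000001e0000003f0000003000000010 5 6) 0 0 (step_sound _ 98 [(rh18965a982d73c794.shift 1 3), rhf63ba49971cb5664] (by decide +kernel))
noncomputable def rh28e610bb87fd51e4 : CRef := CRef.mk (Pat.mk 0x20000000200000002000000000000000000000000 0x400000007000000070000000700000006000000060000000600000004 5 3) 0 0 (step_sound _ 65 [(rh373b7625e672cfd8.shift 0 1), (rh6c59ce14113da07f.shift 1 0), rh8ff3dde5b1c639e0, (rhced6d86d2069808b.shift 1 1)] (by decide +kernel))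
noncomputable def rhb1406e394782cc60 : CRef := CRef.mk (Pat.mk 0x20000000200000002000000000000000000000000 0x500000007000000070000000300000006000000070000000700000001 5 3) 0 0 (step_sound _ 65 [(rh5abfc4c9d959be03.shift 0 1), rhc4526fc8abf298b6, (rhced6d86d2069808b.shift 1 1)] (by decide +kernel))
noncomputable def rh2efad3051cff7df1 : CRef := CRef.mk (Pat.mk 0x7800000020 0xe0000007e00000037 5 7) 0 0 (step_sound _ 66 [(rh3f8766e6ecb455ce.shift 2 1), rhd59313b56f2e7bb3] (by decide +kernel))
noncomputable def rh352b7f91eba0c81f : CRef := CRef.mk (Pat.mk 0xe00000002 0x700000003e00000073 5 7) 0 0 (step_sound _ 36 [(rh3fc3a7fb6866dcd4.shift 1 0), rheb0810cc63b001d8] (by decide +kernel))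
noncomputable def rh1a6590498224160a : CRef := CRef.mk (Pat.mk 0xe000000020000000800000000 0x1000000010000000380000001e0000000b0000000800000008 5 6) 0 0 (step_sound _ 100 [(rhb705031692dfe65f.shift 1 0), (rheb0810cc63b001d8.shift 0 2)] (by decide +kernel))
noncomputable def rh980ba89963b3476c : CRef := CRef.mk (Pat.mk 0x400000014000000040000001400000000 0x4000000040000003c0000001f0000001c00000008 5 6) 0 0 (step_sound _ 35 [(rh0e1c7743dbcfdc44.shift 0 1), (rh55afc6a59410cf00.shift 2 0)] (by decide +kernel))
noncomputable def rh0a6888916bcef86b : CRef := CRef.mk (Pat.mk 0x30000000200000002000000000000000000000000 0x1000000030000000200000002000000070000000700000005 5 3) 0 0 (step_sound _ 65 [(rh50fbb5868c909700.shift 0 2), rh8cdd36b03d57a2f6] (by decide +kernel))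
noncomputable def rh04adde65229dd8ca : CRef := CRef.mk (Pat.mk 0x7800000018 0x70000007f000000f8 5 8) 0 0 (step_sound _ 6 [rh4fb657239f791bb7, (rhe25b0a99195a5d59.shift 3 0)] (by decide +kernel))
noncomputable def rh12ea4c871ce22297 : CRef := CRef.mk (Pat.mk 0xf0000000000000008000000000000000000000000 0x40000000f0000001c000000080000000c0000000c00000004 5 5) 0 0 (step_sound _ 131 [(rh01483ff9cba2f6ac.shift 2 0), (rhe25b0a99195a5d59.shift 0 4)] (by decide +kernel))
noncomputable def rhe6bb7469ca7a5510 : CRef := CRef.mk (Pat.mk 0x60000000400000005000000000000000000000000 0x40000000600000006000000070000001e0000000e0000000a 5 5) 0 0 (step_sound _ 66 [(rh8cdd36b03d57a2f6.shift 1 0), (rh934b7b499abbb98b.shift 0 1), (rha613ffd40b6c9d24.shift 1 0), (rhe4441baab75a6f73.shift 1 0)] (by decide +kernel))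
noncomputable def rhe84c35e83a304151 : CRef := CRef.mk (Pat.mk 0xf0000000000000008000000000000000000000000 0x40000000f0000001c00000008000000180000001800000010 5 5) 0 0 (step_sound _ 131 [(rhd1779d7de7f8215b.shift 2 0), (rhe25b0a99195a5d59.shift 0 4)] (by decide +kernel))
noncomputable def rh30d4c68134598f9f : CRef := CRef.mk (Pat.mk 0xe000000000000000800000000 0x1000000010000000770000003e000000780000000800000008 5 7) 0 0 (step_sound _ 100 [(rh3fc3a7fb6866dcd4.shift 1 2), (rhb18e6c78a554867d.shift 0 3), (rhceed0e29dfbc434b.shift 1 0), (rhe401600d466b97cd.shift 0 2)] (by decide +kernel))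
noncomputable def rhf2b3bcf1454375d8 : CRef := CRef.mk (Pat.mk 0xe00000001 0x700000003e00000073 5 7) 0 0 (step_sound _ 36 [(rh3fc3a7fb6866dcd4.shift 1 0), rh80fcd6d0a18cb2dd] (by decide +kernel))
noncomputable def rhf6218b33ee453c67 : CRef := CRef.mk (Pat.mk 0xe00000010 0x770000003e00000030 5 7) 0 0 (step_sound _ 36 [(rh56a24c72f1c55520.shift 0 1), (rhe25b0a99195a5d59.shift 1 0)] (by decide +kernel))
noncomputable def rhaa08a5927668bc60 : CRef := CRef.mk (Pat.mk 0x780000001800000010 0x8000000e80000007f0000003800000010 5 8) 0 0 (step_sound _ 131 [(rh210e2d9c685c857e.shift 0 1), (rh6f1cbe15c631ee70.shift 3 0)] (by decide +kernel))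
noncomputable def rh82c6aec0c6f8e399 : CRef := CRef.mk (Pat.mk 0x2000000020000000300000003000000000000000000000000 0x400000006000000060000000300000003000000060000000600000006 5 3) 0 0 (step_sound _ 194 [(rh2f68792b6b779e96.shift 1 3), rh662eb0e511c11564] (by decide +kernel))
noncomputable def rh21460d2d48a35cb8 : CRef := CRef.mk (Pat.mk 0x1e0000000000000000 0x400000004000000070000003e0000000300000002 5 6) 0 0 (step_sound _ 97 [(rh3244c3cc8379b070.shift 0 2), rha8148b9bb2ff3cb1] (by decide +kernel))
noncomputable def rh9e29fb7c6bb32015 : CRef := CRef.mk (Pat.mk 0x1e000000000000001000000000 0x10000000300000001f000000380000001800000008 5 6) 0 0 (step_sound _ 68 [rh1757c5eb72c15b0f, (rhe25b0a99195a5d59.shift 1 2)] (by decide +kernel))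
noncomputable def rh94ee7ea9ee914036 : CRef := CRef.mk (Pat.mk 0x1000000030000000100000005000000000000000000000000 0x100000003000000030000000700000007000000060000000400000004 5 3) 0 0 (step_sound _ 97 [rh3803a9d93c35859b, (rh55afc6a59410cf00.shift 0 2)] (by decide +kernel))
noncomputable def rh057314d76133c074 : CRef := CRef.mk (Pat.mk 0xa0000000a00000008000000000000000000000000 0x100000003b0000001f000000080000001c0000001c00000014 5 6) 0 0 (step_sound _ 67 [(rh431ac01d143f4d95.shift 0 2), (rh6c59ce14113da07f.shift 3 0), (rh8cdd36b03d57a2f6.shift 2 0)] (by decide +kernel))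
noncomputable def rhffb8e5993241bf15 : CRef := CRef.mk (Pat.mk 0x60000000200000002000000000000000000000000 0x4000000060000000200000002000000070000000700000005 5 3) 0 0 (step_sound _ 65 [(rh2f68792b6b779e96.shift 1 2), rh8cdd36b03d57a2f6] (by decide +kernel))
noncomputable def rh00c2fdbcc9ba8c59 : CRef := CRef.mk (Pat.mk 0xb0000000f0000000e 0x1b0000001f0000000b0000000f0000000e 5 5) 0 0 (step_sound _ 96 [rh2145e1d24b96a57e, rhbce063337ec5c2e2] (by decide +kernel))
noncomputable def rh7b3748940e4fced1 : CRef := CRef.mk (Pat.mk 0x40000000400000005000000000000000000000000 0xc0000000c0000000c000000070000001e0000000e0000000a 5 5) 0 0 (step_sound _ 66 [(rh6c59ce14113da07f.shift 2 0), (rh8cdd36b03d57a2f6.shift 1 0), (rh934b7b499abbb98b.shift 0 1), (rhcab3157f7bdcba3e.shift 1 0)] (by decide +kernel))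
noncomputable def rhfe6df841c1369114 : CRef := CRef.mk (Pat.mk 0xa0000000a0000000a000000080000001000000000 0xa0000000b0000003e0000000e0000000c0000001800000018 5 6) 0 0 (step_sound _ 35 [(rh55afc6a59410cf00.shift 3 0), rh919f6bb3a52329d4] (by decide +kernel))
noncomputable def rhdc24761dba93f1a8 : CRef := CRef.mk (Pat.mk 0x8000000280000002000000020000000200000001000000000 0xf0000007c0000003000000020000000200000003000000010 5 7) 0 0 (step_sound _ 37 [(rh1f4ebbec1782c0b3.shift 0 1), (rh932754581e0f4330.shift 4 0)] (by decide +kernel))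
noncomputable def rhfb40af538ce5bda9 : CRef := CRef.mk (Pat.mk 0x400000004000000140000000000000000 0xe0000000e0000000e0000001c0000000f0000000e 5 5) 0 0 (step_sound _ 34 [rh15f443a9a462a99b, (rhc4055b4872d6fb38.shift 1 0)] (by decide +kernel))
noncomputable def rh37d60c59e482f284 : CRef := CRef.mk (Pat.mk 0x800000008000000280000001800000000 0xc0000000c0000001f000000380000001800000008 5 6) 0 0 (step_sound _ 68 [(rh2145e1d24b96a57e.shift 3 1), rhd716e2ab31203e19] (by decide +kernel))
noncomputable def rh0fd65e3cf503e830 : CRef := CRef.mk (Pat.mk 0x20000000200000002000000040000000000000000 0x4000000060000000600000002000000070000000700000001 5 3) 0 0 (step_sound _ 65 [(rh55afc6a59410cf00.shift 1 1), rhcab3157f7bdcba3e] (by decide +kernel))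
noncomputable def rha822df604b29e217 : CRef := CRef.mk (Pat.mk 0x20000000200000002000000040000000000000000 0x1000000030000000300000002000000070000000700000001 5 3) 0 0 (step_sound _ 65 [(rh55afc6a59410cf00.shift 1 1), rhc4526fc8abf298b6] (by decide +kernel))
noncomputable def rhbe218c4b64d0fb80 : CRef := CRef.mk (Pat.mk 0x40000001e00000018 0x30000000300000003f0000001e00000018 5 6) 0 0 (step_sound _ 68 [(rh33e738c4ed385b9f.shift 1 1), rh77133da666bdab96] (by decide +kernel))
noncomputable def rha1ee609811ef0ede : CRef := CRef.mk (Pat.mk 0x400000002000000020000000200000000 0x1000000070000000700000002000000030000000300000001 5 3) 0 0 (step_sound _ 129 [(rh2f68792b6b779e96.shift 1 1), rh968ba7b0df7e4096] (by decide +kernel))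
noncomputable def rhba97f7f4ade5e136 : CRef := CRef.mk (Pat.mk 0x2000000020000000200000004 0x5000000070000000700000002000000020000000600000004 5 3) 0 0 (step_sound _ 129 [(rhc85cc95794737cf7.shift 0 1), (rhd3458b32566d63f7.shift 1 0)] (by decide +kernel))
noncomputable def rh56259dd1390eee46 : CRef := CRef.mk (Pat.mk 0x30000000200000002000000000000000000000000 0x1000000030000000200000002000000070000000700000005 5 3) 0 0 (step_sound _ 65 [(rh50fbb5868c909700.shift 0 2), rh6eff4158bb400f47] (by decide +kernel))
noncomputable def rh36eba2a3de447758 : CRef := CRef.mk (Pat.mk 0x3800000040 0x70000003e00000067 5 7) 0 0 (step_sound _ 34 [rh775ca1963e850b80, (rh96851dee118c1ba3.shift 2 0)] (by decide +kernel))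
noncomputable def rh3918eeb6c53434d8 : CRef := CRef.mk (Pat.mk 0x3800000020 0x70000003e00000067 5 7) 0 0 (step_sound _ 34 [rh775ca1963e850b80, (rhe25b0a99195a5d59.shift 2 0)] (by decide +kernel))
noncomputable def rhb12ffaec36122c99 : CRef := CRef.mk (Pat.mk 0x200000003800000000 0x670000003e00000007 5 7) 0 0 (step_sound _ 34 [(rh33e738c4ed385b9f.shift 2 1), rh775ca1963e850b80] (by decide +kernel))
noncomputable def rh3a2a22c59b172258 : CRef := CRef.mk (Pat.mk 0x200000002000000000000000300000000 0x4000000060000000600000002000000060000000700000005 5 3) 0 0 (step_sound _ 65 [rh932754581e0f4330, (rhced6d86d2069808b.shift 1 0)] (by decide +kernel))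
noncomputable def rhfa6156345f526d69 : CRef := CRef.mk (Pat.mk 0x3800000000 0x70000007e000000ff 5 8) 0 0 (step_sound _ 34 [(rh06db8ceda6269a47.shift 1 0), rh0d378fd9e8917c5a, rh185f35b8bd8ec37f, rh775ca1963e850b80] (by decide +kernel))
noncomputable def rh94c7fd09ab010950 : CRef := CRef.mk (Pat.mk 0x60000001400000010000000000000000800000000 0x700000003e0000003700000010000000380000003800000028 5 7) 0 0 (step_sound _ 164 [(rh5e4e7266ca016e80.shift 0 4), (rha74f39e184c8d1a6.shift 1 2), (rhebbfc1325fb53d6f.shift 3 0)] (by decide +kernel))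
noncomputable def rh6d659fe2506253e4 : CRef := CRef.mk (Pat.mk 0x6000000140000001000000000 0x200000002000000030000000fe0000003f0000001000000010 5 8) 0 0 (step_sound _ 100 [(rh5d91ec4eb06a1f14.shift 1 0), (rh5e4e7266ca016e80.shift 0 2), (rha3bd7f1e5cbcdd2e.shift 1 0), (rha6816dee951f7ee6.shift 1 2)] (by decide +kernel))
noncomputable def rhe2f93f751a1b2a86 : CRef := CRef.mk (Pat.mk 0x20000000e000000000000001000000000 0x730000003e000000300000001000000010 5 7) 0 0 (step_sound _ 100 [(rh3244c3cc8379b070.shift 0 3), (rh500a083f39e7580c.shift 1 0)] (by decide +kernel))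
noncomputable def rh11c0d30a130f4f38 : CRef := CRef.mk (Pat.mk 0x1c000000080000002000000000 0xe00000007e0000007f0000002000000020 5 8) 0 0 (step_sound _ 101 [(rh41140eaa67c26838.shift 0 2), (rh500a083f39e7580c.shift 2 0), (rhaf9f2efc81a8312b.shift 1 2)] (by decide +kernel))
noncomputable def rh54f24e26e8fe79a4 : CRef := CRef.mk (Pat.mk 0x40000001e0000000a0000000000000000 0x70000001e0000003e0000000300000003 5 6) 0 0 (step_sound _ 68 [rh372df23d0ec787b3, (rhe25b0a99195a5d59.shift 1 2)] (by decide +kernel))
noncomputable def rhe8ad0f20030a8b65 : CRef := CRef.mk (Pat.mk 0x200000006000000020000000000000000 0x500000007000000070000000600000006000000060000000600000004 5 3) 0 0 (step_sound _ 161 [(rh1741680720c097b4.shift 0 2), (rhc9de03f9731897d4.shift 1 0), (rhd4b4beefcd67f51e.shift 1 1)] (by decide +kernel))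
noncomputable def rhff137c455409f0e3 : CRef := CRef.mk (Pat.mk 0xf000000000000001000000000 0x700000003f000000380000001000000010 5 7) 0 0 (step_sound _ 68 [(rh96851dee118c1ba3.shift 0 2), (rhf8802b2664e41e7f.shift 1 0)] (by decide +kernel))
noncomputable def rh369f87e380fb0016 : CRef := CRef.mk (Pat.mk 0x60000001c00000018 0x30000000300000003e0000001f00000018 5 6) 0 0 (step_sound _ 33 [(rh85edaa7e257fdb26.shift 1 0), rhb739f4f82bb681b4] (by decide +kernel))
noncomputable def rh90b558dcae53cbf1 : CRef := CRef.mk (Pat.mk 0x100000002000000020000000200000000 0x4000000070000000700000002000000060000000600000004 5 3) 0 0 (step_sound _ 129 [(rh50fbb5868c909700.shift 0 1), (rhced6d86d2069808b.shift 1 0)] (by decide +kernel))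
noncomputable def rh0379ef05c17b491f : CRef := CRef.mk (Pat.mk 0x1e0000001a0000001000000000 0x200000002000000070000001e0000001e0000003400000004 5 6) 0 0 (step_sound _ 66 [rhd5889c99d29bf7d6, (rhe25b0a99195a5d59.shift 1 1)] (by decide +kernel))
noncomputable def rh1adc8391535f5fb2 : CRef := CRef.mk (Pat.mk 0x300000003000000020000000200000000 0x600000006000000060000000300000003000000060000000600000004 5 3) 0 0 (step_sound _ 34 [(rh55afc6a59410cf00.shift 1 0), (rhdc29ce31a7530d3c.shift 0 1)] (by decide +kernel))
noncomputable def rhc96c66aeb8f7600c : CRef := CRef.mk (Pat.mk 0xc0000001800000000 0x1000000010000000300000001f0000003800000008 5 6) 0 0 (step_sound _ 65 [(rh360933a1a234373a.shift 1 0), (rhb739f4f82bb681b4.shift 0 1)] (by decide +kernel))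
noncomputable def rh8ff71bc284510f75 : CRef := CRef.mk (Pat.mk 0x20000000300000002000000020000000000000000 0x200000002000000020000000300000003000000070000000600000006 5 3) 0 0 (step_sound _ 34 [rh29be859f2f9fac63, (rhd3458b32566d63f7.shift 1 1)] (by decide +kernel))
noncomputable def rhbaff7ec0fcc038ba : CRef := CRef.mk (Pat.mk 0x2000000030000000200000002000000000000000000000000 0x2000000030000000300000006000000070000000700000001 5 3) 0 0 (step_sound _ 66 [rha50dbbf62b1eb32d, (rhd3458b32566d63f7.shift 1 2)] (by decide +kernel))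
noncomputable def rh167fff566cb27b75 : CRef := CRef.mk (Pat.mk 0x10000000e00000000 0x730000003e00000070 5 7) 0 0 (step_sound _ 36 [(rh3f8766e6ecb455ce.shift 0 1), (rh3fc3a7fb6866dcd4.shift 1 0)] (by decide +kernel))
noncomputable def rhda7297b1db46bc8a : CRef := CRef.mk (Pat.mk 0x50000000700000005000000040000000000000000 0x1000000010000000500000007000000070000000e0000000c0000000c 5 4) 0 0 (step_sound _ 35 [rh6e6e5f8fc4ce133b, (rhd3458b32566d63f7.shift 2 1)] (by decide +kernel))
noncomputable def rh8a4cebab0502a820 : CRef := CRef.mk (Pat.mk 0x1c000000300000002000000000 0x8000000080000001c0000007f0000003700000004 5 7) 0 0 (step_sound _ 67 [rhd3d8609b2253d0cd, (rhf48373e13d2bc128.shift 2 2)] (by decide +kernel))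
noncomputable def rh1b9022be4f7af407 : CRef := CRef.mk (Pat.mk 0x60000000200000002000000000000000000000000 0x4000000060000000200000002000000070000000700000005 5 3) 0 0 (step_sound _ 65 [(rh2f68792b6b779e96.shift 1 2), rh6eff4158bb400f47] (by decide +kernel))
noncomputable def rhb1127bace8588ebe : CRef := CRef.mk (Pat.mk 0x20000001a0000000200000000 0x50000000700000007000000020000001a0000000f00000005 5 5) 0 0 (step_sound _ 129 [(rhc85cc95794737cf7.shift 0 1), rhd630af2e39ca770f] (by decide +kernel))
noncomputable def rh9fecc968bced2cac : CRef := CRef.mk (Pat.mk 0x2000000020000000600000000 0x4000000060000000600000002000000030000000700000005 5 3) 0 0 (step_sound _ 129 [rh20966da26a1c2ae8, (rh55afc6a59410cf00.shift 1 0)] (by decide +kernel))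
noncomputable def rh4e2b5ea0a9027acd : CRef := CRef.mk (Pat.mk 0x200000002000000020000000000000000 0x500000007000000070000000300000003000000030000000300000001 5 3) 0 0 (step_sound _ 161 [(rh1741680720c097b4.shift 0 2), (rh20966da26a1c2ae8.shift 0 1), (rh968ba7b0df7e4096.shift 0 1), rhc4526fc8abf298b6] (by decide +kernel))
noncomputable def rh955c8fc2b04852d4 : CRef := CRef.mk (Pat.mk 0x800000000000000100000003800000000 0x80000000c0000003f0000003e00000007 5 6) 0 0 (step_sound _ 34 [rh55c4ed4acec0f063, (rhd5358021be058853.shift 1 0), (rhedf6b6c69a16cbd5.shift 0 1)] (by decide +kernel))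
noncomputable def rhecbbb221a43cdaac : CRef := CRef.mk (Pat.mk 0x20000001a0000000200000000 0x50000000700000007000000020000001b0000000f00000005 5 5) 0 0 (step_sound _ 129 [(rh1741680720c097b4.shift 0 1), rh36e6bb6cca6188da, rh968ba7b0df7e4096] (by decide +kernel))
noncomputable def rh9a7cc2dbc0c1b964 : CRef := CRef.mk (Pat.mk 0x20000000200000002000000000000000000000000 0x100000003000000030000000300000006000000070000000700000005 5 3) 0 0 (step_sound _ 65 [rh46baee19951a66e7, (rh5abfc4c9d959be03.shift 0 1), rh6eff4158bb400f47, rhc4526fc8abf298b6] (by decide +kernel))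
noncomputable def rh8f3c544a17d1186e : CRef := CRef.mk (Pat.mk 0x400000002000000020000000200000000 0x1000000070000000700000002000000030000000300000001 5 3) 0 0 (step_sound _ 129 [(rh2f68792b6b779e96.shift 1 1), rh771d065bdc85bf2d] (by decide +kernel))
noncomputable def rh08436c2649689ebd : CRef := CRef.mk (Pat.mk 0x3400000020 0x70000003e00000067 5 7) 0 0 (step_sound _ 35 [rh775ca1963e850b80, (rhe25b0a99195a5d59.shift 2 0)] (by decide +kernel))
noncomputable def rh0065abada5c72e0d : CRef := CRef.mk (Pat.mk 0x100000007000000028 0x370000007e0000006c 5 7) 0 0 (step_sound _ 35 [rh39ee55465d7f1610, (rheb0810cc63b001d8.shift 2 0)] (by decide +kernel))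
noncomputable def rhfb9fb48a5e63ed80 : CRef := CRef.mk (Pat.mk 0x2000000020000000600000000 0x5000000070000000700000002000000020000000600000004 5 3) 0 0 (step_sound _ 129 [(rh1741680720c097b4.shift 0 1), (rh55afc6a59410cf00.shift 1 0)] (by decide +kernel))
noncomputable def rh7999f13d61da1d49 : CRef := CRef.mk (Pat.mk 0x400000000000000000000001e00000000 0x400000006000000370000001e00000003 5 6) 0 0 (step_sound _ 69 [(rh428265de8cd3cd2d.shift 1 1), rhd5358021be058853] (by decide +kernel))
noncomputable def rh537071bc4ae65b3d : CRef := CRef.mk (Pat.mk 0x20000000200000002000000000000000000000000 0x100000003000000030000000300000003000000070000000700000005 5 3) 0 0 (step_sound _ 65 [rh46baee19951a66e7, rh6eff4158bb400f47, (rh771d065bdc85bf2d.shift 0 1), rhc4526fc8abf298b6] (by decide +kernel))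
noncomputable def rha9c3000a4a04b985 : CRef := CRef.mk (Pat.mk 0x8000000090000000900000009 0x170000001f0000000b0000000900000009 5 5) 0 0 (step_sound _ 100 [(rh2f68792b6b779e96.shift 3 0), rh4dd2faa61b7c7561] (by decide +kernel))
noncomputable def rha789cb63a6382c65 : CRef := CRef.mk (Pat.mk 0x1e0000001a0000000000000000 0x4000000070000001e0000001a0000000f00000007 5 5) 0 0 (step_sound _ 129 [(rh3244c3cc8379b070.shift 0 3), rhd8773b87aec2b621] (by decide +kernel))
noncomputable def rh0ef6c71ce89c1c36 : CRef := CRef.mk (Pat.mk 0x600000006000000020000000200000000 0x300000003000000030000000600000006000000030000000300000001 5 3) 0 0 (step_sound _ 32 [(rh4f01fe223ae1129c.shift 0 1), rh932754581e0f4330] (by decide +kernel))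
noncomputable def rh673fec6b1f99f329 : CRef := CRef.mk (Pat.mk 0x1800000038000000000000000000000000 0x800000008000000380000003f0000000f0000000400000004 5 6) 0 0 (step_sound _ 98 [(rh3423e5ac208fb65b.shift 1 0), (rh55c4ed4acec0f063.shift 0 2), (rhab2ad169e49f9c5e.shift 0 3)] (by decide +kernel))
noncomputable def rh5583c2d238de57c4 : CRef := CRef.mk (Pat.mk 0x6000000020000001a0000001a00000000 0x10000000b0000001f0000000a0000001a0000001a00000010 5 5) 0 0 (step_sound _ 160 [rh7ffb1222ee134497, (rhffd04209dc8ea796.shift 0 1)] (by decide +kernel))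
noncomputable def rhf999ac580b0e0004 : CRef := CRef.mk (Pat.mk 0x20000000600000016000000100000000000000000 0x2000000060000001e000000370000000600000006 5 6) 0 0 (step_sound _ 34 [(rh9e07f76261b05888.shift 1 1), rhfbd83019c2daa28e] (by decide +kernel))
noncomputable def rhb5380065117b14df : CRef := CRef.mk (Pat.mk 0x80000000e00000016000000100000000000000000 0xc0000000e0000001e000000370000000600000002 5 6) 0 0 (step_sound _ 66 [rh40e92d090f40bc26, (rh71222050f2c63a3a.shift 2 1)] (by decide +kernel))
noncomputable def rhc0e8648a4a67a989 : CRef := CRef.mk (Pat.mk 0x28000000780000000000000000 0x8000000080000001f00000078000000f80000001000000010 5 8) 0 0 (step_sound _ 100 [(rhf48373e13d2bc128.shift 3 2), rhf9a76243124d3ab1] (by decide +kernel))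
noncomputable def rh8116c2858c2672d6 : CRef := CRef.mk (Pat.mk 0xe000000010000001000000000 0x700000003e000000330000001000000010 5 7) 0 0 (step_sound _ 100 [(rh80fcd6d0a18cb2dd.shift 0 2), (rhfcffa0a9e99c8fd4.shift 1 0)] (by decide +kernel))
noncomputable def rh5a860b5057e1e4c5 : CRef := CRef.mk (Pat.mk 0x2000000060000000200000002 0x1000000070000000700000006000000060000000600000002 5 3) 0 0 (step_sound _ 130 [(rhbaefcd01e0a8bca3.shift 1 0), (rhe7d208b70c184706.shift 0 1)] (by decide +kernel))
noncomputable def rh8a1bd34420cccc7f : CRef := CRef.mk (Pat.mk 0x2000000060000000200000002000000000000000000000000 0x2000000060000000600000003000000070000000700000004 5 3) 0 0 (step_sound _ 64 [rh5799bc112efcbb34, (rh79877ebd3ef475dd.shift 0 2)] (by decide +kernel))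
noncomputable def rh8a7a13525ae4a5c5 : CRef := CRef.mk (Pat.mk 0x10000000e000000000000001000000000 0x730000003e000000300000001000000010 5 7) 0 0 (step_sound _ 100 [(rh3f8766e6ecb455ce.shift 0 3), (rhfcffa0a9e99c8fd4.shift 1 0)] (by decide +kernel))
noncomputable def rhf42d41e1ef4647c0 : CRef := CRef.mk (Pat.mk 0x20000001600000004 0x30000007e000000ee 5 8) 0 0 (step_sound _ 35 [(rh3244c3cc8379b070.shift 0 1), (rhb02f9c2bd63f56db.shift 1 0)] (by decide +kernel))
noncomputable def rh89cf5152879421f3 : CRef := CRef.mk (Pat.mk 0x2000000030000000200000002000000000000000000000000 0x2000000030000000300000003000000070000000700000004 5 3) 0 0 (step_sound _ 64 [rh36f5b7631f426395, (rh79877ebd3ef475dd.shift 0 2)] (by decide +kernel))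
noncomputable def rhd833bfa7bc0730a9 : CRef := CRef.mk (Pat.mk 0x580000007000000040 0xd80000007f00000067 5 8) 0 0 (step_sound _ 35 [(rh33e738c4ed385b9f.shift 3 1), rhc0fdbedd668582ed] (by decide +kernel))
noncomputable def rh32431e66bbf434a4 : CRef := CRef.mk (Pat.mk 0x2000000020000000300000000 0x5000000070000000700000002000000020000000300000001 5 3) 0 0 (step_sound _ 129 [rh932754581e0f4330, (rhc85cc95794737cf7.shift 0 1)] (by decide +kernel))
noncomputable def rh42ab489a1be3958e : CRef := CRef.mk (Pat.mk 0x2000000020000000300000002 0x1000000070000000700000006000000030000000300000002 5 3) 0 0 (step_sound _ 130 [(rh8fb96b2877771c9d.shift 0 1), (rhbaefcd01e0a8bca3.shift 1 0)] (by decide +kernel))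
noncomputable def rh81eabc3f853e2700 : CRef := CRef.mk (Pat.mk 0x180000007800000000 0xf80000007f00000007 5 8) 0 0 (step_sound _ 70 [rh16e5c0d4749f5d02, (rh33e738c4ed385b9f.shift 3 1)] (by decide +kernel))
noncomputable def rh9115c4bb33f193b6 : CRef := CRef.mk (Pat.mk 0x1e00000018 0xe0000000fe0000001f 5 8) 0 0 (step_sound _ 1 [(rh20927f0bb3db88dd.shift 1 0), rheb0810cc63b001d8] (by decide +kernel))
noncomputable def rh36095876875a1ad2 : CRef := CRef.mk (Pat.mk 0x1e00000018 0xe7000000fe00000018 5 8) 0 0 (step_sound _ 65 [(rh3244c3cc8379b070.shift 0 1), (rh88e70b8df69afeaa.shift 1 0)] (by decide +kernel))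
noncomputable def rhfe9e522090ad037d : CRef := CRef.mk (Pat.mk 0x1e000000080000002800000000 0x8000000080000001e0000003f0000003800000010 5 6) 0 0 (step_sound _ 68 [rh4f50c7f5e3268c57, (rhe25b0a99195a5d59.shift 1 2)] (by decide +kernel))
noncomputable def rh70e772a26670f58d : CRef := CRef.mk (Pat.mk 0x60000001e000000080000000000000000 0x60000001e0000003f0000000300000003 5 6) 0 0 (step_sound _ 65 [rh5e05d77759f5ac2b, (rheb0810cc63b001d8.shift 0 2)] (by decide +kernel))
noncomputable def rh9e575f61cd2f7b5e : CRef := CRef.mk (Pat.mk 0x7800000060000000000000003800000000 0x8000000780000007c0000000f0000003e00000007 5 7) 0 0 (step_sound _ 34 [rh592c7139d2c44767, (rh7a01ceef61f02523.shift 1 1), (rh8c529d65d9c8fc42.shift 1 0)] (by decide +kernel))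
noncomputable def rh55451f5fb35982bd : CRef := CRef.mk (Pat.mk 0xf000000010000001000000000 0x700000003f0000001b0000001000000010 5 7) 0 0 (step_sound _ 100 [(rh80fcd6d0a18cb2dd.shift 0 2), rhee0d311f64c2e394] (by decide +kernel))
noncomputable def rh32ec57c92e17635e : CRef := CRef.mk (Pat.mk 0x1e00000008000000200000000200000000 0x1e0000003f000000330000000200000002 5 6) 0 0 (step_sound _ 100 [(rhe25b0a99195a5d59.shift 1 3), rhff0344660548fdb5] (by decide +kernel))
noncomputable def rhbba7d23481996066 : CRef := CRef.mk (Pat.mk 0x1000000020000000200000002000000000000000000000000 0x1000000030000000200000002000000070000000700000005 5 3) 0 0 (step_sound _ 65 [rh8cdd36b03d57a2f6, (rhffd04209dc8ea796.shift 0 2)] (by decide +kernel))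
noncomputable def rh87b9817942837c09 : CRef := CRef.mk (Pat.mk 0x1800000010000000500000001000000000 0x3c000000ff000000700000001000000010 5 8) 0 0 (step_sound _ 99 [(rh7b1f1fb55310c477.shift 3 0), (rhea3c5b0f6ced13cf.shift 0 2)] (by decide +kernel))
noncomputable def rhb4cf3585329d41ef : CRef := CRef.mk (Pat.mk 0x20000000200000002000000010000000000000000 0x4000000060000000600000002000000070000000700000004 5 3) 0 0 (step_sound _ 65 [(rh932754581e0f4330.shift 0 1), (rhc9de03f9731897d4.shift 1 0)] (by decide +kernel))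
noncomputable def rhab5499bacd1db957 : CRef := CRef.mk (Pat.mk 0x80000000800000028000000080000000800000000 0x1800000018000000380000001f0000000c00000008 5 6) 0 0 (step_sound _ 132 [(rh2f68792b6b779e96.shift 3 1), rhe9f7038a3721aaf9] (by decide +kernel))
noncomputable def rh984bfc6de6c2c524 : CRef := CRef.mk (Pat.mk 0x4000000020000000200000002000000000000000000000000 0x4000000060000000200000002000000070000000700000005 5 3) 0 0 (step_sound _ 65 [rh6eff4158bb400f47, (rhbaefcd01e0a8bca3.shift 1 2)] (by decide +kernel))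
noncomputable def rh37d2ff33d1233819 : CRef := CRef.mk (Pat.mk 0x1000000010000000100000001000000000000000000000000 0x10000000100000003000000030000000300000003000000030000000300000002 5 2) 0 0 (step_sound _ 64 [(rh9bb7d10ce98dcee4.shift 0 1), rhc9de03f9731897d4, (rhd29a1fb688eae70f.shift 0 1)] (by decide +kernel))
noncomputable def rha89e52a919ed9a7b : CRef := CRef.mk (Pat.mk 0x20000000200000002000000020000000100000000 0x200000002000000060000000600000006000000060000000300000003 5 3) 0 0 (step_sound _ 33 [rh932754581e0f4330, (rh9bb7d10ce98dcee4.shift 1 0)] (by decide +kernel))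
noncomputable def rh2ecdea451570a7fb : CRef := CRef.mk (Pat.mk 0x7000000040000001400000000000000080000000000000000 0x170000003e000000140000001c000000180000000800000008 5 6) 0 0 (step_sound _ 164 [(rh2c7435f6fae6c77b.shift 2 0), (rh68691964b29f233d.shift 0 5)] (by decide +kernel))
noncomputable def rhaa8a09a2b85da4ae : CRef := CRef.mk (Pat.mk 0x300000008000000080000000800000010 0x140000001e0000001b00000008000000080000001800000010 5 5) 0 0 (step_sound _ 131 [(rh3c8f4260c625d1ca.shift 0 1), (rhd3458b32566d63f7.shift 3 0)] (by decide +kernel))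
noncomputable def rhc05d451ce3dd5e48 : CRef := CRef.mk (Pat.mk 0x1000000020000000200000002000000000000000000000000 0x1000000030000000200000002000000070000000700000005 5 3) 0 0 (step_sound _ 65 [rh6eff4158bb400f47, (rhffd04209dc8ea796.shift 0 2)] (by decide +kernel))
noncomputable def rh3bb4a8298ce306a8 : CRef := CRef.mk (Pat.mk 0x3c00000004 0x70000007f0000003c 5 7) 0 0 (step_sound _ 65 [(rh3f8766e6ecb455ce.shift 1 1), rh8dcdd87a0d2a2a69] (by decide +kernel))
noncomputable def rh8ceb03631decf9ab : CRef := CRef.mk (Pat.mk 0x40000003800000000 0x60000003e00000077 5 7) 0 0 (step_sound _ 34 [rh185f35b8bd8ec37f, (rh3244c3cc8379b070.shift 1 1)] (by decide +kernel))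
noncomputable def rh551591afa7e9bd9a : CRef := CRef.mk (Pat.mk 0x400000003800000000 0x670000003e00000007 5 7) 0 0 (step_sound _ 34 [(rh428265de8cd3cd2d.shift 2 1), rh775ca1963e850b80] (by decide +kernel))
noncomputable def rhafce214f40257ff7 : CRef := CRef.mk (Pat.mk 0x20000000200000002000000010000000000000000 0x1000000030000000300000002000000070000000700000004 5 3) 0 0 (step_sound _ 65 [rh8ff3dde5b1c639e0, (rh932754581e0f4330.shift 0 1)] (by decide +kernel))
noncomputable def rh1b65335f7cd3b248 : CRef := CRef.mk (Pat.mk 0x100000003800000000 0xff000000fe00000007 5 8) 0 0 (step_sound _ 34 [rh775ca1963e850b80, (rhe6bdd62e1711df0b.shift 2 1), (rhff7d63dcb3cf9f74.shift 1 1)] (by decide +kernel))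
noncomputable def rhf435f65ca384ce7a : CRef := CRef.mk (Pat.mk 0x1000000020000000200000002000000000000000000000000 0x5000000070000000600000002000000060000000600000004 5 3) 0 0 (step_sound _ 65 [(rh6c59ce14113da07f.shift 1 0), (rhffd04209dc8ea796.shift 0 2)] (by decide +kernel))
noncomputable def rh374ae440e8011597 : CRef := CRef.mk (Pat.mk 0x1000000020000000200000002000000000000000000000000 0x5000000070000000600000002000000030000000300000001 5 3) 0 0 (step_sound _ 65 [rhcab3157f7bdcba3e, (rhffd04209dc8ea796.shift 0 2)] (by decide +kernel))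
noncomputable def rh86aa94d7c0c1e10d : CRef := CRef.mk (Pat.mk 0x400000004000000040000000200000000 0x400000004000000040000003c0000000f0000000a 5 6) 0 0 (step_sound _ 34 [rh3038ab5f74634e6d, (rh932754581e0f4330.shift 1 0)] (by decide +kernel))
noncomputable def rhb045e761e5fc4da9 : CRef := CRef.mk (Pat.mk 0x300000008000000080000000800000004 0x140000001e0000001b00000008000000080000000c00000004 5 5) 0 0 (step_sound _ 131 [(rh3c8f4260c625d1ca.shift 0 1), (rh79877ebd3ef475dd.shift 2 0)] (by decide +kernel))
noncomputable def rh7779e16b2a35bc09 : CRef := CRef.mk (Pat.mk 0x200000002000000020000000100000000 0x4000000060000000600000002000000070000000700000004 5 3) 0 0 (step_sound _ 161 [(rh79877ebd3ef475dd.shift 0 1), (rhc9de03f9731897d4.shift 1 0)] (by decide +kernel))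
noncomputable def rhdb37315225a71076 : CRef := CRef.mk (Pat.mk 0x2000000060000000200000000000000000000000000000000 0x60000000600000006000000060000000600000007000000070000000700000001 5 3) 0 0 (step_sound _ 97 [rh274a837cd7eaa569, (rh7ab09f375cd5d482.shift 1 3), (rh8cdd36b03d57a2f6.shift 0 1), (rha707fb719e87fe6e.shift 1 2)] (by decide +kernel))
noncomputable def rhc92c11e8da6c894f : CRef := CRef.mk (Pat.mk 0x3800000020 0x70000003e00000067 5 7) 0 0 (step_sound _ 34 [rh592c7139d2c44767, (rhe25b0a99195a5d59.shift 2 0)] (by decide +kernel))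
noncomputable def rh1dffa6d8a02b5f3a : CRef := CRef.mk (Pat.mk 0x2000000030000000200000002 0x4000000070000000700000003000000030000000300000002 5 3) 0 0 (step_sound _ 128 [(rh41b8be278618af7d.shift 0 1), rhffd04209dc8ea796] (by decide +kernel))
noncomputable def rh3d54e7f933686048 : CRef := CRef.mk (Pat.mk 0xe00000001 0x700000003e00000073 5 7) 0 0 (step_sound _ 36 [rh80fcd6d0a18cb2dd, (rha93a5dd541ab8209.shift 1 0)] (by decide +kernel))
noncomputable def rha918b73f4640c244 : CRef := CRef.mk (Pat.mk 0x10000000020000000e00000000 0x1000000010000000330000003e00000070 5 7) 0 0 (step_sound _ 36 [(rh3244c3cc8379b070.shift 0 1), (rh7618364b9b53dd13.shift 1 0)] (by decide +kernel))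
noncomputable def rh3837f5226872a3ae : CRef := CRef.mk (Pat.mk 0x8000000000000000f000000000000000000000000 0x800000008000000180000001f000000380000001000000010 5 6) 0 0 (step_sound _ 68 [(rh96851dee118c1ba3.shift 0 2), (rh9bbc9ceb88931d93.shift 1 0)] (by decide +kernel))
noncomputable def rh4b137110577800fb : CRef := CRef.mk (Pat.mk 0x40000003800000000 0x60000003e00000077 5 7) 0 0 (step_sound _ 34 [(rh3244c3cc8379b070.shift 1 1), rh41140eaa67c26838] (by decide +kernel))
noncomputable def rh88c620441a3a17ea : CRef := CRef.mk (Pat.mk 0x3800000040 0x70000003e00000067 5 7) 0 0 (step_sound _ 34 [rh592c7139d2c44767, (rh96851dee118c1ba3.shift 2 0)] (by decide +kernel))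
noncomputable def rh260ac7b49ae7b7c3 : CRef := CRef.mk (Pat.mk 0x3800000000 0x70000007e000000ff 5 8) 0 0 (step_sound _ 34 [rh0d378fd9e8917c5a, rh185f35b8bd8ec37f, (rh42d32bf970c9c157.shift 1 0), rh592c7139d2c44767] (by decide +kernel))
noncomputable def rh346e616115b63df7 : CRef := CRef.mk (Pat.mk 0x1c00000000 0xf00000007e000000ef 5 8) 0 0 (step_sound _ 37 [(rh06db8ceda6269a47.shift 1 0), (rh3b00e9e9432b8f40.shift 1 0), (rh3fc3a7fb6866dcd4.shift 2 0), rh9e97bba44c1b13e4] (by decide +kernel))
noncomputable def rha7020e7e7a1d82ed : CRef := CRef.mk (Pat.mk 0x8000000000000000e000000000000000000000000 0x800000008000000780000003e000000770000001000000010 5 7) 0 0 (step_sound _ 100 [(rh06db8ceda6269a47.shift 0 2), (rh3b00e9e9432b8f40.shift 0 2), (rh3fc3a7fb6866dcd4.shift 1 2), (rh65b5ceb5fe90b1cc.shift 1 0)] (by decide +kernel))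
noncomputable def rhd81e8d7b125b618f : CRef := CRef.mk (Pat.mk 0x200000000000000038000000000000000000000000 0x2000000020000000670000003e000000770000001000000010 5 7) 0 0 (step_sound _ 98 [(rh0d378fd9e8917c5a.shift 0 2), (rh3927159016129638.shift 2 0), (rh775ca1963e850b80.shift 0 2)] (by decide +kernel))
noncomputable def rha2f798832db21f6b : CRef := CRef.mk (Pat.mk 0x20000001e00000002000000000000000000000000 0x2000000060000001e0000003e000000070000000700000002 5 6) 0 0 (step_sound _ 100 [rh0734553501313b0b, (rhe25b0a99195a5d59.shift 1 3)] (by decide +kernel))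
noncomputable def rh6ca67182749e37ae : CRef := CRef.mk (Pat.mk 0xa0000000e0000000c 0x1e0000001e0000000b0000000e0000000c 5 5) 0 0 (step_sound _ 99 [(rh5c5e593799055d58.shift 2 0), rh9fb8d9a485d0650b] (by decide +kernel))
noncomputable def rh0e947cffb3ce913d : CRef := CRef.mk (Pat.mk 0x2000000020000000600000016000000000000000000000000 0x10000000300000006000000060000001e000000030000000300000003 5 5) 0 0 (step_sound _ 192 [(rh50fbb5868c909700.shift 0 3), rhb559d0193d870d1d] (by decide +kernel))
noncomputable def rhd1ff8027c4c86c76 : CRef := CRef.mk (Pat.mk 0x7800000010 0x70000007e0000003e 5 7) 0 0 (step_sound _ 2 [rh72e22f8ff4816922, (rh80fcd6d0a18cb2dd.shift 2 0)] (by decide +kernel))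
noncomputable def rhf6730ecfcbd6f544 : CRef := CRef.mk (Pat.mk 0xe00000002 0x780000003f0000007e 5 7) 0 0 (step_sound _ 36 [rh3e1b7b343686dca1, (rha93a5dd541ab8209.shift 1 0), (rhd584a578337d0023.shift 1 0), (rhf3baec4a0a3dd35e.shift 1 0)] (by decide +kernel))
noncomputable def rh6a7842d1b9fdbc66 : CRef := CRef.mk (Pat.mk 0xc000000080000000c0000000000000000 0x40000000c000000080000001f0000007800000010 5 7) 0 0 (step_sound _ 35 [rh42e615827c8908b1, (rh50fbb5868c909700.shift 2 1)] (by decide +kernel))
noncomputable def rhdc3c2da57ffd9e9b : CRef := CRef.mk (Pat.mk 0x100000003800000000 0xff0000007e00000007 5 8) 0 0 (step_sound _ 34 [(rh56a24c72f1c55520.shift 1 1), rh775ca1963e850b80, (rhec46bd5500c722c9.shift 1 1)] (by decide +kernel))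
noncomputable def rhc8dbae6d14db7fac : CRef := CRef.mk (Pat.mk 0x3800000010 0x70000007e000000ff 5 8) 0 0 (step_sound _ 34 [(rh06db8ceda6269a47.shift 1 0), rh775ca1963e850b80, (rha03f6e28ea70fc7d.shift 1 0)] (by decide +kernel))
noncomputable def rh5ee4dc8825dcefa0 : CRef := CRef.mk (Pat.mk 0x800000008000000080000000800000000 0x140000003c0000000f000000080000000800000008 5 6) 0 0 (step_sound _ 130 [(rh50fbb5868c909700.shift 2 1), rh8d5397c29a6031ac] (by decide +kernel))
noncomputable def rhb38faaee8bdfa7c0 : CRef := CRef.mk (Pat.mk 0x20000000200000002000000010000000000000000 0x4000000060000000600000002000000070000000700000004 5 3) 0 0 (step_sound _ 65 [(rh6c59ce14113da07f.shift 1 0), (rh932754581e0f4330.shift 0 1)] (by decide +kernel))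
noncomputable def rheef6e2625c7864cd : CRef := CRef.mk (Pat.mk 0x2000000020000000200000002000000020000000000000000 0x2000000060000000600000006000000070000000300000003 5 3) 0 0 (step_sound _ 32 [(rh79877ebd3ef475dd.shift 0 1), rha257ce2eb8d2d0a3] (by decide +kernel))
noncomputable def rhd74d37817ec9d4e4 : CRef := CRef.mk (Pat.mk 0xe000000000000000400000004 0x770000003e000000040000000400000004 5 7) 0 0 (step_sound _ 129 [(rh2613c889e411427e.shift 1 0), (rh38791ac5737ed75e.shift 0 3)] (by decide +kernel))
noncomputable def rh71f9f76d8614bf89 : CRef := CRef.mk (Pat.mk 0x20000001e000000000000000800000008 0x4000000060000001e000000030000000f0000001f 5 5) 0 0 (step_sound _ 65 [rhc93d66701fcafc81, (rheb0810cc63b001d8.shift 0 2)] (by decide +kernel))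
noncomputable def rh175cead9898869a5 : CRef := CRef.mk (Pat.mk 0x1c00000000 0xef0000007e000000f0 5 8) 0 0 (step_sound _ 37 [rh0d378fd9e8917c5a, (rh3fc3a7fb6866dcd4.shift 2 0), (rh56a24c72f1c55520.shift 1 1)] (by decide +kernel))
noncomputable def rh47d7c26af3f1df09 : CRef := CRef.mk (Pat.mk 0x3800000000 0xf70000007e000000e7 5 8) 0 0 (step_sound _ 34 [(rh4c622fddc53a5f99.shift 0 1), rh775ca1963e850b80, (rha93a5dd541ab8209.shift 2 0)] (by decide +kernel))
noncomputable def rh0deb2ebc850de581 : CRef := CRef.mk (Pat.mk 0xe0000001000000000 0x800000008000000380000001f0000003000000010 5 6) 0 0 (step_sound _ 68 [rh6206d00fae46d42a, (rhe25b0a99195a5d59.shift 1 1)] (by decide +kernel))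
noncomputable def rh8fcf2ee879e273f8 : CRef := CRef.mk (Pat.mk 0x3800000004 0x770000003e00000006 5 7) 0 0 (step_sound _ 34 [(rh61325f73ebf98108.shift 0 1), (rheb0810cc63b001d8.shift 1 0)] (by decide +kernel))
noncomputable def rheb1f803d27c1c9bf : CRef := CRef.mk (Pat.mk 0x1e00000008 0x70000007e000000ec 5 8) 0 0 (step_sound _ 65 [(rh3244c3cc8379b070.shift 0 1), (rhf7c3976a2c30dd83.shift 1 0)] (by decide +kernel))
noncomputable def rhc854326e817b158e : CRef := CRef.mk (Pat.mk 0x90000000c0000000800000000 0x40000001c0000001c0000001c0000000f0000000c0000000c00000008 5 5) 0 0 (step_sound _ 131 [(rh769be3fe24eee174.shift 2 1), (rh976a48eb1c80a12f.shift 2 1), rhd7aab4aaf85105fc] (by decide +kernel))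
noncomputable def rhfd3569fdf490dc54 : CRef := CRef.mk (Pat.mk 0x3800000000 0xef0000007e000000e7 5 8) 0 0 (step_sound _ 34 [(rh3fc3a7fb6866dcd4.shift 2 0), rh775ca1963e850b80, (rhe401600d466b97cd.shift 1 0)] (by decide +kernel))
noncomputable def rh92a5617064d4a0b4 : CRef := CRef.mk (Pat.mk 0x3c00000040 0x3c000000ff000000c0 5 8) 0 0 (step_sound _ 38 [(rhd64ac1b1180c5fc8.shift 0 1), (rhe25b0a99195a5d59.shift 3 0)] (by decide +kernel))
noncomputable def rhbe6a11bbb961c2b9 : CRef := CRef.mk (Pat.mk 0x300000003000000020000000200000000 0x600000006000000060000000300000003000000030000000300000001 5 3) 0 0 (step_sound _ 32 [rh932754581e0f4330, (rhcb4b35a0771db4b4.shift 0 1)] (by decide +kernel))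
noncomputable def rhc94dfb5f501cb051 : CRef := CRef.mk (Pat.mk 0x4000000020000000200000002000000000000000000000000 0x4000000060000000200000002000000070000000700000005 5 3) 0 0 (step_sound _ 65 [rh8cdd36b03d57a2f6, (rhbaefcd01e0a8bca3.shift 1 2)] (by decide +kernel))
noncomputable def rhad720eccae6656cf : CRef := CRef.mk (Pat.mk 0x4000000000000000200000002000000020000000000000000 0x4000000060000000200000002000000070000000700000005 5 3) 0 0 (step_sound _ 161 [rh6eff4158bb400f47, (rhbaefcd01e0a8bca3.shift 1 2)] (by decide +kernel))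
noncomputable def rh6425d54bb08a4dcc : CRef := CRef.mk (Pat.mk 0x100000003800000000 0xff000000fe00000007 5 8) 0 0 (step_sound _ 34 [rh775ca1963e850b80, (rhe6bdd62e1711df0b.shift 2 1), (rhec46bd5500c722c9.shift 1 1)] (by decide +kernel))
noncomputable def rh0637989806576062 : CRef := CRef.mk (Pat.mk 0x20000000600000002000000000000000000000000 0x400000006000000060000000600000006000000070000000700000005 5 3) 0 0 (step_sound _ 65 [(rh25208373db83e521.shift 1 1), rh8cdd36b03d57a2f6, (rha707fb719e87fe6e.shift 1 1)] (by decide +kernel))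
noncomputable def rh967a45ef8206f4a8 : CRef := CRef.mk (Pat.mk 0x20000000e000000080000000000000000 0x10000000100000003b0000001e000000080000000800000008 5 6) 0 0 (step_sound _ 100 [(rh3244c3cc8379b070.shift 0 3), (rh6eb76252a9026692.shift 1 0)] (by decide +kernel))
noncomputable def rh2fa0c5cf956b84bd : CRef := CRef.mk (Pat.mk 0x1000000008000000080000002800000000 0x1000000018000000080000000f0000007c00000010 5 7) 0 0 (step_sound _ 131 [(rh2f68792b6b779e96.shift 3 1), rhfb2f47ebeee1de4a] (by decide +kernel))
noncomputable def rh1b50ded45eedf7e5 : CRef := CRef.mk (Pat.mk 0x8000000080000002800000008000000000000000000000000 0x100000007c0000000f0000007c000000080000000c0000000c00000004 5 7) 0 0 (step_sound _ 162 [(rh01483ff9cba2f6ac.shift 2 0), (rh8c25cb665ab79ec0.shift 0 4), (rhdf8b9aa233deec1e.shift 0 3)] (by decide +kernel))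
noncomputable def rhda5ff11808c02552 : CRef := CRef.mk (Pat.mk 0x160000000200000000000000080000000800000000 0x1e0000003b00000018000000180000000800000008 5 6) 0 0 (step_sound _ 163 [(rh8a358951c2c8d454.shift 1 0), (rheb0810cc63b001d8.shift 0 4)] (by decide +kernel))
noncomputable def rh9cb7d86fecc7a4e8 : CRef := CRef.mk (Pat.mk 0x100000001e00000000000000000000000e 0x130000001e00000008000000780000001f 5 7) 0 0 (step_sound _ 129 [(rh3244c3cc8379b070.shift 0 3), rhc2317bc8b67231c5] (by decide +kernel))
noncomputable def rh44f90fdc8b134754 : CRef := CRef.mk (Pat.mk 0x1e00000000 0x730000003e00000070 5 7) 0 0 (step_sound _ 65 [(rh3244c3cc8379b070.shift 0 1), (rh3fc3a7fb6866dcd4.shift 1 0)] (by decide +kernel))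
noncomputable def rh241154339d0cd161 : CRef := CRef.mk (Pat.mk 0x20000000200000000000000060000000000000000 0x1000000030000000300000002000000070000000700000001 5 3) 0 0 (step_sound _ 97 [(rh55afc6a59410cf00.shift 1 1), rhc4526fc8abf298b6] (by decide +kernel))
noncomputable def rh7a88a3b0157c5fa1 : CRef := CRef.mk (Pat.mk 0x400000004000000200000003400000000 0x400000006000000630000003e00000007 5 7) 0 0 (step_sound _ 35 [rh2c56be22e7e0e355, (rh33e738c4ed385b9f.shift 2 1)] (by decide +kernel))
noncomputable def rh4ced31a8a6500d40 : CRef := CRef.mk (Pat.mk 0x2000000020000000200000002000000000000000000000000 0x3000000030000000300000003000000070000000700000005 5 3) 0 0 (step_sound _ 65 [(rh7928877f9bf74a91.shift 0 1), rh8cdd36b03d57a2f6, rh8ff3dde5b1c639e0] (by decide +kernel))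
noncomputable def rhb77bfac3e9efecea : CRef := CRef.mk (Pat.mk 0x2000000020000000200000001 0x5000000070000000700000002000000020000000300000001 5 3) 0 0 (step_sound _ 129 [(rh1741680720c097b4.shift 0 1), rh79877ebd3ef475dd] (by decide +kernel))
noncomputable def rha6c7f2962be4f617 : CRef := CRef.mk (Pat.mk 0x1e00000018000000100000000000000000 0x40000001e0000001f000000330000000200000002 5 6) 0 0 (step_sound _ 97 [rh1440f6a1c37c6417, (rheb0810cc63b001d8.shift 0 3)] (by decide +kernel))
noncomputable def rhafb8d3ab270a144a : CRef := CRef.mk (Pat.mk 0x1200000002000000020000000a0000000800000000 0x1000000012000000120000007a0000001f0000000c00000008 5 7) 0 0 (step_sound _ 66 [rh20ad642af64d9dda, (rh55afc6a59410cf00.shift 1 1)] (by decide +kernel))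
noncomputable def rh816bf7ab7597137e : CRef := CRef.mk (Pat.mk 0x12000000020000000a0000000a 0x340000001e000000330000001a0000000a 5 6) 0 0 (step_sound _ 98 [(rh2f68792b6b779e96.shift 1 0), rhd049a89e5ce2375e] (by decide +kernel))
noncomputable def rh999a9fb8540a6aea : CRef := CRef.mk (Pat.mk 0x1000000060000001200000002000000080000000800000000 0x1000000130000001e000000120000001a000000180000000800000008 5 5) 0 0 (step_sound _ 193 [rh4c17ebe7a9bef7b6, (rh50fbb5868c909700.shift 0 3)] (by decide +kernel))
noncomputable def rha49298ecdbecd313 : CRef := CRef.mk (Pat.mk 0x1c000000180000000000000010 0x63000000ff0000001c0000001000000010 5 8) 0 0 (step_sound _ 97 [rh9f6a08ae3740cdc0, (rhb739f4f82bb681b4.shift 0 2)] (by decide +kernel))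
noncomputable def rhcd6dc254042c6b89 : CRef := CRef.mk (Pat.mk 0xe000000040000000000000008 0x300000003f0000003f0000000800000008 5 6) 0 0 (step_sound _ 100 [(rhaf9f2efc81a8312b.shift 0 2), rhe4331c6b06ac49c3] (by decide +kernel))
noncomputable def rh4baad379411d2447 : CRef := CRef.mk (Pat.mk 0x6000000020000001a000000080000000000000000 0x100000001e0000001b0000001e000000080000000800000008 5 5) 0 0 (step_sound _ 128 [(rh5419adcd928dba20.shift 0 3), rh91b04a9b8fefda9e] (by decide +kernel))
noncomputable def rhc90f784d7ec4cdda : CRef := CRef.mk (Pat.mk 0x100000001e00000002 0x18000000ff000000e6 5 8) 0 0 (step_sound _ 37 [rh54c220d2e6f99d03, (rh80fcd6d0a18cb2dd.shift 1 0)] (by decide +kernel))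
noncomputable def rh0dd1060956829e91 : CRef := CRef.mk (Pat.mk 0x60000000200000018000000080000000000000000 0x300000001e0000003b00000018000000080000000800000008 5 6) 0 0 (step_sound _ 164 [(rh0dc21a69ebc6f134.shift 0 2), (rh16cbd58a1619e6a8.shift 3 0), (rh4d477abd4f690b79.shift 0 2), rh80cc27999209e7f7] (by decide +kernel))
noncomputable def rhefb41fb43257ec4b : CRef := CRef.mk (Pat.mk 0x200000002000000020000000200000000 0x5000000070000000700000002000000020000000600000004 5 3) 0 0 (step_sound _ 34 [(rh55afc6a59410cf00.shift 1 0), (rhc85cc95794737cf7.shift 0 1)] (by decide +kernel))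
noncomputable def rh4d9b034736f6e019 : CRef := CRef.mk (Pat.mk 0x7000000070000000000000000 0x8000000080000001c0000001f000000070000000400000004 5 5) 0 0 (step_sound _ 99 [(rh18965a982d73c794.shift 0 2), rh6eb76252a9026692] (by decide +kernel))
noncomputable def rh09183f8d23f37687 : CRef := CRef.mk (Pat.mk 0x4000000040000001e00000018 0x300000003c000000370000001e00000018 5 6) 0 0 (step_sound _ 65 [(rh3244c3cc8379b070.shift 0 1), (rh90a6607759a9843a.shift 1 0)] (by decide +kernel))
noncomputable def rh4ed972033d0a12ff : CRef := CRef.mk (Pat.mk 0x2000000030000000200000002000000000000000000000000 0x2000000030000000300000006000000070000000700000001 5 3) 0 0 (step_sound _ 66 [rh050a702ec6979877, (rhd3458b32566d63f7.shift 1 2)] (by decide +kernel))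
noncomputable def rh1f9701c4cf497514 : CRef := CRef.mk (Pat.mk 0x200000007800000000 0x370000007e0000000e 5 7) 0 0 (step_sound _ 2 [(rh80fcd6d0a18cb2dd.shift 2 0), rhe391af62c2a85c90] (by decide +kernel))
noncomputable def rh0cb2afbfc104e1f8 : CRef := CRef.mk (Pat.mk 0x100000007c000000100000000000000000 0x1c0000007f000000170000001000000010 5 7) 0 0 (step_sound _ 131 [(rh3244c3cc8379b070.shift 2 3), rh3dfe711bc4e0747d] (by decide +kernel))
noncomputable def rh99d4ebcd002df7da : CRef := CRef.mk (Pat.mk 0x100000006000000020000000a000000080000000800000000 0x1000000130000001e0000001a0000001a000000080000000800000008 5 5) 0 0 (step_sound _ 193 [rh27400cbf5ec32612, (rh50fbb5868c909700.shift 0 3)] (by decide +kernel))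
noncomputable def rh552e50e5cab5e814 : CRef := CRef.mk (Pat.mk 0x18000000180000000a00000000 0xc0000000c0000000c00000018000000180000000f00000004 5 5) 0 0 (step_sound _ 34 [(rh53b3c253cb0c65f4.shift 0 1), (rh623a731171d66e50.shift 2 0)] (by decide +kernel))
noncomputable def rhfa35e196e150edb4 : CRef := CRef.mk (Pat.mk 0xe00000002 0x700000003e00000073 5 7) 0 0 (step_sound _ 36 [(rha93a5dd541ab8209.shift 1 0), rheb0810cc63b001d8] (by decide +kernel))
noncomputable def rh9fb9dc683e09b5f3 : CRef := CRef.mk (Pat.mk 0x2000000020000000200000001 0x5000000070000000700000002000000020000000300000001 5 3) 0 0 (step_sound _ 129 [rh79877ebd3ef475dd, (rhc85cc95794737cf7.shift 0 1)] (by decide +kernel))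
noncomputable def rh1fc2e2f6d96d147d : CRef := CRef.mk (Pat.mk 0x20000000a0000000a0000000a00000008 0x50000001f0000001a0000000a0000000e0000000c 5 5) 0 0 (step_sound _ 34 [(rh55afc6a59410cf00.shift 1 0), rh5fe841841c5ff45f] (by decide +kernel))
noncomputable def rh16708cf612f85e37 : CRef := CRef.mk (Pat.mk 0x6000000020000000a0000000a0000000800000008 0x1000000030000001f0000001a0000001a0000000a0000000800000008 5 5) 0 0 (step_sound _ 192 [rh80a1a8a4c64205ff, (rhffd04209dc8ea796.shift 0 2)] (by decide +kernel))
noncomputable def rh6b8bf5948ebd2178 : CRef := CRef.mk (Pat.mk 0x6000000020000000a0000000a0000000800000008 0x1e0000003b0000001a0000000b0000000900000008 5 6) 0 0 (step_sound _ 64 [rh73f29fe7b81e564e, (rh932754581e0f4330.shift 0 1)] (by decide +kernel))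
noncomputable def rhbeba8672de0831a1 : CRef := CRef.mk (Pat.mk 0x3000000120000000200000002 0x3c0000001f0000003a0000000200000002 5 6) 0 0 (step_sound _ 98 [(rh2f68792b6b779e96.shift 1 0), (rhc44aa952c63836fd.shift 0 2)] (by decide +kernel))
noncomputable def rh93606bc2a0cc4aff : CRef := CRef.mk (Pat.mk 0x20000000a0000000a0000000a00000008 0x1000000130000001f0000001a0000000a0000000a00000008 5 5) 0 0 (step_sound _ 132 [(rh12082b6d9880954e.shift 0 1), (rhbaefcd01e0a8bca3.shift 3 0)] (by decide +kernel))
noncomputable def rhb6858d5f7c4eef59 : CRef := CRef.mk (Pat.mk 0x800000004000000040000001400000000 0xc0000000c00000004000000070000003e00000008 5 6) 0 0 (step_sound _ 130 [(rh2f68792b6b779e96.shift 2 1), rha34a16d8d94daec2] (by decide +kernel))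
noncomputable def rhc640019649c42175 : CRef := CRef.mk (Pat.mk 0x4000000040000004000000038000000180000000000000000 0x40000000c000000680000003f000000380000001000000010 5 7) 0 0 (step_sound _ 131 [(rhcfdf45280693d3da.shift 2 2), rhd3e6eb62f45782ee] (by decide +kernel))
noncomputable def rh185c6e3748bd1404 : CRef := CRef.mk (Pat.mk 0x1600000002 0x700000003e00000073 5 7) 0 0 (step_sound _ 35 [(rh3fc3a7fb6866dcd4.shift 1 0), rheb0810cc63b001d8] (by decide +kernel))
noncomputable def rh5c6a51ac01f0fb5c : CRef := CRef.mk (Pat.mk 0x1800000005000000060000001000000000 0x20000000780000003f000000160000001000000010 5 7) 0 0 (step_sound _ 99 [(rh24ae073cf30720c4.shift 0 3), (rh950c481d8beba90e.shift 1 0)] (by decide +kernel))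
noncomputable def rh21ac22ab7b811b03 : CRef := CRef.mk (Pat.mk 0xc000000000000000c0000000400000000 0xc0000000c000000080000000f0000003c00000010 5 6) 0 0 (step_sound _ 99 [(rh5c5e593799055d58.shift 2 1), rh880b34c8d02001a7] (by decide +kernel))
noncomputable def rheaad777ed634577b : CRef := CRef.mk (Pat.mk 0x7800000020 0xe0000007e00000037 5 7) 0 0 (step_sound _ 66 [(rh3f8766e6ecb455ce.shift 2 1), rh56253274bb095044] (by decide +kernel))
noncomputable def rhf4e4690e1d4c3fc6 : CRef := CRef.mk (Pat.mk 0x1c000000140000000000000000 0x200000002000000070000001e000000340000000400000004 5 6) 0 0 (step_sound _ 97 [rhd5889c99d29bf7d6, (rhe25b0a99195a5d59.shift 1 2)] (by decide +kernel))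
noncomputable def rhe67022869c8c461c : CRef := CRef.mk (Pat.mk 0x80000001c00000000 0xff000000ff000001e0 5 9) 0 0 (step_sound _ 37 [(rh915c3ff3d4fe3a39.shift 0 1), (rha93a5dd541ab8209.shift 2 0), (rhae8d21abc86b555a.shift 2 0)] (by decide +kernel))
noncomputable def rh1725eba4bd36066a : CRef := CRef.mk (Pat.mk 0x4000000020000000200000002000000000000000000000000 0x5000000070000000300000002000000030000000300000001 5 3) 0 0 (step_sound _ 65 [(rhbaefcd01e0a8bca3.shift 1 2), rhc4526fc8abf298b6] (by decide +kernel))
noncomputable def rh0e92bd01241e1bdc : CRef := CRef.mk (Pat.mk 0x80000000c0000000800000008 0x140000007c0000001f0000000800000008 5 7) 0 0 (step_sound _ 98 [(rh50fbb5868c909700.shift 2 0), rhe9f9259b2da8d967] (by decide +kernel))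
noncomputable def rh424f754c311038b5 : CRef := CRef.mk (Pat.mk 0x400000004000000060000000400000000 0xa0000000f0000003c000000060000000400000004 5 6) 0 0 (step_sound _ 131 [(rh2f68792b6b779e96.shift 2 1), rhb2a7df0d7b400654] (by decide +kernel))
noncomputable def rh095ae1d3bc5cade4 : CRef := CRef.mk (Pat.mk 0x800000018000000080000000000000000 0x140000001f0000007c000000080000000800000008 5 7) 0 0 (step_sound _ 35 [(rha707fb719e87fe6e.shift 3 0), (rhca405e350c462817.shift 0 1)] (by decide +kernel))
noncomputable def rh5ad63a5e72d50837 : CRef := CRef.mk (Pat.mk 0x7000000000000000000000008000000000000000f00000000 0x1f000000180000001800000008000000180000000f00000004 5 5) 0 0 (step_sound _ 67 [(rh33e738c4ed385b9f.shift 0 1), rha5cf35586593d4a9] (by decide +kernel))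
noncomputable def rh9c94213f6896c74a : CRef := CRef.mk (Pat.mk 0x20000000e00000000 0x730000003e00000070 5 7) 0 0 (step_sound _ 36 [(rh3244c3cc8379b070.shift 0 1), (rh3fc3a7fb6866dcd4.shift 1 0)] (by decide +kernel))
noncomputable def rh4b80de9e25f44385 : CRef := CRef.mk (Pat.mk 0x200000000000000038000000000000000000000000 0x2000000020000000670000003e000000370000001000000010 5 7) 0 0 (step_sound _ 98 [(rh3927159016129638.shift 2 0), (rh592c7139d2c44767.shift 0 2)] (by decide +kernel))
noncomputable def rhc16bc16d5650b821 : CRef := CRef.mk (Pat.mk 0x4000000000000000e000000000000000000000000 0x400000004000000740000003e000000770000000200000002 5 7) 0 0 (step_sound _ 100 [(rh06db8ceda6269a47.shift 0 2), (rh3b00e9e9432b8f40.shift 0 2), (rha93a5dd541ab8209.shift 1 2), rhad7f111fb10ea859] (by decide +kernel))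
noncomputable def rh8cdbc6b29d83aefd : CRef := CRef.mk (Pat.mk 0x20000000000000003800000000 0x2000000020000000670000007e000000ef 5 8) 0 0 (step_sound _ 34 [(rh42d32bf970c9c157.shift 1 0), (rh7618364b9b53dd13.shift 2 0), rh775ca1963e850b80] (by decide +kernel))
noncomputable def rh9075e8e077f682b0 : CRef := CRef.mk (Pat.mk 0x400000004000000000000000e00000000 0x400000004000000040000003e00000077 5 7) 0 0 (step_sound _ 1 [(rh3c88ce959c0e423f.shift 1 0), rhb02f9c2bd63f56db] (by decide +kernel))
noncomputable def rhad8a784a228a12d6 : CRef := CRef.mk (Pat.mk 0x1c00000000 0xe70000007e000000ef 5 8) 0 0 (step_sound _ 37 [(rh06db8ceda6269a47.shift 1 0), (rh3b00e9e9432b8f40.shift 1 0), (rh3fc3a7fb6866dcd4.shift 2 0), rh775ca1963e850b80] (by decide +kernel))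
noncomputable def rha861011ee1927254 : CRef := CRef.mk (Pat.mk 0x3c000000040000001000000070 0x70000003e000000040000003e00000074 5 7) 0 0 (step_sound _ 129 [(rh3f8766e6ecb455ce.shift 1 3), rhcfe87efe7b6820a8] (by decide +kernel))
noncomputable def rh5ffb111d46ce21f9 : CRef := CRef.mk (Pat.mk 0x1600000006000000020000000200000000 0x300000003000000030000001e00000006000000060000000300000001 5 5) 0 0 (step_sound _ 32 [rh932754581e0f4330, (rha526367301f98c3f.shift 0 2)] (by decide +kernel))
noncomputable def rh8aa80d8d90d3223c : CRef := CRef.mk (Pat.mk 0x7800000020 0x70000007e0000003e 5 7) 0 0 (step_sound _ 2 [rh45beebce8c11cf6a, (rh80fcd6d0a18cb2dd.shift 2 0)] (by decide +kernel))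
noncomputable def rh39af83765499c4d3 : CRef := CRef.mk (Pat.mk 0x2000000030000000200000002 0x5000000070000000700000003000000030000000300000002 5 3) 0 0 (step_sound _ 129 [rh3ca48e2a6d60153d, (rh769be3fe24eee174.shift 0 1), (rhc85cc95794737cf7.shift 0 1)] (by decide +kernel))
noncomputable def rh14e0829dc73b6804 : CRef := CRef.mk (Pat.mk 0x2000000020000000600000000 0x5000000070000000700000002000000020000000600000004 5 3) 0 0 (step_sound _ 129 [(rh55afc6a59410cf00.shift 1 0), (rhc85cc95794737cf7.shift 0 1)] (by decide +kernel))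
noncomputable def rheb1807f0915f3067 : CRef := CRef.mk (Pat.mk 0x10000000180000001800000010 0x3000000030000000300000001f0000007800000010 5 7) 0 0 (step_sound _ 66 [(rh34517e326ddb5b25.shift 0 1), (rhad5d8fc3675c15dd.shift 0 1), (rhcde3019c0fe95f01.shift 2 0)] (by decide +kernel))
noncomputable def rhafa5a7051d37b143 : CRef := CRef.mk (Pat.mk 0x1e000000000000000000000000 0x2000000030000003e000000070000000400000004 5 6) 0 0 (step_sound _ 65 [rh5117ef794a583ff1, (rheb0810cc63b001d8.shift 0 2)] (by decide +kernel))
noncomputable def rh43dc67402634d54f : CRef := CRef.mk (Pat.mk 0x1e0000000000000000 0x400000004000000070000003e0000000300000002 5 6) 0 0 (step_sound _ 97 [(rh3244c3cc8379b070.shift 0 2), rhd1564cc1f0e06cc8] (by decide +kernel))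
noncomputable def rh875ee7c4c1e718c0 : CRef := CRef.mk (Pat.mk 0x78 0x7f000001fe 5 9) 0 0 (step_sound _ 2 [(rh211a6c48392e6e74.shift 1 0), rh4c622fddc53a5f99, (rhd5eb272e07a4e288.shift 1 0)] (by decide +kernel))
noncomputable def rh06d79c612b4d2019 : CRef := CRef.mk (Pat.mk 0xe0000001c0000000000000000 0x1200000012000000370000001e0000001c0000000c00000004 5 6) 0 0 (step_sound _ 129 [(rh7dc512b965165b81.shift 0 1), (rhc2c7bae8f445c890.shift 1 0)] (by decide +kernel))
noncomputable def rhc88e839617967cf4 : CRef := CRef.mk (Pat.mk 0x2000000030000000300000000 0x70000000700000007000000030000000300000002 5 3) 0 0 (step_sound _ 129 [rh00c644645561e9be, (rh5c5e593799055d58.shift 0 1)] (by decide +kernel))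
noncomputable def rhe2228a62b296fa97 : CRef := CRef.mk (Pat.mk 0x18000000080000001800000000 0x40000000f0000007c000000080000001800000010 5 7) 0 0 (step_sound _ 131 [(rh55afc6a59410cf00.shift 3 0), (rhca405e350c462817.shift 0 1)] (by decide +kernel))
noncomputable def rh2ab2e32022af7fa9 : CRef := CRef.mk (Pat.mk 0x38000000180000000000000000 0x2000000020000000770000003f000000180000001000000010 5 7) 0 0 (step_sound _ 98 [(rh4c622fddc53a5f99.shift 0 3), (rhba89ab7cb81bcc90.shift 0 2), (rhf60cdf71a14eca6b.shift 2 0)] (by decide +kernel))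
noncomputable def rh66d8a35d318c3215 : CRef := CRef.mk (Pat.mk 0x20000000600000002000000000000000000000000 0x600000006000000060000000600000006000000070000000700000005 5 3) 0 0 (step_sound _ 65 [rh6eff4158bb400f47, (rh7ab09f375cd5d482.shift 1 2), (rha707fb719e87fe6e.shift 1 1)] (by decide +kernel))
noncomputable def rha36ed4c017c18c61 : CRef := CRef.mk (Pat.mk 0x1e000000000000000000000000 0x400000004000000060000003e000000070000000200000002 5 6) 0 0 (step_sound _ 65 [(rh66a680d68bbb6197.shift 1 0), (rheb0810cc63b001d8.shift 0 2)] (by decide +kernel))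
noncomputable def rh9f06256b9143186d : CRef := CRef.mk (Pat.mk 0xf800000040 0x38000000fe00000067 5 8) 0 0 (step_sound _ 34 [rh60ef2a009b7c316e, (rh96851dee118c1ba3.shift 2 0)] (by decide +kernel))
noncomputable def rhc083815ec94cd2b2 : CRef := CRef.mk (Pat.mk 0xe00000001 0x770000003e00000003 5 7) 0 0 (step_sound _ 36 [rh80fcd6d0a18cb2dd, (rhb18e6c78a554867d.shift 0 1)] (by decide +kernel))
noncomputable def rh7c46d848178e4ccf : CRef := CRef.mk (Pat.mk 0x40000000f000000030000000000000000 0x40000000f0000001f0000001e0000000a 5 5) 0 0 (step_sound _ 33 [(rh71222050f2c63a3a.shift 1 0), rh874593e3f05c8191] (by decide +kernel))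
noncomputable def rhfd01510815188b45 : CRef := CRef.mk (Pat.mk 0x200000003800000000 0x670000003e00000070 5 7) 0 0 (step_sound _ 34 [rh0d378fd9e8917c5a, (rh33e738c4ed385b9f.shift 2 1)] (by decide +kernel))
noncomputable def rhba8820896bf02178 : CRef := CRef.mk (Pat.mk 0x7800000008 0xe000000ff00000038 5 8) 0 0 (step_sound _ 66 [rh1a8cdb83c5887f7d, (rh3f8766e6ecb455ce.shift 2 1)] (by decide +kernel))
noncomputable def rh20d9a8adabb97e42 : CRef := CRef.mk (Pat.mk 0xe000000010000001000000000 0x700000003e000000330000001000000010 5 7) 0 0 (step_sound _ 100 [(rh500a083f39e7580c.shift 1 0), (rh80fcd6d0a18cb2dd.shift 0 2)] (by decide +kernel))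
noncomputable def rh7879daa890e4a1ab : CRef := CRef.mk (Pat.mk 0x1c000000020000001000000000 0x8000000380000001f000000130000001000000010 5 6) 0 0 (step_sound _ 97 [rh22de5993038d04b0, (rheb0810cc63b001d8.shift 0 2)] (by decide +kernel))
noncomputable def rh1e8e6803c5e9654f : CRef := CRef.mk (Pat.mk 0x10000000e000000000000001000000000 0x730000003e000000300000001000000010 5 7) 0 0 (step_sound _ 100 [(rh3f8766e6ecb455ce.shift 0 3), (rh500a083f39e7580c.shift 1 0)] (by decide +kernel))
noncomputable def rhda5b5ea9190c0809 : CRef := CRef.mk (Pat.mk 0x20000000200000002000000020000000000000000 0x4000000060000000200000002000000070000000700000005 5 3) 0 0 (step_sound _ 162 [(rh2f68792b6b779e96.shift 1 2), rh8cdd36b03d57a2f6] (by decide +kernel))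
noncomputable def rhd7cbc5daea640744 : CRef := CRef.mk (Pat.mk 0xe00000006000000000000001000000000 0x3f0000003e000000300000001000000010 5 6) 0 0 (step_sound _ 132 [(rh18965a982d73c794.shift 1 3), rhfb28531584c90d61] (by decide +kernel))
noncomputable def rh4f8e450efc5b9f0e : CRef := CRef.mk (Pat.mk 0xe00000002 0x770000003e00000003 5 7) 0 0 (step_sound _ 36 [(rh56a24c72f1c55520.shift 0 1), rheb0810cc63b001d8] (by decide +kernel))
noncomputable def rh2e1c78a2c1bba219 : CRef := CRef.mk (Pat.mk 0x80000001c000000140000001400000000 0x60000000f0000001c0000001f0000003600000002 5 6) 0 0 (step_sound _ 130 [rh12457512f49e4e69, (rh277b01412deaec89.shift 0 1)] (by decide +kernel))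
noncomputable def rh37173402736aee97 : CRef := CRef.mk (Pat.mk 0x12000000060000000200000000 0x500000007000000070000001e000000060000000600000002 5 5) 0 0 (step_sound _ 129 [(rh14f80659e6313cc6.shift 1 1), (rh3da62da861143b9a.shift 0 1), rhfc0fa269c989ad37] (by decide +kernel))
noncomputable def rha221374f592eb9e9 : CRef := CRef.mk (Pat.mk 0x1c000000000000002000000000 0xef0000007e000000670000002000000020 5 8) 0 0 (step_sound _ 101 [(rh500a083f39e7580c.shift 2 0), (rhb18e6c78a554867d.shift 1 3), (rhc6563beaa1184505.shift 0 2)] (by decide +kernel))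
noncomputable def rha7df28b5855c75d7 : CRef := CRef.mk (Pat.mk 0xf000000000000000a00000000 0x400000004000000060000000f0000001a0000000a0000000a 5 5) 0 0 (step_sound _ 67 [(rhd776eb44f7a8b71d.shift 1 0), (rhe25b0a99195a5d59.shift 0 2)] (by decide +kernel))
noncomputable def rh50fae245f40c9f94 : CRef := CRef.mk (Pat.mk 0x20000000600000004000000000000003000000020 0x20000000600000004000000040000003e00000077 5 7) 0 0 (step_sound _ 34 [rh473b2f7acaa88f87, (rh9e07f76261b05888.shift 1 1)] (by decide +kernel))
noncomputable def rhe896bcd1ab03479c : CRef := CRef.mk (Pat.mk 0x38000000000000001000000000 0x2000000020000000770000003e000000170000001000000010 5 7) 0 0 (step_sound _ 98 [(rh775ca1963e850b80.shift 0 2), (rhb705031692dfe65f.shift 2 0)] (by decide +kernel))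
noncomputable def rh779f8441d0cbb854 : CRef := CRef.mk (Pat.mk 0x200000006000000160000001000000000 0x400000006000000060000001e0000003700000006 5 6) 0 0 (step_sound _ 34 [(rh7b1f1fb55310c477.shift 1 0), rhb02ca35181966ef3] (by decide +kernel))
noncomputable def rh987b83cff2edc5a1 : CRef := CRef.mk (Pat.mk 0x200000006000000160000000000000000 0x60000000600000006000000060000001e0000000300000001 5 5) 0 0 (step_sound _ 161 [(rh2145e1d24b96a57e.shift 1 2), rh25fcade0632ba659] (by decide +kernel))
noncomputable def rh7e713d58ed0966d0 : CRef := CRef.mk (Pat.mk 0xe000000040000001000000000 0x380000003f000000370000001000000010 5 6) 0 0 (step_sound _ 100 [rh09d9f2ed3f61f767, (rhaf9f2efc81a8312b.shift 0 2)] (by decide +kernel))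
noncomputable def rh66c438da7fa185e0 : CRef := CRef.mk (Pat.mk 0xf000000000000000000000010 0x700000003f000000380000001000000010 5 7) 0 0 (step_sound _ 68 [(rh320c6d97c59498d4.shift 1 0), (rh96851dee118c1ba3.shift 0 2)] (by decide +kernel))
noncomputable def rh8dd9f845b93871d9 : CRef := CRef.mk (Pat.mk 0x4000000020000000200000002000000000000000000000000 0x5000000070000000300000002000000060000000600000004 5 3) 0 0 (step_sound _ 65 [rh8ff3dde5b1c639e0, (rhbaefcd01e0a8bca3.shift 1 2)] (by decide +kernel))
noncomputable def rh22d86f446f3de558 : CRef := CRef.mk (Pat.mk 0x1000000008000000080000000800000000 0x140000003c0000000f000000080000000800000008 5 6) 0 0 (step_sound _ 131 [(rh2f68792b6b779e96.shift 3 1), rh9aab2e37f490e5ca] (by decide +kernel))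
noncomputable def rh70d9e7d50114c1f5 : CRef := CRef.mk (Pat.mk 0xf000000000000000000000001 0x30000001f0000003b0000000100000001 5 6) 0 0 (step_sound _ 68 [rh401f65ca58b25384, (rh96851dee118c1ba3.shift 0 2)] (by decide +kernel))
noncomputable def rh0f4a0920b9f47778 : CRef := CRef.mk (Pat.mk 0xe00000001 0x70000003e00000073 5 7) 0 0 (step_sound _ 36 [rh80fcd6d0a18cb2dd, rhe401600d466b97cd] (by decide +kernel))
noncomputable def rh6028d697c7d1366a : CRef := CRef.mk (Pat.mk 0xf00000000000000000000000400000000 0x8000000180000000f0000001c0000000c0000000400000004 5 5) 0 0 (step_sound _ 163 [(rh33e738c4ed385b9f.shift 0 4), rh350f4d781f5692f6] (by decide +kernel))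
noncomputable def rhe19d6cc7d82d9345 : CRef := CRef.mk (Pat.mk 0x1c000000080000000000000004 0x30000003f0000003f0000000400000004 5 6) 0 0 (step_sound _ 97 [rh12a4aa43a438d841, (rha03f6e28ea70fc7d.shift 0 2)] (by decide +kernel))
noncomputable def rh4528704b33913084 : CRef := CRef.mk (Pat.mk 0x180000000c000000000000001400000000 0x180000003f000000370000001400000014 5 6) 0 0 (step_sound _ 66 [(rh71222050f2c63a3a.shift 2 0), rhf2e43f1d0e5f7c46] (by decide +kernel))
noncomputable def rh1194550c4fe3ddb3 : CRef := CRef.mk (Pat.mk 0xf000000010000000000000001 0x70000003f000000710000000100000001 5 7) 0 0 (step_sound _ 129 [rh9e3edb185cc347de, (rhae8d21abc86b555a.shift 0 2)] (by decide +kernel))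
noncomputable def rhe1bcd80b5c7d4f4c : CRef := CRef.mk (Pat.mk 0x400000004000000040000000400000000 0xa0000003e00000007000000040000000400000004 5 6) 0 0 (step_sound _ 129 [(rh50fbb5868c909700.shift 1 1), rhd5f3672bdd02e5db] (by decide +kernel))
noncomputable def rh9988c8a3e1154f5e : CRef := CRef.mk (Pat.mk 0xf000000000000000000000001 0x3b0000001f000000030000000100000001 5 6) 0 0 (step_sound _ 132 [rh41a1b2973e38e20a, (rh428265de8cd3cd2d.shift 0 3)] (by decide +kernel))
noncomputable def rhbdce4ae460fd80ce : CRef := CRef.mk (Pat.mk 0x100000000e00000000 0x300000003e00000077 5 7) 0 0 (step_sound _ 36 [rh06db8ceda6269a47, (rh33e738c4ed385b9f.shift 1 1)] (by decide +kernel))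
noncomputable def rh8d4c9e5ff6df67f0 : CRef := CRef.mk (Pat.mk 0x600000006000000060000000200000000 0x90000003f00000007000000060000000600000004 5 6) 0 0 (step_sound _ 34 [(rh19f989cddda8aa20.shift 0 1), (rh7b1f1fb55310c477.shift 1 0)] (by decide +kernel))
noncomputable def rh8c96748594fc20e8 : CRef := CRef.mk (Pat.mk 0xf000000000000000000000001 0x770000003f000000730000000100000001 5 7) 0 0 (step_sound _ 100 [rh2a02695054c83069, (rh3fc3a7fb6866dcd4.shift 1 2), (rhe401600d466b97cd.shift 0 2)] (by decide +kernel))
noncomputable def rhd1a97122f8cd285a : CRef := CRef.mk (Pat.mk 0x1f000000000000000000000002 0x4000000040000000e0000003f0000001e0000000a0000000a 5 6) 0 0 (step_sound _ 67 [(rh027270c32f8feda9.shift 1 0), (rhe25b0a99195a5d59.shift 0 2)] (by decide +kernel))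
noncomputable def rhc63a9ac73354bcb0 : CRef := CRef.mk (Pat.mk 0x7000000028000000000000000800000000 0x700000007c0000001f0000000800000008 5 7) 0 0 (step_sound _ 100 [rh51ce417ab3822512, (rh53b3c253cb0c65f4.shift 2 3)] (by decide +kernel))
noncomputable def rh45ed11d09d1b6d53 : CRef := CRef.mk (Pat.mk 0xc0000000e00000002 0x3c0000007e00000073 5 7) 0 0 (step_sound _ 68 [(rh18965a982d73c794.shift 1 1), rhbb8ddf6556e5ee9b] (by decide +kernel))
noncomputable def rh8d10fc5cbb36834f : CRef := CRef.mk (Pat.mk 0xc0000000c0000000c 0xe0000000f0000003c0000000c0000000c 5 6) 0 0 (step_sound _ 99 [(rh5c5e593799055d58.shift 2 0), rhcd8ace9fca182ce7] (by decide +kernel))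
noncomputable def rhb37989436cb0d1fb : CRef := CRef.mk (Pat.mk 0xc0000001c00000008 0x14000000360000007f0000001c00000008 5 7) 0 0 (step_sound _ 98 [(rh2145e1d24b96a57e.shift 2 0), rhd765db0836a344b1] (by decide +kernel))
noncomputable def rh1d23965cd75bf21d : CRef := CRef.mk (Pat.mk 0xc0000001c00000008 0x800000018000000780000001f0000001c00000018 5 7) 0 0 (step_sound _ 99 [(rh571950d89739e871.shift 2 0), rhc9613fc5bab58382] (by decide +kernel))
noncomputable def rh95d5c216e4ccb56c : CRef := CRef.mk (Pat.mk 0xc0000001c00000008 0x80000001c0000003c0000000f0000001c00000018 5 6) 0 0 (step_sound _ 98 [rh089abf6bf8f7bf1a, (rh2145e1d24b96a57e.shift 2 0)] (by decide +kernel))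
noncomputable def rh1f89b6ee77b3dad5 : CRef := CRef.mk (Pat.mk 0xc0000000c00000008 0xc0000001c0000007c0000001f0000000c00000008 5 7) 0 0 (step_sound _ 99 [(rh7f9f3607ee25a93b.shift 2 0), rhc9613fc5bab58382] (by decide +kernel))
noncomputable def rh806a30ccd3d3e25c : CRef := CRef.mk (Pat.mk 0x200000002000000070000000300000000 0x40000000600000006000000070000001f0000001c 5 5) 0 0 (step_sound _ 34 [(rh55afc6a59410cf00.shift 1 0), rhf2362e95aa73f806] (by decide +kernel))
noncomputable def rh2450e95985d5ffe1 : CRef := CRef.mk (Pat.mk 0x200000002000000020000000000000004 0x5000000070000000700000002000000020000000600000004 5 3) 0 0 (step_sound _ 33 [(rhc85cc95794737cf7.shift 0 1), (rhd3458b32566d63f7.shift 1 0)] (by decide +kernel))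
noncomputable def rh115cf847aef171e1 : CRef := CRef.mk (Pat.mk 0x1c00000006000000020000000800000000 0x100000001c0000003e0000007f0000000800000008 5 7) 0 0 (step_sound _ 99 [(rhb02f9c2bd63f56db.shift 0 2), (rhd02f44a45c1a55c1.shift 2 0)] (by decide +kernel))
noncomputable def rh30c6e0d541037d9b : CRef := CRef.mk (Pat.mk 0x800000008000000180000000c00000000 0x40000000c0000001f000000780000000c00000008 5 7) 0 0 (step_sound _ 69 [(rh18965a982d73c794.shift 2 1), rhd716e2ab31203e19] (by decide +kernel))
noncomputable def rh9099705d7a86edc0 : CRef := CRef.mk (Pat.mk 0x60000001e0000000200000000 0x300000003000000030000003e0000001e0000000600000004 5 6) 0 0 (step_sound _ 100 [(rh33e738c4ed385b9f.shift 1 2), rhea5191d2c77df728] (by decide +kernel))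
noncomputable def rh443e4216a1860251 : CRef := CRef.mk (Pat.mk 0x80000001c000000040000000000000010 0x800000008000000380000001f000000340000001000000010 5 6) 0 0 (step_sound _ 68 [(rh9e07f76261b05888.shift 3 0), (rhefdf9cd76c60b61a.shift 0 2)] (by decide +kernel))
noncomputable def rhe8f0f8a164b0bb2b : CRef := CRef.mk (Pat.mk 0x40000000e000000020000000000000008 0x400000004000000040000001f0000007a0000000800000008 5 7) 0 0 (step_sound _ 67 [(rh1c5e426035d52e9a.shift 0 2), (rh9e07f76261b05888.shift 2 0)] (by decide +kernel))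
noncomputable def rh4fca681c74044791 : CRef := CRef.mk (Pat.mk 0xf0000000f00000000 0xc0000000c0000001c0000000f0000000f00000018 5 5) 0 0 (step_sound _ 99 [(rh33e738c4ed385b9f.shift 0 2), rh92604ba3b53b1003] (by decide +kernel))
noncomputable def rh47de101abd5cf2f5 : CRef := CRef.mk (Pat.mk 0x3000000020000000e0000000600000000 0xc0000001f0000001b0000000e0000000600000002 5 5) 0 0 (step_sound _ 96 [(rh57eff74f907e72e6.shift 0 1), rh7b1f1fb55310c477] (by decide +kernel))
noncomputable def rh03524f5aea6bdef1 : CRef := CRef.mk (Pat.mk 0x1800000010000000100000003800000000 0x40000001f000000380000001c000000f800000010 5 8) 0 0 (step_sound _ 99 [(rh2ac3b44a053bbad4.shift 0 1), (rh7b1f1fb55310c477.shift 3 0)] (by decide +kernel))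
noncomputable def rhe3d4fd193b7dc56e : CRef := CRef.mk (Pat.mk 0x4000000040000000c0000000e00000000 0x80000000c0000000c0000000f0000003e00000014 5 6) 0 0 (step_sound _ 131 [(rh2f68792b6b779e96.shift 2 1), rhda36a7c0cf2c25e2] (by decide +kernel))
noncomputable def rh293eb18b0a1cc816 : CRef := CRef.mk (Pat.mk 0xc000000040000000c0000000e00000000 0x20000000e0000000c0000000f0000007e00000070 5 7) 0 0 (step_sound _ 129 [rh46e96750e1785b7c, (rh50fbb5868c909700.shift 1 1)] (by decide +kernel))
noncomputable def rh170da8a4bd4dc1c7 : CRef := CRef.mk (Pat.mk 0xe0000000c00000004 0x200000002000000770000007e0000000c00000004 5 7) 0 0 (step_sound _ 68 [rh1c1037cb5b3fe471, (rh226655e3fe6b4a8a.shift 1 1), (rhb18e6c78a554867d.shift 0 2)] (by decide +kernel))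
noncomputable def rh8b10c04bde622b78 : CRef := CRef.mk (Pat.mk 0x40000001e00000018 0x30000000300000003f0000001e00000018 5 6) 0 0 (step_sound _ 65 [(rh3244c3cc8379b070.shift 0 1), (rh85edaa7e257fdb26.shift 1 0)] (by decide +kernel))
noncomputable def rh3873507d7bab030b : CRef := CRef.mk (Pat.mk 0x800000004000000080000000c00000000 0x10000000780000001f000000080000000c00000004 5 7) 0 0 (step_sound _ 99 [(rh932754581e0f4330.shift 2 0), (rhc9613fc5bab58382.shift 0 1)] (by decide +kernel))
noncomputable def rhf93140e65523c557 : CRef := CRef.mk (Pat.mk 0x800000008000000180000000c00000000 0x40000000c0000000f0000007c0000000c00000008 5 7) 0 0 (step_sound _ 69 [(rh18965a982d73c794.shift 2 1), rhdd21cabff6f8c986] (by decide +kernel))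
noncomputable def rh554948a6834eedab : CRef := CRef.mk (Pat.mk 0x8000000080000000c0000000800000000 0x10000000180000007c0000000f0000000800000008 5 7) 0 0 (step_sound _ 132 [(rh2f68792b6b779e96.shift 3 1), rhdc0a4287ab9db7aa] (by decide +kernel))
noncomputable def rha10abbb88ab9db0f : CRef := CRef.mk (Pat.mk 0x8000000080000000c0000000c00000000 0x60000000f0000003c0000000c0000000c00000008 5 6) 0 0 (step_sound _ 130 [rh15a3403100bccd1e, (rh50fbb5868c909700.shift 2 1)] (by decide +kernel))
noncomputable def rhd73706dea72a3ef0 : CRef := CRef.mk (Pat.mk 0xc000000080000000c0000000c 0x120000003f0000003f0000000c0000000c 5 6) 0 0 (step_sound _ 100 [(rh2f68792b6b779e96.shift 3 0), rh521a035f40f9b51e] (by decide +kernel))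
noncomputable def rh56c0fcad27f29c3c : CRef := CRef.mk (Pat.mk 0x2000000020000000f0000000c 0x1c0000001e0000001b0000000f0000000c 5 5) 0 0 (step_sound _ 67 [(rh33e738c4ed385b9f.shift 0 1), rhe406382ac8e67cee] (by decide +kernel))
noncomputable def rh4e5dae0dca50c227 : CRef := CRef.mk (Pat.mk 0x18000000180000003000000038 0x40000001f0000003e0000003c000000f8 5 8) 0 0 (step_sound _ 66 [rh2ac3b44a053bbad4, (rhb739f4f82bb681b4.shift 1 1)] (by decide +kernel))
noncomputable def rh2fa8a6cd8a03c75c : CRef := CRef.mk (Pat.mk 0x1e0000000000000000 0x800000008000000380000001f0000003000000010 5 6) 0 0 (step_sound _ 100 [(rh33e738c4ed385b9f.shift 1 2), rh4983c44f3a2eb597] (by decide +kernel))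
noncomputable def rhec877ae179387301 : CRef := CRef.mk (Pat.mk 0x3c000000000000000000000010 0x770000003e000000100000001000000010 5 7) 0 0 (step_sound _ 133 [(rh33e738c4ed385b9f.shift 2 3), rhc6e8aa08dd3f1e41] (by decide +kernel))
noncomputable def rh975c5019df2add56 : CRef := CRef.mk (Pat.mk 0x200000007000000040 0x700000007e000000c7 5 8) 0 0 (step_sound _ 35 [rhb103f40a53fe1424, (rhe25b0a99195a5d59.shift 3 0)] (by decide +kernel))
noncomputable def rh5385f96c5ff769a4 : CRef := CRef.mk (Pat.mk 0x80000001c00000000 0xff0000007f000000e0 5 8) 0 0 (step_sound _ 37 [(rh3fc3a7fb6866dcd4.shift 2 0), (rh915c3ff3d4fe3a39.shift 0 1), (rhe3060b190bc0bc78.shift 1 1)] (by decide +kernel))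
noncomputable def rhd2e7d1d9db1cff3b : CRef := CRef.mk (Pat.mk 0x30000000f00000004 0x18000000180000001f0000000f0000001c 5 5) 0 0 (step_sound _ 67 [(rh33e738c4ed385b9f.shift 0 1), rhdac5010f5d5b1870] (by decide +kernel))
noncomputable def rh837222a0dd15540c : CRef := CRef.mk (Pat.mk 0x100000001e00000008 0x10000000300000001f0000003f00000008 5 6) 0 0 (step_sound _ 65 [rh0ae6781f52b10e08, (rh3244c3cc8379b070.shift 0 1)] (by decide +kernel))
noncomputable def rhdc80e08ad786a8fe : CRef := CRef.mk (Pat.mk 0x20000001e000000020000000000000008 0x400000004000000060000003f0000003a0000000800000008 5 6) 0 0 (step_sound _ 130 [rh7d34d9fd8414533e, (rhf48373e13d2bc128.shift 1 3)] (by decide +kernel))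
noncomputable def rh149833733f3d30f6 : CRef := CRef.mk (Pat.mk 0x1c000000040000000000000004 0x730000003e000000740000000400000004 5 7) 0 0 (step_sound _ 97 [rh0da3f8d18d3a0dfd, (rha93a5dd541ab8209.shift 1 2)] (by decide +kernel))
noncomputable def rh429d551bffc08aea : CRef := CRef.mk (Pat.mk 0x3c00000008 0xe0000000ff00000038 5 8) 0 0 (step_sound _ 70 [rh05b021e620dd7487, (rh428265de8cd3cd2d.shift 2 1)] (by decide +kernel))
noncomputable def rha4cf9251629f1722 : CRef := CRef.mk (Pat.mk 0x1e0000000000000000 0x1000000010000000300000001f0000003800000008 5 6) 0 0 (step_sound _ 36 [rh6cf8b6956f09736d, (rhe25b0a99195a5d59.shift 1 1)] (by decide +kernel))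
noncomputable def rhd542320a7a4dc2c4 : CRef := CRef.mk (Pat.mk 0x1e00000004 0x700000007f0000003c 5 7) 0 0 (step_sound _ 4 [rhbbf26ec00122a913, (rhe25b0a99195a5d59.shift 1 0)] (by decide +kernel))
noncomputable def rhdf99670cc890a965 : CRef := CRef.mk (Pat.mk 0x1e0000000400000000 0x800000008000000380000001f0000003400000010 5 6) 0 0 (step_sound _ 100 [(rh33e738c4ed385b9f.shift 1 2), rhdf5e0509ee58d8b5] (by decide +kernel))
noncomputable def rhf5fa5e48e0784de2 : CRef := CRef.mk (Pat.mk 0x20000000f00000000 0x760000003f00000038 5 7) 0 0 (step_sound _ 4 [(rh41823a304801edf1.shift 1 0), rh96851dee118c1ba3] (by decide +kernel))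
noncomputable def rha4e887c2a2a0f60b : CRef := CRef.mk (Pat.mk 0x200000003800000000 0x670000003e00000007 5 7) 0 0 (step_sound _ 34 [(rh33e738c4ed385b9f.shift 2 1), rh592c7139d2c44767] (by decide +kernel))
noncomputable def rhfdadc7889f1fec70 : CRef := CRef.mk (Pat.mk 0x3800000000 0xe70000007e000000e7 5 8) 0 0 (step_sound _ 34 [rh592c7139d2c44767, (rha93a5dd541ab8209.shift 2 0)] (by decide +kernel))
noncomputable def rh096767d96a1b3292 : CRef := CRef.mk (Pat.mk 0x40000000f00000000 0x3e0000003f00000070 5 7) 0 0 (step_sound _ 68 [(rh428265de8cd3cd2d.shift 0 1), (rh6e96e90a79333766.shift 1 0)] (by decide +kernel))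
noncomputable def rhc81b9213dd57af00 : CRef := CRef.mk (Pat.mk 0x10000000100000001e0000000e00000000 0x4000000340000001f0000001e0000000e0000000a 5 6) 0 0 (step_sound _ 99 [rh605b675802f6a18d, (rh71222050f2c63a3a.shift 3 0)] (by decide +kernel))
noncomputable def rh0bed0287ab662de5 : CRef := CRef.mk (Pat.mk 0x800000000000000180000001e00000010 0x1800000038000000300000001f0000001e00000013 5 6) 0 0 (step_sound _ 65 [(rh3244c3cc8379b070.shift 0 1), rhed843b407a12b975] (by decide +kernel))
noncomputable def rh8d442d3dde2754bf : CRef := CRef.mk (Pat.mk 0x2000000000000000e000000060000000000000008 0xe0000000e0000003c0000000f000000060000000c00000008 5 6) 0 0 (step_sound _ 130 [rh11f90d1613f54b5a, (rh16567ae718d9fd54.shift 1 2), (rh263c9acc72a4db32.shift 1 0)] (by decide +kernel))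
noncomputable def rhd4c5f5d135b8d7bb : CRef := CRef.mk (Pat.mk 0x1e0000000e00000000 0x600000006000000070000001e0000000e0000000a 5 5) 0 0 (step_sound _ 97 [(rh3244c3cc8379b070.shift 0 2), (rh4e7d078a5067a680.shift 1 0)] (by decide +kernel))
noncomputable def rh3e07fa29f3ba9ea5 : CRef := CRef.mk (Pat.mk 0x6000000060000000600000004 0x80000003f0000003e0000000700000004 5 6) 0 0 (step_sound _ 99 [(rh2f68792b6b779e96.shift 2 0), (rh3afd92a68366ae78.shift 0 1)] (by decide +kernel))
noncomputable def rh5969a5623c7aae07 : CRef := CRef.mk (Pat.mk 0x2000000020000001e0000000600000000 0x5000000070000003e0000001e0000000600000002 5 6) 0 0 (step_sound _ 130 [rh1bee81a1f5ade0d9, (rh2f68792b6b779e96.shift 1 1)] (by decide +kernel))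
noncomputable def rh78ba7a524f498efd : CRef := CRef.mk (Pat.mk 0x2000000020000001e0000000600000000 0x4000000070000003e0000001f0000000600000002 5 6) 0 0 (step_sound _ 130 [(rh2f68792b6b779e96.shift 1 1), rhc56443a5eeac2e95] (by decide +kernel))
noncomputable def rhd1f76d1ac1ee7058 : CRef := CRef.mk (Pat.mk 0x10000000100000001e0000000c00000000 0x2000000330000001f0000001e0000000c00000008 5 6) 0 0 (step_sound _ 99 [(rh224c880ba0316e80.shift 0 1), (rh71222050f2c63a3a.shift 3 0)] (by decide +kernel))
noncomputable def rh54e1b4906cb636ea : CRef := CRef.mk (Pat.mk 0x400000006000000040000000000000008 0xa0000003e00000007000000040000000c00000008 5 6) 0 0 (step_sound _ 34 [(rhd3458b32566d63f7.shift 2 0), (rhd8406b09026060f8.shift 0 1)] (by decide +kernel))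
noncomputable def rhf55ddd618a6af679 : CRef := CRef.mk (Pat.mk 0x180000001e0000000c 0xe0000000f0000001b0000001e0000000c 5 5) 0 0 (step_sound _ 99 [(rh5c5e593799055d58.shift 2 0), rhf11e6787aafa4f24] (by decide +kernel))
noncomputable def rh91673d678c20a35c : CRef := CRef.mk (Pat.mk 0x8000000080000000d00000008 0x40000000f0000007c0000000f00000008 5 7) 0 0 (step_sound _ 98 [(rh50fbb5868c909700.shift 2 0), (rhe8e7a93c577942af.shift 0 1)] (by decide +kernel))
noncomputable def rhe17393c2e89e05d7 : CRef := CRef.mk (Pat.mk 0x160000000600000000 0x200000002000000330000001e0000000700000004 5 6) 0 0 (step_sound _ 67 [rh0708313d48b1246a, (rheb0810cc63b001d8.shift 0 1)] (by decide +kernel))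
noncomputable def rh6f9b955097eeb2e4 : CRef := CRef.mk (Pat.mk 0x180000001e00000000 0x1000000010000000300000001f0000003e00000008 5 6) 0 0 (step_sound _ 65 [(rh3244c3cc8379b070.shift 0 1), (rh911e40e388b93c31.shift 1 0)] (by decide +kernel))
noncomputable def rh683a198c27c1520d : CRef := CRef.mk (Pat.mk 0xc000000060000000200000002 0x200000002000000030000003f0000003e0000000700000002 5 6) 0 0 (step_sound _ 100 [(rh18965a982d73c794.shift 1 2), rh946f1e01568ec15f] (by decide +kernel))
noncomputable def rh6761e93124b44f25 : CRef := CRef.mk (Pat.mk 0x80000000e000000000000001400000000 0x2000000020000000f0000001e000000360000001400000014 5 6) 0 0 (step_sound _ 66 [(rh71222050f2c63a3a.shift 2 0), rh9e0207d335cd87aa] (by decide +kernel))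
noncomputable def rh0642e641d788f3d2 : CRef := CRef.mk (Pat.mk 0x380000000c0000000400000014 0x400000004000000760000003f0000001c0000001c00000014 5 7) 0 0 (step_sound _ 98 [rh3bc836f910446139, (rha25c0e62bb8d55c9.shift 1 0), (rhbdb8dfd08861fbf7.shift 1 1)] (by decide +kernel))
noncomputable def rh11c82640b10bf789 : CRef := CRef.mk (Pat.mk 0xf00000003000000000000000800000000 0x800000008000000180000000f0000001f0000001c0000000800000008 5 5) 0 0 (step_sound _ 99 [rh05abfddbb8cd8708, (rhe25b0a99195a5d59.shift 0 3)] (by decide +kernel))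
noncomputable def rh871a46ab094339cb : CRef := CRef.mk (Pat.mk 0x1c000000140000000000000000 0x200000002000000070000001e000000340000000400000004 5 6) 0 0 (step_sound _ 97 [rhe1ef59f9ff87186c, (rhe25b0a99195a5d59.shift 1 2)] (by decide +kernel))
noncomputable def rhf9fc5c36fe919ea1 : CRef := CRef.mk (Pat.mk 0x1a00000004000000000000001400000000 0x2000000020000001b0000001f000000360000001400000014 5 6) 0 0 (step_sound _ 97 [(rhb11d41c808e1ab4d.shift 1 0), rhfbb6e9c3d41bd7d5] (by decide +kernel))
noncomputable def rh0d70932cd0c8369c : CRef := CRef.mk (Pat.mk 0x3000000030000000e00000002 0x1c0000001f0000001b0000000e00000006 5 5) 0 0 (step_sound _ 98 [rh21ac9bebfa81b974, (rh2f68792b6b779e96.shift 1 0)] (by decide +kernel))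
noncomputable def rha997c6ce7e425b45 : CRef := CRef.mk (Pat.mk 0x1c00000004 0x70000003e00000076 5 7) 0 0 (step_sound _ 37 [rh0d378fd9e8917c5a, (rheb0810cc63b001d8.shift 1 0)] (by decide +kernel))
noncomputable def rh9f356e2f3196e57a : CRef := CRef.mk (Pat.mk 0x40000000e00000002 0xe0000007e000000e3 5 8) 0 0 (step_sound _ 36 [(rhae8d21abc86b555a.shift 1 0), rheb0810cc63b001d8] (by decide +kernel))
noncomputable def rh0e5d5c3937caa2ec : CRef := CRef.mk (Pat.mk 0xc0000000c00000004 0xe0000000e0000000f0000003c0000000c00000004 5 6) 0 0 (step_sound _ 98 [(rh2ddd6c94c59240f8.shift 2 0), rh75737889aa2eafb8, (rh7b9fbdf6d2d059e4.shift 1 0)] (by decide +kernel))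
noncomputable def rhd50742801d3d3b45 : CRef := CRef.mk (Pat.mk 0xf0000000c000000000000000000000008 0xc0000000c0000001c0000000f0000000c000000080000000800000008 5 5) 0 0 (step_sound _ 67 [(rh9e07f76261b05888.shift 2 0), (rhd2f04bd8cfbf81b3.shift 0 2)] (by decide +kernel))
noncomputable def rhb5026552920bacb8 : CRef := CRef.mk (Pat.mk 0x8000000080000001e00000004 0x20000000f0000003f0000001e00000004 5 6) 0 0 (step_sound _ 68 [(rh33e738c4ed385b9f.shift 1 1), rhfcbe31f2f547bfce] (by decide +kernel))
noncomputable def rhcdd17ebd18286808 : CRef := CRef.mk (Pat.mk 0x8000000180000001e00000004 0x20000000f0000001f0000001e00000007 5 5) 0 0 (step_sound _ 65 [(rh3244c3cc8379b070.shift 0 1), rh41a1676d63eee227] (by decide +kernel))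
noncomputable def rhce7b5ca4f9e88074 : CRef := CRef.mk (Pat.mk 0xe000000020000000800000000 0x1000000010000000300000001e0000001b0000000800000008 5 6) 0 0 (step_sound _ 100 [(rhceed0e29dfbc434b.shift 1 0), (rheb0810cc63b001d8.shift 0 2)] (by decide +kernel))
noncomputable def rh5e097eb24f5b8367 : CRef := CRef.mk (Pat.mk 0x1c0000001a000000000000000000000000 0x4000000040000003c0000001e000000070000000200000002 5 6) 0 0 (step_sound _ 98 [(rh18965a982d73c794.shift 1 3), rhcfde16a7ff36af03] (by decide +kernel))
noncomputable def rhb29c6cf5970e66d5 : CRef := CRef.mk (Pat.mk 0x800000008000000180000000000000010 0x8000000080000007c0000001f00000014 5 7) 0 0 (step_sound _ 35 [rh80650b8e93363f1e, (rhd3458b32566d63f7.shift 3 0)] (by decide +kernel))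
noncomputable def rh2ae3e6277b6c452e : CRef := CRef.mk (Pat.mk 0x200000002000000020000000000000000 0x500000007000000070000000700000002000000030000000300000001 5 3) 0 0 (step_sound _ 161 [(rh00c644645561e9be.shift 0 1), (rhc85cc95794737cf7.shift 0 2), rhcab3157f7bdcba3e, rhfb48bea540f6436d] (by decide +kernel))
noncomputable def rhe7ad9dc5dd4bed17 : CRef := CRef.mk (Pat.mk 0x40000001e0000000a0000002000000000 0x70000001e0000003e0000003300000002 5 6) 0 0 (step_sound _ 68 [rh56f48a1cf2cc742b, (rhe25b0a99195a5d59.shift 1 2)] (by decide +kernel))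
noncomputable def rhd745503fb613ef82 : CRef := CRef.mk (Pat.mk 0x1e0000001a0000000800000000 0x20000000a0000000b0000001e0000001e0000003c00000010 5 6) 0 0 (step_sound _ 129 [(rh3244c3cc8379b070.shift 0 3), (rh4b3ad4612c87ab32.shift 1 0)] (by decide +kernel))
noncomputable def rh59dd316b71763994 : CRef := CRef.mk (Pat.mk 0x1e000000000000000800000000 0x1000000010000000180000001f000000380000000800000008 5 6) 0 0 (step_sound _ 68 [rh63adde8ab423512b, (rhe25b0a99195a5d59.shift 1 2)] (by decide +kernel))
noncomputable def rh65f40b64db91f9a3 : CRef := CRef.mk (Pat.mk 0x1f00000000 0x700000007f0000001e 5 7) 0 0 (step_sound _ 69 [(rh428265de8cd3cd2d.shift 1 1), rhfd1936ef8fb0ac4b] (by decide +kernel))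
noncomputable def rhad25ddd26c6147ab : CRef := CRef.mk (Pat.mk 0x100000000e00000000 0x300000003e00000077 5 7) 0 0 (step_sound _ 36 [(rh33e738c4ed385b9f.shift 1 1), rh42d32bf970c9c157] (by decide +kernel))
noncomputable def rhbec796c3ea7a32e6 : CRef := CRef.mk (Pat.mk 0x200000004000000040000000400000000 0xa0000000f0000003c000000040000000400000004 5 6) 0 0 (step_sound _ 130 [(rh50fbb5868c909700.shift 1 1), rh5eb116785a745a33] (by decide +kernel))
noncomputable def rh18cc9f880821f0ab : CRef := CRef.mk (Pat.mk 0x10000000100000001000000010000000000000000 0x20000000300000003000000030000000300000003000000030000000100000001 5 2) 0 0 (step_sound _ 192 [(rh44f453b84f013105.shift 0 2), rhc9696e4650cbd493, (rhced6d86d2069808b.shift 0 2)] (by decide +kernel))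
noncomputable def rh33e98d0e97205a3e : CRef := CRef.mk (Pat.mk 0x2000000020000000200000004 0x4000000060000000600000002000000030000000700000005 5 3) 0 0 (step_sound _ 129 [rh20966da26a1c2ae8, (rhd3458b32566d63f7.shift 1 0)] (by decide +kernel))
noncomputable def rhaf349dd7709502bf : CRef := CRef.mk (Pat.mk 0x2000000020000000200000004 0x1000000030000000300000002000000030000000700000005 5 3) 0 0 (step_sound _ 129 [rh771d065bdc85bf2d, (rhd3458b32566d63f7.shift 1 0)] (by decide +kernel))
noncomputable def rh9934c278d52f9079 : CRef := CRef.mk (Pat.mk 0x1000000018000000180000000000000000 0xc0000000c0000001f00000038000000180000001800000008 5 6) 0 0 (step_sound _ 35 [(rh71222050f2c63a3a.shift 3 0), (rhb5860f65207a2f21.shift 0 1)] (by decide +kernel))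
noncomputable def rh14ee58c1672e9101 : CRef := CRef.mk (Pat.mk 0x100000007800000000 0x3e0000007e00000007 5 7) 0 0 (step_sound _ 66 [(rh3f8766e6ecb455ce.shift 2 1), rh89828354c362fe41] (by decide +kernel))
noncomputable def rh95a22d73d0e775df : CRef := CRef.mk (Pat.mk 0x2000000020000000600000000 0x5000000070000000700000007000000060000000600000002 5 3) 0 0 (step_sound _ 129 [rh00c644645561e9be, (rh5bd4bc0c2c48140c.shift 0 1), (rh73f605273a09a9d0.shift 1 1)] (by decide +kernel))
noncomputable def rh9143b8752fb278ac : CRef := CRef.mk (Pat.mk 0xc00000008000000000000000800000000 0x140000003c0000000f000000080000000800000008 5 6) 0 0 (step_sound _ 67 [(rh50fbb5868c909700.shift 2 1), rh8d5397c29a6031ac] (by decide +kernel))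
noncomputable def rh51373e140f002442 : CRef := CRef.mk (Pat.mk 0x38000000100000000000000010 0x770000003e000000100000001000000010 5 7) 0 0 (step_sound _ 133 [(rh3e0b38310ac09007.shift 0 3), (rh9e3edb185cc347de.shift 4 0)] (by decide +kernel))
noncomputable def rh4a0cb3a9508b05dd : CRef := CRef.mk (Pat.mk 0x20000000e00000000 0x730000003e00000070 5 7) 0 0 (step_sound _ 36 [(rh3244c3cc8379b070.shift 0 1), (rha93a5dd541ab8209.shift 1 0)] (by decide +kernel))
noncomputable def rh5ecaee9efe4ee338 : CRef := CRef.mk (Pat.mk 0xa0000001e00000004 0xa0000000f0000003e0000001e00000004 5 6) 0 0 (step_sound _ 99 [(rh5c5e593799055d58.shift 2 0), rhed28f44ebe588c02] (by decide +kernel))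
noncomputable def rh0786c19de25163c7 : CRef := CRef.mk (Pat.mk 0x10000000e00000000 0x730000003e00000070 5 7) 0 0 (step_sound _ 36 [(rh3f8766e6ecb455ce.shift 0 1), (rha93a5dd541ab8209.shift 1 0)] (by decide +kernel))
noncomputable def rhaad8aca116efc48f : CRef := CRef.mk (Pat.mk 0xe000000040000000000000010 0x380000003f000000370000001000000010 5 6) 0 0 (step_sound _ 100 [(rhaf9f2efc81a8312b.shift 0 2), rhea2ba495190a41d9] (by decide +kernel))
noncomputable def rh551f2e378d429d2a : CRef := CRef.mk (Pat.mk 0xe00000002 0x70000003e00000073 5 7) 0 0 (step_sound _ 36 [rh3947d1dfff0afc6c, rheb0810cc63b001d8] (by decide +kernel))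
noncomputable def rhaf3a0c6b30898709 : CRef := CRef.mk (Pat.mk 0x1e000000000000000000000010 0x3b0000001f000000300000001000000010 5 6) 0 0 (step_sound _ 129 [(rh3244c3cc8379b070.shift 0 3), rhea2ba495190a41d9] (by decide +kernel))
noncomputable def rhdb90f1f50322779b : CRef := CRef.mk (Pat.mk 0x1c00000008 0xf0000007e000000ef 5 8) 0 0 (step_sound _ 37 [rh775ca1963e850b80, (rhaf9f2efc81a8312b.shift 1 0), (rhe401600d466b97cd.shift 1 0)] (by decide +kernel))
noncomputable def rhe45dd2b38264961f : CRef := CRef.mk (Pat.mk 0x10000000120000000e0000000a00000000 0x60000003f0000001e0000000e0000000e00000006 5 6) 0 0 (step_sound _ 98 [(rh2afa7ffb1fd33de0.shift 1 1), rh2b8e5f16c5d7ff0a, (rh84d1c02a8954c6a8.shift 1 0)] (by decide +kernel))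
noncomputable def rh0bb0878927975bcc : CRef := CRef.mk (Pat.mk 0x7800000020 0xe00000007e00000037 5 8) 0 0 (step_sound _ 70 [(rh33e738c4ed385b9f.shift 3 1), rhbfe376cd40aaedfb] (by decide +kernel))
noncomputable def rh0f98f872afc8859e : CRef := CRef.mk (Pat.mk 0x400000000000000180000001c00000000 0x4000000060000001f0000001f00000003 5 5) 0 0 (step_sound _ 33 [(rh53b3c253cb0c65f4.shift 0 1), rhd5358021be058853] (by decide +kernel))
noncomputable def rh900a894640be090c : CRef := CRef.mk (Pat.mk 0x800000008000000180000000800000000 0x140000003c0000000f000000180000000800000008 5 6) 0 0 (step_sound _ 130 [rh424e12a4b1ec0cb3, (rh50fbb5868c909700.shift 2 1)] (by decide +kernel))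
noncomputable def rh9d657a319ec62884 : CRef := CRef.mk (Pat.mk 0xc00000008000000180000001800000000 0xc0000000c0000001c0000001f0000000f 5 5) 0 0 (step_sound _ 34 [rh1be27a990f50e06b, (rh932754581e0f4330.shift 2 0)] (by decide +kernel))
noncomputable def rhe09f32ff8ec20c09 : CRef := CRef.mk (Pat.mk 0x1800000008000000180000001800000000 0x40000001f0000007c000000180000001800000008 5 7) 0 0 (step_sound _ 100 [(rh215fef6ef21eb5a3.shift 0 1), (rh932754581e0f4330.shift 3 0)] (by decide +kernel))
noncomputable def rh640c5ac187e4b622 : CRef := CRef.mk (Pat.mk 0xe000000040000000800000008 0x100000007f0000003f0000000800000008 5 7) 0 0 (step_sound _ 67 [(rh6292bd8784ece55f.shift 0 2), rhc0ddb33d3a52722b, rhc9613fc5bab58382] (by decide +kernel))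
noncomputable def rh2726962e49a46af1 : CRef := CRef.mk (Pat.mk 0x800000008000000080000000800000000 0x140000001f00000038000000080000000800000008 5 6) 0 0 (step_sound _ 132 [(rh2f68792b6b779e96.shift 3 1), rha9a69d57f9167c99] (by decide +kernel))
noncomputable def rh82dcfa9962ac4e49 : CRef := CRef.mk (Pat.mk 0x800000008000000180000000800000000 0x40000000c0000001f000000780000000800000008 5 7) 0 0 (step_sound _ 130 [(rh50fbb5868c909700.shift 2 1), rhbd74c53779ca277f] (by decide +kernel))
noncomputable def rh5b460b71d8952ca9 : CRef := CRef.mk (Pat.mk 0x180000007800000000 0x180000007f000000e7 5 8) 0 0 (step_sound _ 6 [rhc0fdbedd668582ed, (rhe25b0a99195a5d59.shift 3 0)] (by decide +kernel))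
noncomputable def rh3d37fac41a298d1a : CRef := CRef.mk (Pat.mk 0x3000000030000000000000004 0x6000000070000000700000003000000030000000600000006 5 3) 0 0 (step_sound _ 33 [rh4a92560bd1e2a36a, rhfc7c29d8e65d775f] (by decide +kernel))
noncomputable def rh44dd78dd79fc4e0b : CRef := CRef.mk (Pat.mk 0x1e0000000800000000 0x400000004000000070000003e0000000b00000002 5 6) 0 0 (step_sound _ 97 [(rh3244c3cc8379b070.shift 0 2), rhb0c2c62f63c289c4] (by decide +kernel))
noncomputable def rhceec69a66e13077c : CRef := CRef.mk (Pat.mk 0xe0000000c0000000000000000 0x1000000010000000380000003e0000000f0000000800000008 5 6) 0 0 (step_sound _ 100 [(rh6eb76252a9026692.shift 1 0), (rhaf9f2efc81a8312b.shift 0 2)] (by decide +kernel))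
noncomputable def rhc1418a9f225cae75 : CRef := CRef.mk (Pat.mk 0xc0000001c0000000c00000008 0x2000000130000001f0000001f0000000c00000008 5 5) 0 0 (step_sound _ 97 [rh7e4e9158a74749f1, (rhb739f4f82bb681b4.shift 0 2)] (by decide +kernel))
noncomputable def rhaed54c24fb91f24a : CRef := CRef.mk (Pat.mk 0x1c0000001c0000000000000000 0x200000002000000070000001f0000001c0000000400000004 5 5) 0 0 (step_sound _ 97 [(rhb739f4f82bb681b4.shift 0 2), rhd5889c99d29bf7d6] (by decide +kernel))
noncomputable def rh3087ddaea48372a3 : CRef := CRef.mk (Pat.mk 0xc0000000c00000008 0x1c0000001c0000003c0000000f0000000c00000008 5 6) 0 0 (step_sound _ 99 [rh20ee5c2c4c3a9878, (rh5fa50b509d4ce753.shift 2 0), (rhac91bb8935e50010.shift 2 0)] (by decide +kernel))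
noncomputable def rhb1c562e40ee61608 : CRef := CRef.mk (Pat.mk 0x2000000020000000600000006000000000000000000000000 0x400000006000000060000000600000006000000030000000300000003 5 3) 0 0 (step_sound _ 194 [(rh2f68792b6b779e96.shift 1 3), rhee95c19ccb9d5067] (by decide +kernel))
noncomputable def rh1128095e46e23146 : CRef := CRef.mk (Pat.mk 0x1e000000180000001000000000 0x4000000040000001e0000001f0000003300000002 5 6) 0 0 (step_sound _ 65 [rh7f0fa6c019c0f31a, (rheb0810cc63b001d8.shift 0 2)] (by decide +kernel))
noncomputable def rhf8430021531fa0bc : CRef := CRef.mk (Pat.mk 0x40000001c000000100000000000000000 0x400000004000000040000001e000000370000000200000002 5 6) 0 0 (step_sound _ 97 [rhcfde16a7ff36af03, (rhe25b0a99195a5d59.shift 1 2)] (by decide +kernel))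
noncomputable def rh99ab77534332cb56 : CRef := CRef.mk (Pat.mk 0x2000000060000001c000000140000000000000000 0x80000000b0000007e0000001f0000001c0000001000000010 5 7) 0 0 (step_sound _ 131 [(rh1b30fad02acc208f.shift 2 0), (rh9f93e2b24091a43d.shift 0 3), (rhc2c7bae8f445c890.shift 3 0), (rhe37dad6db99b3864.shift 1 0)] (by decide +kernel))
noncomputable def rh23e6605cc8d1a6a0 : CRef := CRef.mk (Pat.mk 0x1c000000000000002000000000 0x10000000700000003e000000770000002000000020 5 7) 0 0 (step_sound _ 101 [(rh185f35b8bd8ec37f.shift 0 2), (rh4b4ad80ec7facee3.shift 2 0), (rh7654d7b92c96fe12.shift 0 2)] (by decide +kernel))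
noncomputable def rhed36f541567aa280 : CRef := CRef.mk (Pat.mk 0x20000000e000000000000001000000000 0x80000003b0000001e000000300000001000000010 5 6) 0 0 (step_sound _ 100 [(rh3244c3cc8379b070.shift 0 3), (rh4b4ad80ec7facee3.shift 1 0)] (by decide +kernel))
noncomputable def rhbdf85ea51b311ca1 : CRef := CRef.mk (Pat.mk 0xb000000060000000800000000 0x1000000010000000180000001b0000001f0000000800000008 5 5) 0 0 (step_sound _ 67 [rh878c03cc42e824bf, (rhf48373e13d2bc128.shift 0 2)] (by decide +kernel))
noncomputable def rh1f13ccc4b6919105 : CRef := CRef.mk (Pat.mk 0xc0000000700000006000000100000001000000000 0x200000003c000000370000003e000000100000001000000010 5 6) 0 0 (step_sound _ 100 [(rh2fe78cc5ca4405d8.shift 0 3), (rhcf668ee91c6c7c24.shift 1 0)] (by decide +kernel))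
noncomputable def rh1bc2b81e7d13c3fe : CRef := CRef.mk (Pat.mk 0x10000000e000000000000000800000000 0x10000000100000003b0000001e000000080000000800000008 5 6) 0 0 (step_sound _ 100 [(rh3f8766e6ecb455ce.shift 0 3), (rhb705031692dfe65f.shift 1 0)] (by decide +kernel))
noncomputable def rhb9af475e7a52204a : CRef := CRef.mk (Pat.mk 0x40000001c00000000 0x60000003e00000077 5 7) 0 0 (step_sound _ 37 [rh185f35b8bd8ec37f, (rh3244c3cc8379b070.shift 1 1)] (by decide +kernel))
noncomputable def rh48cfe19d95e60fa3 : CRef := CRef.mk (Pat.mk 0x40000001c00000000 0x760000003e00000007 5 7) 0 0 (step_sound _ 37 [(rh3244c3cc8379b070.shift 1 1), rh7654d7b92c96fe12] (by decide +kernel))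
noncomputable def rh5839cc99f978e997 : CRef := CRef.mk (Pat.mk 0x38000000000000005000000000 0x670000003e000000670000007000000050 5 7) 0 0 (step_sound _ 98 [(rh775ca1963e850b80.shift 0 2), (rhbb30446677a12c7e.shift 2 0)] (by decide +kernel))
noncomputable def rha762e2b1ebf9273f : CRef := CRef.mk (Pat.mk 0x1c00000008000000280000000000000000 0x10000000300000003f00000078000000380000002000000020 5 7) 0 0 (step_sound _ 100 [(rh03e1d4b712fd50ef.shift 3 0), (rh6292bd8784ece55f.shift 1 3), (rh94fefe9909522fb2.shift 2 0), (rhbd1085b5879a265a.shift 0 2)] (by decide +kernel))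
noncomputable def rh3dba06a411954d11 : CRef := CRef.mk (Pat.mk 0x600000004000000000000000400000000 0xa0000000f0000003c000000040000000400000004 5 6) 0 0 (step_sound _ 66 [(rh50fbb5868c909700.shift 1 1), rh5eb116785a745a33] (by decide +kernel))
noncomputable def rhca00b155e850b35d : CRef := CRef.mk (Pat.mk 0xf00000000000000000000001400000000 0x180000000f00000018000000180000001c00000014 5 5) 0 0 (step_sound _ 99 [rh996a252bb6676df7, (rhe25b0a99195a5d59.shift 0 3)] (by decide +kernel))
noncomputable def rh1b7eaa8b0132fa7d : CRef := CRef.mk (Pat.mk 0x4000000040000000700000002000000000000000a00000000 0x20000000600000006000000070000001e0000000c0000000e0000000a 5 5) 0 0 (step_sound _ 98 [(rh0ebca5a27374feaf.shift 1 0), (rh42afa1af9fffa0e1.shift 0 2), (rh8bf2458b77264f10.shift 1 0), (rhe410088c7bc5bca8.shift 2 1)] (by decide +kernel))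
noncomputable def rh2794e15859327051 : CRef := CRef.mk (Pat.mk 0x1e00000018000000000000002800000000 0x3e0000001f000000300000003800000028 5 6) 0 0 (step_sound _ 97 [(rh0561ee7b4bab7c3a.shift 1 0), (rheb0810cc63b001d8.shift 0 3)] (by decide +kernel))
noncomputable def rhd98a7adcdf503a83 : CRef := CRef.mk (Pat.mk 0x40000003800000000 0x760000003e00000007 5 7) 0 0 (step_sound _ 34 [(rh3244c3cc8379b070.shift 1 1), rh7654d7b92c96fe12] (by decide +kernel))
noncomputable def rhb1a649af065b011b : CRef := CRef.mk (Pat.mk 0x20000001c000000000000001000000000 0x80000003b0000001e000000300000001000000010 5 6) 0 0 (step_sound _ 97 [(rh3244c3cc8379b070.shift 0 3), (rh4b4ad80ec7facee3.shift 1 0)] (by decide +kernel))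
noncomputable def rh054dec82cfa47828 : CRef := CRef.mk (Pat.mk 0x1e000000000000000800000000 0x4000000040000000c0000001f000000380000000800000008 5 6) 0 0 (step_sound _ 68 [rhba68f42d885e5165, (rhe25b0a99195a5d59.shift 1 2)] (by decide +kernel))
noncomputable def rheafe5eb93221ef2e : CRef := CRef.mk (Pat.mk 0xe0000001c000000000000001000000010 0x14000000370000003e0000001c000000080000001800000010 5 6) 0 0 (step_sound _ 67 [(rh438ef3803f1c81a0.shift 0 2), (rhbe0e43a3bc50a43f.shift 3 0)] (by decide +kernel))
noncomputable def rhabc3ed3318d342ed : CRef := CRef.mk (Pat.mk 0x7000000060000000000000000 0x8000000080000003c0000003f0000003e0000000400000004 5 6) 0 0 (step_sound _ 99 [(rh226655e3fe6b4a8a.shift 0 2), rh6eb76252a9026692, (rhf5e124ec5c58a2dd.shift 0 2)] (by decide +kernel))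
noncomputable def rh69f0587a21bb077f : CRef := CRef.mk (Pat.mk 0x2000000020000000300000002 0x4000000070000000700000003000000030000000300000002 5 3) 0 0 (step_sound _ 128 [(rh466a2277bc06011f.shift 0 1), rhffd04209dc8ea796] (by decide +kernel))
noncomputable def rha933739831591f8c : CRef := CRef.mk (Pat.mk 0x38000000000000002000000000 0x10000000700000003e000000770000002000000020 5 7) 0 0 (step_sound _ 98 [(rh185f35b8bd8ec37f.shift 0 2), (rh4b4ad80ec7facee3.shift 2 0), (rh9e97bba44c1b13e4.shift 0 2)] (by decide +kernel))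
noncomputable def rh2b23394b6d2f5f0e : CRef := CRef.mk (Pat.mk 0x1e0000001a000000000000002800000000 0x200000002000000030000001e0000001e000000340000003800000028 5 6) 0 0 (step_sound _ 161 [(rh3244c3cc8379b070.shift 0 4), (rhaacf70e012801c10.shift 1 0)] (by decide +kernel))
noncomputable def rhded4ca1a9039843f : CRef := CRef.mk (Pat.mk 0x1e000000080000000000000010 0x10000000380000001e0000000b0000001800000018 5 6) 0 0 (step_sound _ 65 [(rhd82838cc02270304.shift 1 0), (rheb0810cc63b001d8.shift 0 2)] (by decide +kernel))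
noncomputable def rha2c11a6700dd436f : CRef := CRef.mk (Pat.mk 0x20000001c000000000000001000000000 0x80000003b0000001f000000100000001000000010 5 6) 0 0 (step_sound _ 97 [rh22de5993038d04b0, (rh3244c3cc8379b070.shift 0 3)] (by decide +kernel))
noncomputable def rhd8480aedf4075c15 : CRef := CRef.mk (Pat.mk 0x60000000200000002000000000000000000000000 0x5000000070000000300000002000000030000000300000001 5 3) 0 0 (step_sound _ 65 [(rh2f68792b6b779e96.shift 1 2), rhc4526fc8abf298b6] (by decide +kernel))
noncomputable def rh0837bf74ccc9ef48 : CRef := CRef.mk (Pat.mk 0x1e000000000000001000000000 0x10000000300000001f000000380000001800000008 5 6) 0 0 (step_sound _ 68 [rh92a79156df2ec221, (rhe25b0a99195a5d59.shift 1 2)] (by decide +kernel))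
noncomputable def rhca18530d0c5826a6 : CRef := CRef.mk (Pat.mk 0xc0000000c00000018000000000000000000000000 0x80000003c0000001f00000018000000100000001000000010 5 6) 0 0 (step_sound _ 129 [(rhaf893ed53d7bc740.shift 1 0), (rhb739f4f82bb681b4.shift 0 3)] (by decide +kernel))
noncomputable def rh85dff66d8fa57533 : CRef := CRef.mk (Pat.mk 0x380000000000000008000000000000000000000000 0x1000000010000000180000007c0000001f000000080000000c0000000c00000004 5 7) 0 0 (step_sound _ 131 [(rh215e11e099257d75.shift 3 2), (rh274a837cd7eaa569.shift 2 0), (rh2820ca9a6c4f41b4.shift 0 4)] (by decide +kernel))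
noncomputable def rh60a8c5be05b942d2 : CRef := CRef.mk (Pat.mk 0x1e000000000000000400000000 0x800000008000000380000001f0000000c0000000400000004 5 6) 0 0 (step_sound _ 132 [(rh33e738c4ed385b9f.shift 1 3), rhb0ff507e4f54b400] (by decide +kernel))
noncomputable def rh5f8257fb2f7cbf59 : CRef := CRef.mk (Pat.mk 0xe000000000000000200000000 0x400000004000000760000003e000000770000000200000002 5 7) 0 0 (step_sound _ 100 [(rh3fc3a7fb6866dcd4.shift 1 2), rh4f79c519b7f04720, (rh8db7f7558b75b2b1.shift 0 2)] (by decide +kernel))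
noncomputable def rha07cc0c22391837e : CRef := CRef.mk (Pat.mk 0x38000000000000000800000000 0x4000000040000007f0000003e0000000f0000000800000008 5 7) 0 0 (step_sound _ 98 [(rh592c7139d2c44767.shift 0 2), (rh59377470057f4368.shift 1 0), (rh9e97bba44c1b13e4.shift 0 2), (rhd0f2e39b54bcbf0d.shift 1 0)] (by decide +kernel))
noncomputable def rh4d8114ee4aff13cc : CRef := CRef.mk (Pat.mk 0x1c00000000 0xff0000007e000000e0 5 8) 0 0 (step_sound _ 37 [(rh3fc3a7fb6866dcd4.shift 2 0), (rh4c622fddc53a5f99.shift 0 1), (rhb18e6c78a554867d.shift 1 1), (rhe401600d466b97cd.shift 1 0)] (by decide +kernel))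
noncomputable def rh82e3ca078808ad41 : CRef := CRef.mk (Pat.mk 0x80000000c00000000000000140000000000000000 0x80000001f0000007c0000001c0000001400000010 5 7) 0 0 (step_sound _ 99 [(rh2818863d77d69ed0.shift 2 1), (rh5ddbeed5d869bf16.shift 2 1), rhed7f4536f5081a67] (by decide +kernel))
noncomputable def rh56d24753411e8705 : CRef := CRef.mk (Pat.mk 0x80000000c00000000000000140000000000000000 0x1000000018000000180000001f0000007c0000001c0000001000000010 5 7) 0 0 (step_sound _ 99 [(rh032b9293535eedef.shift 0 2), (rh2f6cd3183cec8379.shift 2 2), (rh3c3208cbc4cf3115.shift 2 1), rhed7f4536f5081a67] (by decide +kernel))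
noncomputable def rh0e6e4e5cab66942c : CRef := CRef.mk (Pat.mk 0x80000000c00000000000000140000000000000000 0x8000000080000001f000000780000001c0000001400000010 5 7) 0 0 (step_sound _ 99 [(rh032b9293535eedef.shift 0 2), (rh2818863d77d69ed0.shift 2 1), (rh47dece01c1595e79.shift 3 0)] (by decide +kernel))
noncomputable def rh9cb9ad886e31bed1 : CRef := CRef.mk (Pat.mk 0x80000000c000000040000001400000000 0x2000000060000000f0000003c0000000c0000001c00000018 5 6) 0 0 (step_sound _ 130 [(rh4c9b7a2d8c4aee8b.shift 2 0), (rh5abfc4c9d959be03.shift 1 0), (rhcf85c92937975d4d.shift 0 1)] (by decide +kernel))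
noncomputable def rhb968d51bbf345675 : CRef := CRef.mk (Pat.mk 0x80000000c00000000000000140000000000000000 0x40000000c0000001f0000007c0000001c0000001c00000010 5 7) 0 0 (step_sound _ 99 [(rh2818863d77d69ed0.shift 2 1), (rh752c9303f297f9fa.shift 2 1), (rhc7a10ee8d0d37048.shift 2 1), rhed7f4536f5081a67] (by decide +kernel))
noncomputable def rh9fdf4b366b1cf3c3 : CRef := CRef.mk (Pat.mk 0x400000002000000020000000200000000 0x1000000070000000700000002000000060000000600000004 5 3) 0 0 (step_sound _ 129 [(rh2f68792b6b779e96.shift 1 1), rh5abfc4c9d959be03] (by decide +kernel))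
noncomputable def rh24bf37d8527c05cd : CRef := CRef.mk (Pat.mk 0x1e000000000000000800000000 0x4000000040000000f0000003e000000080000000800000008 5 6) 0 0 (step_sound _ 129 [(rh3244c3cc8379b070.shift 0 3), (rhd86ffd7f98293937.shift 1 0)] (by decide +kernel))
noncomputable def rh9c2721ba684235a7 : CRef := CRef.mk (Pat.mk 0x1c000000000000001000000000 0x2000000020000000ef0000007e000000f00000001000000010 5 8) 0 0 (step_sound _ 101 [(rh0d378fd9e8917c5a.shift 0 2), (rh3fc3a7fb6866dcd4.shift 2 2), (rhb18e6c78a554867d.shift 1 3), (rhceed0e29dfbc434b.shift 2 0)] (by decide +kernel))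
noncomputable def rhd25a9475adb4a3f0 : CRef := CRef.mk (Pat.mk 0x40000003c00000000 0x3c0000007f00000007 5 7) 0 0 (step_sound _ 67 [rh71b0012dd1d2fc9e, (rhf48373e13d2bc128.shift 2 1)] (by decide +kernel))
noncomputable def rhdf07e0d5c2c3a82e : CRef := CRef.mk (Pat.mk 0x1c00000000 0xf70000007e000000f0 5 8) 0 0 (step_sound _ 37 [rh0d378fd9e8917c5a, (rh3fc3a7fb6866dcd4.shift 2 0), (rh4c622fddc53a5f99.shift 0 1)] (by decide +kernel))
noncomputable def rha783ca2d6203dd2c : CRef := CRef.mk (Pat.mk 0x60000001e0000000000000000 0x2000000030000003e0000001f0000000400000004 5 6) 0 0 (step_sound _ 100 [(rh33e738c4ed385b9f.shift 1 2), rh476eccabcfbdd1bd] (by decide +kernel))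
noncomputable def rh1317c6ea28e6bacd : CRef := CRef.mk (Pat.mk 0xe000000000000000800000000 0x10000000100000003f0000003e000000780000000800000008 5 7) 0 0 (step_sound _ 100 [(rhb705031692dfe65f.shift 1 0), (rhceed0e29dfbc434b.shift 1 0), (rhe401600d466b97cd.shift 0 2)] (by decide +kernel))
noncomputable def rh1f4b2b0b7609346d : CRef := CRef.mk (Pat.mk 0x38000000000000000800000000 0x40000000e0000007e0000007f0000000800000008 5 7) 0 0 (step_sound _ 98 [(rh185f35b8bd8ec37f.shift 0 2), (rh26ddc4471ca3f46d.shift 1 0), (rhd0f2e39b54bcbf0d.shift 1 0)] (by decide +kernel))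
noncomputable def rhb13ecdd6d8e2cfbe : CRef := CRef.mk (Pat.mk 0xe000000000000000800000000 0x1000000010000000780000003e0000007f0000000800000008 5 7) 0 0 (step_sound _ 100 [(rh3fc3a7fb6866dcd4.shift 1 2), (rh8db7f7558b75b2b1.shift 0 2), (rhb705031692dfe65f.shift 1 0)] (by decide +kernel))
noncomputable def rh81255f8efb3f44f8 : CRef := CRef.mk (Pat.mk 0x38000000000000002800000000 0x1000000010000000760000007e0000006f0000002800000028 5 7) 0 0 (step_sound _ 98 [(rh00c1a02c588da1b0.shift 2 0), (rh4b4ad80ec7facee3.shift 2 0), (rh6de94a1805bc67e2.shift 1 0), (rh9e97bba44c1b13e4.shift 0 2)] (by decide +kernel))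
noncomputable def rh9d9383748e827b0b : CRef := CRef.mk (Pat.mk 0xe000000000000000a00000000 0x14000000140000007e0000003e0000007b0000000a0000000a 5 7) 0 0 (step_sound _ 100 [(rh3fc3a7fb6866dcd4.shift 1 2), rh4f79c519b7f04720, (rhb705031692dfe65f.shift 1 0)] (by decide +kernel))
noncomputable def rhb88ddb9721ca9177 : CRef := CRef.mk (Pat.mk 0x1c000000000000001400000000 0x80000000a0000001f0000001e000000360000001400000014 5 6) 0 0 (step_sound _ 97 [(rh00c1a02c588da1b0.shift 1 0), rhd0f2e39b54bcbf0d] (by decide +kernel))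
noncomputable def rh79ea95e000807b70 : CRef := CRef.mk (Pat.mk 0xc0000000c000000040000001400000000 0x100000003c0000000f0000000c0000001c00000018 5 6) 0 0 (step_sound _ 35 [(rh55afc6a59410cf00.shift 2 0), rhd2c5d35a81143964] (by decide +kernel))
noncomputable def rh62e05db1b73ac916 : CRef := CRef.mk (Pat.mk 0x2000000060000000200000002000000000000000000000000 0x100000003000000070000000600000002000000030000000300000001 5 3) 0 0 (step_sound _ 192 [(rh50fbb5868c909700.shift 0 3), rhde32e0b5ff3be9cc] (by decide +kernel))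
noncomputable def rh2778abb7d7c839bf : CRef := CRef.mk (Pat.mk 0x20000000200000002000000020000000200000000 0x600000006000000060000000300000003000000030000000200000002 5 3) 0 0 (step_sound _ 194 [rh87dbd44ef47ebcf2, (rhbaefcd01e0a8bca3.shift 1 2)] (by decide +kernel))
noncomputable def rh72188b9ba8e7fdaf : CRef := CRef.mk (Pat.mk 0x400000004000000040000001c0000000000000000 0x400000006000000070000003f0000001c0000000400000004 5 6) 0 0 (step_sound _ 99 [(rh2145e1d24b96a57e.shift 2 2), rhfc74dae190a15da9] (by decide +kernel))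
noncomputable def rhd3815271ee404dcc : CRef := CRef.mk (Pat.mk 0x7000000040000000400000000 0xa0000000e0000001e00000007000000060000000600000002 5 5) 0 0 (step_sound _ 130 [(rh1741680720c097b4.shift 1 1), (rh20966da26a1c2ae8.shift 1 0), (rh4017de503635a93b.shift 0 1), (rh771d065bdc85bf2d.shift 1 0)] (by decide +kernel))
noncomputable def rha144af756f8ec5e0 : CRef := CRef.mk (Pat.mk 0x40000000400000005000000000000000000000000 0xc0000000c0000000c000000070000001e0000000e0000000a 5 5) 0 0 (step_sound _ 66 [(rh367118e0bf0473e0.shift 1 0), (rh6c59ce14113da07f.shift 2 0), (rh8cdd36b03d57a2f6.shift 1 0), (rhac3d6389f960a17c.shift 0 1)] (by decide +kernel))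
noncomputable def rh0fdd3266243d3898 : CRef := CRef.mk (Pat.mk 0x380000000800000008 0x4000000770000007e0000000e00000008 5 7) 0 0 (step_sound _ 66 [(rh4c622fddc53a5f99.shift 0 2), (rhaf9f2efc81a8312b.shift 1 1), (rhe4f9133a81c1dbc5.shift 1 0)] (by decide +kernel))
noncomputable def rh4752733e34786ec4 : CRef := CRef.mk (Pat.mk 0xe000000020000000800000000 0x300000001f0000003b0000000800000008 5 6) 0 0 (step_sound _ 100 [rhbd4a6537fbbb09be, (rheb0810cc63b001d8.shift 0 2)] (by decide +kernel))
noncomputable def rh3757c66cf1d5f4af : CRef := CRef.mk (Pat.mk 0x1c000000040000001400000000 0x20000003b0000001f000000370000001400000010 5 6) 0 0 (step_sound _ 97 [rhae665e80bb3d31ac, (rhe4f9133a81c1dbc5.shift 0 1)] (by decide +kernel))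
noncomputable def rhcb43428bb87ea4d7 : CRef := CRef.mk (Pat.mk 0x1c00000040 0x70000003e00000067 5 7) 0 0 (step_sound _ 37 [rh775ca1963e850b80, (rh96851dee118c1ba3.shift 2 0)] (by decide +kernel))
noncomputable def rh9928b4a2261f5f8e : CRef := CRef.mk (Pat.mk 0xc000000160000001400000000 0xc0000000c0000000c0000001e0000003700000002 5 6) 0 0 (step_sound _ 67 [rhcaeacf3220b45d90, (rhe25b0a99195a5d59.shift 1 1)] (by decide +kernel))
noncomputable def rh8c34028495549b24 : CRef := CRef.mk (Pat.mk 0x20000000280000002800000020000000200000002000000000 0x200000002f0000007c00000030000000300000002000000020 5 7) 0 0 (step_sound _ 100 [rh39c2ed036c30a2d9, (rh932754581e0f4330.shift 4 2)] (by decide +kernel))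
noncomputable def rh8711b5c3d5a9a00f : CRef := CRef.mk (Pat.mk 0x200000002000000020000000000000000 0x500000007000000070000000600000003000000030000000300000001 5 3) 0 0 (step_sound _ 161 [(rh1741680720c097b4.shift 0 2), (rh20966da26a1c2ae8.shift 0 1), rh367118e0bf0473e0, (rh771d065bdc85bf2d.shift 0 1)] (by decide +kernel))
noncomputable def rhfa73212a9c324ac2 : CRef := CRef.mk (Pat.mk 0x1000000014000000140000001c 0x800000018000000760000007f0000001c 5 7) 0 0 (step_sound _ 99 [(rh50fbb5868c909700.shift 3 0), rh909a2d8dd124b4f3] (by decide +kernel))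
noncomputable def rh2d656a718982b7af : CRef := CRef.mk (Pat.mk 0xa0000000a00000008000000000000000000000000 0x100000003b0000001f000000080000001c0000001c00000014 5 6) 0 0 (step_sound _ 67 [(rh367118e0bf0473e0.shift 2 0), (rh431ac01d143f4d95.shift 0 2), (rh6c59ce14113da07f.shift 3 0), (rh8cdd36b03d57a2f6.shift 2 0)] (by decide +kernel))
noncomputable def rh0e909d28448826a3 : CRef := CRef.mk (Pat.mk 0xa0000000a0000000a00000000 0x140000001c0000007c0000000f0000003e0000000e00000004 5 7) 0 0 (step_sound _ 131 [(rh1741680720c097b4.shift 2 1), (rh20966da26a1c2ae8.shift 2 0), (rhb034511df68c2fcf.shift 0 1), rhde24d9cffc396911] (by decide +kernel))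
noncomputable def rh1c912726d79010c0 : CRef := CRef.mk (Pat.mk 0x3800000020 0x770000003e00000060 5 7) 0 0 (step_sound _ 34 [(rh4c622fddc53a5f99.shift 0 1), (rhe25b0a99195a5d59.shift 2 0)] (by decide +kernel))
noncomputable def rhb428d2fad45065ca : CRef := CRef.mk (Pat.mk 0xe0000001a 0xe0000000fe0000001f 5 8) 0 0 (step_sound _ 36 [(rh20927f0bb3db88dd.shift 1 0), rheb0810cc63b001d8] (by decide +kernel))
noncomputable def rhd7b534ee9560bf73 : CRef := CRef.mk (Pat.mk 0x80000000a000000080000000e00000000 0xc0000000c0000000f0000003c0000000e00000002 5 6) 0 0 (step_sound _ 66 [rh12ad1c7b44d9d92f, (rh5c5e593799055d58.shift 2 1)] (by decide +kernel))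
noncomputable def rhf8c58d371bad927d : CRef := CRef.mk (Pat.mk 0x200000006000000020000000200000000 0x100000003000000030000000200000006000000070000000300000001 5 3) 0 0 (step_sound _ 32 [(rh6307fc4d772d6085.shift 0 1), rh932754581e0f4330] (by decide +kernel))
noncomputable def rhcd75c6b6cd6e185f : CRef := CRef.mk (Pat.mk 0xc00000004000000050000000000000000 0xc0000000c00000004000000070000001e0000000a 5 5) 0 0 (step_sound _ 34 [(rh2f68792b6b779e96.shift 2 1), rh934b7b499abbb98b] (by decide +kernel))
noncomputable def rhb435343cd2d734b7 : CRef := CRef.mk (Pat.mk 0xc00000004000000050000000400000000 0x40000000c0000003e000000070000000600000006 5 6) 0 0 (step_sound _ 33 [rh7027ce4ce300084a, (rh932754581e0f4330.shift 1 0)] (by decide +kernel))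
noncomputable def rh9914f509b9c412d1 : CRef := CRef.mk (Pat.mk 0x600000004000000050000000000000000 0x60000000600000004000000070000001e0000000a 5 5) 0 0 (step_sound _ 34 [(rh50fbb5868c909700.shift 1 1), rh934b7b499abbb98b] (by decide +kernel))
noncomputable def rhb2ca76bdaa5cb453 : CRef := CRef.mk (Pat.mk 0x100000000e000000080000000a00000000 0xc0000001c0000000f0000000c0000000e00000006 5 5) 0 0 (step_sound _ 131 [(rh53b3c253cb0c65f4.shift 0 3), (rh6c99e6ce2f2414cd.shift 1 0)] (by decide +kernel))
noncomputable def rhe3b266185d7259e4 : CRef := CRef.mk (Pat.mk 0x1e000000000000000800000000 0x40000000f0000003e0000000c0000000800000008 5 6) 0 0 (step_sound _ 129 [(rh3244c3cc8379b070.shift 0 3), (rh629fadcbae30118c.shift 1 0)] (by decide +kernel))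
noncomputable def rh6a49bc54697967bc : CRef := CRef.mk (Pat.mk 0x1e000000000000001000000000 0x80000001b0000001e000000380000001000000010 5 6) 0 0 (step_sound _ 129 [(rh3244c3cc8379b070.shift 0 3), (rhd45e3ae46e6d7252.shift 1 0)] (by decide +kernel))
noncomputable def rh367329fa3e0cc135 : CRef := CRef.mk (Pat.mk 0xc0000000e000000080000000a00000000 0x20000000f0000003e0000000c0000000e00000006 5 6) 0 0 (step_sound _ 34 [(rh932754581e0f4330.shift 2 0), rhe5e8802aa288a2a6] (by decide +kernel))
noncomputable def rh64bc0dab78a08b48 : CRef := CRef.mk (Pat.mk 0x2000000020000000600000002 0x4000000070000000700000003000000060000000600000002 5 3) 0 0 (step_sound _ 128 [(rh42c8ae686d713d97.shift 0 1), rhffd04209dc8ea796] (by decide +kernel))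
noncomputable def rh859c9ee6ad8bc40f : CRef := CRef.mk (Pat.mk 0x80000000e000000080000000600000000 0xa0000000f0000003e0000000c0000000600000002 5 6) 0 0 (step_sound _ 66 [(rh5c5e593799055d58.shift 2 1), rhd0119768fe59b5c6] (by decide +kernel))
noncomputable def rhb3466cd52e912e74 : CRef := CRef.mk (Pat.mk 0x8000000080000007800000008 0x40000001f00000078000000f800000008 5 8) 0 0 (step_sound _ 68 [rhdb019b0e908810fb, (rhf48373e13d2bc128.shift 3 1)] (by decide +kernel))
noncomputable def rh200f0fc9d2321d44 : CRef := CRef.mk (Pat.mk 0x7800000000 0x770000007e0000000e 5 7) 0 0 (step_sound _ 34 [(rh4c622fddc53a5f99.shift 0 1), (rheae1728ff4a56756.shift 1 0)] (by decide +kernel))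
noncomputable def rhe37fe716e6715002 : CRef := CRef.mk (Pat.mk 0x3c00000002 0x3c000000ff00000003 5 8) 0 0 (step_sound _ 33 [(rh211a6c48392e6e74.shift 0 1), rheb0810cc63b001d8] (by decide +kernel))
noncomputable def rhd27d079d843ea4ee : CRef := CRef.mk (Pat.mk 0x600000006000000050000000000000000 0x40000000600000006000000070000001e0000000e 5 5) 0 0 (step_sound _ 34 [(rh7b1f1fb55310c477.shift 1 0), rh934b7b499abbb98b] (by decide +kernel))
noncomputable def rh6af6011101c780ed : CRef := CRef.mk (Pat.mk 0x70000000400000005000000000000000000000000 0x50000000700000006000000070000001e0000000e0000000a 5 5) 0 0 (step_sound _ 66 [(rh8b8c9c02316f2252.shift 0 1), (rh8cdd36b03d57a2f6.shift 1 0), (rh934b7b499abbb98b.shift 0 1), (rha613ffd40b6c9d24.shift 1 0)] (by decide +kernel))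
noncomputable def rh8f2c1515ae91bebc : CRef := CRef.mk (Pat.mk 0x700000006000000050000000000000000 0x10000000700000006000000070000001e0000000e 5 5) 0 0 (step_sound _ 34 [(rh7b1f1fb55310c477.shift 1 0), rhc52054309d189d77] (by decide +kernel))
noncomputable def rhb9e7dc16cdb19528 : CRef := CRef.mk (Pat.mk 0x800000000000000000000000f00000000 0x100000001800000018000000080000001c0000000f00000004 5 5) 0 0 (step_sound _ 67 [(rh33e738c4ed385b9f.shift 0 1), (rh50bf2dc507802e74.shift 2 0)] (by decide +kernel))
noncomputable def rhd6b322160c63b417 : CRef := CRef.mk (Pat.mk 0x2000000020000001e00000000 0x50000000700000007000000020000001e00000003 5 5) 0 0 (step_sound _ 1 [rh1741680720c097b4, rheb0810cc63b001d8] (by decide +kernel))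
noncomputable def rhc3022ec33709db8f : CRef := CRef.mk (Pat.mk 0x2000000020000001e00000002 0x50000000f0000003e0000001e00000002 5 6) 0 0 (step_sound _ 98 [rh19df57b8626411f8, (rh2f68792b6b779e96.shift 1 0)] (by decide +kernel))
noncomputable def rh1e95203857609f80 : CRef := CRef.mk (Pat.mk 0x7000000040000000400000000 0xa0000000e0000001e00000007000000060000000600000002 5 5) 0 0 (step_sound _ 130 [(rh20966da26a1c2ae8.shift 1 0), (rh4017de503635a93b.shift 0 1), (rh771d065bdc85bf2d.shift 1 0), (rhc85cc95794737cf7.shift 1 1)] (by decide +kernel))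
noncomputable def rh1bb94d8bd52411a4 : CRef := CRef.mk (Pat.mk 0xf000000080000000800000000 0x40000000c0000001c0000000f0000000c0000000c00000004 5 5) 0 0 (step_sound _ 131 [(rh33e738c4ed385b9f.shift 0 3), (rh771d065bdc85bf2d.shift 2 0)] (by decide +kernel))
noncomputable def rhb777b61866b7c6ff : CRef := CRef.mk (Pat.mk 0x38000000000000002000000000 0x10000000770000003e000000770000002000000020 5 7) 0 0 (step_sound _ 98 [(rh4c622fddc53a5f99.shift 0 3), (rh592c7139d2c44767.shift 0 2), (rh9e97bba44c1b13e4.shift 0 2), (rhd45e3ae46e6d7252.shift 2 0)] (by decide +kernel))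
noncomputable def rh140e84d8531e408b : CRef := CRef.mk (Pat.mk 0xa0000000800000008000000000000000000000000 0x100000001c0000001f00000008000000080000001c0000001c00000014 5 5) 0 0 (step_sound _ 67 [(rh7182140bdec2c358.shift 0 2), (rh8cdd36b03d57a2f6.shift 2 0)] (by decide +kernel))
noncomputable def rhd2705a941542c9fb : CRef := CRef.mk (Pat.mk 0x180000001e0000000000000000 0x10000000300000001f0000003e0000000800000008 5 6) 0 0 (step_sound _ 97 [(rh3244c3cc8379b070.shift 0 2), (rha0d560dcab205fc1.shift 1 0)] (by decide +kernel))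
noncomputable def rh9e78c8d0a6e73966 : CRef := CRef.mk (Pat.mk 0x80000000a000000080000000800000000 0x140000001f0000001b000000080000000800000008 5 5) 0 0 (step_sound _ 132 [(rh2f68792b6b779e96.shift 3 1), rhb29f77e14965ca87] (by decide +kernel))
noncomputable def rhc8256abfb6210b3a : CRef := CRef.mk (Pat.mk 0x40000000400000005000000000000000000000000 0x60000000600000006000000070000001e0000000e0000000a 5 5) 0 0 (step_sound _ 66 [(rh8cdd36b03d57a2f6.shift 1 0), (rh8ff3dde5b1c639e0.shift 1 0), (rh934b7b499abbb98b.shift 0 1), (rhc4526fc8abf298b6.shift 1 0)] (by decide +kernel))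
noncomputable def rhc495326e2c857e32 : CRef := CRef.mk (Pat.mk 0x100000000a0000000800000008000000080000000000000000 0x10000000180000000f0000000c00000008000000180000001800000010 5 5) 0 0 (step_sound _ 195 [(rh2f68792b6b779e96.shift 3 3), rh6933f9867dfa8f73] (by decide +kernel))
noncomputable def rh9d6135dd3cfb3781 : CRef := CRef.mk (Pat.mk 0x1800000014000000100000001400000000 0x10000000380000001f000000180000001c0000000c 5 6) 0 0 (step_sound _ 35 [(rh932754581e0f4330.shift 3 0), rhc229a528e61dc272] (by decide +kernel))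
noncomputable def rhc858f8d11360d2e7 : CRef := CRef.mk (Pat.mk 0x1c00000010000000100000001000000000 0x270000003f00000018000000100000001000000010 5 6) 0 0 (step_sound _ 133 [(rh2f68792b6b779e96.shift 4 1), rh54d4afff399de0db] (by decide +kernel))
noncomputable def rh08169a5fee178f5a : CRef := CRef.mk (Pat.mk 0x10000000e00000008 0x730000007e000000ec 5 8) 0 0 (step_sound _ 36 [(rh3f8766e6ecb455ce.shift 0 1), (rh96befde64d88ad75.shift 1 0)] (by decide +kernel))
noncomputable def rh11f7404cc81a3bf0 : CRef := CRef.mk (Pat.mk 0xe0000000800000008 0x10000000770000007e000000fc00000008 5 8) 0 0 (step_sound _ 68 [(rh96befde64d88ad75.shift 1 1), (rhb18e6c78a554867d.shift 0 2), (rhbbda3e5cf400e6dd.shift 1 0), (rhe401600d466b97cd.shift 0 1)] (by decide +kernel))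
noncomputable def rh8d1864f19db3e45a : CRef := CRef.mk (Pat.mk 0xa0000000800000008000000000000000000000000 0x140000001f00000038000000080000001c0000001c00000014 5 6) 0 0 (step_sound _ 67 [(rh4a37486e0549b1bc.shift 0 2), (rh8cdd36b03d57a2f6.shift 2 0)] (by decide +kernel))
noncomputable def rh83a8f53c1a249159 : CRef := CRef.mk (Pat.mk 0x4000000040000000020000003c000000000000005000000000 0x4000000060000000330000003e000000200000007000000050 5 7) 0 0 (step_sound _ 97 [(rh3244c3cc8379b070.shift 0 3), (rh6d5f8f05bc01a0bf.shift 1 0)] (by decide +kernel))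
noncomputable def rhb9b294994ad8bf69 : CRef := CRef.mk (Pat.mk 0x2000000000000000480000007e0000004000000000 0x2800000078000000580000007f0000005600000010 5 7) 0 0 (step_sound _ 131 [(rh1ae4704ae86cb9a8.shift 1 1), rh37ae971256d6c809, (rhde10baa3043a2b46.shift 2 1)] (by decide +kernel))
noncomputable def rhfd22cdbdb168281d : CRef := CRef.mk (Pat.mk 0x2000000000000000080000001e000000000000002800000000 0x300000003000000030000000180000001f000000100000003800000028 5 6) 0 0 (step_sound _ 132 [(rh53b3c253cb0c65f4.shift 0 3), (rhea3a44ec6d05e329.shift 3 0)] (by decide +kernel))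
noncomputable def rhf69c63467b787520 : CRef := CRef.mk (Pat.mk 0x4000000000000000200000002000000000000000500000000 0x500000007000000070000000200000002000000020000000700000005 5 3) 0 0 (step_sound _ 65 [rh2818863d77d69ed0, (rhe25716203317ed02.shift 0 2)] (by decide +kernel))
noncomputable def rh2571ab4fa8a64ee5 : CRef := CRef.mk (Pat.mk 0x380000000000000000000000040000001c00000002 0x780000001f00000004000000040000001e00000003 5 7) 0 0 (step_sound _ 33 [rh9b8ad790ab017f9c, rheb0810cc63b001d8] (by decide +kernel))
noncomputable def rh45a5b0a4a6b5c548 : CRef := CRef.mk (Pat.mk 0x300000003000000000000000040000003c00000000 0x700000003e00000004000000040000003e00000007 5 7) 0 0 (step_sound _ 1 [rh380057ad9a846aa6, (rh80fcd6d0a18cb2dd.shift 1 0)] (by decide +kernel))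
noncomputable def rhf187c1a9aea2f083 : CRef := CRef.mk (Pat.mk 0x7000000000000000220000002300000021 0x7e000000ee000000220000002300000021 5 8) 0 0 (step_sound _ 102 [(rh1006c02ae4212ff0.shift 5 0), rh8377e3926ecc23fd] (by decide +kernel))
noncomputable def rh1f6ff5d3352e2267 : CRef := CRef.mk (Pat.mk 0x3800000000 0xe70000007e000000e7 5 8) 0 0 (step_sound _ 34 [(rh3fc3a7fb6866dcd4.shift 2 0), rh592c7139d2c44767] (by decide +kernel))
noncomputable def rh6abf4ace4533cac2 : CRef := CRef.mk (Pat.mk 0x120000000600000006 0x70000000f0000001e0000000600000006 5 5) 0 0 (step_sound _ 97 [(rh2145e1d24b96a57e.shift 1 0), rhc3115e0f4b0bf27b] (by decide +kernel))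
noncomputable def rh8982237647b84a72 : CRef := CRef.mk (Pat.mk 0x3c000000000000000200000002 0x3e0000007f000000020000000200000002 5 7) 0 0 (step_sound _ 130 [(rh3244c3cc8379b070.shift 1 3), rh865cc9999fb6a508] (by decide +kernel))
noncomputable def rhfcb4e3a423ce2cb0 : CRef := CRef.mk (Pat.mk 0x7800000000000000040000003c00000000 0xe00000007c00000004000000040000003e00000007 5 8) 0 0 (step_sound _ 166 [(rh33e738c4ed385b9f.shift 3 4), rh89bc695086cfc533] (by decide +kernel))
noncomputable def rh4b6a8b0d2c7b0db2 : CRef := CRef.mk (Pat.mk 0xc0000000e000000000000000000000002 0xc0000007e000000730000000200000002 5 7) 0 0 (step_sound _ 65 [(rh9e3edb185cc347de.shift 1 0), (rhbb8ddf6556e5ee9b.shift 0 2)] (by decide +kernel))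
noncomputable def rhb5a4406f7da0ab49 : CRef := CRef.mk (Pat.mk 0x120000000e00000004 0xa0000000f0000001e0000000f00000004 5 5) 0 0 (step_sound _ 67 [rh1017b4f0f6c2deca, (rh53b3c253cb0c65f4.shift 0 1)] (by decide +kernel))
noncomputable def rh7a40480ff9e3b42a : CRef := CRef.mk (Pat.mk 0x100000001e000000000000000000000004 0x1c000000ff000000060000000400000004 5 8) 0 0 (step_sound _ 131 [(rh07f471f51b6d0537.shift 1 0), (rh53b3c253cb0c65f4.shift 0 3)] (by decide +kernel))
noncomputable def rh87d7e43c37047d58 : CRef := CRef.mk (Pat.mk 0x400000000000000020000001e00000000 0x50000000700000007000000020000001e00000003 5 5) 0 0 (step_sound _ 1 [rhe25716203317ed02, rheb0810cc63b001d8] (by decide +kernel))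
noncomputable def rh90da1670b6450773 : CRef := CRef.mk (Pat.mk 0x80000001800000000000000060000001e00000000 0x380000001f00000007000000060000001e00000034 5 6) 0 0 (step_sound _ 130 [(rh04253f50b6dd0619.shift 2 1), rhe4a6f23312945511] (by decide +kernel))
noncomputable def rhe0b0220c081a7f12 : CRef := CRef.mk (Pat.mk 0x10000000f000000000000000000000003c 0x190000000f000000020000000370000003e 5 9) 0 0 (step_sound _ 37 [(rh2613c889e411427e.shift 4 0), rh32a95bce23b0895b] (by decide +kernel))
noncomputable def rhca76e516b6749727 : CRef := CRef.mk (Pat.mk 0x1a00000000000000020000000600000000 0x50000000f0000001b00000002000000020000000600000004 5 5) 0 0 (step_sound _ 97 [(rh55afc6a59410cf00.shift 1 0), (rh769c8bac0b178383.shift 0 1)] (by decide +kernel))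
noncomputable def rhef2cc9d0b5113d20 : CRef := CRef.mk (Pat.mk 0xd000000000000000020000003c00000000 0x20000000f000000018000000330000003e00000020 5 8) 0 0 (step_sound _ 33 [(rh2c91f5db07ef7c1d.shift 1 0), (rh3244c3cc8379b070.shift 0 1)] (by decide +kernel))
noncomputable def rh943c9a14b5422bad : CRef := CRef.mk (Pat.mk 0x7800000000 0xf0000007e0000000f 5 7) 0 0 (step_sound _ 34 [rh592c7139d2c44767, (rhd5eb272e07a4e288.shift 1 1), (rheae1728ff4a56756.shift 1 0)] (by decide +kernel))
noncomputable def rhac5e96a17a0827f5 : CRef := CRef.mk (Pat.mk 0x38000000000000001000000010 0x700000003e000000170000001000000010 5 7) 0 0 (step_sound _ 133 [(rh04253f50b6dd0619.shift 4 0), (rhb103f40a53fe1424.shift 0 2)] (by decide +kernel))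
noncomputable def rh8b282e61cb6df183 : CRef := CRef.mk (Pat.mk 0x40000003800000000 0x760000003e00000007 5 7) 0 0 (step_sound _ 34 [(rh3244c3cc8379b070.shift 1 1), rh9e97bba44c1b13e4] (by decide +kernel))
noncomputable def rh71a92610e0a296f1 : CRef := CRef.mk (Pat.mk 0x400000000000000080000000f00000000 0x140000001c0000001c000000080000000f00000018 5 5) 0 0 (step_sound _ 3 [(rh07ff884a7eb6c0ed.shift 2 0), rhe25b0a99195a5d59] (by decide +kernel))
noncomputable def rh9e12ef6a90912d02 : CRef := CRef.mk (Pat.mk 0x400000000000000080000001e000000000000001400000000 0x40000000e0000000b0000001e0000000b0000001c00000014 5 5) 0 0 (step_sound _ 129 [(rh3244c3cc8379b070.shift 0 3), rhfb561738d3d5d353] (by decide +kernel))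
noncomputable def rh4e5819726101ea31 : CRef := CRef.mk (Pat.mk 0x10000000e000000080000000000000000 0x10000000100000003b0000001e000000080000000800000008 5 6) 0 0 (step_sound _ 100 [(rh3f8766e6ecb455ce.shift 0 3), (rh6eb76252a9026692.shift 1 0)] (by decide +kernel))
noncomputable def rh3abd679f6b6c590b : CRef := CRef.mk (Pat.mk 0x1000000000000000200000002000000000000000500000000 0x500000007000000070000000200000002000000020000000700000005 5 3) 0 0 (step_sound _ 65 [(rh07ff884a7eb6c0ed.shift 0 2), rh2818863d77d69ed0] (by decide +kernel))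
noncomputable def rh22d326bdf3fdc35e : CRef := CRef.mk (Pat.mk 0x3800000000 0xff0000007e00000007 5 8) 0 0 (step_sound _ 34 [(rh4c622fddc53a5f99.shift 0 1), rh775ca1963e850b80, rh9e97bba44c1b13e4, (rhb18e6c78a554867d.shift 1 1)] (by decide +kernel))
noncomputable def rhc645f9bc0f88d7aa : CRef := CRef.mk (Pat.mk 0x3000000000000000200000002000000000000000500000000 0x500000007000000060000000200000002000000020000000700000005 5 3) 0 0 (step_sound _ 161 [(rh50fbb5868c909700.shift 0 3), rh8b73a667499dd2db] (by decide +kernel))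
noncomputable def rhffae826ddd46d99f : CRef := CRef.mk (Pat.mk 0x38000000000000001000000010000000000000002800000000 0x70000003e000000770000001000000010000000100000003800000028 5 7) 0 0 (step_sound _ 194 [(rh592c7139d2c44767.shift 0 5), (rh713aa102c81e8ba3.shift 2 0), (rh75eca5012e6213df.shift 1 2)] (by decide +kernel))
noncomputable def rh7c2e60a048ea7124 : CRef := CRef.mk (Pat.mk 0x38000000000000000400000004 0xf70000007e000000e70000000400000004 5 8) 0 0 (step_sound _ 98 [(rh3fc3a7fb6866dcd4.shift 2 2), (rh4c622fddc53a5f99.shift 0 3), (rh592c7139d2c44767.shift 0 2), (rh87865da67f1be42c.shift 1 0), (rh9e97bba44c1b13e4.shift 0 2)] (by decide +kernel))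
noncomputable def rh10100dc1fdea7457 : CRef := CRef.mk (Pat.mk 0x3800000000000000080000000800000008 0x70000003e0000000f000000080000000800000008 5 6) 0 0 (step_sound _ 130 [(rh775ca1963e850b80.shift 0 3), (rhb782824a29123179.shift 2 0), (rhea1977e228a6d74a.shift 1 1), (rheda2b94d1e8eeca0.shift 1 0)] (by decide +kernel))
noncomputable def rh66341be27561f775 : CRef := CRef.mk (Pat.mk 0x600000000000000000000001e00000000 0x50000000700000003000000030000001e00000003 5 5) 0 0 (step_sound _ 65 [rh0e744080ad0ddb6e, (rh3244c3cc8379b070.shift 0 1)] (by decide +kernel))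
noncomputable def rh669242c8189886aa : CRef := CRef.mk (Pat.mk 0x38000000000000000000000078 0x770000003e0000000f0000000c00000078 5 7) 0 0 (step_sound _ 98 [(rh4c622fddc53a5f99.shift 0 3), (rh592c7139d2c44767.shift 0 2), (rh9e97bba44c1b13e4.shift 0 2), (rh9f1f1f40fdb5b760.shift 1 0)] (by decide +kernel))
noncomputable def rhac248eecb726bbdf : CRef := CRef.mk (Pat.mk 0x400000000000000000000001e00000002 0x50000000700000007000000030000001e00000002 5 5) 0 0 (step_sound _ 65 [(rh3244c3cc8379b070.shift 0 1), rhe25716203317ed02] (by decide +kernel))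
noncomputable def rh993b837a9c136234 : CRef := CRef.mk (Pat.mk 0x300000002000000100000001e00000000 0x8000000080000001f0000001e000000100000003e00000070 5 7) 0 0 (step_sound _ 100 [rh0944cb36a4fa1f40, (rh4753b4150c92476d.shift 0 1), (rh5e044f2a7fe8917d.shift 1 0)] (by decide +kernel))
noncomputable def rh32b3845586fb9d70 : CRef := CRef.mk (Pat.mk 0x3800000010 0x70000007e000000ff 5 8) 0 0 (step_sound _ 34 [(rh06db8ceda6269a47.shift 1 0), rh4f8edb321cf5b49d, rh775ca1963e850b80, (rha03f6e28ea70fc7d.shift 1 0)] (by decide +kernel))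
noncomputable def rhf4086ca640064869 : CRef := CRef.mk (Pat.mk 0x2800000020000000040000000c00000008 0x70000003e00000074000000040000000c00000008 5 7) 0 0 (step_sound _ 130 [(rh499fe0919994f2c0.shift 0 3), (rh6f1cbe15c631ee70.shift 2 0)] (by decide +kernel))
noncomputable def rh7b08a4c39dc77b69 : CRef := CRef.mk (Pat.mk 0x800000020000000080000001800000000 0x40000000f0000007c000000080000001800000010 5 7) 0 0 (step_sound _ 99 [(rh55afc6a59410cf00.shift 3 0), (rh7430a052bcb4bacd.shift 0 1)] (by decide +kernel))
noncomputable def rhc531e8994caba2c3 : CRef := CRef.mk (Pat.mk 0x200000000000000020000000600000000 0x5000000070000000700000002000000020000000600000004 5 3) 0 0 (step_sound _ 97 [(rh55afc6a59410cf00.shift 1 0), (rhc85cc95794737cf7.shift 0 1)] (by decide +kernel))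
noncomputable def rh2f11f04fb95c45ac : CRef := CRef.mk (Pat.mk 0x120000000600000002 0x5000000070000000f0000001e0000000600000006 5 5) 0 0 (step_sound _ 97 [(rh14f80659e6313cc6.shift 1 0), rh3da62da861143b9a, rhc3115e0f4b0bf27b] (by decide +kernel))
noncomputable def rhe55a3c34d84202cd : CRef := CRef.mk (Pat.mk 0x300000008000000080000000c00000000 0x140000001e0000001b00000008000000080000000c00000004 5 5) 0 0 (step_sound _ 131 [(rh3c8f4260c625d1ca.shift 0 1), (rh932754581e0f4330.shift 2 0)] (by decide +kernel))
noncomputable def rhf7f30f4125541383 : CRef := CRef.mk (Pat.mk 0x3800000020 0x700000003e00000067 5 7) 0 0 (step_sound _ 34 [rh9e97bba44c1b13e4, (rhe25b0a99195a5d59.shift 2 0)] (by decide +kernel))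
noncomputable def rh5832dbaa64efadf8 : CRef := CRef.mk (Pat.mk 0x2800000020000000040000000600000002 0x70000003e00000074000000040000000600000002 5 7) 0 0 (step_sound _ 130 [(rh499fe0919994f2c0.shift 0 3), (rhee230b994cc8b773.shift 1 0)] (by decide +kernel))
noncomputable def rhaad35a75847f9102 : CRef := CRef.mk (Pat.mk 0x70000000000000000000000100000003000000020 0x380000001f0000003800000010000000100000003000000020 5 6) 0 0 (step_sound _ 132 [(rh6f1cbe15c631ee70.shift 4 0), (rhc44aa952c63836fd.shift 0 4)] (by decide +kernel))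
noncomputable def rh0fe98425d8288b4b : CRef := CRef.mk (Pat.mk 0x280000002c 0x70000003e0000007e 5 7) 0 0 (step_sound _ 34 [rh67f7585349888d93, (rhcaa7ba44a31c4370.shift 1 0), (rhfd0f316c42bbba52.shift 1 0)] (by decide +kernel))
noncomputable def rh1fe4a43c80c96c15 : CRef := CRef.mk (Pat.mk 0x200000000c000000000000006000000040 0x770000003e000000200000006000000040 5 7) 0 0 (step_sound _ 101 [(rhe4d45683445dc8bf.shift 0 3), (rhff0f29cb645b05f7.shift 5 0)] (by decide +kernel))
noncomputable def rh765820bcb17c9fdc : CRef := CRef.mk (Pat.mk 0xc0000000200000042000000c200000080 0x40000007e0000007300000042000000c200000080 5 8) 0 0 (step_sound _ 129 [(rh2f68792b6b779e96.shift 1 1), rhca4830bac924863a] (by decide +kernel))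
noncomputable def rh364713d5b5db3f03 : CRef := CRef.mk (Pat.mk 0x300000002000000100000001e00000000 0x8000000080000001f0000001e000000100000003e00000070 5 7) 0 0 (step_sound _ 100 [(rh4753b4150c92476d.shift 0 1), (rh5e044f2a7fe8917d.shift 1 0), rha04e63cd433be7bf] (by decide +kernel))
noncomputable def rhcd042805d4311913 : CRef := CRef.mk (Pat.mk 0x1c00000000 0xff0000007e000000e0 5 8) 0 0 (step_sound _ 37 [(rh3947d1dfff0afc6c.shift 1 0), (rh3fc3a7fb6866dcd4.shift 2 0), (rh4c622fddc53a5f99.shift 0 1), (rhb18e6c78a554867d.shift 1 1)] (by decide +kernel))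
noncomputable def rh1c37177b4d6b0603 : CRef := CRef.mk (Pat.mk 0xe000000040000000000000004 0x770000003e000000040000000400000004 5 7) 0 0 (step_sound _ 129 [(rh38791ac5737ed75e.shift 0 3), (rh9e07f76261b05888.shift 1 0)] (by decide +kernel))
noncomputable def rhcab49626fabbcd16 : CRef := CRef.mk (Pat.mk 0x3000000020000000040000000c00000008 0x70000003e00000074000000040000000c00000008 5 7) 0 0 (step_sound _ 130 [(rh6f1cbe15c631ee70.shift 2 0), (rhf762bcda196c9e5f.shift 0 3)] (by decide +kernel))
noncomputable def rha19078ac5da53725 : CRef := CRef.mk (Pat.mk 0x80000001800000010000000000000003c 0x380000001f00000034000000060000003c 5 6) 0 0 (step_sound _ 34 [(rh3244c3cc8379b070.shift 1 0), rh74de9f58ab631e29] (by decide +kernel))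
noncomputable def rhd49a209860dedbee : CRef := CRef.mk (Pat.mk 0x4000000040000000c0000000c 0x3a0000003e0000000f0000000c0000000c 5 6) 0 0 (step_sound _ 99 [(rh2f68792b6b779e96.shift 2 0), rh36c8a747f7b629a2] (by decide +kernel))
noncomputable def rhd4ae410c9c1703c4 : CRef := CRef.mk (Pat.mk 0x12000000060000000200000000 0x500000007000000070000001e000000060000000600000002 5 5) 0 0 (step_sound _ 129 [(rh14f80659e6313cc6.shift 1 1), (rh1741680720c097b4.shift 0 1), (rh3da62da861143b9a.shift 0 1), rhfc0fa269c989ad37] (by decide +kernel))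
noncomputable def rh8adf3e63048ba3cf : CRef := CRef.mk (Pat.mk 0x1c00000000 0xf70000007e000000ee 5 8) 0 0 (step_sound _ 37 [(rh06db8ceda6269a47.shift 1 0), (rh3fc3a7fb6866dcd4.shift 2 0), (rh4c622fddc53a5f99.shift 0 1)] (by decide +kernel))
noncomputable def rh5cf7c461bdd0bb27 : CRef := CRef.mk (Pat.mk 0x1c00000000 0xf00000007e000000ef 5 8) 0 0 (step_sound _ 37 [(rh06db8ceda6269a47.shift 1 0), (rh3b00e9e9432b8f40.shift 1 0), (rh3fc3a7fb6866dcd4.shift 2 0), rh7654d7b92c96fe12] (by decide +kernel))
noncomputable def rha9ceffcd8583f456 : CRef := CRef.mk (Pat.mk 0x1c00000000 0xf0000007e000000ef 5 8) 0 0 (step_sound _ 37 [(rh06db8ceda6269a47.shift 1 0), (rh3947d1dfff0afc6c.shift 1 0), (rh47c07cd0cc865f65.shift 1 0), rh592c7139d2c44767] (by decide +kernel))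
noncomputable def rh2a249a8dd58b8c53 : CRef := CRef.mk (Pat.mk 0x10000000100000001e00000010 0x280000003c0000001f0000001e00000010 5 6) 0 0 (step_sound _ 99 [(rh50fbb5868c909700.shift 3 0), rha5dca8e3b8f67657] (by decide +kernel))
noncomputable def rh344ab62162079df8 : CRef := CRef.mk (Pat.mk 0xd00000002000000020000000a 0x390000001f0000001a0000000a0000000a 5 6) 0 0 (step_sound _ 97 [rh1c75ff420bea86f0, rh50fbb5868c909700] (by decide +kernel))
noncomputable def rh88f6fb53112a4e1d : CRef := CRef.mk (Pat.mk 0xf000000000000000000000020 0x380000003f000000700000002000000020 5 7) 0 0 (step_sound _ 132 [(rh08920e1658b4280d.shift 1 0), (rh428265de8cd3cd2d.shift 0 3)] (by decide +kernel))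
noncomputable def rha6d342d8a59d0fee : CRef := CRef.mk (Pat.mk 0x1600000010 0x770000003e00000030 5 7) 0 0 (step_sound _ 35 [(rhb18e6c78a554867d.shift 0 1), (rhe25b0a99195a5d59.shift 1 0)] (by decide +kernel))
noncomputable def rhef4876f9e7eb0bda : CRef := CRef.mk (Pat.mk 0xe00000010 0x770000003e00000030 5 7) 0 0 (step_sound _ 36 [(rhb18e6c78a554867d.shift 0 1), (rhe25b0a99195a5d59.shift 1 0)] (by decide +kernel))
noncomputable def rh3fb45d846df6964d : CRef := CRef.mk (Pat.mk 0x7800000000 0x7f0000007e00000007 5 7) 0 0 (step_sound _ 34 [(rh4c622fddc53a5f99.shift 0 1), rh7654d7b92c96fe12, rh775ca1963e850b80, (rhd5eb272e07a4e288.shift 1 1)] (by decide +kernel))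
noncomputable def rh348b7c738943dbea : CRef := CRef.mk (Pat.mk 0x2c00000000 0x7f0000007e000000f0 5 8) 0 0 (step_sound _ 36 [(rh2381ca26b8b38d1e.shift 1 0), (rh4c622fddc53a5f99.shift 0 1), (rhe401600d466b97cd.shift 1 0)] (by decide +kernel))
noncomputable def rhc0fc249f4916f1ee : CRef := CRef.mk (Pat.mk 0xb00000000000000080000000c00000000 0x140000001e0000001b00000008000000080000000c00000004 5 5) 0 0 (step_sound _ 99 [(rh3c8f4260c625d1ca.shift 0 1), (rh932754581e0f4330.shift 2 0)] (by decide +kernel))
noncomputable def rh8027285a58b329fe : CRef := CRef.mk (Pat.mk 0x5800000000000000020000007c00000000 0x2000000078000000c0000000c30000007e00000020 5 8) 0 0 (step_sound _ 33 [(rh3244c3cc8379b070.shift 0 1), (rh82758c8496cce947.shift 3 0)] (by decide +kernel))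
noncomputable def rhac313dc5296f50fb : CRef := CRef.mk (Pat.mk 0x1600000000000000200000003800000040 0x770000003e000000200000002000000078000000c0 5 8) 0 0 (step_sound _ 38 [rh363d6b0cb5f13a5e, (rhe25b0a99195a5d59.shift 3 0)] (by decide +kernel))
noncomputable def rh3533d4ae0e68498c : CRef := CRef.mk (Pat.mk 0x200000000000000020000000300000000 0x5000000070000000700000002000000020000000300000001 5 3) 0 0 (step_sound _ 97 [(rh1741680720c097b4.shift 0 1), rh932754581e0f4330] (by decide +kernel))
noncomputable def rhbe9602c1da5314a3 : CRef := CRef.mk (Pat.mk 0x1600000000000000000000001800000000 0x7f0000003e00000030000000100000001800000008 5 7) 0 0 (step_sound _ 131 [(rh6f0f07b70d2847f5.shift 1 0), (rhb18e6c78a554867d.shift 0 4)] (by decide +kernel))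
noncomputable def rhe06a0b5280207583 : CRef := CRef.mk (Pat.mk 0x90000000c00000008 0x100000001c0000001c0000001e0000000f0000000c0000000c 5 5) 0 0 (step_sound _ 99 [rh33e2e68d6dfbb63c, (rh7a7e08304268422e.shift 2 0), (rha77f215723363df0.shift 2 0)] (by decide +kernel))
noncomputable def rh946cb4faf99012cf : CRef := CRef.mk (Pat.mk 0x200000006000000020000000000000000 0x500000007000000070000000600000006000000060000000600000006 5 3) 0 0 (step_sound _ 161 [(rh1741680720c097b4.shift 0 2), (rhca18712e5e5c7b8f.shift 1 0), (rhd4b4beefcd67f51e.shift 1 1)] (by decide +kernel))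
noncomputable def rh0c306175c21a176f : CRef := CRef.mk (Pat.mk 0x3800000000 0xf0000007e000000ef 5 8) 0 0 (step_sound _ 34 [(rh06db8ceda6269a47.shift 1 0), rh592c7139d2c44767, (rhe401600d466b97cd.shift 1 0)] (by decide +kernel))
noncomputable def rh6668c88653940ad5 : CRef := CRef.mk (Pat.mk 0x1c00000000 0xf00000007e000000f7 5 8) 0 0 (step_sound _ 37 [rh185f35b8bd8ec37f, (rh3fc3a7fb6866dcd4.shift 2 0), rh9e97bba44c1b13e4] (by decide +kernel))
noncomputable def rh392d7678b3ef63ac : CRef := CRef.mk (Pat.mk 0x3800000000 0xe70000007e000000e7 5 8) 0 0 (step_sound _ 34 [(rh3fc3a7fb6866dcd4.shift 2 0), rh775ca1963e850b80] (by decide +kernel))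
noncomputable def rh387d620ce7054002 : CRef := CRef.mk (Pat.mk 0x3800000000 0xf00000007e000000ef 5 8) 0 0 (step_sound _ 34 [(rh06db8ceda6269a47.shift 1 0), rh9e97bba44c1b13e4, (rha93a5dd541ab8209.shift 2 0)] (by decide +kernel))
noncomputable def rh20d506bc59acd5b1 : CRef := CRef.mk (Pat.mk 0x120000001e00000012 0x50000000f0000000f0000001e0000001e00000016 5 5) 0 0 (step_sound _ 97 [(rh14f80659e6313cc6.shift 1 0), rh3da62da861143b9a, rh67ce2f56e3648f2b] (by decide +kernel))
noncomputable def rh5366564e64fb1b4d : CRef := CRef.mk (Pat.mk 0x2800000000000000080000001800000000 0x10000000780000001f000000080000001800000010 5 7) 0 0 (step_sound _ 99 [(rh55afc6a59410cf00.shift 3 0), (rh6edfd237118cf121.shift 0 1)] (by decide +kernel))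
noncomputable def rhcf2a8f121bc4ac1e : CRef := CRef.mk (Pat.mk 0x200000000000000020000000600000000 0x5000000070000000700000002000000020000000600000004 5 3) 0 0 (step_sound _ 97 [(rh1741680720c097b4.shift 0 1), (rh55afc6a59410cf00.shift 1 0)] (by decide +kernel))
noncomputable def rhe6ac26d16131d3e2 : CRef := CRef.mk (Pat.mk 0x700000004000000000000003000000020 0x380000001f0000003e000000100000003000000020 5 6) 0 0 (step_sound _ 100 [(rh68691964b29f233d.shift 0 3), rh9ff1a220917d3fae, (rhe28dc3223a412fc9.shift 0 3)] (by decide +kernel))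
noncomputable def rh69bd079d6dc81f1f : CRef := CRef.mk (Pat.mk 0x18000000100000001800000018 0x240000007f0000003e0000001800000018 5 7) 0 0 (step_sound _ 101 [(rh2f68792b6b779e96.shift 4 0), rh62dc473afc0a006b] (by decide +kernel))
noncomputable def rh796d3db90fc004ad : CRef := CRef.mk (Pat.mk 0xe00000002 0x70000003e00000073 5 7) 0 0 (step_sound _ 36 [rhe401600d466b97cd, rheb0810cc63b001d8] (by decide +kernel))
noncomputable def rh12f7e27315511712 : CRef := CRef.mk (Pat.mk 0x60000000600000004 0x40000000e0000003e000000070000000600000006 5 6) 0 0 (step_sound _ 97 [(rh2145e1d24b96a57e.shift 1 0), rh61fee02b8bd460bd] (by decide +kernel))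
noncomputable def rh3ae91b05ca5144cf : CRef := CRef.mk (Pat.mk 0x600000002000000100000003000000020 0x700000003e00000017000000100000003000000020 5 7) 0 0 (step_sound _ 132 [(rh6f1cbe15c631ee70.shift 4 0), (rh823892b6ed161c2f.shift 0 3)] (by decide +kernel))
noncomputable def rh174fd337b9b543db : CRef := CRef.mk (Pat.mk 0x2000000020000001e00000002 0x50000000f0000003e0000001e00000002 5 6) 0 0 (step_sound _ 98 [(rh2f68792b6b779e96.shift 1 0), rh6f468a81574f9425] (by decide +kernel))
noncomputable def rh1926982ee5082ead : CRef := CRef.mk (Pat.mk 0xa00000002000000080000000c00000000 0x100000003b0000001f000000080000000c00000004 5 6) 0 0 (step_sound _ 99 [(rh431ac01d143f4d95.shift 0 1), (rh932754581e0f4330.shift 2 0)] (by decide +kernel))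
noncomputable def rh6d66030781e0eae2 : CRef := CRef.mk (Pat.mk 0x200000002000000000000000600000000 0x5000000070000000700000002000000020000000600000004 5 3) 0 0 (step_sound _ 65 [(rh1741680720c097b4.shift 0 1), (rh55afc6a59410cf00.shift 1 0)] (by decide +kernel))
noncomputable def rh51f3d73fa267b352 : CRef := CRef.mk (Pat.mk 0x200000000000000020000000300000000 0x5000000070000000700000002000000020000000300000001 5 3) 0 0 (step_sound _ 97 [rh932754581e0f4330, (rhc85cc95794737cf7.shift 0 1)] (by decide +kernel))
noncomputable def rha1367861cfa5662a : CRef := CRef.mk (Pat.mk 0x1c00000000 0xf0000007e000000ef 5 8) 0 0 (step_sound _ 37 [(rh3947d1dfff0afc6c.shift 1 0), (rh42d32bf970c9c157.shift 1 0), (rh47c07cd0cc865f65.shift 1 0), rh592c7139d2c44767] (by decide +kernel))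
noncomputable def rh1c5bc4af64696739 : CRef := CRef.mk (Pat.mk 0x1c00000000 0xf00000007e000000ef 5 8) 0 0 (step_sound _ 37 [(rh3b00e9e9432b8f40.shift 1 0), (rh3fc3a7fb6866dcd4.shift 2 0), (rh42d32bf970c9c157.shift 1 0), rh9e97bba44c1b13e4] (by decide +kernel))
noncomputable def rh859e42baed3427f8 : CRef := CRef.mk (Pat.mk 0x120000000600000002 0x100000007000000070000000f0000001e0000000600000006 5 5) 0 0 (step_sound _ 97 [rh0fa4a62bba50784f, (rh14f80659e6313cc6.shift 1 0), rh1741680720c097b4, rhc3115e0f4b0bf27b] (by decide +kernel))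
noncomputable def rh1d3d5ccf5bd9eaf1 : CRef := CRef.mk (Pat.mk 0x200000002000000000000000600000000 0x5000000070000000700000002000000020000000600000004 5 3) 0 0 (step_sound _ 65 [(rh55afc6a59410cf00.shift 1 0), (rhc85cc95794737cf7.shift 0 1)] (by decide +kernel))
noncomputable def rhf426a5667e8bf21f : CRef := CRef.mk (Pat.mk 0x1c00000008 0x1e0000000fe000000ff 5 9) 0 0 (step_sound _ 37 [(rh3fc3a7fb6866dcd4.shift 2 0), rh41140eaa67c26838, (rhaf9f2efc81a8312b.shift 1 0), (rhdc1641106d7e5aa2.shift 2 0)] (by decide +kernel))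
noncomputable def rh20238e41a74040ab : CRef := CRef.mk (Pat.mk 0x3800000000 0xff0000007e00000007 5 8) 0 0 (step_sound _ 34 [(rh4c622fddc53a5f99.shift 0 1), rh592c7139d2c44767, rh9e97bba44c1b13e4, (rhb18e6c78a554867d.shift 1 1)] (by decide +kernel))
noncomputable def rh41d875a8badd1540 : CRef := CRef.mk (Pat.mk 0x1c00000008 0xe00000007f000000ff 5 8) 0 0 (step_sound _ 37 [(rha93a5dd541ab8209.shift 2 0), (rhaf9f2efc81a8312b.shift 1 0), rhed95296174ee961f] (by decide +kernel))
noncomputable def rh38e6fa4856be7ddd : CRef := CRef.mk (Pat.mk 0x4000000040000001c0000000c 0x3a0000003e000000170000001c0000000c 5 6) 0 0 (step_sound _ 99 [(rh2f68792b6b779e96.shift 2 0), rhd654a6742aae8cbc] (by decide +kernel))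
noncomputable def rh353f414aa29365ab : CRef := CRef.mk (Pat.mk 0xe000000040000000800000008 0x700000003e0000007f0000000800000008 5 7) 0 0 (step_sound _ 100 [(rh3fc3a7fb6866dcd4.shift 1 2), (rh4fc80024ed3db095.shift 1 0), (rhaf9f2efc81a8312b.shift 0 2)] (by decide +kernel))
noncomputable def rh4554f2167dbd9261 : CRef := CRef.mk (Pat.mk 0x60000000600000004 0xe0000000e0000003e000000070000000600000004 5 6) 0 0 (step_sound _ 98 [(rh5db479c9ce22a9b1.shift 1 0), (rh7f9f3607ee25a93b.shift 1 0), rhd8406b09026060f8] (by decide +kernel))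
noncomputable def rhd26de151fd4e6459 : CRef := CRef.mk (Pat.mk 0x70000000600000004 0xe0000000e0000001e000000070000000600000004 5 5) 0 0 (step_sound _ 98 [rh4017de503635a93b, (rh5fa50b509d4ce753.shift 1 0), (rh7f9f3607ee25a93b.shift 1 0), (rhc85cc95794737cf7.shift 1 0)] (by decide +kernel))
noncomputable def rh6e5be26515f78d83 : CRef := CRef.mk (Pat.mk 0x78000000000000000000000004 0x70000007e0000000e0000000400000004 5 7) 0 0 (step_sound _ 66 [(rh80fcd6d0a18cb2dd.shift 2 2), rhee37d230d297e9fd] (by decide +kernel))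
noncomputable def rh2b9c51e3095f0a58 : CRef := CRef.mk (Pat.mk 0x1000000002000000020000000600000002 0x70000001e00000007000000060000000600000002 5 5) 0 0 (step_sound _ 130 [(rhbaefcd01e0a8bca3.shift 1 0), (rhca48db30f4dde720.shift 0 1)] (by decide +kernel))
noncomputable def rh2379b52c3793a6e4 : CRef := CRef.mk (Pat.mk 0x1000000002000000120000001a00000002 0x18000000190000000f0000001e0000001a00000002 5 5) 0 0 (step_sound _ 96 [rh50fbb5868c909700, (rh6e901b5b428904b8.shift 0 1)] (by decide +kernel))
noncomputable def rhc32c9d24f54e57bf : CRef := CRef.mk (Pat.mk 0x1000000002000000120000000600000002 0x60000001f000000030000001e0000000600000002 5 5) 0 0 (step_sound _ 96 [rh50fbb5868c909700, (rh610b52e0dccc05d9.shift 0 1)] (by decide +kernel))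
noncomputable def rh35c5f1c53251aa1b : CRef := CRef.mk (Pat.mk 0x2000000020000000600000002 0x1000000070000000700000006000000060000000600000002 5 3) 0 0 (step_sound _ 130 [(rh739b1d2a1da9317d.shift 0 1), (rhbaefcd01e0a8bca3.shift 1 0)] (by decide +kernel))
noncomputable def rh286616274c97b242 : CRef := CRef.mk (Pat.mk 0x200000000000000000000001e00000000 0x1000000030000000300000002000000070000001e00000004 5 5) 0 0 (step_sound _ 65 [(rh3244c3cc8379b070.shift 0 1), rh57c9388180bd8ef4] (by decide +kernel))
noncomputable def rh7449bf9e4a6c0815 : CRef := CRef.mk (Pat.mk 0xc00000018000000080000000100000003000000000000000000000000 0x20000000f0000001b0000000f0000000300000003000000020000000200000002 5 5) 0 0 (step_sound _ 225 [rh0226c443106f6ecb, (rhb739f4f82bb681b4.shift 0 6)] (by decide +kernel))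
noncomputable def rh5363da795185672d : CRef := CRef.mk (Pat.mk 0x8000000080000000f00000000 0x140000001c0000001c000000080000000f00000018 5 5) 0 0 (step_sound _ 3 [(rhc85cc95794737cf7.shift 2 0), rhe25b0a99195a5d59] (by decide +kernel))
noncomputable def rh1039c260b97c2de5 : CRef := CRef.mk (Pat.mk 0x38000000100000000000000004 0x7000000fe000000fe0000000400000004 5 8) 0 0 (step_sound _ 98 [(rh300eedc557b86950.shift 2 2), (rha03f6e28ea70fc7d.shift 1 2), rhb5aa4c725956da26] (by decide +kernel))
noncomputable def rh9c4dd2b9cd02904a : CRef := CRef.mk (Pat.mk 0x80000000f000000000000000800000000 0x40000000c0000000c0000000f0000001c0000000c00000004 5 5) 0 0 (step_sound _ 67 [(rh968ba7b0df7e4096.shift 2 0), (rhe25b0a99195a5d59.shift 0 2)] (by decide +kernel))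
noncomputable def rh59c238fb0cb9f9a7 : CRef := CRef.mk (Pat.mk 0x80000007800000000 0x38000000ff0000000e 5 8) 0 0 (step_sound _ 2 [rh4c3ef4e44b5ae1eb, (rh80fcd6d0a18cb2dd.shift 2 0)] (by decide +kernel))
noncomputable def rh728a6adf3f1c7a62 : CRef := CRef.mk (Pat.mk 0x380000000000000020 0x10000000f70000007e000000f000000020 5 8) 0 0 (step_sound _ 66 [(rh0d378fd9e8917c5a.shift 0 1), (rh4c622fddc53a5f99.shift 0 2), (rh5325704427762ec5.shift 1 0), (rha93a5dd541ab8209.shift 2 1)] (by decide +kernel))
noncomputable def rh6a6bf4338dbcc9d2 : CRef := CRef.mk (Pat.mk 0x38000000000000002000000000 0x10000000370000003e000000770000002000000020 5 7) 0 0 (step_sound _ 98 [(rh185f35b8bd8ec37f.shift 0 2), (rh2cc7d62e70c02209.shift 0 2), (rh9f6be1258f06c13a.shift 1 0), (rhd45e3ae46e6d7252.shift 2 0)] (by decide +kernel))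
noncomputable def rh2bc051806401517c : CRef := CRef.mk (Pat.mk 0x7c00000002 0x1c0000000fe000001c3 5 9) 0 0 (step_sound _ 33 [(rh3fc3a7fb6866dcd4.shift 3 0), rheb0810cc63b001d8] (by decide +kernel))
noncomputable def rh43a01e9b17b0abd4 : CRef := CRef.mk (Pat.mk 0x1e000000000000001000000000 0x2f0000003e000000300000001000000010 5 6) 0 0 (step_sound _ 68 [rhc68444a3d8d82935, (rhe25b0a99195a5d59.shift 1 2)] (by decide +kernel))
noncomputable def rhb5ea0e6f29bfedaa : CRef := CRef.mk (Pat.mk 0x3800000000 0xee0000007e00000077 5 8) 0 0 (step_sound _ 34 [rh185f35b8bd8ec37f, (rh56a24c72f1c55520.shift 1 1)] (by decide +kernel))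
noncomputable def rh37e837b1622529d4 : CRef := CRef.mk (Pat.mk 0x7c000000000000002000000000 0x500000007e000000370000002000000020 5 7) 0 0 (step_sound _ 65 [rh478b298666d6355a, (rh80fcd6d0a18cb2dd.shift 1 2)] (by decide +kernel))
noncomputable def rhd74aaba2aa668255 : CRef := CRef.mk (Pat.mk 0x120000001e0000000000000000 0x10000000300000001e0000003f0000000800000008 5 6) 0 0 (step_sound _ 98 [rh8433a740ccb125cd, (rhf48373e13d2bc128.shift 1 2)] (by decide +kernel))
noncomputable def rh1ff6608a7af1be04 : CRef := CRef.mk (Pat.mk 0x3800000000000000200000000000000000 0xf00000007e00000077000000200000002000000020 5 8) 0 0 (step_sound _ 130 [(rh4a7b438162e4ed40.shift 2 1), (rh9e97bba44c1b13e4.shift 0 3), (rheb100aab8ed4573d.shift 1 0), (rhfcffa0a9e99c8fd4.shift 2 1)] (by decide +kernel))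
noncomputable def rh23a8fd4eb0919778 : CRef := CRef.mk (Pat.mk 0x38000000200000002000000000 0xef0000007e000000270000002000000020 5 8) 0 0 (step_sound _ 98 [(rh4ab9c4dc4d42970a.shift 2 0), (rh592c7139d2c44767.shift 0 2), (rhb18e6c78a554867d.shift 1 3)] (by decide +kernel))
noncomputable def rhbd476fd441a68dd1 : CRef := CRef.mk (Pat.mk 0x4000000070000000a 0x760000003f0000001b 5 7) 0 0 (step_sound _ 35 [rh6476892f2a819723, rhe25b0a99195a5d59] (by decide +kernel))
noncomputable def rhe8ab71c4076c7ec8 : CRef := CRef.mk (Pat.mk 0xf00000004 0x700000003f0000003e 5 7) 0 0 (step_sound _ 4 [rh96851dee118c1ba3, (rhdaae84b65b246d22.shift 1 0)] (by decide +kernel))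
noncomputable def rh1ca10515223f4ae2 : CRef := CRef.mk (Pat.mk 0x1c00000010 0x770000003e00000030 5 7) 0 0 (step_sound _ 33 [(rhb18e6c78a554867d.shift 0 1), (rhe25b0a99195a5d59.shift 1 0)] (by decide +kernel))
noncomputable def rheb3daef5432dab69 : CRef := CRef.mk (Pat.mk 0x80000000a000000080000000e 0x40000000c0000000c000000080000001f0000007c0000000e 5 7) 0 0 (step_sound _ 36 [rh19b1c54bca94e8e7, (rh80f90a60d87caa0d.shift 1 0), (rhdf9f2056a37121a5.shift 2 0)] (by decide +kernel))
noncomputable def rh9d5fff8b1ef83da7 : CRef := CRef.mk (Pat.mk 0x400000004000000050000000600000000 0xc0000000c0000003e000000070000000600000004 5 6) 0 0 (step_sound _ 65 [(rh5c5e593799055d58.shift 1 1), rhdee30487d27d3288] (by decide +kernel))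
noncomputable def rh9f00ea52f2dcae26 : CRef := CRef.mk (Pat.mk 0x2000000020000000200000002000000000000000000000000 0x6000000060000000600000003000000070000000700000005 5 3) 0 0 (step_sound _ 65 [(rh6c59ce14113da07f.shift 1 0), (rh7928877f9bf74a91.shift 0 1), rh8cdd36b03d57a2f6, rhcab3157f7bdcba3e] (by decide +kernel))
noncomputable def rh06f3b51e96e7edd5 : CRef := CRef.mk (Pat.mk 0x400000000000000020000000700000000 0x40000000c0000007f0000003f00000038 5 7) 0 0 (step_sound _ 35 [rh0c7ea8e21d1faf2f, (rh38791ac5737ed75e.shift 0 1), rh75c6fff53e4cbd6e, rha93a5dd541ab8209] (by decide +kernel))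
noncomputable def rh2b2b86ef427286c4 : CRef := CRef.mk (Pat.mk 0x600000013000000100000001000000000 0x20000000300000003e00000013000000300000003000000020 5 6) 0 0 (step_sound _ 132 [(rh361cc68994bd8a63.shift 0 3), (rhced6d86d2069808b.shift 4 0)] (by decide +kernel))
noncomputable def rh58e8379ea5a58738 : CRef := CRef.mk (Pat.mk 0x10000000130000001200000000 0x200000003000000030000000100000001b0000001e00000008 5 6) 0 0 (step_sound _ 35 [(rh5419adcd928dba20.shift 0 1), (rh7a7e08304268422e.shift 3 0)] (by decide +kernel))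
noncomputable def rh8bf99f042330a7dc : CRef := CRef.mk (Pat.mk 0x2000000020000000300000000 0x1000000030000000300000002000000060000000700000005 5 3) 0 0 (step_sound _ 129 [rh7eb4a07d72ad7934, rh932754581e0f4330] (by decide +kernel))
noncomputable def rh117e8735385cd20a : CRef := CRef.mk (Pat.mk 0x20000000200000002000000000000000000000000 0x400000006000000060000000600000006000000070000000700000005 5 3) 0 0 (step_sound _ 65 [rh367118e0bf0473e0, (rh6c59ce14113da07f.shift 1 0), rh8cdd36b03d57a2f6, (rhced6d86d2069808b.shift 1 1)] (by decide +kernel))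
noncomputable def rhfa81a7b8fcbd16fd : CRef := CRef.mk (Pat.mk 0xe000000040000000000000008 0x700000003f0000007e0000000800000008 5 7) 0 0 (step_sound _ 100 [(rh3fc3a7fb6866dcd4.shift 1 2), (rh84d84ec8e59a0da5.shift 1 2), (rh9ab60d74117ac343.shift 1 2), rhf6a203fea93f92ed] (by decide +kernel))
noncomputable def rhb1837f8a141831e4 : CRef := CRef.mk (Pat.mk 0x7000000020000000000000004 0x380000001f0000003f0000000c00000004 5 6) 0 0 (step_sound _ 99 [rh353ebc24c4d595b9, (rh3fc3a7fb6866dcd4.shift 0 2), (rh84d84ec8e59a0da5.shift 0 2), (rh9ab60d74117ac343.shift 0 2)] (by decide +kernel))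
noncomputable def rhfe8a7d80a39dff9a : CRef := CRef.mk (Pat.mk 0x20000000200000002000000000000000000000000 0x100000003000000030000000300000006000000070000000700000005 5 3) 0 0 (step_sound _ 65 [(rh5abfc4c9d959be03.shift 0 1), rh6aa5625770489e83, rh8cdd36b03d57a2f6] (by decide +kernel))
noncomputable def rh29063726aee96931 : CRef := CRef.mk (Pat.mk 0x6000000120000000200000002 0x390000001f0000003a0000000200000002 5 6) 0 0 (step_sound _ 96 [rh50fbb5868c909700, (rhc44aa952c63836fd.shift 0 2)] (by decide +kernel))
noncomputable def rhf3c18d8cfe33c40d : CRef := CRef.mk (Pat.mk 0x100000002000000020000000200000000 0x4000000070000000700000002000000060000000600000004 5 3) 0 0 (step_sound _ 129 [(rh25208373db83e521.shift 1 0), (rh50fbb5868c909700.shift 0 1)] (by decide +kernel))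
noncomputable def rh5bb331872301d326 : CRef := CRef.mk (Pat.mk 0x2000000060000000200000002000000000000000000000000 0x2000000060000000600000003000000070000000700000004 5 3) 0 0 (step_sound _ 64 [(rh79877ebd3ef475dd.shift 0 2), rhd5b22fe6fc9aa2ce] (by decide +kernel))
noncomputable def rh56ced706d36c493a : CRef := CRef.mk (Pat.mk 0x6000000020000001000000010000000100000001000000000 0x80000001e0000001b0000001000000010000000300000003000000020 5 6) 0 0 (step_sound _ 37 [(rh55afc6a59410cf00.shift 4 0), (rhddecff6d593e63e1.shift 0 1)] (by decide +kernel))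
noncomputable def rh8975b466e00e8695 : CRef := CRef.mk (Pat.mk 0x2000000020000000200000002000000000000000000000000 0x400000006000000060000000600000002000000070000000700000005 5 3) 0 0 (step_sound _ 65 [rh367118e0bf0473e0, (rh44f453b84f013105.shift 1 2), rh8cdd36b03d57a2f6] (by decide +kernel))
noncomputable def rh0640759f80205b45 : CRef := CRef.mk (Pat.mk 0x200000002000000020000000000000000 0x500000007000000070000000200000002000000070000000700000005 5 3) 0 0 (step_sound _ 161 [(rh1741680720c097b4.shift 0 2), rh8cdd36b03d57a2f6] (by decide +kernel))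
noncomputable def rha212750c0b8667e8 : CRef := CRef.mk (Pat.mk 0x200000002000000020000000000000000 0x500000007000000070000000600000006000000060000000600000004 5 3) 0 0 (step_sound _ 161 [(rh5abfc4c9d959be03.shift 0 1), (rh6c59ce14113da07f.shift 1 0), (rhc85cc95794737cf7.shift 0 2), (rhced6d86d2069808b.shift 1 1)] (by decide +kernel))
noncomputable def rhc4c0672749f9dfbd : CRef := CRef.mk (Pat.mk 0x1000000010000000020000001600000000 0x1000000030000000630000003e00000070 5 7) 0 0 (step_sound _ 35 [(rh3244c3cc8379b070.shift 0 1), (rh59810ecc3e5f50ca.shift 1 0)] (by decide +kernel))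
noncomputable def rh8f10321d8da605d3 : CRef := CRef.mk (Pat.mk 0x20000000200000000000000030000000000000000 0x4000000060000000600000002000000070000000700000004 5 3) 0 0 (step_sound _ 97 [(rh6c59ce14113da07f.shift 1 0), (rh932754581e0f4330.shift 0 1)] (by decide +kernel))
noncomputable def rh1148744b53f3df58 : CRef := CRef.mk (Pat.mk 0x2000000020000000200000004 0x5000000070000000700000002000000020000000600000004 5 3) 0 0 (step_sound _ 129 [(rh1741680720c097b4.shift 0 1), (rhd3458b32566d63f7.shift 1 0)] (by decide +kernel))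
noncomputable def rh03133acaef57be18 : CRef := CRef.mk (Pat.mk 0x10000000100000001200000002000000060000000100000000 0x1000000010000000100000001a0000001a0000001e0000000b00000001 5 5) 0 0 (step_sound _ 33 [rh932754581e0f4330, (rhcd1c0de20c3b2411.shift 0 1)] (by decide +kernel))
noncomputable def rhd70eea991e03b13e : CRef := CRef.mk (Pat.mk 0x160000000200000010000000100000000000000000 0x80000001e0000001b00000010000000300000003000000020 5 6) 0 0 (step_sound _ 163 [(rhcbbabd6e55c46fe9.shift 3 0), (rheb0810cc63b001d8.shift 0 4)] (by decide +kernel))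
noncomputable def rh29e07b8822e3047d : CRef := CRef.mk (Pat.mk 0x16000000020000001000000010 0x700000003e000000630000003000000010 5 7) 0 0 (step_sound _ 99 [(rh2df5afcfc4cfd1fc.shift 1 0), (rheb0810cc63b001d8.shift 0 2)] (by decide +kernel))
noncomputable def rh95d444d144773104 : CRef := CRef.mk (Pat.mk 0x20000000000000002000000020000000000000000 0x400000006000000060000000600000006000000070000000700000005 5 3) 0 0 (step_sound _ 129 [(rh6c59ce14113da07f.shift 1 0), rh6eff4158bb400f47, rhcab3157f7bdcba3e, (rhced6d86d2069808b.shift 1 1)] (by decide +kernel))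
noncomputable def rhab40878ca0a1f5fd : CRef := CRef.mk (Pat.mk 0x80000000800000000000000080000000100000000 0x10000000180000001800000018000000180000001c0000001f00000004 5 5) 0 0 (step_sound _ 99 [(rh25208373db83e521.shift 3 1), rh40559a4eeccbc478, (rhcab3157f7bdcba3e.shift 2 0)] (by decide +kernel))
noncomputable def rh4942f594abee86ba : CRef := CRef.mk (Pat.mk 0x80000000800000008000000090000000000000000 0x40000000c0000000c000000080000000f0000001c00000010 5 5) 0 0 (step_sound _ 66 [rh14d0a004e7a9880b, (rh932754581e0f4330.shift 2 1)] (by decide +kernel))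
noncomputable def rhdee8fb68b4003a40 : CRef := CRef.mk (Pat.mk 0x20000000200000002000000000000000000000000 0x400000007000000070000000300000003000000070000000700000004 5 3) 0 0 (step_sound _ 65 [(rh20966da26a1c2ae8.shift 0 1), rh8ff3dde5b1c639e0] (by decide +kernel))
noncomputable def rh4bf5d56caf201bfe : CRef := CRef.mk (Pat.mk 0x200000002000000020000000000000000 0x500000007000000070000000600000006000000060000000600000004 5 3) 0 0 (step_sound _ 161 [(rh1741680720c097b4.shift 0 2), (rh5abfc4c9d959be03.shift 0 1), (rhc9de03f9731897d4.shift 1 0), (rhced6d86d2069808b.shift 1 1)] (by decide +kernel))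
noncomputable def rh631b363e4219a7d3 : CRef := CRef.mk (Pat.mk 0x6000000020000000600000006 0x190000001f0000003f0000000600000006 5 6) 0 0 (step_sound _ 96 [rh50fbb5868c909700, rh8afa7f9fb8f37868] (by decide +kernel))
noncomputable def rh7133a7a78d762f91 : CRef := CRef.mk (Pat.mk 0x400000004000000040000000400000000 0x400000004000000040000003c0000000f0000000a 5 6) 0 0 (step_sound _ 35 [(rh55afc6a59410cf00.shift 2 0), rh74cc25b0d7bfca46] (by decide +kernel))
noncomputable def rh69394a2d9259cae4 : CRef := CRef.mk (Pat.mk 0x100000001e00000000000000030000000600000000 0x180000001e00000030000000330000003e00000020 5 6) 0 0 (step_sound _ 100 [rh3d5fe6896eded5b4, (rhe25b0a99195a5d59.shift 1 3)] (by decide +kernel))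
noncomputable def rhfac25dc95a824135 : CRef := CRef.mk (Pat.mk 0x8000000090000000900000001000000010000000000000000 0x180000000f0000001b00000001000000030000000300000002 5 5) 0 0 (step_sound _ 33 [rh02652b4751f4fcbd, (rhd3458b32566d63f7.shift 0 1)] (by decide +kernel))
noncomputable def rhc25f8aa01b06f1a9 : CRef := CRef.mk (Pat.mk 0x2000000030000000200000000000000000000000000000000 0x10000000300000003000000030000000300000007000000070000000700000001 5 3) 0 0 (step_sound _ 97 [rh01483ff9cba2f6ac, (rh771d065bdc85bf2d.shift 0 2), (rh8cdd36b03d57a2f6.shift 0 1), (rhe286c75f2739cce2.shift 0 2)] (by decide +kernel))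
noncomputable def rh9fd77d6e179bb3bc : CRef := CRef.mk (Pat.mk 0x1000000016000000000000000300000006 0x300000001e000000380000001b0000001e 5 6) 0 0 (step_sound _ 99 [(rh33e738c4ed385b9f.shift 1 3), rh4832d4567c02dec0] (by decide +kernel))
noncomputable def rha00f4d7cbb2d30d4 : CRef := CRef.mk (Pat.mk 0x80000000b00000008000000000000000000000000 0x10000000180000001f00000008000000180000001800000010 5 5) 0 0 (step_sound _ 164 [(rh1c62b6193297d9e3.shift 0 4), (rh3820f35d5e705bec.shift 3 0)] (by decide +kernel))
noncomputable def rhc8825735424913d5 : CRef := CRef.mk (Pat.mk 0x80000000b0000000800000000 0x100000001800000018000000080000001f0000001800000010 5 5) 0 0 (step_sound _ 36 [(rh8599f462953abc6e.shift 3 0), (rhc10214bf3fe8094a.shift 0 1)] (by decide +kernel))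
noncomputable def rhd60a9635b04b5467 : CRef := CRef.mk (Pat.mk 0x20000000200000002000000000000000000000000 0x400000006000000060000000600000006000000070000000700000005 5 3) 0 0 (step_sound _ 65 [(rh6c59ce14113da07f.shift 1 0), rh8cdd36b03d57a2f6, rhcab3157f7bdcba3e, (rhced6d86d2069808b.shift 1 1)] (by decide +kernel))
noncomputable def rh5cf56675acef2a4b : CRef := CRef.mk (Pat.mk 0x200000002000000020000000000000000 0x500000007000000070000000300000006000000070000000700000001 5 3) 0 0 (step_sound _ 161 [rhc4526fc8abf298b6, (rhc85cc95794737cf7.shift 0 2), (rhced6d86d2069808b.shift 1 1)] (by decide +kernel))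
noncomputable def rh4b3fdda238748c4a : CRef := CRef.mk (Pat.mk 0x200000002000000020000000000000000 0x500000007000000070000000700000002000000030000000300000001 5 3) 0 0 (step_sound _ 161 [rhc4526fc8abf298b6, (rhc85cc95794737cf7.shift 0 2), rhcab3157f7bdcba3e] (by decide +kernel))
noncomputable def rh0384e1f1238ccd9c : CRef := CRef.mk (Pat.mk 0x20000000200000002000000000000000000000000 0x500000007000000070000000200000006000000070000000700000005 5 3) 0 0 (step_sound _ 65 [(rh1741680720c097b4.shift 0 2), (rh5abfc4c9d959be03.shift 0 1), rh8cdd36b03d57a2f6, (rhced6d86d2069808b.shift 1 1)] (by decide +kernel))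
noncomputable def rhd718be26e79597b9 : CRef := CRef.mk (Pat.mk 0x400000000000000020000000700000000 0x40000000c0000003f0000001f00000038 5 6) 0 0 (step_sound _ 35 [rh0c7ea8e21d1faf2f, rh75c6fff53e4cbd6e, (rhb6f72982232a8164.shift 0 1)] (by decide +kernel))
noncomputable def rhb6f7e56bf89163d9 : CRef := CRef.mk (Pat.mk 0x2000000060000000200000002 0x5000000070000000700000003000000060000000600000002 5 3) 0 0 (step_sound _ 129 [(rh14f80659e6313cc6.shift 1 1), rh3ca48e2a6d60153d, (rhc85cc95794737cf7.shift 0 1)] (by decide +kernel))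
noncomputable def rh91964a127ffb2d17 : CRef := CRef.mk (Pat.mk 0x20000001600000000 0x730000003e00000070 5 7) 0 0 (step_sound _ 35 [(rh3244c3cc8379b070.shift 0 1), (rh3fc3a7fb6866dcd4.shift 1 0)] (by decide +kernel))
noncomputable def rh6b0059bcc4abe2cc : CRef := CRef.mk (Pat.mk 0x800000000000000040000000e00000000 0x8000000080000007e0000003f00000070 5 7) 0 0 (step_sound _ 36 [(rh75c6fff53e4cbd6e.shift 1 0), (rhb6f72982232a8164.shift 1 1), rhfdff1d0d86f2dad2] (by decide +kernel))
noncomputable def rh7001b7fbb066251c : CRef := CRef.mk (Pat.mk 0x200000002000000020000000f00000000 0x4000000060000000e0000001e0000000f00000018 5 5) 0 0 (step_sound _ 67 [(rh33e738c4ed385b9f.shift 0 1), rh57025d4bb74dc34e] (by decide +kernel))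
noncomputable def rh7e07cd48c5ac7541 : CRef := CRef.mk (Pat.mk 0x200000002000000020000000000000000 0x500000007000000070000000600000006000000060000000600000004 5 3) 0 0 (step_sound _ 161 [(rh6c59ce14113da07f.shift 1 0), (rh7eb4a07d72ad7934.shift 0 1), (rhc85cc95794737cf7.shift 0 2), (rhced6d86d2069808b.shift 1 1)] (by decide +kernel))
noncomputable def rh92804a1c675173ab : CRef := CRef.mk (Pat.mk 0x20000001a00000000 0x730000003e00000070 5 7) 0 0 (step_sound _ 34 [(rh3244c3cc8379b070.shift 0 1), (rh3fc3a7fb6866dcd4.shift 1 0)] (by decide +kernel))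
noncomputable def rh1a1d0fa3d69ccd3b : CRef := CRef.mk (Pat.mk 0x120000000b00000000000000080000000000000000 0x100000001e0000001b000000080000000c0000000c00000004 5 5) 0 0 (step_sound _ 163 [(rhb2a0b9ccfb5cecd5.shift 0 4), (rhfae2d0771380d1f3.shift 2 0)] (by decide +kernel))
noncomputable def rha58212e5762a9868 : CRef := CRef.mk (Pat.mk 0x120000000b00000000000000080000000000000000 0x100000001e0000001b00000008000000180000001800000010 5 5) 0 0 (step_sound _ 163 [(rh6144f90175f939ff.shift 3 0), (rhb2a0b9ccfb5cecd5.shift 0 4)] (by decide +kernel))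
noncomputable def rh0038940d621ebc25 : CRef := CRef.mk (Pat.mk 0x20000001600000000 0x730000003e00000070 5 7) 0 0 (step_sound _ 35 [(rh3244c3cc8379b070.shift 0 1), (rha93a5dd541ab8209.shift 1 0)] (by decide +kernel))
noncomputable def rh22733d1326b38478 : CRef := CRef.mk (Pat.mk 0x2000000020000000200000002 0x5000000070000000700000006000000060000000600000006 5 3) 0 0 (step_sound _ 129 [(rh1741680720c097b4.shift 0 1), (rh44f453b84f013105.shift 1 0), rh5abfc4c9d959be03] (by decide +kernel))
noncomputable def rh97b4a10702c7a25d : CRef := CRef.mk (Pat.mk 0x2000000020000000200000002000000000000000000000000 0x6000000060000000600000006000000070000000700000005 5 3) 0 0 (step_sound _ 65 [(rh6c59ce14113da07f.shift 1 0), rh6eff4158bb400f47, rhcab3157f7bdcba3e, (rhd29a1fb688eae70f.shift 1 1)] (by decide +kernel))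
noncomputable def rh3ba0785dfc34cc4e : CRef := CRef.mk (Pat.mk 0x20000000000000002000000020000000000000000 0x500000007000000070000000700000002000000060000000600000004 5 3) 0 0 (step_sound _ 129 [(rh32e32f03ae89b559.shift 0 1), (rh6c59ce14113da07f.shift 1 0), rh8ff3dde5b1c639e0, (rhc85cc95794737cf7.shift 0 2)] (by decide +kernel))
noncomputable def rh90f723a47a6af75d : CRef := CRef.mk (Pat.mk 0x2000000020000000200000002 0x5000000070000000700000006000000060000000600000006 5 3) 0 0 (step_sound _ 129 [(rh44f453b84f013105.shift 1 0), rh5abfc4c9d959be03, (rhc85cc95794737cf7.shift 0 1), (rhced6d86d2069808b.shift 1 0)] (by decide +kernel))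
noncomputable def rhf6eafb23adb1e367 : CRef := CRef.mk (Pat.mk 0x1200000002000000120000000a00000000 0xc0000001e00000033000000120000001a00000008 5 6) 0 0 (step_sound _ 130 [(rh2f68792b6b779e96.shift 1 1), rh6c3345e0eee0f759] (by decide +kernel))
noncomputable def rhe16036ff578a11df : CRef := CRef.mk (Pat.mk 0x2000000020000000200000001 0x1000000030000000300000002000000060000000700000005 5 3) 0 0 (step_sound _ 129 [rh5abfc4c9d959be03, rh79877ebd3ef475dd] (by decide +kernel))
noncomputable def rhe6ca4594ccbb85c7 : CRef := CRef.mk (Pat.mk 0x600000002000000020000000200000000 0x3000000030000000700000006000000060000000600000002 5 3) 0 0 (step_sound _ 98 [(rh25dfc596437a33fe.shift 0 1), (rh71222050f2c63a3a.shift 1 0)] (by decide +kernel))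
noncomputable def rhec3ef0639abee917 : CRef := CRef.mk (Pat.mk 0x16000000020000001800000000 0x10000000380000001e0000000b0000001800000018 5 6) 0 0 (step_sound _ 99 [(rh7e9422e1c9756daf.shift 1 0), (rheb0810cc63b001d8.shift 0 2)] (by decide +kernel))
noncomputable def rhfac0bdac2a955d95 : CRef := CRef.mk (Pat.mk 0xc0000001c000000150000000000000000 0xc0000001e000000170000003c0000001c 5 6) 0 0 (step_sound _ 65 [(rhca9569cc80abfe76.shift 0 2), (rhf64c13d9a0a60b1f.shift 1 0)] (by decide +kernel))
noncomputable def rhcd83fa72fbdc12c6 : CRef := CRef.mk (Pat.mk 0x60000000e0000000a0000000200000000 0x60000000f0000007a0000001e0000000c 5 7) 0 0 (step_sound _ 68 [(rhb739f4f82bb681b4.shift 0 2), (rhcf1a700743b70b86.shift 1 0)] (by decide +kernel))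
noncomputable def rh834ef1c974e4840e : CRef := CRef.mk (Pat.mk 0x100000000e000000000000000000000000 0x10000000300000001f000000380000000800000008 5 6) 0 0 (step_sound _ 100 [(rh33e738c4ed385b9f.shift 1 3), rh9483656c38360087] (by decide +kernel))
noncomputable def rh6609aaed429e3652 : CRef := CRef.mk (Pat.mk 0x1600000002 0x700000003e00000073 5 7) 0 0 (step_sound _ 35 [(rha93a5dd541ab8209.shift 1 0), rheb0810cc63b001d8] (by decide +kernel))
noncomputable def rh6c8cf47a0b8c0fba : CRef := CRef.mk (Pat.mk 0x200000002000000120000000600000000 0x2000000020000003a0000001f00000039 5 6) 0 0 (step_sound _ 32 [rh5d1ae49392eada61, rh932754581e0f4330] (by decide +kernel))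
noncomputable def rh636d9388fc8640b0 : CRef := CRef.mk (Pat.mk 0x20000000200000000000000020000000000000000 0x400000006000000060000000600000007000000070000000700000001 5 3) 0 0 (step_sound _ 97 [(rhc4ec57a3756c3a6c.shift 0 1), rhcab3157f7bdcba3e, (rhced6d86d2069808b.shift 1 1)] (by decide +kernel))
noncomputable def rh4ac3705679d4fc94 : CRef := CRef.mk (Pat.mk 0x20000000200000002000000000000000000000000 0x500000007000000070000000700000002000000060000000600000004 5 3) 0 0 (step_sound _ 65 [(rh373b7625e672cfd8.shift 0 1), (rh6c59ce14113da07f.shift 1 0), rh8ff3dde5b1c639e0, (rhc85cc95794737cf7.shift 0 2)] (by decide +kernel))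
noncomputable def rh1774ddf4135e1306 : CRef := CRef.mk (Pat.mk 0x1000000010000000100000000300000000 0x280000003800000038000000380000001f00000018 5 6) 0 0 (step_sound _ 36 [rh19a39396afa75eef, (rh373b7625e672cfd8.shift 3 0)] (by decide +kernel))
noncomputable def rh168fed7625321222 : CRef := CRef.mk (Pat.mk 0x20000000200000002000000000000000000000000 0x100000003000000030000000300000006000000070000000700000005 5 3) 0 0 (step_sound _ 65 [(rh5abfc4c9d959be03.shift 0 1), rh8cdd36b03d57a2f6, rh8ff3dde5b1c639e0, rhc4526fc8abf298b6] (by decide +kernel))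
noncomputable def rh835af3e7fbb5686c : CRef := CRef.mk (Pat.mk 0x100000001000000010000000030000000000000000 0x200000003000000030000000380000003f0000003800000020 5 6) 0 0 (step_sound _ 68 [(rh19a39396afa75eef.shift 0 1), (rh6c59ce14113da07f.shift 4 0)] (by decide +kernel))
noncomputable def rh895960a8d60b102d : CRef := CRef.mk (Pat.mk 0x20000000200000002000000000000000000000000 0x400000006000000060000000200000007000000070000000700000005 5 3) 0 0 (step_sound _ 65 [(rh20966da26a1c2ae8.shift 0 1), rh8cdd36b03d57a2f6, (rhced6d86d2069808b.shift 1 1)] (by decide +kernel))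
noncomputable def rha26f5900290597cb : CRef := CRef.mk (Pat.mk 0x1800000002000000000000000f 0x10000000780000001f000000180000000f 5 7) 0 0 (step_sound _ 35 [rh33e738c4ed385b9f, rh7c1d186295a6fc01] (by decide +kernel))
noncomputable def rh462fbc0203d832cd : CRef := CRef.mk (Pat.mk 0x1800000002000000000000000e00000010 0x780000001f000000080000001e00000030 5 7) 0 0 (step_sound _ 36 [rh9edb57ed9d6e0e3d, (rhe25b0a99195a5d59.shift 1 0)] (by decide +kernel))
noncomputable def rh04444f957c5dabcf : CRef := CRef.mk (Pat.mk 0x1800000000000000000000000f00000000 0x80000001800000018000000300000001f00000038 5 6) 0 0 (step_sound _ 4 [(rh1c8f869bea43f3c8.shift 1 0), rh96851dee118c1ba3] (by decide +kernel))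
noncomputable def rh2990aa3bed5dbd4e : CRef := CRef.mk (Pat.mk 0x1800000000000000000000000f00000000 0x80000001800000018000000380000001f00000030 5 6) 0 0 (step_sound _ 68 [(rh428265de8cd3cd2d.shift 0 1), (rhf8303b75bfa0f085.shift 1 0)] (by decide +kernel))
noncomputable def rhdacff0e0b97ba728 : CRef := CRef.mk (Pat.mk 0x1a00000002 0x700000003e00000073 5 7) 0 0 (step_sound _ 34 [(rh3fc3a7fb6866dcd4.shift 1 0), rheb0810cc63b001d8] (by decide +kernel))
noncomputable def rhdd474ad759fb06b7 : CRef := CRef.mk (Pat.mk 0x200000006000000020000000200000000 0x400000006000000060000000200000006000000070000000300000001 5 3) 0 0 (step_sound _ 32 [rh932754581e0f4330, (rhf387e76ea145b531.shift 0 1)] (by decide +kernel))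
noncomputable def rh5fff2289c216dcae : CRef := CRef.mk (Pat.mk 0xe0000000000000018000000000000000000000000 0x780000003f0000003800000018000000180000001000000010 5 7) 0 0 (step_sound _ 132 [rhb5037a44899b7647, (rhbc662e99f765b901.shift 0 4), (rhf8802b2664e41e7f.shift 1 2)] (by decide +kernel))
noncomputable def rh840822eea913cb57 : CRef := CRef.mk (Pat.mk 0x20000000300000002000000000000000000000000 0x300000003000000030000000300000003000000070000000700000005 5 3) 0 0 (step_sound _ 65 [(rh79bf920132cab629.shift 0 2), rh8cdd36b03d57a2f6, (rhe286c75f2739cce2.shift 0 1)] (by decide +kernel))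
noncomputable def rh3239134304b7c639 : CRef := CRef.mk (Pat.mk 0x60000000300000018000000030000000000000000 0x100000001e0000001b000000180000000f0000000800000008 5 5) 0 0 (step_sound _ 67 [(rh1c62b6193297d9e3.shift 0 2), rh91b04a9b8fefda9e] (by decide +kernel))
noncomputable def rh74b4806feb5ae38b : CRef := CRef.mk (Pat.mk 0x580000004c00000008000000480000004000000000 0x80000000d8000000cf00000048000000d8000000d000000080 5 8) 0 0 (step_sound _ 129 [(rh416dc1954feaa15a.shift 3 0), (rh53b3c253cb0c65f4.shift 0 4)] (by decide +kernel))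
noncomputable def rhbfbe0dbc7479c78f : CRef := CRef.mk (Pat.mk 0x20000000200000002000000000000000000000000 0x100000003000000030000000200000007000000070000000700000005 5 3) 0 0 (step_sound _ 65 [(rh5abfc4c9d959be03.shift 0 1), (rh771d065bdc85bf2d.shift 0 1), rh8cdd36b03d57a2f6] (by decide +kernel))
noncomputable def rh25a7b95659bfbe65 : CRef := CRef.mk (Pat.mk 0x20000000200000002000000000000000000000000 0x400000006000000060000000600000003000000070000000700000005 5 3) 0 0 (step_sound _ 65 [(rh20966da26a1c2ae8.shift 0 1), rh367118e0bf0473e0, (rh6c59ce14113da07f.shift 1 0), rh8cdd36b03d57a2f6] (by decide +kernel))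
noncomputable def rhf474df3b81236ff6 : CRef := CRef.mk (Pat.mk 0x20000000200000002000000000000000000000000 0x500000007000000070000000200000006000000070000000700000005 5 3) 0 0 (step_sound _ 65 [(rh5abfc4c9d959be03.shift 0 1), rh8cdd36b03d57a2f6, (rhc85cc95794737cf7.shift 0 2)] (by decide +kernel))
noncomputable def rhcee9b75cc742dcf4 : CRef := CRef.mk (Pat.mk 0x2000000030000000200000000000000000000000000000000 0x30000000300000003000000030000000300000007000000070000000700000004 5 3) 0 0 (step_sound _ 97 [(rh79bf920132cab629.shift 0 3), (rh8cdd36b03d57a2f6.shift 0 1), rhd1779d7de7f8215b] (by decide +kernel))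
noncomputable def rhab47dba932b096f0 : CRef := CRef.mk (Pat.mk 0xc0000001c000000150000000000000000 0xc0000001e000000170000003c0000001c 5 6) 0 0 (step_sound _ 34 [(rh71222050f2c63a3a.shift 2 0), rh82ea2bc4edd66ae8] (by decide +kernel))
noncomputable def rh3fc3b62c3315836b : CRef := CRef.mk (Pat.mk 0x20000000a0000000a0000000a0000000000000000 0x20000000a0000003b0000001e0000003400000010 5 6) 0 0 (step_sound _ 66 [(rh55afc6a59410cf00.shift 1 1), rhbd64b171dbe672bd] (by decide +kernel))
noncomputable def rh7e019d0985ec5853 : CRef := CRef.mk (Pat.mk 0x200000002000000120000000200000002 0x40000000600000007000000030000001e0000000600000002 5 5) 0 0 (step_sound _ 96 [(rh471792772a3ab610.shift 0 1), rh50fbb5868c909700] (by decide +kernel))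
noncomputable def rh0f15e236e035fb8f : CRef := CRef.mk (Pat.mk 0x20000000000000002000000030000000000000000 0x4000000060000000600000002000000070000000700000004 5 3) 0 0 (step_sound _ 129 [(rh6c59ce14113da07f.shift 1 0), (rh932754581e0f4330.shift 0 1)] (by decide +kernel))
noncomputable def rhc9301660fe3d40c1 : CRef := CRef.mk (Pat.mk 0x600000003000000100000000b0000000000000000 0x100000001e0000001b000000180000000f0000000800000008 5 5) 0 0 (step_sound _ 164 [rh14583be835be623e, (rh361cc68994bd8a63.shift 0 4)] (by decide +kernel))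
noncomputable def rh13222180952fb8f8 : CRef := CRef.mk (Pat.mk 0x600000003000000000000001000000010000000100000001000000000 0x1e0000001b000000180000001000000010000000180000001800000008 5 5) 0 0 (step_sound _ 35 [(rh577c490b0f74454b.shift 0 1), (rh932754581e0f4330.shift 3 0)] (by decide +kernel))
noncomputable def rh3340573b24f6b729 : CRef := CRef.mk (Pat.mk 0x200000002000000120000000a00000000 0x2000000020000003a0000001f00000039 5 6) 0 0 (step_sound _ 32 [rh0c9e3d603464171f, rh932754581e0f4330] (by decide +kernel))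
noncomputable def rh87f79538d95ea4d3 : CRef := CRef.mk (Pat.mk 0x3000000120000001000000010000000000000000000000000 0xb0000001e0000001800000010000000300000003000000020 5 6) 0 0 (step_sound _ 163 [(rh5419adcd928dba20.shift 0 5), (rhd1779d7de7f8215b.shift 3 0)] (by decide +kernel))
noncomputable def rhc5e89a5691ea14f2 : CRef := CRef.mk (Pat.mk 0x20000000200000002000000000000000000000000 0x500000007000000070000000300000002000000070000000700000005 5 3) 0 0 (step_sound _ 65 [(rh1741680720c097b4.shift 0 2), rh8cdd36b03d57a2f6, rhc4526fc8abf298b6] (by decide +kernel))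
noncomputable def rhab6a07afe24ba22d : CRef := CRef.mk (Pat.mk 0xb00000008000000000000000800000000 0x1c0000000f00000018000000180000001800000010 5 5) 0 0 (step_sound _ 130 [rhc93798971963b296, (rhe25b0a99195a5d59.shift 0 3)] (by decide +kernel))
noncomputable def rh0120d1fc2e76522b : CRef := CRef.mk (Pat.mk 0x20000000200000000000000020000000000000000 0x400000007000000070000000300000007000000070000000700000001 5 3) 0 0 (step_sound _ 97 [(rh20966da26a1c2ae8.shift 0 1), rhc4526fc8abf298b6, (rhc4ec57a3756c3a6c.shift 0 1), (rhced6d86d2069808b.shift 1 1)] (by decide +kernel))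
noncomputable def rh9956ca1857426ab3 : CRef := CRef.mk (Pat.mk 0x13000000120000001200000002 0x740000003f0000001a0000001200000012 5 7) 0 0 (step_sound _ 98 [(rh2f68792b6b779e96.shift 1 0), rhd067f37323654bdf] (by decide +kernel))
noncomputable def rhb980912dad07f5ce : CRef := CRef.mk (Pat.mk 0x10000000080000000800000008000000010000000000000000 0x100000001800000008000000080000001f0000001c00000010 5 5) 0 0 (step_sound _ 67 [(rhbaefcd01e0a8bca3.shift 3 2), rhbf404de0ef1b873d] (by decide +kernel))
noncomputable def rh6ccadc4073877750 : CRef := CRef.mk (Pat.mk 0x90000000900000009000000090000000100000000 0x100000001900000019000000090000001b0000000f00000004 5 5) 0 0 (step_sound _ 164 [(rh2f68792b6b779e96.shift 3 2), rha8001153a5878f26] (by decide +kernel))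
noncomputable def rh767ae4bed8f13527 : CRef := CRef.mk (Pat.mk 0x80000000800000009000000010000000000000000 0x140000001c0000001c0000001b0000001f0000001c00000014 5 5) 0 0 (step_sound _ 67 [(rh6c59ce14113da07f.shift 3 0), rhbf404de0ef1b873d, (rhc4526fc8abf298b6.shift 2 0), (rhee0e688672f67a87.shift 0 1)] (by decide +kernel))
noncomputable def rhd8b25ed50b8b8ca9 : CRef := CRef.mk (Pat.mk 0xf00000002000000020000000200000000 0x180000000f0000001e0000000e0000000600000004 5 5) 0 0 (step_sound _ 99 [rh1590578ce4f0e5df, (rhe25b0a99195a5d59.shift 0 3)] (by decide +kernel))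
noncomputable def rh79aa44d07f39f3b5 : CRef := CRef.mk (Pat.mk 0x130000001000000010000000020000000000000000 0x280000003f00000038000000100000003e0000003800000020 5 6) 0 0 (step_sound _ 68 [(rh6c59ce14113da07f.shift 4 0), (rhbf404de0ef1b873d.shift 1 0), (rhecaed3a52e40dbb9.shift 0 2)] (by decide +kernel))
noncomputable def rh4e17dff0dc8287a5 : CRef := CRef.mk (Pat.mk 0xf00000008000000080000000100000000 0x180000000f000000080000001c0000001f00000004 5 5) 0 0 (step_sound _ 163 [(rh33e738c4ed385b9f.shift 0 4), rh40559a4eeccbc478] (by decide +kernel))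
noncomputable def rh0515df9305f7b8bc : CRef := CRef.mk (Pat.mk 0x800000008000000080000000100000000 0x140000001c0000001c000000080000001c0000001c0000001f00000004 5 5) 0 0 (step_sound _ 163 [(rh1741680720c097b4.shift 2 2), rh40559a4eeccbc478, (rhc4ec57a3756c3a6c.shift 2 1)] (by decide +kernel))
noncomputable def rhff509b783c9e6633 : CRef := CRef.mk (Pat.mk 0x200000002000000060000000300000000 0x40000000600000006000000070000003f0000001c 5 6) 0 0 (step_sound _ 34 [(rh55afc6a59410cf00.shift 1 0), rhed03980a48e70db0] (by decide +kernel))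
noncomputable def rh193a45b58d1e033e : CRef := CRef.mk (Pat.mk 0xb0000000800000008000000000000000000000000 0x40000000f0000001c00000008000000180000001800000010 5 5) 0 0 (step_sound _ 162 [(rhd1779d7de7f8215b.shift 2 0), (rhe25b0a99195a5d59.shift 0 4)] (by decide +kernel))
noncomputable def rh3b9610df1e219827 : CRef := CRef.mk (Pat.mk 0x300000003000000020000000200000000 0x200000002000000020000000300000007000000070000000700000001 5 3) 0 0 (step_sound _ 32 [(rh2019a3c656cdbc6f.shift 0 1), rh932754581e0f4330] (by decide +kernel))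
noncomputable def rhc931f0ec84961597 : CRef := CRef.mk (Pat.mk 0x2000000120000001200000012 0x1d0000001f0000001a0000001200000012 5 5) 0 0 (step_sound _ 96 [rh50fbb5868c909700, rha119c206b24c7836] (by decide +kernel))
noncomputable def rh6bc21048280b85ef : CRef := CRef.mk (Pat.mk 0x100000000e000000000000001800000002 0x300000001e00000008000000780000001f 5 7) 0 0 (step_sound _ 100 [(rh33e738c4ed385b9f.shift 1 3), rh8a88ee17ca308b03] (by decide +kernel))
noncomputable def rh3d2eea24107e386a : CRef := CRef.mk (Pat.mk 0xe00000010000000180000000200000000 0x80000001e00000030000000380000001f00000008 5 6) 0 0 (step_sound _ 132 [rh11d8e999cd3bad99, (rhe25b0a99195a5d59.shift 1 3)] (by decide +kernel))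
noncomputable def rh7ec1d765b790e642 : CRef := CRef.mk (Pat.mk 0x7000000000000001e00000000 0x180000001f000000380000001e00000030 5 6) 0 0 (step_sound _ 68 [rh2560c599d93e9007, (rh33e738c4ed385b9f.shift 1 1)] (by decide +kernel))
noncomputable def rh494e4785cebceccf : CRef := CRef.mk (Pat.mk 0x10000000180000001000000000000000070000000000000000 0x800000018000000180000001800000018000000380000003f0000003800000020 5 6) 0 0 (step_sound _ 100 [(rh8cdd36b03d57a2f6.shift 3 1), (rhbbbfdd1dcef7d67e.shift 0 1), (rhd1779d7de7f8215b.shift 3 0), (rhe15ea1465ee97e07.shift 0 2)] (by decide +kernel))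
noncomputable def rh68a777751bfeafdf : CRef := CRef.mk (Pat.mk 0x2000000020000000300000000 0x5000000070000000700000002000000020000000300000001 5 3) 0 0 (step_sound _ 129 [(rh1741680720c097b4.shift 0 1), rh932754581e0f4330] (by decide +kernel))
noncomputable def rh34290afd4148b42f : CRef := CRef.mk (Pat.mk 0x20000000e00000000 0x7e0000003f00000078 5 7) 0 0 (step_sound _ 36 [rh17f08a0ad30ba6e8, (rh2aac33c566332a8c.shift 1 0), (rh3fc3a7fb6866dcd4.shift 1 0), (rh790acd67f4fffd04.shift 1 1)] (by decide +kernel))
noncomputable def rh1d11e28e2554764f : CRef := CRef.mk (Pat.mk 0xf00000000000000080000000000000000 0x1c0000000f00000018000000180000001800000010 5 5) 0 0 (step_sound _ 99 [rh09ad8708146b6e1b, (rhe25b0a99195a5d59.shift 0 3)] (by decide +kernel))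
noncomputable def rh35b4acdc227f84f5 : CRef := CRef.mk (Pat.mk 0xe00000008000000080000000400000000 0x10000000180000000f00000008000000180000001c00000014 5 5) 0 0 (step_sound _ 35 [rh4d828c7a40cc68ef, (rh932754581e0f4330.shift 2 0)] (by decide +kernel))
noncomputable def rhb49d77442ec6bff9 : CRef := CRef.mk (Pat.mk 0x3000000020000000e000000180000000800000000 0x1b0000007e0000000e000000780000001800000010 5 7) 0 0 (step_sound _ 69 [rhb313b5e181806e33, (rhf48373e13d2bc128.shift 2 2)] (by decide +kernel))
noncomputable def rh52e0055e0df1b087 : CRef := CRef.mk (Pat.mk 0x1e0000000200000002000000020000000100000000 0x700000003e0000007200000002000000020000000300000001 5 7) 0 0 (step_sound _ 33 [(rh3fc3a7fb6866dcd4.shift 1 4), rh932754581e0f4330] (by decide +kernel))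
noncomputable def rhdf6e05ec907ec232 : CRef := CRef.mk (Pat.mk 0xe00000010000000000000000600000003 0x380000003e00000030000000100000001e00000003 5 6) 0 0 (step_sound _ 132 [rh29135f63537df41b, (rhe25b0a99195a5d59.shift 1 3)] (by decide +kernel))
noncomputable def rh2e55065c211d34ed : CRef := CRef.mk (Pat.mk 0xe000000100000000000000000 0x8000000380000001f000000300000001000000010 5 6) 0 0 (step_sound _ 100 [rh65d03e622566ecd5, (rhe25b0a99195a5d59.shift 1 2)] (by decide +kernel))
noncomputable def rhd9c0e8c590af7fe9 : CRef := CRef.mk (Pat.mk 0xe00000010000000000000000600000003 0x8000000080000000f00000018000000180000001e00000013 5 5) 0 0 (step_sound _ 99 [(rhb739f4f82bb681b4.shift 0 3), rhe8eb75f4f70b9399] (by decide +kernel))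
noncomputable def rh8ab1f3ada911ff43 : CRef := CRef.mk (Pat.mk 0x200000002000000020000000e00000000 0x2000000020000003a0000001f00000039 5 6) 0 0 (step_sound _ 32 [rh932754581e0f4330, rha93a5dd541ab8209] (by decide +kernel))
noncomputable def rh6a9b2a315b8d3f69 : CRef := CRef.mk (Pat.mk 0x200000002000000020000001c00000000 0x200000002000000f20000007f000000f3 5 8) 0 0 (step_sound _ 37 [rh091b675053b692c6, (rh3fc3a7fb6866dcd4.shift 2 0), rhf9c2f95dc5094cc4] (by decide +kernel))
noncomputable def rh0bc4112634237754 : CRef := CRef.mk (Pat.mk 0xf0000000a000000020000001c00000000 0x180000000f0000000a0000003a0000001f00000003 5 6) 0 0 (step_sound _ 163 [(rh33e738c4ed385b9f.shift 0 4), rh8673d7dfc83de2e4] (by decide +kernel))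
noncomputable def rhdf1b015bbe4d6607 : CRef := CRef.mk (Pat.mk 0xf00000000000000000000000c00000000 0x180000000f00000018000000180000001c00000014 5 5) 0 0 (step_sound _ 99 [rh22dcbc5fa97317d3, (rhe25b0a99195a5d59.shift 0 3)] (by decide +kernel))
noncomputable def rh24555c6ea7f25f6e : CRef := CRef.mk (Pat.mk 0x4000000040000000400000005000000040000000000000000 0x40000000c0000003e000000070000000e0000000c00000008 5 6) 0 0 (step_sound _ 34 [(rh8e36075d748a2b6b.shift 0 1), (rhd29a1fb688eae70f.shift 2 0)] (by decide +kernel))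
noncomputable def rhd384bfdbad88efb0 : CRef := CRef.mk (Pat.mk 0x3800000010 0x70000007e000000ff 5 8) 0 0 (step_sound _ 34 [(rh06db8ceda6269a47.shift 1 0), rh592c7139d2c44767, (rha03f6e28ea70fc7d.shift 1 0)] (by decide +kernel))
noncomputable def rh947c596ba3b456b8 : CRef := CRef.mk (Pat.mk 0x1e00000000 0xf70000007e000000e0 5 8) 0 0 (step_sound _ 37 [(rh3fc3a7fb6866dcd4.shift 2 0), (rh9890f9d77740bbed.shift 1 1), (rhd5eb272e07a4e288.shift 0 1)] (by decide +kernel))
noncomputable def rh77737083ccd34321 : CRef := CRef.mk (Pat.mk 0x80000001a0000001e0000000400000000 0x160000001f0000001a0000001e0000000c00000008 5 5) 0 0 (step_sound _ 129 [(rh2145e1d24b96a57e.shift 1 1), rhbe9d8361593f081c] (by decide +kernel))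
noncomputable def rh65dc9ac2eea86f24 : CRef := CRef.mk (Pat.mk 0x4000000000000000f0000000000000000 0xc0000000c000000180000000f0000001c00000004 5 5) 0 0 (step_sound _ 35 [rhb9cf176211527f7d, (rhe25b0a99195a5d59.shift 0 1)] (by decide +kernel))
noncomputable def rh31e351ef79ee1ce8 : CRef := CRef.mk (Pat.mk 0x1f00000002 0x1c0000007f000000e6 5 8) 0 0 (step_sound _ 37 [rh2d0ca3d96697dca1, (rh80fcd6d0a18cb2dd.shift 1 0)] (by decide +kernel))
noncomputable def rhd7405c554617588f : CRef := CRef.mk (Pat.mk 0x1f000000020000000000000000 0x400000004000000ec0000007f0000001e0000000800000008 5 8) 0 0 (step_sound _ 130 [rh471ec7ad2e1ad0a3, rh953c1eac1a354c1a, (rhf69eab89e5fbfa83.shift 1 2)] (by decide +kernel))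
noncomputable def rhb8de41a89a9d4634 : CRef := CRef.mk (Pat.mk 0xf00000002 0x700000003f0000003e 5 7) 0 0 (step_sound _ 4 [(rh20553f44f3de3897.shift 1 0), rh96851dee118c1ba3] (by decide +kernel))
noncomputable def rh763cf08b0e5d4187 : CRef := CRef.mk (Pat.mk 0x80000000c000000090000000000000000 0xc0000000c0000000c0000000f0000001c0000001c 5 5) 0 0 (step_sound _ 35 [rhb23a1b9289967029, (rhe286c75f2739cce2.shift 2 0)] (by decide +kernel))
noncomputable def rh4428ed8f465efe4f : CRef := CRef.mk (Pat.mk 0x300000001400000000000000100000000000000000 0xf0000007e0000003600000010000000180000001800000008 5 7) 0 0 (step_sound _ 163 [(rh1be51d055abc85b1.shift 1 2), (rh547253f4ee65fcad.shift 3 0), (rhb2de7aa0384527c8.shift 0 4)] (by decide +kernel))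
noncomputable def rh83ea62faa312801a : CRef := CRef.mk (Pat.mk 0xf00000006000000100000001000000000 0x300000003f0000001e000000300000003000000020 5 6) 0 0 (step_sound _ 100 [(rh2fe78cc5ca4405d8.shift 0 3), (rhdab812c509ef6ac1.shift 1 0)] (by decide +kernel))
noncomputable def rhbef1d0ab64eae675 : CRef := CRef.mk (Pat.mk 0x18000000180000003000000020 0x2000000020000000e0000000ff0000003f0000003000000020 5 8) 0 0 (step_sound _ 101 [(rh1a73e645d9e9563b.shift 2 0), (rh22f45baa268999d1.shift 0 1), (rh3694ccc47a1810b0.shift 3 0), (rh4dc133ee0ba1420a.shift 1 2)] (by decide +kernel))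
noncomputable def rh8263c8ed2043969d : CRef := CRef.mk (Pat.mk 0x200000002000000020000000a00000002 0x4000000060000000600000002000000070000001e00000003 5 5) 0 0 (step_sound _ 162 [rh23da68e164a4473d, (rhbaefcd01e0a8bca3.shift 1 1)] (by decide +kernel))
noncomputable def rh3fbde0f9cbd67029 : CRef := CRef.mk (Pat.mk 0x100000002000000020000001a0000000800000000 0x10000001b0000001e0000001f0000007a0000001800000010 5 7) 0 0 (step_sound _ 99 [(rh9ebd639649ea671c.shift 0 2), rhb218dd012aa67386] (by decide +kernel))
noncomputable def rhbe0a810db62bd328 : CRef := CRef.mk (Pat.mk 0x200000002000000020000000a00000002 0x1000000030000000300000002000000070000001e00000003 5 5) 0 0 (step_sound _ 160 [rh525ceaec192631ff, (rhffd04209dc8ea796.shift 0 1)] (by decide +kernel))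
noncomputable def rhdbb15021fb420664 : CRef := CRef.mk (Pat.mk 0xc000000060000000c00000008 0x2000000330000003e0000000e0000000c00000008 5 6) 0 0 (step_sound _ 100 [rh05bf8eb0369fa8bf, (rh18965a982d73c794.shift 1 2)] (by decide +kernel))
noncomputable def rheb6e87d1ac4ed29d : CRef := CRef.mk (Pat.mk 0xe0000000c00000008 0x1c0000001c0000001c0000000f0000000c00000008 5 5) 0 0 (step_sound _ 99 [(rh1741680720c097b4.shift 2 0), (rh7f9f3607ee25a93b.shift 2 0), rhdab32775f5c78fcf] (by decide +kernel))
noncomputable def rhded5813b939f1319 : CRef := CRef.mk (Pat.mk 0x3800000020 0x770000003e00000060 5 7) 0 0 (step_sound _ 34 [(rh61325f73ebf98108.shift 0 1), (rhe25b0a99195a5d59.shift 2 0)] (by decide +kernel))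
noncomputable def rhc1e81736b21431ce : CRef := CRef.mk (Pat.mk 0x80000002800000028 0xf0000007e000001ef 5 9) 0 0 (step_sound _ 36 [rh6c6cc8f59caab3aa, (rh8ee80cc30e93a344.shift 2 0), (rhd9106766b9ff53c0.shift 2 0)] (by decide +kernel))
noncomputable def rhe192f7cf022cd93c : CRef := CRef.mk (Pat.mk 0x8000000280000000800000000 0x140000001c0000001c000000080000007c0000000f00000004 5 7) 0 0 (step_sound _ 131 [(rh20966da26a1c2ae8.shift 2 0), (rh968ba7b0df7e4096.shift 2 0), (rhc85cc95794737cf7.shift 2 1), rhc8fd50c44a2112a0] (by decide +kernel))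
noncomputable def rha7872d55da7de645 : CRef := CRef.mk (Pat.mk 0xe00000014000000100000001000000000 0x300000007f0000001e000000300000003000000020 5 7) 0 0 (step_sound _ 99 [(rh92b68440d0c2730d.shift 1 0), (rhb739f4f82bb681b4.shift 0 3)] (by decide +kernel))
noncomputable def rhf765dfa5923e588c : CRef := CRef.mk (Pat.mk 0x200000002000000020000000a00000008 0x4000000060000000600000002000000070000000f00000018 5 5) 0 0 (step_sound _ 162 [rha034a068234f65b1, (rhbaefcd01e0a8bca3.shift 1 1)] (by decide +kernel))
noncomputable def rhe64073fd19d2ffee : CRef := CRef.mk (Pat.mk 0x200000002000000020000000a00000008 0x1000000030000000300000002000000070000000f00000018 5 5) 0 0 (step_sound _ 160 [rhb414a72a663b3c56, (rhffd04209dc8ea796.shift 0 1)] (by decide +kernel))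
noncomputable def rhf13f8bf34654c2fd : CRef := CRef.mk (Pat.mk 0x18000000140000001000000014 0x270000003e000000160000001400000014 5 6) 0 0 (step_sound _ 101 [(rh2f68792b6b779e96.shift 4 0), rhee37d230d297e9fd] (by decide +kernel))
noncomputable def rh0d610cc74cba3ac6 : CRef := CRef.mk (Pat.mk 0x20000000300000002000000000000000000000000 0x300000003000000030000000300000003000000070000000700000005 5 3) 0 0 (step_sound _ 65 [rh6eff4158bb400f47, (rh79bf920132cab629.shift 0 2), (rhe286c75f2739cce2.shift 0 1)] (by decide +kernel))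
noncomputable def rh44eb76741580de7e : CRef := CRef.mk (Pat.mk 0x40000003000000004 0xff0000007c00000006 5 8) 0 0 (step_sound _ 35 [(rh2e073d59c97b9182.shift 1 0), (rh8c12fdbbddc1e7ab.shift 0 1), (rhcb763b151dc90fdc.shift 1 0)] (by decide +kernel))
noncomputable def rh66b644e81d34550c : CRef := CRef.mk (Pat.mk 0x40000003000000004 0x1f0000007c000000e6 5 8) 0 0 (step_sound _ 35 [(rh048783a900402b25.shift 1 0), (rh8c12fdbbddc1e7ab.shift 0 1), (rhcb763b151dc90fdc.shift 1 0)] (by decide +kernel))
noncomputable def rh8d9f0dd292eb3251 : CRef := CRef.mk (Pat.mk 0x2000000020000000040000003800000010 0x280000007c0000001f0000003800000010 5 7) 0 0 (step_sound _ 67 [rh376b08d695d5e724, (rha7e5d40962400740.shift 2 0), (rhc02b3aee7ab87ee1.shift 0 1)] (by decide +kernel))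
noncomputable def rh91fe432aab4bfe4d : CRef := CRef.mk (Pat.mk 0x10000000160000001c00000018 0x20000000f0000001e000000360000001c00000018 5 6) 0 0 (step_sound _ 98 [rh063ad6adbdce28ce, (rh2145e1d24b96a57e.shift 2 0)] (by decide +kernel))
noncomputable def rhf125d87754eb2c4f : CRef := CRef.mk (Pat.mk 0x1000000010000000060000000c00000008 0x2000000370000001e0000000e0000000c00000008 5 6) 0 0 (step_sound _ 99 [(rh04253f50b6dd0619.shift 3 0), rh610d25f6b6ef2ba3] (by decide +kernel))
noncomputable def rh1c27d27764d9265b : CRef := CRef.mk (Pat.mk 0x14000000060000000c00000008 0x2000000330000003e0000000e0000000c00000008 5 6) 0 0 (step_sound _ 99 [rh05bf8eb0369fa8bf, (rh18965a982d73c794.shift 1 2)] (by decide +kernel))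
noncomputable def rh69f4dff798bbef93 : CRef := CRef.mk (Pat.mk 0xa000000030000000e0000000400000000 0x100000001e0000000f0000000e0000003c00000010 5 6) 0 0 (step_sound _ 132 [(rhb2a0b9ccfb5cecd5.shift 0 3), rhddc546c4ff6e8fee] (by decide +kernel))
noncomputable def rh65fe875887d278e9 : CRef := CRef.mk (Pat.mk 0x400000004000000070000000200000000 0x80000000c0000003e000000070000001e0000000c 5 6) 0 0 (step_sound _ 34 [rh42afa1af9fffa0e1, rhdee30487d27d3288] (by decide +kernel))
noncomputable def rh2d61ad9262a30000 : CRef := CRef.mk (Pat.mk 0x90000000c0000000c00000000 0x1c0000001c0000000f0000000c0000000c00000008 5 5) 0 0 (step_sound _ 131 [rh36eea9b8df2ca677, (rh5c5e593799055d58.shift 2 1)] (by decide +kernel))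
noncomputable def rhab84cf9e95b83dc4 : CRef := CRef.mk (Pat.mk 0x120000001c0000001800000000 0xc0000000e0000007f0000001c0000001800000010 5 7) 0 0 (step_sound _ 99 [(rh35adbd9f2ff9958a.shift 0 1), (rh3e595262c1b737ad.shift 3 0)] (by decide +kernel))
noncomputable def rh751243aba3a4638a : CRef := CRef.mk (Pat.mk 0x8000000030000000e00000004 0x40000000e0000001e000000070000000e0000000c 5 5) 0 0 (step_sound _ 97 [(rh2145e1d24b96a57e.shift 1 0), rhbc5a29ce023d1fc7] (by decide +kernel))
noncomputable def rh98d78962294e869a : CRef := CRef.mk (Pat.mk 0xf000000040000000c0000000400000000 0x700000003f0000007c0000000c0000000c00000008 5 7) 0 0 (step_sound _ 132 [(rh4a3deee95fc10b60.shift 1 0), (rh4ad5fc38f1b69f65.shift 0 3), (rha93a5dd541ab8209.shift 1 3)] (by decide +kernel))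
noncomputable def rh260b6e19684bf479 : CRef := CRef.mk (Pat.mk 0x280000003800000030 0x60000000600000003f0000003c00000030 5 7) 0 0 (step_sound _ 101 [(rh5c5e593799055d58.shift 4 0), rhd5fce4f469a53294] (by decide +kernel))
noncomputable def rhcdb6af858653d20d : CRef := CRef.mk (Pat.mk 0x200000002000000020000000600000002 0x400000006000000060000000300000003000000070000000600000002 5 3) 0 0 (step_sound _ 161 [rh8c2882964e1b5136, (rhd3458b32566d63f7.shift 1 1)] (by decide +kernel))
noncomputable def rhd5193fc6940023d6 : CRef := CRef.mk (Pat.mk 0x60000001e0000000a 0x14000000340000003e0000001f0000000a 5 6) 0 0 (step_sound _ 98 [(rh5c5e593799055d58.shift 1 0), rhc4a4df455b95b496] (by decide +kernel))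
noncomputable def rh45c36539d1346e33 : CRef := CRef.mk (Pat.mk 0x180000001c0000001e00000004 0x30000000320000001f0000001e0000001e00000004 5 6) 0 0 (step_sound _ 132 [(rh5c5e593799055d58.shift 3 1), rhf6c18e63454fa2cd] (by decide +kernel))
noncomputable def rha58ddf8813c4b875 : CRef := CRef.mk (Pat.mk 0x7800000018 0xe70000007f00000018 5 8) 0 0 (step_sound _ 70 [(rh33e738c4ed385b9f.shift 3 1), rhd20ed55e5abec856] (by decide +kernel))
noncomputable def rh1c99d91256a542ce : CRef := CRef.mk (Pat.mk 0x100000007c00000010 0x8000000080000001c0000007f00000017 5 7) 0 0 (step_sound _ 67 [(rh3244c3cc8379b070.shift 2 1), rh729a1e81c63887e1] (by decide +kernel))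
noncomputable def rhccec183971aead5f : CRef := CRef.mk (Pat.mk 0xe00000004000000340000001400000000 0x100000001f0000003e000000f40000003600000022 5 8) 0 0 (step_sound _ 33 [(rh932754581e0f4330.shift 1 0), rhc6a82a08e2f3c827] (by decide +kernel))
noncomputable def rh123a22857a929cd9 : CRef := CRef.mk (Pat.mk 0x100000002000000060000000200000018 0x30000000300000002000000060000001f00000078 5 7) 0 0 (step_sound _ 129 [(rh50fbb5868c909700.shift 0 1), rh7eefefe30c484d3e] (by decide +kernel))
noncomputable def rhf18b059d0293de8d : CRef := CRef.mk (Pat.mk 0x800000028000000600000002000000000 0x300000003c0000003f000000600000006000000040 5 7) 0 0 (step_sound _ 133 [(rh7a2645c41de6bb59.shift 0 1), (rhd4b4beefcd67f51e.shift 5 0)] (by decide +kernel))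
noncomputable def rha77077d3387739d7 : CRef := CRef.mk (Pat.mk 0x20000000a0000001a0000000b00000000 0xe0000000f0000001e0000001b0000001b00000010 5 5) 0 0 (step_sound _ 130 [(rh2f68792b6b779e96.shift 1 1), rh45f8f920635501cc] (by decide +kernel))
noncomputable def rh352eccb41ea76a43 : CRef := CRef.mk (Pat.mk 0xc0000000a0000000a00000018 0x130000001e0000000b0000000f00000019 5 5) 0 0 (step_sound _ 100 [rh2af3b6b7d79f2d4f, (rh2f68792b6b779e96.shift 3 0)] (by decide +kernel))
noncomputable def rhcf6df40c947ae6b5 : CRef := CRef.mk (Pat.mk 0x3800000000000000c00000004000000000 0x470000007e000000e7000000c0000000c000000080 5 8) 0 0 (step_sound _ 130 [(rh4aaae041d8b3d1a3.shift 2 0), (rh775ca1963e850b80.shift 0 3)] (by decide +kernel))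
noncomputable def rh9326d3a429a5f883 : CRef := CRef.mk (Pat.mk 0x2000000020000000200000002000000000000000200000000 0x1000000030000000300000002000000030000000300000003000000030000000300000001 5 2) 0 0 (step_sound _ 128 [(rh03dfdf12d5937476.shift 0 2), rh6bd371ebe506613d, (rhc9b7a010d6829066.shift 0 3)] (by decide +kernel))
noncomputable def rh60d8335b5918d2b0 : CRef := CRef.mk (Pat.mk 0x80000000800000008000000080000000000000008 0x800000018000000780000001f0000000c0000000c0000000800000008 5 7) 0 0 (step_sound _ 164 [(rh2f68792b6b779e96.shift 3 2), rhd383452b828ec997] (by decide +kernel))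
noncomputable def rh2e803d2a68b77fc5 : CRef := CRef.mk (Pat.mk 0x20000000200000002000000000000000200000000 0x500000007000000070000000200000002000000030000000300000001 5 3) 0 0 (step_sound _ 65 [(rh1741680720c097b4.shift 0 2), rh7928877f9bf74a91] (by decide +kernel))
noncomputable def rh2320f057f73a4cfc : CRef := CRef.mk (Pat.mk 0x20000000200000002000000000000000200000000 0x50000000700000007000000060000000300000003000000030000000300000001 5 3) 0 0 (step_sound _ 193 [(rh1741680720c097b4.shift 0 3), (rh20966da26a1c2ae8.shift 0 2), (rh771d065bdc85bf2d.shift 0 2), rh9e9bd7b29e46297f] (by decide +kernel))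
noncomputable def rh61a1a2beadbe7714 : CRef := CRef.mk (Pat.mk 0x38000000100000000000000008 0x70000007e0000007f0000000800000008 5 7) 0 0 (step_sound _ 98 [(rh12a4aa43a438d841.shift 1 0), (rh775ca1963e850b80.shift 0 2), (rha03f6e28ea70fc7d.shift 1 2)] (by decide +kernel))
noncomputable def rhb6173807e51fd66e : CRef := CRef.mk (Pat.mk 0x800000004000000040000000400000000 0xa0000000f0000003c000000040000000400000004 5 6) 0 0 (step_sound _ 130 [(rh2f68792b6b779e96.shift 2 1), rhecf4cf49642b1cf9] (by decide +kernel))
noncomputable def rha0862759400c3387 : CRef := CRef.mk (Pat.mk 0x3800000010 0x7000000fe000000ff 5 8) 0 0 (step_sound _ 34 [(rh300eedc557b86950.shift 2 0), rh592c7139d2c44767, (rha03f6e28ea70fc7d.shift 1 0)] (by decide +kernel))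
noncomputable def rh0aa659a4b10c9a8a : CRef := CRef.mk (Pat.mk 0x40000000200000002000000020000000200000018 0x4000000060000000200000002000000060000001f00000078 5 7) 0 0 (step_sound _ 161 [(rh2f68792b6b779e96.shift 1 2), rh80b1d53ec68947d7] (by decide +kernel))
noncomputable def rh5f3c1ec18308a201 : CRef := CRef.mk (Pat.mk 0x200000002000000020000000200000018 0x500000007000000070000000200000002000000060000001f00000078 5 7) 0 0 (step_sound _ 161 [(rh1741680720c097b4.shift 0 2), rh80b1d53ec68947d7] (by decide +kernel))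
noncomputable def rh1abbfc1b610408c3 : CRef := CRef.mk (Pat.mk 0x800000008000000080000000800000060 0x80000000800000008000000380000003f00000064 5 7) 0 0 (step_sound _ 34 [rh5957d29974596bf6, (rh932754581e0f4330.shift 2 0)] (by decide +kernel))
noncomputable def rhba719ba7a8fe514a : CRef := CRef.mk (Pat.mk 0xf000000030000000000000000 0x40000001c0000000f0000001f0000001800000018 5 5) 0 0 (step_sound _ 67 [rh9dcda93cb40518c6, (rhe25b0a99195a5d59.shift 0 2)] (by decide +kernel))
noncomputable def rh85707b31bbc3ae61 : CRef := CRef.mk (Pat.mk 0x1000000038000000000000000800000008 0x770000003e000000070000000c00000008 5 7) 0 0 (step_sound _ 98 [(rh04395309fba550d6.shift 1 0), (rh775ca1963e850b80.shift 0 2), (rhec46bd5500c722c9.shift 1 3)] (by decide +kernel))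
noncomputable def rh5defc817e8b095fa : CRef := CRef.mk (Pat.mk 0x20000001e00000000000000040000000000000000 0x60000001e00000003000000070000000700000001 5 5) 0 0 (step_sound _ 97 [rh78aec13dcd8fd007, (rheb0810cc63b001d8.shift 0 3)] (by decide +kernel))
noncomputable def rhfbfbbdfd65bc3555 : CRef := CRef.mk (Pat.mk 0x10000000380000000800000008 0x4000000770000003e0000000f00000008 5 7) 0 0 (step_sound _ 66 [(rh775ca1963e850b80.shift 0 1), (rhe4f9133a81c1dbc5.shift 1 0), (rhec46bd5500c722c9.shift 1 2)] (by decide +kernel))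
noncomputable def rh9c16b34c18d1aaff : CRef := CRef.mk (Pat.mk 0x1a0000000600000002 0x10000000300000003000000030000001e0000000600000006 5 5) 0 0 (step_sound _ 97 [rh0fa4a62bba50784f, rh3da62da861143b9a, rh5a1cd893d8c4f41a, rh5e05da03898e7023] (by decide +kernel))
noncomputable def rh6ea466dffd500dc0 : CRef := CRef.mk (Pat.mk 0x400000016000000300000001600000000 0x160000001e00000037000000370000003700000021 5 6) 0 0 (step_sound _ 129 [rh1191e4abae140782, rhbcf1b1e66d4bd72d] (by decide +kernel))
noncomputable def rhe57a2f0072bd44af : CRef := CRef.mk (Pat.mk 0x1800000010000000100000001000000000 0x200000007c0000001f000000100000001000000010 5 7) 0 0 (step_sound _ 99 [(rh7a1afe9117e9e650.shift 0 1), (rh7b1f1fb55310c477.shift 3 0)] (by decide +kernel))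
noncomputable def rh39b326e89ae96813 : CRef := CRef.mk (Pat.mk 0x20000000600000002000000000000000000000000 0x600000006000000060000000600000006000000070000000700000005 5 3) 0 0 (step_sound _ 65 [(rh7ab09f375cd5d482.shift 1 2), rh8cdd36b03d57a2f6, (rha707fb719e87fe6e.shift 1 1)] (by decide +kernel))
noncomputable def rh4d329a3c71e2b19c : CRef := CRef.mk (Pat.mk 0x8000000180000003800000000 0x800000008000000080000001f0000003f00000004 5 6) 0 0 (step_sound _ 131 [(rh2145e1d24b96a57e.shift 3 1), rhfd68868dd6d945e5] (by decide +kernel))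
noncomputable def rh425de0a4611acc8e : CRef := CRef.mk (Pat.mk 0x18000000080000001c00000018 0x640000007c0000001f0000007c00000018 5 7) 0 0 (step_sound _ 98 [(rh50fbb5868c909700.shift 2 0), rhe4f8474fe4cda69b] (by decide +kernel))
noncomputable def rh55ac222c28cc04f7 : CRef := CRef.mk (Pat.mk 0x1c000000c0 0x70000007e000000c7 5 8) 0 0 (step_sound _ 37 [rh592c7139d2c44767, (rhd6e447e81774439e.shift 3 0)] (by decide +kernel))
noncomputable def rh3f38de6b95fe6c30 : CRef := CRef.mk (Pat.mk 0x180000001e0000000000000000 0x3000000030000001f0000001e0000000700000004 5 5) 0 0 (step_sound _ 97 [(rh3244c3cc8379b070.shift 0 2), rh56b1b4197d27d114] (by decide +kernel))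
noncomputable def rhc5de389ce0cd865a : CRef := CRef.mk (Pat.mk 0x18000000180000000000000010 0x80000000800000008000000380000001f0000001400000010 5 6) 0 0 (step_sound _ 131 [(rh9e07f76261b05888.shift 3 0), (rhe2d7daae1577d340.shift 0 1)] (by decide +kernel))
noncomputable def rh82f6cf61a959c131 : CRef := CRef.mk (Pat.mk 0x80000001e0000000000000004 0x80000000a0000000b0000001e0000000f00000004 5 5) 0 0 (step_sound _ 97 [(rh3244c3cc8379b070.shift 0 2), rhc494ba6f81e020dc] (by decide +kernel))
noncomputable def rh157256972d1e8796 : CRef := CRef.mk (Pat.mk 0x1e00000008000000080000000800000000 0x30000001e0000000f0000000e0000000c00000004 5 5) 0 0 (step_sound _ 97 [rh17933e796bc30d32, (rheb0810cc63b001d8.shift 0 3)] (by decide +kernel))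
noncomputable def rhcfeedd951c119579 : CRef := CRef.mk (Pat.mk 0x1e000000000000000000000004 0x30000001e000000370000000600000004 5 6) 0 0 (step_sound _ 68 [rh25efc5d5a6c022ff, (rhe25b0a99195a5d59.shift 1 2)] (by decide +kernel))
noncomputable def rhc44c34062d108ca2 : CRef := CRef.mk (Pat.mk 0x10000000200000012000000120000001a00000002 0x30000000300000006000000360000001f0000001a00000002 5 6) 0 0 (step_sound _ 161 [(rh50fbb5868c909700.shift 0 2), rhbd69af06d9001ed4] (by decide +kernel))
noncomputable def rh8c71f81ac5ab9626 : CRef := CRef.mk (Pat.mk 0x100000000a000000180000000800000000 0x8000000780000001f000000180000001800000010 5 7) 0 0 (step_sound _ 98 [(rha20a018ab5d9955b.shift 1 0), (rhb739f4f82bb681b4.shift 0 2)] (by decide +kernel))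
noncomputable def rhd7e064419ac75b43 : CRef := CRef.mk (Pat.mk 0x20000001200000002000000020000001800000008 0x200000002000000120000003e0000001f0000001800000008 5 6) 0 0 (step_sound _ 100 [(rh3c88ce959c0e423f.shift 3 0), rh8764409486284182] (by decide +kernel))
noncomputable def rhf23e9c8bd0dda92b : CRef := CRef.mk (Pat.mk 0x100000005000000050000000500000004 0x20000000f0000000f0000000d000000050000000500000004 5 4) 0 0 (step_sound _ 161 [rh406f176c1f3ecae8, (rhbaefcd01e0a8bca3.shift 0 1)] (by decide +kernel))
noncomputable def rhade18a1d5832f979 : CRef := CRef.mk (Pat.mk 0x2000000020000000a0000001a0000000a 0x40000001f0000001b0000001a0000001a0000000a 5 5) 0 0 (step_sound _ 96 [rh1b6ab8b563b61c37, rh50fbb5868c909700] (by decide +kernel))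
noncomputable def rh1a6fe6519f520918 : CRef := CRef.mk (Pat.mk 0xa000000180000000800000000 0x18000000780000001f000000180000001800000010 5 7) 0 0 (step_sound _ 131 [(rh0363d47a46978688.shift 0 1), (rhd4b4beefcd67f51e.shift 3 0)] (by decide +kernel))
noncomputable def rh57c29731da5dbf9c : CRef := CRef.mk (Pat.mk 0x400000002000000020000000a00000018 0x1000000070000000700000002000000030000000f00000018 5 5) 0 0 (step_sound _ 129 [(rh2f68792b6b779e96.shift 1 1), rhfae57805eebd0b04] (by decide +kernel))
noncomputable def rh7dc4bd2f943cd3d3 : CRef := CRef.mk (Pat.mk 0x70000000000000000000000080000001800000008 0x380000001f0000003800000018000000180000001800000008 5 6) 0 0 (step_sound _ 132 [(rh9a8c4a319e3e8680.shift 3 0), (rhc44aa952c63836fd.shift 0 4)] (by decide +kernel))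
noncomputable def rhc4d2c33a0e38dbc2 : CRef := CRef.mk (Pat.mk 0x30000000080000002800000008 0x10000000780000000f0000007c00000008 5 7) 0 0 (step_sound _ 99 [(rh2f68792b6b779e96.shift 3 0), (rhc3308e1e57f6856f.shift 0 1)] (by decide +kernel))
noncomputable def rh515c0b8e13fe7160 : CRef := CRef.mk (Pat.mk 0x6000000020000000a0000001a0000000a00000000 0x100000001e0000003b0000001a0000001a0000001b00000001 5 6) 0 0 (step_sound _ 32 [(rh1a4e756304dfd4cf.shift 0 1), rh932754581e0f4330] (by decide +kernel))
noncomputable def rh4e6f88d76e1542f1 : CRef := CRef.mk (Pat.mk 0xa000000180000000800000000 0x180000007c0000000f000000180000001800000010 5 7) 0 0 (step_sound _ 98 [(rhb739f4f82bb681b4.shift 0 2), (rhe576ca16cb2e680e.shift 1 0)] (by decide +kernel))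
noncomputable def rh59531d51c052d5f9 : CRef := CRef.mk (Pat.mk 0x20000000a0000001a0000000a00000000 0x10000001b0000001f0000000a0000001a0000001a00000010 5 5) 0 0 (step_sound _ 160 [rhb218dd012aa67386, (rhffd04209dc8ea796.shift 0 1)] (by decide +kernel))
noncomputable def rha66a45e9edea8906 : CRef := CRef.mk (Pat.mk 0x38000000100000004000000040 0xc7000000fe000000f70000004000000040 5 8) 0 0 (step_sound _ 98 [(rh775ca1963e850b80.shift 0 2), (rha03f6e28ea70fc7d.shift 1 2), (rha3bc93d59a5021b5.shift 2 0)] (by decide +kernel))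
noncomputable def rh245928b0a8b00d1d : CRef := CRef.mk (Pat.mk 0x30000000f0000000000000000 0x18000000180000001f0000000f0000001c00000004 5 5) 0 0 (step_sound _ 99 [(rh33e738c4ed385b9f.shift 0 2), rhcfc1e46168ba8b3c] (by decide +kernel))
noncomputable def rhdda8e39bca858a65 : CRef := CRef.mk (Pat.mk 0xd0000000c00000004 0x100000001000000018000000180000001f0000000c0000000c 5 5) 0 0 (step_sound _ 99 [rh0b1bf4264049ea13, (rh5c5e593799055d58.shift 2 0)] (by decide +kernel))
noncomputable def rh58a9dcc95751c294 : CRef := CRef.mk (Pat.mk 0x200000002000000030000000700000000 0x40000000600000006000000070000001f0000001a 5 5) 0 0 (step_sound _ 35 [(rhf48373e13d2bc128.shift 0 1), rhff9088ea106d0623] (by decide +kernel))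
noncomputable def rh787c9f16af116b87 : CRef := CRef.mk (Pat.mk 0x60000000a000000030000000300000000 0x60000000e0000001b0000001f0000001c 5 5) 0 0 (step_sound _ 34 [rh3b0e71f32745a969, (rh55afc6a59410cf00.shift 1 0)] (by decide +kernel))
noncomputable def rh64b7d0d4da30c3ad : CRef := CRef.mk (Pat.mk 0x70000000840000000000000004 0x70000007e000000c60000000400000004 5 8) 0 0 (step_sound _ 99 [(rh96851dee118c1ba3.shift 3 2), rhee37d230d297e9fd] (by decide +kernel))
noncomputable def rh65d87c48f8f8faa7 : CRef := CRef.mk (Pat.mk 0x70000000040000000000000004 0x1c7000000fe000001c60000000400000004 5 9) 0 0 (step_sound _ 99 [(rh3fc3a7fb6866dcd4.shift 3 2), rhee37d230d297e9fd] (by decide +kernel))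
noncomputable def rhb7f0cbd15ac78bb4 : CRef := CRef.mk (Pat.mk 0x4000000070000000040000000000000004 0xc70000007e000000060000000400000004 5 8) 0 0 (step_sound _ 99 [(rh33e738c4ed385b9f.shift 3 3), rhee37d230d297e9fd] (by decide +kernel))
noncomputable def rhf0ba7ee5f5e5d123 : CRef := CRef.mk (Pat.mk 0x70000000600000004 0x8000000380000003f0000003e00000004 5 6) 0 0 (step_sound _ 67 [(rh226655e3fe6b4a8a.shift 0 1), (rh3fc3a7fb6866dcd4.shift 0 1), rha4c5bcb51a1da0a7, (rhf5e124ec5c58a2dd.shift 0 1)] (by decide +kernel))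
noncomputable def rh5f26c28b8010d14d : CRef := CRef.mk (Pat.mk 0x30000000f00000004 0x18000000180000001f0000000f0000001c 5 5) 0 0 (step_sound _ 67 [rh0e5c69f89d75ac1b, (rh33e738c4ed385b9f.shift 0 1)] (by decide +kernel))
noncomputable def rhdecbba4bf851f904 : CRef := CRef.mk (Pat.mk 0x8000000180000003000000028 0x1800000018000000180000001f0000003f00000068 5 7) 0 0 (step_sound _ 35 [rh2ad3660c44d24f65, (rh2ddd6c94c59240f8.shift 3 0)] (by decide +kernel))
noncomputable def rh5c01fabb5b815bd6 : CRef := CRef.mk (Pat.mk 0x38000000180000003000000008 0x70000003f0000001f0000003800000008 5 6) 0 0 (step_sound _ 65 [rha27da208e97a072a, (rhab22b5b56e7b3243.shift 1 1)] (by decide +kernel))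
noncomputable def rh9a732ea054d6073e : CRef := CRef.mk (Pat.mk 0x8000000180000003000000028 0xc0000000c0000000c0000001f0000003f00000068 5 7) 0 0 (step_sound _ 35 [rh2ad3660c44d24f65, (rh7b9fbdf6d2d059e4.shift 2 0)] (by decide +kernel))
noncomputable def rh122d01633f3fd493 : CRef := CRef.mk (Pat.mk 0x800000000000000380000001800000030 0xc0000000c000000070000003f0000001f00000030 5 6) 0 0 (step_sound _ 66 [(rh68da57567b86e05e.shift 1 1), (rh775ca1963e850b80.shift 0 1), rh85f589451634aebd, (rhba89ab7cb81bcc90.shift 0 1)] (by decide +kernel))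
noncomputable def rh65109c9da211b236 : CRef := CRef.mk (Pat.mk 0x2000000060000000c0000000a 0x70000000700000007000000060000000e0000000a 5 4) 0 0 (step_sound _ 130 [rh51221c4dce63f932, (rh6f1cbe15c631ee70.shift 2 0)] (by decide +kernel))
noncomputable def rh74297ec47b574ce4 : CRef := CRef.mk (Pat.mk 0x180000001800000008 0x1c0000001c0000001f000000380000001800000008 5 6) 0 0 (step_sound _ 99 [(rh2ddd6c94c59240f8.shift 3 0), rh675eb0a114259074, (rh7b9fbdf6d2d059e4.shift 2 0)] (by decide +kernel))
noncomputable def rh6a42ab6f33b816f2 : CRef := CRef.mk (Pat.mk 0xe0000001e00000008 0x600000016000000370000001e0000001e00000008 5 6) 0 0 (step_sound _ 68 [(rh5421160f8e9bcf07.shift 1 0), rh874a213df268dd65] (by decide +kernel))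
noncomputable def rh9b676eb1e0063305 : CRef := CRef.mk (Pat.mk 0x1c0000001800000010 0x1800000018000000380000001f0000001800000010 5 6) 0 0 (step_sound _ 65 [(rhb739f4f82bb681b4.shift 0 1), (rhd2f04bd8cfbf81b3.shift 1 0)] (by decide +kernel))
noncomputable def rh223f44b90c070373 : CRef := CRef.mk (Pat.mk 0x70000000600000004 0x80000000a0000001f0000003f0000000600000004 5 6) 0 0 (step_sound _ 97 [(rh2145e1d24b96a57e.shift 1 0), rh329833e8e1a2aac2] (by decide +kernel))
noncomputable def rh1ca17702e595763b : CRef := CRef.mk (Pat.mk 0x4000000160000001c00000008 0x2000000130000003e000000360000001c00000008 5 6) 0 0 (step_sound _ 100 [(rh28733be19412e815.shift 0 1), (rh5c5e593799055d58.shift 3 0)] (by decide +kernel))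
noncomputable def rh88bc171a9b2f08d3 : CRef := CRef.mk (Pat.mk 0x20000000b0000000e0000000400000000 0xc0000001e0000000b0000000e0000003c00000010 5 6) 0 0 (step_sound _ 131 [rh266d83a60854cf08, (rh5c5e593799055d58.shift 2 1)] (by decide +kernel))
noncomputable def rh6e695a1545c963e7 : CRef := CRef.mk (Pat.mk 0x14000000060000001c00000008 0x2000000130000003e000000360000001c00000008 5 6) 0 0 (step_sound _ 68 [(rh28733be19412e815.shift 0 1), (rh5c5e593799055d58.shift 3 0)] (by decide +kernel))
noncomputable def rh6236c5ee0a5a0ab4 : CRef := CRef.mk (Pat.mk 0x14000000060000001c00000008 0x2000000330000001e0000001e0000001c00000008 5 6) 0 0 (step_sound _ 132 [(rh3c88ce959c0e423f.shift 3 0), rhef33699dcf79f994] (by decide +kernel))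
noncomputable def rhe95a2e51b0ee5fdb : CRef := CRef.mk (Pat.mk 0x20000000200000002000000000000000000000000 0x100000003000000030000000300000003000000070000000700000005 5 3) 0 0 (step_sound _ 65 [(rh771d065bdc85bf2d.shift 0 1), rh8cdd36b03d57a2f6, rh8ff3dde5b1c639e0, rhc4526fc8abf298b6] (by decide +kernel))
noncomputable def rh5ec9a58dec5d827c : CRef := CRef.mk (Pat.mk 0x80000001c00000018 0xf000000fe0000001f 5 8) 0 0 (step_sound _ 37 [(rhaf9f2efc81a8312b.shift 1 0), (rhb762f327c85d41a0.shift 2 0), rhc6563beaa1184505] (by decide +kernel))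
noncomputable def rh74804295b2f507ec : CRef := CRef.mk (Pat.mk 0x10000000180000001c000000180000001000000000 0x20000000300000001f0000001e0000001f0000003000000020 5 6) 0 0 (step_sound _ 165 [(rh2f68792b6b779e96.shift 4 2), rh6d45587e34dd4b63] (by decide +kernel))
noncomputable def rh8ebf9530de0f8ca7 : CRef := CRef.mk (Pat.mk 0x80000001e00000008 0x10000000300000003f0000003e00000008 5 6) 0 0 (step_sound _ 68 [(rh33e738c4ed385b9f.shift 1 1), rh98bfe017ab5fead7] (by decide +kernel))
noncomputable def rhf4c3280c0a7d3b31 : CRef := CRef.mk (Pat.mk 0x80000001e0000000000000004 0x30000003f0000003e0000000400000004 5 6) 0 0 (step_sound _ 100 [(rh33e738c4ed385b9f.shift 1 2), rhaea53370f4d32c68] (by decide +kernel))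
noncomputable def rh84d1614f5efa9132 : CRef := CRef.mk (Pat.mk 0x40000000f00000000 0x760000003f00000038 5 7) 0 0 (step_sound _ 4 [(rh2dbb87262884a238.shift 1 0), rh96851dee118c1ba3] (by decide +kernel))
noncomputable def rh538f0c901abb768b : CRef := CRef.mk (Pat.mk 0x8000000030000000e0000000400000000 0xe0000001e000000070000000e0000000c00000008 5 5) 0 0 (step_sound _ 129 [(rh2145e1d24b96a57e.shift 1 1), rh8b6638b1049ebf20] (by decide +kernel))
noncomputable def rh8bc1fb4ec62bc577 : CRef := CRef.mk (Pat.mk 0x40000003000000014 0x7f0000007e00000036 5 7) 0 0 (step_sound _ 35 [(rh50cd11c9ca068ca2.shift 1 0), (rh8c12fdbbddc1e7ab.shift 0 1), (rhcb763b151dc90fdc.shift 1 0)] (by decide +kernel))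
noncomputable def rh2d271739c113919b : CRef := CRef.mk (Pat.mk 0x800000002000000180000000800000000 0x180000007c0000000f000000180000001800000010 5 7) 0 0 (step_sound _ 99 [(rh604185c8e904d4d8.shift 0 1), (rhd4b4beefcd67f51e.shift 3 0)] (by decide +kernel))
noncomputable def rh4a91fdf65c10e5ab : CRef := CRef.mk (Pat.mk 0x800000002000000180000000800000000 0x18000000780000001f000000180000001800000010 5 7) 0 0 (step_sound _ 99 [(rh0363d47a46978688.shift 0 1), (rhd4b4beefcd67f51e.shift 3 0)] (by decide +kernel))
noncomputable def rh1b662fd3373a2cc8 : CRef := CRef.mk (Pat.mk 0x20000000e0000001a 0xe6000000fe0000001b 5 8) 0 0 (step_sound _ 36 [(rh88e70b8df69afeaa.shift 1 0), rheb0810cc63b001d8] (by decide +kernel))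
noncomputable def rhca84076cba0116c5 : CRef := CRef.mk (Pat.mk 0x30000000200000002000000000000000000000000 0x5000000070000000600000002000000060000000600000004 5 3) 0 0 (step_sound _ 65 [(rh50fbb5868c909700.shift 0 2), (rh6b49c384df38419b.shift 1 0)] (by decide +kernel))
noncomputable def rh3677d5ec93b46a6b : CRef := CRef.mk (Pat.mk 0x20000000a0000001b0000000800000000 0x180000001f0000003e0000001b0000001800000010 5 6) 0 0 (step_sound _ 100 [rh0593f92d4e40d456, (rhb2a0b9ccfb5cecd5.shift 0 2)] (by decide +kernel))
noncomputable def rh90c5c82dcaf9d6dc : CRef := CRef.mk (Pat.mk 0x20000000a000000180000000800000000 0x180000001f0000003b000000180000001800000010 5 6) 0 0 (step_sound _ 131 [(rhd4b4beefcd67f51e.shift 3 0), (rhf7f93c5bcb3c6a1c.shift 0 1)] (by decide +kernel))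
noncomputable def rh1f3784cbd64b82f8 : CRef := CRef.mk (Pat.mk 0x80000001800000008000000300000000000000000 0x1800000018000000080000003c0000001f00000004 5 6) 0 0 (step_sound _ 67 [(rh55afc6a59410cf00.shift 3 1), rh833981c53763488b] (by decide +kernel))
noncomputable def rh852836e5273ad296 : CRef := CRef.mk (Pat.mk 0x7000000020000000c0 0xe0000007e000000ff000000c0 5 8) 0 0 (step_sound _ 67 [(rh29121836505d68c8.shift 2 0), (rh775ca1963e850b80.shift 1 1), (rha03f6e28ea70fc7d.shift 2 1), (rha0ae8adeb1dbcf8d.shift 0 1)] (by decide +kernel))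
noncomputable def rh1b856df2901efff2 : CRef := CRef.mk (Pat.mk 0x8000000080000001800000000 0x40000000c0000000c000000080000001f0000007c00000010 5 7) 0 0 (step_sound _ 66 [(rh3c3e23a02e82b2ed.shift 0 1), (rh5c5a2014709044d0.shift 0 1), (rh8b45a73eaadf2a53.shift 2 0)] (by decide +kernel))
noncomputable def rhecb650d43d01c272 : CRef := CRef.mk (Pat.mk 0x8000000380000002800000008 0x100000001f0000003f0000006800000008 5 7) 0 0 (step_sound _ 100 [(rh2ad3660c44d24f65.shift 0 1), (rh2f68792b6b779e96.shift 3 0)] (by decide +kernel))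
noncomputable def rh20b5665afeaabef8 : CRef := CRef.mk (Pat.mk 0x800000008000000080000001800000008 0x80000000c0000001f000000780000001800000008 5 7) 0 0 (step_sound _ 68 [(rh2145e1d24b96a57e.shift 3 1), rh507c5779b6f84b86] (by decide +kernel))
noncomputable def rh9a042fd7cddc3db0 : CRef := CRef.mk (Pat.mk 0x1000000160000000c00000000 0x1000000010000000330000001e0000003c00000008 5 6) 0 0 (step_sound _ 67 [(rh3f8766e6ecb455ce.shift 0 2), (rh75a8828f210a78cf.shift 1 0)] (by decide +kernel))
noncomputable def rh2c8d9f772b3bf7e8 : CRef := CRef.mk (Pat.mk 0x20000000200000002000000020000000200000000 0x300000003000000030000000600000006000000060000000200000002 5 3) 0 0 (step_sound _ 192 [rh9a530ec5f80b3a0c, (rhffd04209dc8ea796.shift 0 2)] (by decide +kernel))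
noncomputable def rhfb9512eef385eda6 : CRef := CRef.mk (Pat.mk 0x40000000600000007000000000000000000000000 0x60000001e000000070000003e0000000c0000000c 5 6) 0 0 (step_sound _ 131 [(rh18965a982d73c794.shift 0 3), rhd04778868a4a2f1d] (by decide +kernel))
noncomputable def rha2757678e0bea552 : CRef := CRef.mk (Pat.mk 0x800000008000000080000000b0000000800000000 0x8000000080000000c0000000c0000001e0000001b0000000800000008 5 5) 0 0 (step_sound _ 130 [(rh50fbb5868c909700.shift 2 1), rheaf8d76d5f1e6253] (by decide +kernel))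
noncomputable def rhe0e7b737b991cbdf : CRef := CRef.mk (Pat.mk 0x800000008000000080000000800000003 0x40000000c0000000c000000080000000c0000001e00000013 5 5) 0 0 (step_sound _ 162 [rh18438455e42391e4, (rhffd04209dc8ea796.shift 2 1)] (by decide +kernel))
noncomputable def rh647ba378746d00e5 : CRef := CRef.mk (Pat.mk 0x10000000160000001400000000 0x80000000a0000003b0000003e000000360000001400000010 5 6) 0 0 (step_sound _ 99 [(rh351e2f84a5c68d7e.shift 1 0), (rhb1a251d9bff81766.shift 3 0), (rhf789a784ed3897da.shift 0 1)] (by decide +kernel))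
noncomputable def rh7af5cdb4678e4582 : CRef := CRef.mk (Pat.mk 0x80000000b0000000e000000000000000000000000 0x140000001e0000001b0000000e0000007c0000001800000010 5 7) 0 0 (step_sound _ 67 [(rh4a57183b91ec83ec.shift 0 2), (rh6c59ce14113da07f.shift 3 0), (rhb0c6196f710d9a93.shift 1 1)] (by decide +kernel))
noncomputable def rh5b7425dd68103d17 : CRef := CRef.mk (Pat.mk 0x40000001e00000004 0x2000000030000003f0000001f00000004 5 6) 0 0 (step_sound _ 65 [(rh3244c3cc8379b070.shift 0 1), rhbf1c1533caebba13] (by decide +kernel))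
noncomputable def rh6515ed09e3e9edab : CRef := CRef.mk (Pat.mk 0x8000000280000000800000000 0x140000001c0000001c000000080000007c0000000f00000004 5 7) 0 0 (step_sound _ 131 [(rh1741680720c097b4.shift 2 1), (rh3b734c5288922837.shift 2 0), (rh968ba7b0df7e4096.shift 2 0), rhc8fd50c44a2112a0] (by decide +kernel))
noncomputable def rh9ec57da85927c23a : CRef := CRef.mk (Pat.mk 0xc000000040000000e0000000c 0x100000003c000000770000007e0000000c 5 7) 0 0 (step_sound _ 36 [(rh9462503d16fc4086.shift 1 0), (rhe3060b190bc0bc78.shift 0 1), rhe7a001aee0fd70f7] (by decide +kernel))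
noncomputable def rh97e85c5887c41c3d : CRef := CRef.mk (Pat.mk 0x10000000080000001c000000380000000c 0x3000000030000000ee000000fc000000380000000f 5 8) 0 0 (step_sound _ 1 [rh53b3c253cb0c65f4, (rh593418e9f3144df7.shift 1 1)] (by decide +kernel))
noncomputable def rhacab6bca61020398 : CRef := CRef.mk (Pat.mk 0x4000000180000001e00000000 0x50000000f0000001b0000001e00000003 5 5) 0 0 (step_sound _ 65 [(rh3244c3cc8379b070.shift 0 1), rh79822379bae619ed] (by decide +kernel))
noncomputable def rh87fb97f4ef2e871d : CRef := CRef.mk (Pat.mk 0x3000000120000001e00000008 0x60000001e00000013000000160000003e00000008 5 6) 0 0 (step_sound _ 66 [rh9c6bd04cb14fe0f6, (rhf48373e13d2bc128.shift 1 1)] (by decide +kernel))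
noncomputable def rhc5febebb7babee24 : CRef := CRef.mk (Pat.mk 0x1000000020000000600000002 0x4000000060000000700000003000000060000000600000006 5 3) 0 0 (step_sound _ 97 [rh50fbb5868c909700, (rh8599f462953abc6e.shift 1 0)] (by decide +kernel))
noncomputable def rh75dbe8d35bdac275 : CRef := CRef.mk (Pat.mk 0x1c0000000800000028 0x7c0000007f0000007c 5 7) 0 0 (step_sound _ 34 [(rh574fdbf07bdd18b9.shift 0 1), (rh81a928e81d06462b.shift 2 0), rh8c25cb665ab79ec0] (by decide +kernel))
noncomputable def rhe3c73f82d8ddddbc : CRef := CRef.mk (Pat.mk 0x200000002000000020000000a 0x1000000030000000300000002000000070000001f 5 5) 0 0 (step_sound _ 128 [rhe2eb0a50aadda6f9, rhffd04209dc8ea796] (by decide +kernel))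
noncomputable def rhbc07c21257320e5e : CRef := CRef.mk (Pat.mk 0x30000000600000002000000020000000a00000008 0x30000001e00000012000000370000001e00000008 5 6) 0 0 (step_sound _ 34 [rhd1414b9ef45fe3fe, (rhd3458b32566d63f7.shift 1 1)] (by decide +kernel))
noncomputable def rh3a3f8b4c171f7bd9 : CRef := CRef.mk (Pat.mk 0x20000001200000002000000020000000a00000008 0x12000000120000001a0000007e0000001f00000008 5 7) 0 0 (step_sound _ 34 [rh5aaeddc16230f4fe, (rhd3458b32566d63f7.shift 1 1)] (by decide +kernel))
noncomputable def rh2dfa15f2cafed264 : CRef := CRef.mk (Pat.mk 0x200000002000000020000000a 0x4000000060000000600000002000000070000001f 5 5) 0 0 (step_sound _ 130 [(rhbaefcd01e0a8bca3.shift 1 0), rhd458d07fa484bcd2] (by decide +kernel))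
noncomputable def rha3962df8618c0763 : CRef := CRef.mk (Pat.mk 0x2000000020000000300000000 0x4000000060000000600000002000000060000000700000005 5 3) 0 0 (step_sound _ 129 [(rh25208373db83e521.shift 1 0), rh932754581e0f4330] (by decide +kernel))
noncomputable def rhb714e7117b5950b4 : CRef := CRef.mk (Pat.mk 0x600000003000000000000000700000008 0x1e00000013000000380000001f00000018 5 6) 0 0 (step_sound _ 35 [rha0b04f397db42cda, rhe25b0a99195a5d59] (by decide +kernel))
noncomputable def rh7ea7fc06b99fa11c : CRef := CRef.mk (Pat.mk 0x100000007800000000 0x3c0000007f0000000e 5 7) 0 0 (step_sound _ 67 [(rh3244c3cc8379b070.shift 2 1), rhcef93a29c93c96c9] (by decide +kernel))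
noncomputable def rhd534da25a9e1909f : CRef := CRef.mk (Pat.mk 0x200000002000000020000000200000002 0x6000000060000000700000003000000030000000300000002 5 3) 0 0 (step_sound _ 162 [rh6476b97e3c9feb9f, (rhbaefcd01e0a8bca3.shift 1 1)] (by decide +kernel))
noncomputable def rh7fbfe45dc9e11a97 : CRef := CRef.mk (Pat.mk 0xc0000001a0000000a00000000 0xc0000000c0000000c0000001e0000003b00000010 5 6) 0 0 (step_sound _ 66 [(rheb0810cc63b001d8.shift 0 1), (rhed662ff20e622044.shift 1 0)] (by decide +kernel))
noncomputable def rhda76e559c36b4764 : CRef := CRef.mk (Pat.mk 0x80000001e000000080000000200000000 0x80000001e0000003f0000003300000010 5 6) 0 0 (step_sound _ 68 [rh1cd2404d2bb7c086, (rhe25b0a99195a5d59.shift 1 2)] (by decide +kernel))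
noncomputable def rh71d73ab43afd0bf9 : CRef := CRef.mk (Pat.mk 0x180000001c0000000000000004 0x20000001b0000003f0000000700000004 5 6) 0 0 (step_sound _ 65 [(rh53b3c253cb0c65f4.shift 0 2), rh9aa138e5ed752369] (by decide +kernel))
noncomputable def rh2c8944b345c0ad1f : CRef := CRef.mk (Pat.mk 0x200000002000000020000001200000000 0x200000002000000070000003e00000074 5 7) 0 0 (step_sound _ 34 [rh0c63d046cfc0f45c, (rh55afc6a59410cf00.shift 1 0)] (by decide +kernel))
noncomputable def rhff94ef9c201f4a80 : CRef := CRef.mk (Pat.mk 0xe000000020000000200000002 0x390000001f0000003a0000000200000002 5 6) 0 0 (step_sound _ 96 [rh50fbb5868c909700, (rha93a5dd541ab8209.shift 0 2)] (by decide +kernel))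
noncomputable def rh8ff24e5140c56d73 : CRef := CRef.mk (Pat.mk 0xe0000000800000008 0x10000000700000007e0000007f00000008 5 7) 0 0 (step_sound _ 68 [(rh300eedc557b86950.shift 1 1), (rh3b00e9e9432b8f40.shift 0 1), (rhbbda3e5cf400e6dd.shift 1 0)] (by decide +kernel))
noncomputable def rh488f421d513f7a70 : CRef := CRef.mk (Pat.mk 0x200000002000000020000000a0000000200000000 0x1000000030000000300000002000000060000001e0000000300000001 5 5) 0 0 (step_sound _ 192 [rh3e6d2e198e88a2d4, (rhffd04209dc8ea796.shift 0 2)] (by decide +kernel))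
noncomputable def rhe8ce80c5674c7c75 : CRef := CRef.mk (Pat.mk 0x400000002000000120000000a00000003 0x600000006000000030000003e0000001e00000003 5 6) 0 0 (step_sound _ 34 [rh18965a982d73c794, (rhc601b8c9b1e8fe0b.shift 0 1)] (by decide +kernel))
noncomputable def rh1bcb8e92a757458a : CRef := CRef.mk (Pat.mk 0x2000000120000001a0000000a00000000 0x1c0000003f0000001e0000003a0000001a00000010 5 6) 0 0 (step_sound _ 99 [(rh22a062da1374eec3.shift 1 1), (rh7174a5174d2fbf5b.shift 0 2), rh7d8ccc826229a3f7] (by decide +kernel))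
noncomputable def rhccf65f1405b139b7 : CRef := CRef.mk (Pat.mk 0x1200000012000000180000000800000000 0x80000001b0000001e0000003c000000f800000030 5 8) 0 0 (step_sound _ 36 [(rh36d4d92ef3dad5f8.shift 2 0), rhad434d0808e90885] (by decide +kernel))
noncomputable def rh8f4f31112772f34b : CRef := CRef.mk (Pat.mk 0x9000000090000000900000001 0x160000001f0000001b0000000900000009 5 5) 0 0 (step_sound _ 97 [rh2f68792b6b779e96, rhdb08ad564569d430] (by decide +kernel))
noncomputable def rh78d7dae515f1d71e : CRef := CRef.mk (Pat.mk 0x80000000c000000060000000600000000 0x80000003c0000003f0000003600000010 5 6) 0 0 (step_sound _ 100 [(rh18965a982d73c794.shift 1 2), rh39eff5bd0fc16dce] (by decide +kernel))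
noncomputable def rhd458216ef1014004 : CRef := CRef.mk (Pat.mk 0x2000000120000000a0000000a 0x10000000140000003f0000007e0000003a0000000a 5 7) 0 0 (step_sound _ 67 [rh07b5a2edd6549fcd, rh4aa40e417e65ec51, rh4dce03330da63bae, (rhb3ef9d30c867ac53.shift 1 0), rhfbcc9ef56fb26c14] (by decide +kernel))
noncomputable def rhf4b0efdf996b8f9f : CRef := CRef.mk (Pat.mk 0x20000001a0000000a0000000a00000000 0x10000000100000003e0000003e0000000e0000000b00000001 5 6) 0 0 (step_sound _ 32 [(rh26d74deb9636eb38.shift 1 1), rh932754581e0f4330] (by decide +kernel))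
noncomputable def rhc1488b67e5ce5d2f : CRef := CRef.mk (Pat.mk 0x1e000000000000001000000010 0x730000003e000000600000003000000010 5 7) 0 0 (step_sound _ 129 [(rh2df5afcfc4cfd1fc.shift 1 0), (rh3244c3cc8379b070.shift 0 3)] (by decide +kernel))
noncomputable def rhab48aa6b621925e5 : CRef := CRef.mk (Pat.mk 0x800000008000000080000001800000008 0x80000000c0000001f000000780000001800000008 5 7) 0 0 (step_sound _ 68 [(rh2145e1d24b96a57e.shift 3 1), rhdb019b0e908810fb] (by decide +kernel))
noncomputable def rh18110531906e1246 : CRef := CRef.mk (Pat.mk 0x300000002000000000000001e00000008 0x1b0000001e000000300000001e00000038 5 6) 0 0 (step_sound _ 4 [(rhe25b0a99195a5d59.shift 1 0), rhf8fdd0e9b29ba2bc] (by decide +kernel))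
noncomputable def rh815f84b9bd9d4e24 : CRef := CRef.mk (Pat.mk 0x38000000100000004000000040 0xc7000000fe000000f70000004000000040 5 8) 0 0 (step_sound _ 98 [(rh4f8edb321cf5b49d.shift 0 2), (rh775ca1963e850b80.shift 0 2), (rha3bc93d59a5021b5.shift 2 0), (rhfcb55d5dc3b78d1f.shift 0 2)] (by decide +kernel))
noncomputable def rhe842cedfed0156ad : CRef := CRef.mk (Pat.mk 0x10000000200000002000000020000000a00000008 0x1000000030000000200000002000000060000001f00000078 5 7) 0 0 (step_sound _ 161 [rh42f75cf4fd72aafe, (rh50fbb5868c909700.shift 0 2)] (by decide +kernel))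
noncomputable def rh7b379377a13479aa : CRef := CRef.mk (Pat.mk 0x40000000200000002000000020000000a00000008 0x4000000060000000200000002000000060000001f00000078 5 7) 0 0 (step_sound _ 161 [(rh2f68792b6b779e96.shift 1 2), rh42f75cf4fd72aafe] (by decide +kernel))
noncomputable def rha5a5394e43132d78 : CRef := CRef.mk (Pat.mk 0x200000012000000180000001800000000 0x180000003b0000001e000000180000001800000010 5 6) 0 0 (step_sound _ 132 [(rh5c5e593799055d58.shift 3 1), rh60044f2725980ceb] (by decide +kernel))
noncomputable def rha6eccc19e45aa954 : CRef := CRef.mk (Pat.mk 0x60000001e00000008 0x1000000010000000380000003e0000001f00000008 5 6) 0 0 (step_sound _ 68 [(rh33e738c4ed385b9f.shift 1 1), rhe368ba9a78aa4ce6] (by decide +kernel))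
noncomputable def rh27ff5b232d61e098 : CRef := CRef.mk (Pat.mk 0x4000000020000000300000006 0x1000000030000000700000006000000030000000700000006 5 3) 0 0 (step_sound _ 97 [(rh2f68792b6b779e96.shift 1 0), rhb35e66efa75d67a8] (by decide +kernel))
noncomputable def rh46e6db74c8fa4b2a : CRef := CRef.mk (Pat.mk 0x70000000200000000000000010 0xe000000fe0000007f0000001000000010 5 8) 0 0 (step_sound _ 99 [(rh4f8edb321cf5b49d.shift 1 2), (rh63665d28061a121c.shift 2 0), (rha0ae8adeb1dbcf8d.shift 0 2), (rhfcb55d5dc3b78d1f.shift 1 2)] (by decide +kernel))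
noncomputable def rhd8b6318ad2cccf28 : CRef := CRef.mk (Pat.mk 0x18000000100000005800000048 0x40000001f0000003c00000078000000c8 5 8) 0 0 (step_sound _ 37 [rh84a837aeb347ce73, (rhe25b0a99195a5d59.shift 3 0)] (by decide +kernel))
noncomputable def rh167b5bb3db469598 : CRef := CRef.mk (Pat.mk 0x800000008000000080000001e00000000 0x40000000c0000000e0000000f0000001e00000003 5 5) 0 0 (step_sound _ 65 [(rh3244c3cc8379b070.shift 0 1), rha9e2f218ac735723] (by decide +kernel))
noncomputable def rh3a72e63076b5408d : CRef := CRef.mk (Pat.mk 0x100000001a0000001e000000000000000000000000 0x370000001e0000001e000000030000000200000002 5 6) 0 0 (step_sound _ 130 [rh14e41ec733e8d930, (rh33e738c4ed385b9f.shift 1 4)] (by decide +kernel))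
noncomputable def rh9375360a0dc5aa71 : CRef := CRef.mk (Pat.mk 0x1c0000001800000040 0x1c0000007f00000067 5 7) 0 0 (step_sound _ 37 [rhc0fdbedd668582ed, (rhf48373e13d2bc128.shift 2 1)] (by decide +kernel))
noncomputable def rhb1b5db3d9517e810 : CRef := CRef.mk (Pat.mk 0x1c00000040 0x70000003e00000067 5 7) 0 0 (step_sound _ 37 [rh592c7139d2c44767, (rh96851dee118c1ba3.shift 2 0)] (by decide +kernel))
noncomputable def rhec0f150ffdda098a : CRef := CRef.mk (Pat.mk 0x100000003c00000000 0x1c000000ff00000007 5 8) 0 0 (step_sound _ 1 [(rh80fcd6d0a18cb2dd.shift 1 0), rhb8c1ea2d26981606] (by decide +kernel))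
noncomputable def rhd01417a01441fe52 : CRef := CRef.mk (Pat.mk 0x200000006000000020000000000000000 0x500000007000000070000000600000006000000060000000600000006 5 3) 0 0 (step_sound _ 161 [(rhc85cc95794737cf7.shift 0 2), (rhca18712e5e5c7b8f.shift 1 0), (rhd4b4beefcd67f51e.shift 1 1)] (by decide +kernel))
noncomputable def rh6aa3e7e8646654a4 : CRef := CRef.mk (Pat.mk 0x18000000180000001800000018 0x240000003f0000001f0000001800000018 5 6) 0 0 (step_sound _ 98 [(rh50fbb5868c909700.shift 2 0), rhf5e3ec9eeeedbff8] (by decide +kernel))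
noncomputable def rhe1eb557f23d03012 : CRef := CRef.mk (Pat.mk 0x200000006000000020000000000000000 0x10000000700000007000000070000000600000006000000060000000600000006 5 3) 0 0 (step_sound _ 161 [(rh0fa4a62bba50784f.shift 0 2), (rh1741680720c097b4.shift 0 2), (rhca18712e5e5c7b8f.shift 1 0), (rhd4b4beefcd67f51e.shift 1 1)] (by decide +kernel))
noncomputable def rhe07f614196cf4edb : CRef := CRef.mk (Pat.mk 0x1c000000020000002800000024 0x30000001e000000030000003e00000066 5 7) 0 0 (step_sound _ 97 [rh7555d3f6e1c4e93a, (rheb0810cc63b001d8.shift 0 2)] (by decide +kernel))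
noncomputable def rhbd48fc2439c2c778 : CRef := CRef.mk (Pat.mk 0x38000000100000003800000018 0x60000003e000000f70000003f00000018 5 8) 0 0 (step_sound _ 69 [rh370625f794a30c38, (rh62ee6b8370225d67.shift 2 1), (rhb978d8716a693427.shift 1 0)] (by decide +kernel))
noncomputable def rh7ae73416e8bb7191 : CRef := CRef.mk (Pat.mk 0xe00000020 0x770000003e00000030 5 7) 0 0 (step_sound _ 36 [(rh56a24c72f1c55520.shift 0 1), (rh96851dee118c1ba3.shift 1 0)] (by decide +kernel))
noncomputable def rh589345da44c3b4b3 : CRef := CRef.mk (Pat.mk 0x800000008000000080000000800000000 0x80000000800000008000000380000001f00000014 5 6) 0 0 (step_sound _ 36 [(rh55afc6a59410cf00.shift 3 0), rh69b4121030002085] (by decide +kernel))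
noncomputable def rh87f0adef0757ea10 : CRef := CRef.mk (Pat.mk 0x8000000040000001e00000008 0x140000003c000000370000001e00000008 5 6) 0 0 (step_sound _ 68 [(rh33e738c4ed385b9f.shift 1 1), rh3bf2848e973b716d] (by decide +kernel))
noncomputable def rh8530d1918b3f789d : CRef := CRef.mk (Pat.mk 0x8000000040000000e0000001800000010 0x3800000038000000770000003e0000001800000010 5 7) 0 0 (step_sound _ 68 [(rh4d8d614e03a7f6ad.shift 1 1), (rhc3a62e1d6ae06e0b.shift 1 0), (rhe3060b190bc0bc78.shift 0 2)] (by decide +kernel))
noncomputable def rhcde0c31690b9466d : CRef := CRef.mk (Pat.mk 0x2000000020000000200000001 0x4000000060000000600000002000000060000000700000005 5 3) 0 0 (step_sound _ 129 [(rh25208373db83e521.shift 1 0), rh79877ebd3ef475dd] (by decide +kernel))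
noncomputable def rh1174afd68e3cadf8 : CRef := CRef.mk (Pat.mk 0x4000000040000001600000014 0x60000000600000006000000070000001e00000034 5 6) 0 0 (step_sound _ 35 [rh35a30ce924b6b0c1, (rhe25b0a99195a5d59.shift 1 0)] (by decide +kernel))
noncomputable def rh98d92ab9dd718be9 : CRef := CRef.mk (Pat.mk 0x80000001e00000006 0x3000000030000003f0000001e00000006 5 6) 0 0 (step_sound _ 65 [(rh3244c3cc8379b070.shift 0 1), rh912c6c643da5c8c8] (by decide +kernel))
noncomputable def rh593fa144f6ebe23e : CRef := CRef.mk (Pat.mk 0xa0000001e0000000c 0xe0000000f0000003a0000001e0000000c 5 6) 0 0 (step_sound _ 97 [(rh2145e1d24b96a57e.shift 1 0), rhcaaa094b79aab627] (by decide +kernel))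
noncomputable def rhae3a86fa299b4a58 : CRef := CRef.mk (Pat.mk 0xc0000001e00000004 0x2000000030000003f0000001e00000007 5 6) 0 0 (step_sound _ 65 [(rh3244c3cc8379b070.shift 0 1), rh7a69239c61afeecc] (by decide +kernel))
noncomputable def rh1ddec4e30dd9809f : CRef := CRef.mk (Pat.mk 0x1e00000002000000080000000c00000000 0x30000001e000000020000001f0000000f00000001 5 5) 0 0 (step_sound _ 161 [(rh3244c3cc8379b070.shift 0 4), rhd4d2b871e42cedd8] (by decide +kernel))
noncomputable def rh7ac706b3540cbe51 : CRef := CRef.mk (Pat.mk 0x20000000200000002000000000000000200000000 0x300000003000000070000000600000006000000070000000300000001 5 3) 0 0 (step_sound _ 65 [rh7928877f9bf74a91, (rhbdb34f420224b15e.shift 0 1)] (by decide +kernel))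
noncomputable def rhdebe940eb59afb65 : CRef := CRef.mk (Pat.mk 0x10000000080000000c0000000800000000 0x1000000018000000080000000f0000007c00000010 5 7) 0 0 (step_sound _ 131 [(rh2f68792b6b779e96.shift 3 1), rh7fe11f484215afaf] (by decide +kernel))
noncomputable def rh5a06b520bd8fbc90 : CRef := CRef.mk (Pat.mk 0x20000000200000002000000020000000000000002 0x600000006000000060000000300000003000000030000000200000002 5 3) 0 0 (step_sound _ 194 [(rhbaefcd01e0a8bca3.shift 1 2), rhd8f454be3f884cbf] (by decide +kernel))
noncomputable def rh6467a4adad8185f6 : CRef := CRef.mk (Pat.mk 0x70000000200000000000000010 0xf0000007e000000fe0000001800000010 5 8) 0 0 (step_sound _ 99 [(rh25efc5d5a6c022ff.shift 2 0), (rh775ca1963e850b80.shift 1 2), (rha03f6e28ea70fc7d.shift 2 2), (rhb2afcb5db661472f.shift 0 2)] (by decide +kernel))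
noncomputable def rh411efc0b58d8b649 : CRef := CRef.mk (Pat.mk 0xc000000080000000c0000000c 0x130000001f0000007c0000000f0000000c 5 7) 0 0 (step_sound _ 100 [(rh2f68792b6b779e96.shift 3 0), rh7dffb8eeb1c1ff2b] (by decide +kernel))
noncomputable def rhb71c7e7a31ed093c : CRef := CRef.mk (Pat.mk 0x1e00000000 0x730000003e00000070 5 7) 0 0 (step_sound _ 65 [(rh3244c3cc8379b070.shift 0 1), (rha93a5dd541ab8209.shift 1 0)] (by decide +kernel))
noncomputable def rh40fc232e12ee4fd4 : CRef := CRef.mk (Pat.mk 0x7000000020 0xf000001fe000001fe 5 9) 0 0 (step_sound _ 35 [(rh300eedc557b86950.shift 3 0), (rh775ca1963e850b80.shift 1 0), rhb2afcb5db661472f] (by decide +kernel))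
noncomputable def rhad3dacbbd1c20b27 : CRef := CRef.mk (Pat.mk 0x1a000000060000000200000000 0x600000006000000070000001e000000060000000600000002 5 5) 0 0 (step_sound _ 98 [(rh221abc7c7e5aa3e2.shift 0 1), (rh84d1c02a8954c6a8.shift 1 0), (rhbdb8dfd08861fbf7.shift 0 1)] (by decide +kernel))
noncomputable def rhd444fbf007a660e7 : CRef := CRef.mk (Pat.mk 0x8000000180000001c0000000c 0x170000001f0000001c0000001c0000000c 5 5) 0 0 (step_sound _ 100 [(rh5c5e593799055d58.shift 3 0), rhf3f3bfc6f0b9eef2] (by decide +kernel))
noncomputable def rh644a4cb3391c5195 : CRef := CRef.mk (Pat.mk 0x78 0xff0000007e 5 8) 0 0 (step_sound _ 2 [rh4c622fddc53a5f99, (rh9890f9d77740bbed.shift 2 0), (rhd5eb272e07a4e288.shift 1 0)] (by decide +kernel))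
noncomputable def rhcb4d718fd112ac71 : CRef := CRef.mk (Pat.mk 0x1c0000000c00000004 0xe0000000e0000000f0000001c0000000c00000004 5 5) 0 0 (step_sound _ 98 [(rh1741680720c097b4.shift 1 0), rh2b8d30a06730aa00, (rh2ddd6c94c59240f8.shift 2 0), (rh7b9fbdf6d2d059e4.shift 1 0)] (by decide +kernel))
noncomputable def rh64743f2f54677fb5 : CRef := CRef.mk (Pat.mk 0x80000001c00000000 0xff0000007e000000e0 5 8) 0 0 (step_sound _ 37 [(rh61325f73ebf98108.shift 0 1), (rha93a5dd541ab8209.shift 2 0), (rhe3060b190bc0bc78.shift 1 1)] (by decide +kernel))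
noncomputable def rh331d4a807f97bfca : CRef := CRef.mk (Pat.mk 0x180000001e00000000 0x200000002000000030000001f0000003e00000004 5 6) 0 0 (step_sound _ 65 [(rh3244c3cc8379b070.shift 0 1), rhe9cfa0ec3e3dafdf] (by decide +kernel))
noncomputable def rhe15dbef4916f64a8 : CRef := CRef.mk (Pat.mk 0x1e000000060000000000000000 0x4000000040000001f0000003e0000000300000002 5 6) 0 0 (step_sound _ 68 [rh238382ac6661bafa, (rhe25b0a99195a5d59.shift 1 2)] (by decide +kernel))
noncomputable def rh3a9c11e3db78542d : CRef := CRef.mk (Pat.mk 0xc0000000c0000000c 0x18000000780000001f0000000c0000000c 5 7) 0 0 (step_sound _ 99 [(rh5c5e593799055d58.shift 2 0), rhe9f9259b2da8d967] (by decide +kernel))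
noncomputable def rhd1f7c2d511dd814f : CRef := CRef.mk (Pat.mk 0x180000001c00000000 0x1c000000ff00000007 5 8) 0 0 (step_sound _ 33 [(rh53b3c253cb0c65f4.shift 0 1), rhb447f348b8f2aaa5] (by decide +kernel))
noncomputable def rhcdd0bf8123cb24b0 : CRef := CRef.mk (Pat.mk 0x200000006000000020000000000000000 0x500000007000000070000000600000006000000060000000600000004 5 3) 0 0 (step_sound _ 161 [(rh14f80659e6313cc6.shift 1 2), (rh6c59ce14113da07f.shift 1 0), (rhc85cc95794737cf7.shift 0 2), (rhd4b4beefcd67f51e.shift 1 1)] (by decide +kernel))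
noncomputable def rh1e47a38224bfb03f : CRef := CRef.mk (Pat.mk 0x1c000000180000002000000000 0x8000000080000001c0000007f0000003700000004 5 7) 0 0 (step_sound _ 69 [rh1e15c3f390712474, (rhf48373e13d2bc128.shift 2 2)] (by decide +kernel))
noncomputable def rh74253edce10f41bf : CRef := CRef.mk (Pat.mk 0x8000000280000000800000000 0x140000001c0000001c000000080000007c0000000f00000004 5 7) 0 0 (step_sound _ 131 [(rh1741680720c097b4.shift 2 1), (rh20966da26a1c2ae8.shift 2 0), (rh5d64a5765ea6b71b.shift 1 0), rhc8fd50c44a2112a0] (by decide +kernel))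
noncomputable def rh9beace5688f15c45 : CRef := CRef.mk (Pat.mk 0x4000000140000001400000000 0xa0000000e0000000e000000040000003e0000003700000002 5 6) 0 0 (step_sound _ 130 [(rh1741680720c097b4.shift 1 1), rh9f0212359c7333ba, rhd6489c8bf3c9feb1] (by decide +kernel))
noncomputable def rhcd65ba9709a478a6 : CRef := CRef.mk (Pat.mk 0x3e00000000000000200000002000000000 0x630000003e00000060000000600000006000000040 5 7) 0 0 (step_sound _ 161 [(rh3244c3cc8379b070.shift 0 4), (rh41d9cead9575d01b.shift 2 0)] (by decide +kernel))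
noncomputable def rh41469e92b6667460 : CRef := CRef.mk (Pat.mk 0x18000000020000000a0000000800000000 0x18000000180000000b0000001e0000003800000010 5 6) 0 0 (step_sound _ 99 [(rh2f68792b6b779e96.shift 3 1), rh358c231171d2d7ca] (by decide +kernel))
noncomputable def rh8890875f1ee577b3 : CRef := CRef.mk (Pat.mk 0x7c00000010 0xc70000007f0000001c 5 8) 0 0 (step_sound _ 70 [(rh33e738c4ed385b9f.shift 3 1), rh70543c5e7e75eabe] (by decide +kernel))
noncomputable def rh237fff640997e358 : CRef := CRef.mk (Pat.mk 0x30000000a000000020000000a 0x3c0000001f0000001a0000000a0000000a 5 6) 0 0 (step_sound _ 98 [(rh2f68792b6b779e96.shift 1 0), rh320c6d97c59498d4] (by decide +kernel))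
noncomputable def rhf928882f0fa84b63 : CRef := CRef.mk (Pat.mk 0xe000000000000000400000004 0x730000003e000000740000000400000004 5 7) 0 0 (step_sound _ 100 [(rha93a5dd541ab8209.shift 1 2), rhea1977e228a6d74a] (by decide +kernel))
noncomputable def rhd575de2d44b7fb32 : CRef := CRef.mk (Pat.mk 0x600000006000000030000000100000000 0x600000006000000070000001f0000001e 5 5) 0 0 (step_sound _ 33 [rh459f1a5b6d1b1e06, (rh71222050f2c63a3a.shift 1 0)] (by decide +kernel))
noncomputable def rhcf0708db7b2e0874 : CRef := CRef.mk (Pat.mk 0x30000000000000002000000020000000000000000 0x5000000070000000600000002000000060000000600000004 5 3) 0 0 (step_sound _ 129 [(rh50fbb5868c909700.shift 0 2), (rhc16750d25dcb9f19.shift 1 0)] (by decide +kernel))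
noncomputable def rh954d236c1be4dd65 : CRef := CRef.mk (Pat.mk 0x1e000000220000000a0000001200000000 0x600000003e000000620000003e0000001300000001 5 7) 0 0 (step_sound _ 133 [rh791139ac7ec5e310, (rhe25b0a99195a5d59.shift 2 3)] (by decide +kernel))
noncomputable def rh1add32ffe2dfe2e6 : CRef := CRef.mk (Pat.mk 0x80000000f00000000000000000000000400000000 0x80000000f000000180000001c0000001c00000014 5 5) 0 0 (step_sound _ 99 [(rhe25b0a99195a5d59.shift 0 3), (rhebbfc1325fb53d6f.shift 2 0)] (by decide +kernel))
noncomputable def rhf3b3b9c529362382 : CRef := CRef.mk (Pat.mk 0x90000000a000000020000000a 0x3d0000001f0000000a0000000a0000000a 5 6) 0 0 (step_sound _ 97 [rh50fbb5868c909700, rhc1b756b20d90b0db] (by decide +kernel))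
noncomputable def rhea9bcd8b661c6e9e : CRef := CRef.mk (Pat.mk 0x18000000020000000200000002 0x50000000f0000001f000000030000000200000002 5 5) 0 0 (step_sound _ 97 [rh0102e0f3a8fa944d, rh32019bf1263c37aa, rh769c8bac0b178383] (by decide +kernel))
noncomputable def rh01d4e63a6e395e69 : CRef := CRef.mk (Pat.mk 0xc00000008000000080000000000000000 0x140000001f00000038000000080000000800000008 5 6) 0 0 (step_sound _ 35 [(rh50fbb5868c909700.shift 2 1), rhc3aca83855756cc0] (by decide +kernel))
noncomputable def rhaa1e1ecb861571c4 : CRef := CRef.mk (Pat.mk 0x200000002000000030000000f00000000 0x4000000060000001e0000001b0000000f0000000a 5 5) 0 0 (step_sound _ 130 [(rh2f68792b6b779e96.shift 1 1), rhf3172806ed7dd528] (by decide +kernel))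
noncomputable def rhf7ca9a20620bd109 : CRef := CRef.mk (Pat.mk 0xe0000001c00000000 0x1000000010000000770000007e0000001c00000008 5 7) 0 0 (step_sound _ 68 [(rh5ba2d67652840f34.shift 1 0), (rh771383521b68d2cd.shift 0 1), (rhb18e6c78a554867d.shift 0 2)] (by decide +kernel))
noncomputable def rh3bc20d0d8c73da06 : CRef := CRef.mk (Pat.mk 0x1e0000000000000000 0x800000008000000380000001f0000003000000010 5 6) 0 0 (step_sound _ 100 [(rh33e738c4ed385b9f.shift 1 2), rhd9f8fdeeb50c6416] (by decide +kernel))
noncomputable def rhe4d8e8c38dd73ba8 : CRef := CRef.mk (Pat.mk 0x20000001c00000000 0x730000003e00000070 5 7) 0 0 (step_sound _ 33 [(rh3244c3cc8379b070.shift 0 1), (rh3fc3a7fb6866dcd4.shift 1 0)] (by decide +kernel))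
noncomputable def rh9868f44c31664a05 : CRef := CRef.mk (Pat.mk 0x1000000010000000020000001a00000000 0x1000000030000000630000003e00000070 5 7) 0 0 (step_sound _ 34 [(rh3244c3cc8379b070.shift 0 1), (rh59810ecc3e5f50ca.shift 1 0)] (by decide +kernel))
noncomputable def rhab1e9a388e2af6b5 : CRef := CRef.mk (Pat.mk 0x12000000060000000200000000 0x10000000300000007000000070000001e000000060000000600000006 5 5) 0 0 (step_sound _ 129 [(rh0fa4a62bba50784f.shift 0 1), rhc465be9a3d567854, (rhd4b4beefcd67f51e.shift 1 0)] (by decide +kernel))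
noncomputable def rhb61ade19d028b468 : CRef := CRef.mk (Pat.mk 0x400000003800000000 0x600000003e00000077 5 7) 0 0 (step_sound _ 34 [rh185f35b8bd8ec37f, (rh428265de8cd3cd2d.shift 2 1)] (by decide +kernel))
noncomputable def rhb5e6a98109a9b5ea : CRef := CRef.mk (Pat.mk 0x20000000200000002000000120000000000000000 0x20000000200000002000000060000001f0000000700000001 5 5) 0 0 (step_sound _ 66 [(rh55afc6a59410cf00.shift 1 1), rhcc44d1240f53ff0e] (by decide +kernel))
noncomputable def rh8a66c70e99060d28 : CRef := CRef.mk (Pat.mk 0x1c0000000a000000180000001800000000 0x1f0000001b0000001c000000f800000020 5 8) 0 0 (step_sound _ 129 [rh99b66b92c21482f2, (rheb0810cc63b001d8.shift 0 3)] (by decide +kernel))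
noncomputable def rh20a0bdb31b813615 : CRef := CRef.mk (Pat.mk 0x70000000c0000000400000000 0xa0000000e0000001e000000070000000c0000000c00000008 5 5) 0 0 (step_sound _ 130 [(rh1741680720c097b4.shift 1 1), (rh4017de503635a93b.shift 0 1), (rhd4b4beefcd67f51e.shift 2 0)] (by decide +kernel))
noncomputable def rh03354fd015c4947c : CRef := CRef.mk (Pat.mk 0x4000000050000000c00000004 0xa0000001e0000000f0000003c00000004 5 6) 0 0 (step_sound _ 99 [(rh2f68792b6b779e96.shift 2 0), rh94ffb916e592b6c3] (by decide +kernel))
noncomputable def rh018f2ebb4d91ad9d : CRef := CRef.mk (Pat.mk 0x80000000a0000000800000008 0x140000001f0000003b0000000800000008 5 6) 0 0 (step_sound _ 100 [(rh2f68792b6b779e96.shift 3 0), rhe1987058c8485c44] (by decide +kernel))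
noncomputable def rhe7c2a9d3be385c54 : CRef := CRef.mk (Pat.mk 0xe00000005000000080000000000000000 0x100000001f0000003f000000080000000800000008 5 6) 0 0 (step_sound _ 132 [(rh80fcd6d0a18cb2dd.shift 0 3), rha1920a98703bd265] (by decide +kernel))
noncomputable def rhc90d14536b0e2c99 : CRef := CRef.mk (Pat.mk 0x4000000070000000400000000 0xa0000000e0000000e00000004000000070000001e0000000a 5 5) 0 0 (step_sound _ 130 [rhb379f99078aafa2d, (rhc85cc95794737cf7.shift 1 1)] (by decide +kernel))
noncomputable def rhd26eb82db38c1cb9 : CRef := CRef.mk (Pat.mk 0x18000000180000000c0000000400000000 0x70000001f0000001c0000000c0000000c00000008 5 5) 0 0 (step_sound _ 35 [(rh71222050f2c63a3a.shift 3 0), (rhf3f3bfc6f0b9eef2.shift 0 1)] (by decide +kernel))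
noncomputable def rh23d0e80c801fc3e0 : CRef := CRef.mk (Pat.mk 0x800000004000000040000000400000000 0xa0000003e00000007000000040000000400000004 5 6) 0 0 (step_sound _ 130 [(rh2f68792b6b779e96.shift 2 1), rhbf917515d9aa5742] (by decide +kernel))
noncomputable def rhf149b0c20b930719 : CRef := CRef.mk (Pat.mk 0x400000004000000040000000400000000 0xa0000000f0000003c000000040000000400000004 5 6) 0 0 (step_sound _ 131 [(rh2f68792b6b779e96.shift 2 1), rhecf4cf49642b1cf9] (by decide +kernel))
noncomputable def rh6f46c8c7545a9c5a : CRef := CRef.mk (Pat.mk 0x80000000e0000000c0000000400000000 0x6000000060000000f0000003e0000000c0000000c00000008 5 6) 0 0 (step_sound _ 130 [rh01b4f03c98ec0d0c, (rh3cb04db3dd2b6a55.shift 2 0), (rh7b9fbdf6d2d059e4.shift 1 1)] (by decide +kernel))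
noncomputable def rhb1c911ea4890cab0 : CRef := CRef.mk (Pat.mk 0xf0000000d0000000000000000 0x200000002000000770000007f0000000d0000000400000004 5 7) 0 0 (step_sound _ 129 [(rh546551bfa61a8651.shift 0 2), rhf71cb1a94bedb48c] (by decide +kernel))
noncomputable def rh3fae8e67c4c70b95 : CRef := CRef.mk (Pat.mk 0x10000001c00000000 0x730000003e00000070 5 7) 0 0 (step_sound _ 33 [(rh3f8766e6ecb455ce.shift 0 1), (rha93a5dd541ab8209.shift 1 0)] (by decide +kernel))
noncomputable def rha76c508c88edc1d4 : CRef := CRef.mk (Pat.mk 0x100000000a000000180000000800000000 0xc0000001f0000003b000000180000001800000010 5 6) 0 0 (step_sound _ 131 [(rhd4b4beefcd67f51e.shift 3 0), (rhe1987058c8485c44.shift 0 1)] (by decide +kernel))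
noncomputable def rh513d89344b0c09b5 : CRef := CRef.mk (Pat.mk 0x8000000090000000c0000000800000000 0x10000000180000007f0000000e0000000800000008 5 7) 0 0 (step_sound _ 132 [rh1b12056b68d79b76, (rh2f68792b6b779e96.shift 3 1)] (by decide +kernel))
noncomputable def rhab3c3f3ae8c9664f : CRef := CRef.mk (Pat.mk 0x400000004000000060000000400000000 0xa0000000f0000003c000000060000000400000004 5 6) 0 0 (step_sound _ 131 [(rh2f68792b6b779e96.shift 2 1), rhf177511f2b266add] (by decide +kernel))
noncomputable def rha0f541aa9ffae9a1 : CRef := CRef.mk (Pat.mk 0x3800000004 0x770000003e00000006 5 7) 0 0 (step_sound _ 34 [(rh4c622fddc53a5f99.shift 0 1), (rheb0810cc63b001d8.shift 1 0)] (by decide +kernel))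
noncomputable def rh97a9719e5c1a9b46 : CRef := CRef.mk (Pat.mk 0x28000000080000000c 0x140000001c0000001f0000007c0000000c0000000c 5 7) 0 0 (step_sound _ 99 [(rh1741680720c097b4.shift 2 0), rh7430a052bcb4bacd, (rh9a369cb82ea472da.shift 2 0), (rhe62cab2ff5ad6fe2.shift 2 0)] (by decide +kernel))
noncomputable def rh964b41f82b4d0128 : CRef := CRef.mk (Pat.mk 0x80000000a000000030000000400000004 0x1f0000007e000000030000000600000004 5 7) 0 0 (step_sound _ 129 [(rh8cfb8aa8cb1cd88d.shift 0 2), (rhbe0e43a3bc50a43f.shift 1 0)] (by decide +kernel))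
noncomputable def rh5c15b439721bff2f : CRef := CRef.mk (Pat.mk 0x1c0000000400000006 0xa0000000e0000000f0000001c0000000600000006 5 5) 0 0 (step_sound _ 98 [rh039efe07c35de3d4, (rh1741680720c097b4.shift 1 0), (rh9a369cb82ea472da.shift 1 0), (rhe62cab2ff5ad6fe2.shift 1 0)] (by decide +kernel))
noncomputable def rha21ba809ddf0db48 : CRef := CRef.mk (Pat.mk 0x1000000012000000180000001800000000 0xc0000001f0000001b000000180000001800000010 5 5) 0 0 (step_sound _ 131 [rh27a7c77b643159b5, (rh50fbb5868c909700.shift 3 1)] (by decide +kernel))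
noncomputable def rh571913d8bec9001e : CRef := CRef.mk (Pat.mk 0x1000000012000000180000001800000000 0xc0000001e0000003b000000180000001800000010 5 6) 0 0 (step_sound _ 131 [(rh50fbb5868c909700.shift 3 1), rhe803077baa34fee7] (by decide +kernel))
noncomputable def rh2917d85608816fec : CRef := CRef.mk (Pat.mk 0x10000000120000001800000018 0x2e0000003e0000003b0000001800000018 5 6) 0 0 (step_sound _ 99 [(rh50fbb5868c909700.shift 3 0), rh648d16b90d93ef2d] (by decide +kernel))
noncomputable def rh4754eb9e03911ec2 : CRef := CRef.mk (Pat.mk 0x400000004000000060000000400000000 0x80000000c0000003e0000000f0000000400000004 5 6) 0 0 (step_sound _ 131 [(rh2f68792b6b779e96.shift 2 1), rh40cd5211ce5962b9] (by decide +kernel))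
noncomputable def rhd1437b8d9579c1d5 : CRef := CRef.mk (Pat.mk 0x800000018000000080000000900000000 0xc0000000c0000000c00000018000000180000000f00000004 5 5) 0 0 (step_sound _ 34 [(rh932754581e0f4330.shift 2 0), (rh958767eca8995a60.shift 0 1)] (by decide +kernel))
noncomputable def rh011e46707c247443 : CRef := CRef.mk (Pat.mk 0x1800000008000000090000000000000000 0x1800000018000000080000001f0000001c00000010 5 5) 0 0 (step_sound _ 35 [(rh2f68792b6b779e96.shift 3 1), rh735ac9cd7f9b3cee] (by decide +kernel))
noncomputable def rhacb2f6a0fb3324d3 : CRef := CRef.mk (Pat.mk 0x80000000b0000000800000000 0x140000001c0000001c000000080000001b0000001e00000014 5 5) 0 0 (step_sound _ 131 [rh5045a7dd3c2710bf, (rh5abfc4c9d959be03.shift 2 0), (rhc85cc95794737cf7.shift 2 1)] (by decide +kernel))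
noncomputable def rh6a8c38e4a89118a3 : CRef := CRef.mk (Pat.mk 0x600000007000000010000000000000000 0x400000004000000060000003f0000003f0000000800000008 5 6) 0 0 (step_sound _ 99 [rh84970c2ccb9fe470, (rh87ee923877636e52.shift 0 2), (rhb0463dbec37421a0.shift 0 2)] (by decide +kernel))
noncomputable def rh023b822999d62a59 : CRef := CRef.mk (Pat.mk 0x14000000060000000200000000 0x2000000030000003e000000070000000600000004 5 6) 0 0 (step_sound _ 99 [(rh18965a982d73c794.shift 1 2), rhf447a2a4bfcfcd1c] (by decide +kernel))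
noncomputable def rhfe0c69b4a9db9a64 : CRef := CRef.mk (Pat.mk 0xf0000000b0000000000000000 0xc0000001c0000000f0000000f0000001c0000001c 5 5) 0 0 (step_sound _ 131 [(rh33e738c4ed385b9f.shift 0 3), rhf16732e988b907a8] (by decide +kernel))
noncomputable def rh3a0b09fe1f516022 : CRef := CRef.mk (Pat.mk 0x100000001e00000000000000000000000000000000 0x10000000100000001f00000038000000180000000800000008 5 6) 0 0 (step_sound _ 100 [rhae2b80f9ef48c322, (rhe25b0a99195a5d59.shift 1 3)] (by decide +kernel))
noncomputable def rhc5ae37f539ff23ce : CRef := CRef.mk (Pat.mk 0x80000000b0000000800000000 0x140000001c0000001c000000080000000b0000001e00000014 5 5) 0 0 (step_sound _ 131 [rh5045a7dd3c2710bf, (rhc85cc95794737cf7.shift 2 1)] (by decide +kernel))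
noncomputable def rh68dfd07eb134e91c : CRef := CRef.mk (Pat.mk 0x400000004000000060000001e00000000 0x80000000c0000000c0000003e0000001f00000030 5 6) 0 0 (step_sound _ 68 [rh001ba6edccc1d761, (rh33e738c4ed385b9f.shift 1 1)] (by decide +kernel))
noncomputable def rh31af5fe07e2f2999 : CRef := CRef.mk (Pat.mk 0x80000000800000009000000000000000000000000 0x1800000018000000180000000f0000001c0000001c00000014 5 5) 0 0 (step_sound _ 67 [(rh6c59ce14113da07f.shift 3 0), (rh8cdd36b03d57a2f6.shift 2 0), (rhb23a1b9289967029.shift 0 1), (rhcab3157f7bdcba3e.shift 2 0)] (by decide +kernel))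
noncomputable def rha59571ef3a5e3ace : CRef := CRef.mk (Pat.mk 0x80000000b0000000900000000 0x140000001c0000001c000000080000001b0000001f00000004 5 5) 0 0 (step_sound _ 131 [rh614d49646b6cfdb1, (rhc85cc95794737cf7.shift 2 1)] (by decide +kernel))
noncomputable def rh92bac075817e2a53 : CRef := CRef.mk (Pat.mk 0x200000002000000020000000000000000 0x500000007000000070000000600000006000000060000000600000004 5 3) 0 0 (step_sound _ 161 [(rh5abfc4c9d959be03.shift 0 1), (rh6c59ce14113da07f.shift 1 0), (rhc85cc95794737cf7.shift 0 2)] (by decide +kernel))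
end Crest.Agent.S0047.Helper85.Cert
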