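import Crest.Agent.Lib.S0047.Helper85CertPL4F0
import Crest.Agent.Lib.S0047.Helper85CertPL4F1
import Crest.Agent.Lib.S0047.Helper85CertPL4F2
import Crest.Agent.Lib.S0047.Helper85CertPL4F3
import Crest.Agent.Lib.S0047.Helper85CertPL4F4
import Crest.Agent.Lib.S0047.Helper85CertPL4F5
import Crest.Agent.Lib.S0047.Helper85CertPL4F6
import Crest.Agent.Lib.S0047.Helper85CertPL4F7
import Crest.Agent.Lib.S0047.Helper85CertPL4F8
import Crest.Agent.Lib.S0047.Helper85CertPL4F9
set_option autoImplicit false
set_option linter.all false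
set_option Elab.async false
namespace Crest.Agent.S0047.Helper85.Cert
open Crest.Agent.S0047.Helper85

noncomputable def rh85d44ddb1335ccf9 : CRef := CRef.mk (Pat.mk 0x80000000c0000000c000000080000000000000000 0x80000000c0000001f000000780000001800000008 5 7) 0 0 (step_sound _ 3 [(rh9e07f76261b05888.shift 2 0), (rhcc2a2baa9246395a.shift 0 1)] (by decide +kernel))
noncomputable def rhae0eadd6a828794d : CRef := CRef.mk (Pat.mk 0x80000000c0000000e000000000000000000000000 0x80000007c0000007e000000730000001000000010 5 7) 0 0 (step_sound _ 100 [rh2588bdc66826497d, (rh4c40641a327d7ac1.shift 0 2), (rhd132b680030c88e0.shift 1 0), (rhf2abb75b3aff7e41.shift 0 2)] (by decide +kernel))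
noncomputable def rhd8166535c5c39ccd : CRef := CRef.mk (Pat.mk 0x70000000a 0x770000003f0000001b 5 7) 0 0 (step_sound _ 35 [rh5024bbfb5139b661, rhe25b0a99195a5d59] (by decide +kernel))
noncomputable def rh3032f123a1431b2c : CRef := CRef.mk (Pat.mk 0xf00000005000000000000000000000000 0x40000001f0000001f000000180000000800000008 5 5) 0 0 (step_sound _ 97 [(rh18965a982d73c794.shift 0 3), rhaf75a02a061d2a76] (by decide +kernel))
noncomputable def rhaec9b4a684e33dad : CRef := CRef.mk (Pat.mk 0x1e0000001a000000000000000000000000 0x1c0000001e0000001e000000330000003200000032 5 6) 0 0 (step_sound _ 68 [rh1440f6a1c37c6417, (rh3cb04db3dd2b6a55.shift 3 0), (rhd0586f4207c2eb43.shift 1 0)] (by decide +kernel))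
noncomputable def rh93eea68832ce7ef3 : CRef := CRef.mk (Pat.mk 0xf00000000 0x770000003f00000038 5 7) 0 0 (step_sound _ 4 [rh013c5c2c65d99331, rh96851dee118c1ba3] (by decide +kernel))
noncomputable def rhc91adf9cd6014113 : CRef := CRef.mk (Pat.mk 0x1e00000008 0x70000007e000000ec 5 8) 0 0 (step_sound _ 65 [(rh3244c3cc8379b070.shift 0 1), (rhb7a1be4bf1a195cd.shift 1 0)] (by decide +kernel))
noncomputable def rh20879249aee603a7 : CRef := CRef.mk (Pat.mk 0x1e00000018000000000000000000000000 0x80000003e0000001f000000300000001000000010 5 6) 0 0 (step_sound _ 97 [(rhad39400aef642b1a.shift 1 0), (rheb0810cc63b001d8.shift 0 3)] (by decide +kernel))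
noncomputable def rhbb10fae47190fd12 : CRef := CRef.mk (Pat.mk 0x20000000080000003800000000 0x140000001c0000001c0000007c0000000f0000007800000010 5 7) 0 0 (step_sound _ 99 [(rhb58229aca62af055.shift 0 1), (rhc0f6fe06378683f4.shift 2 0)] (by decide +kernel))
noncomputable def rh284acd68e1455db8 : CRef := CRef.mk (Pat.mk 0x200000000800000038000000000000000000000000 0x10000000140000001c0000007c0000000f000000780000000c0000000c00000004 5 7) 0 0 (step_sound _ 163 [(rhaee7c0b4dc7f00e5.shift 0 2), (rhb58229aca62af055.shift 0 3), (rhde6fff11caf69db9.shift 2 1), (rhe0e0d8cb0893308b.shift 2 1), (rhfb1d1bd408268d13.shift 2 0)] (by decide +kernel))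
noncomputable def rh7f4f3b3709f12f9e : CRef := CRef.mk (Pat.mk 0x1000000070000000d000000000000000000000000 0x1000000050000001f0000000f0000001a0000000a00000008 5 5) 0 0 (step_sound _ 97 [(rh55a1f6c57a317ce6.shift 0 1), rhe7d1749390aefb37] (by decide +kernel))
noncomputable def rhb0e215e2c57e59d5 : CRef := CRef.mk (Pat.mk 0x80000000800000038000000600000000000000000 0x40000000c0000000c000000380000007f0000001c00000014 5 7) 0 0 (step_sound _ 67 [(rh35b80a50a4320679.shift 2 0), (rh46baee19951a66e7.shift 2 0), (rh6aa5625770489e83.shift 2 0), (rh852e818bc8629e77.shift 0 1)] (by decide +kernel))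
noncomputable def rhbc53e3ffe2f7990b : CRef := CRef.mk (Pat.mk 0x800000008000000280000006000000000 0x10000000100000005e0000007c0000006f000000280000006800000040 5 7) 0 0 (step_sound _ 132 [(rh215e11e099257d75.shift 3 1), rh58701f9c88ced17a, rhcfbb1427570203d3] (by decide +kernel))
noncomputable def rh65059e7eb071aab3 : CRef := CRef.mk (Pat.mk 0x20000000e000000180000000000000000 0x2000000030000003e0000001f0000000400000004 5 6) 0 0 (step_sound _ 100 [(rh3244c3cc8379b070.shift 0 3), rh3e236db47208617e] (by decide +kernel))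
noncomputable def rhdefbcbcad06b6930 : CRef := CRef.mk (Pat.mk 0x20000000f000000050000000000000000 0x60000007f000000fd0000000100000001 5 8) 0 0 (step_sound _ 100 [(rh4ad5fc38f1b69f65.shift 0 2), (rhb4564b24112592e6.shift 1 2), rhc248c217f0e36a02, rhc5f2fff7554e4d8d] (by decide +kernel))
noncomputable def rh937ad9fbf50cc57c : CRef := CRef.mk (Pat.mk 0x7800000028000000000000000000000000 0x10000000f8000000780000001f0000000800000008 5 8) 0 0 (step_sound _ 100 [rh02be1d4bf3af3399, (rh18965a982d73c794.shift 3 3)] (by decide +kernel))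
noncomputable def rh2978bb0fc374a9fa : CRef := CRef.mk (Pat.mk 0xe00000002 0xe70000007e000000e3 5 8) 0 0 (step_sound _ 36 [rhdc173edb4e3fed61, rheb0810cc63b001d8] (by decide +kernel))
noncomputable def rhf5cd5ed2d3628365 : CRef := CRef.mk (Pat.mk 0x1c0000001c000000080000000000000000 0x140000001c0000001c0000001c0000000f0000000600000004 5 5) 0 0 (step_sound _ 162 [(rh2145e1d24b96a57e.shift 2 2), rha378ba2cf184f257] (by decide +kernel))
noncomputable def rh3bfb0fdc25ca110b : CRef := CRef.mk (Pat.mk 0x80000000e0000001c000000000000000000000000 0x80000001e0000001e000000370000001600000016 5 6) 0 0 (step_sound _ 34 [rh660dde97e8909aac, (rh9e3edb185cc347de.shift 2 1)] (by decide +kernel))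
noncomputable def rhd6bab1851e5977f0 : CRef := CRef.mk (Pat.mk 0x80000000e0000001c000000000000000000000000 0xc0000001e0000001e000000370000001600000012 5 6) 0 0 (step_sound _ 66 [rh54d240e4509addaa, (rh71222050f2c63a3a.shift 2 1)] (by decide +kernel))
noncomputable def rh40f8e8b5f56cd1be : CRef := CRef.mk (Pat.mk 0x18000000380000000800000000 0x180000001800000018000000180000003c0000000f00000004 5 6) 0 0 (step_sound _ 164 [rhd5da675c512c9dd2, (rhee230b994cc8b773.shift 3 1)] (by decide +kernel))
noncomputable def rhfce44e8cfecd8ce3 : CRef := CRef.mk (Pat.mk 0x1e0000001c000000000000000000000000 0xf0000001e0000001e000000330000001200000012 5 6) 0 0 (step_sound _ 161 [(rh3244c3cc8379b070.shift 0 4), rh5efc4642d5ccaf9f] (by decide +kernel))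
noncomputable def rhed1291630a3c2150 : CRef := CRef.mk (Pat.mk 0xe0000000c00000004 0xc0000000e0000000f0000003e0000000c00000004 5 6) 0 0 (step_sound _ 131 [rh38f9cf8822013590, (rhee230b994cc8b773.shift 2 0)] (by decide +kernel))
noncomputable def rh74faa3e7c5acb94b : CRef := CRef.mk (Pat.mk 0x10000000f0000000800000000 0x18000000180000001f0000001f0000000c00000004 5 5) 0 0 (step_sound _ 97 [rh98c86f3947f6fc11, (rhf48373e13d2bc128.shift 0 2)] (by decide +kernel))
noncomputable def rh3208b9014032d311 : CRef := CRef.mk (Pat.mk 0x1000000010000000180000001800000000 0xc0000001f00000038000000380000001f00000004 5 6) 0 0 (step_sound _ 131 [(rh50fbb5868c909700.shift 3 1), rh760c44bf54766813] (by decide +kernel))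
noncomputable def rhc9484602679c92e6 : CRef := CRef.mk (Pat.mk 0x2000000020000000300000002 0x500000007000000070000000600000006000000070000000700000002 5 3) 0 0 (step_sound _ 129 [(rh44f453b84f013105.shift 1 0), rh89e99fed878badb7, (rhbf86953346e76381.shift 0 1)] (by decide +kernel))
noncomputable def rhb5f97b2e422b1431 : CRef := CRef.mk (Pat.mk 0x80000001e000000080000000000000000 0x80000003e0000003f0000003000000010 5 6) 0 0 (step_sound _ 65 [(rh7c146080ac4b395d.shift 1 0), (rheb0810cc63b001d8.shift 0 2)] (by decide +kernel))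
noncomputable def rh910e19ca439968c3 : CRef := CRef.mk (Pat.mk 0x80000001e00000018000000000000000000000000 0xc0000001e0000001f000000330000001200000002 5 6) 0 0 (step_sound _ 97 [rh73cecff95910b939, (rheb0810cc63b001d8.shift 0 3)] (by decide +kernel))
noncomputable def rhf8eb8f3224a7a442 : CRef := CRef.mk (Pat.mk 0x80000001e00000008 0x1c000000fe0000001f 5 8) 0 0 (step_sound _ 1 [(rhcc0e8234260e74db.shift 1 0), rheb0810cc63b001d8] (by decide +kernel))
noncomputable def rhf8f9e2d01472be99 : CRef := CRef.mk (Pat.mk 0x80000001e00000000 0xc0000007e000000e7 5 8) 0 0 (step_sound _ 1 [(rh56ac227ed93e46c3.shift 1 0), rheb0810cc63b001d8] (by decide +kernel))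
noncomputable def rh956ae7015b4d5c0d : CRef := CRef.mk (Pat.mk 0x80000001e00000008 0xc0000007e0000007f 5 7) 0 0 (step_sound _ 0 [(rh5f68d4d802450994.shift 1 0), rh80fcd6d0a18cb2dd] (by decide +kernel))
noncomputable def rh41795b35765d30c6 : CRef := CRef.mk (Pat.mk 0x1e0000000a000000000000000000000000 0x40000003e0000003e000000030000000200000002 5 6) 0 0 (step_sound _ 98 [(rh18965a982d73c794.shift 1 3), rh39b36e93b258e604] (by decide +kernel))
noncomputable def rh62e5d0336e2cee85 : CRef := CRef.mk (Pat.mk 0x2e00000038000000000000000000000000 0x10000000100000003c0000007c0000002e000000380000001f0000001c00000010 5 7) 0 0 (step_sound _ 163 [(rh4bcb18fc14cd73eb.shift 0 1), (rh51fd590aec06bc9d.shift 1 1), (rha768b229dc254047.shift 3 0), (rhae0e0f7205b8bdf3.shift 1 2)] (by decide +kernel))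
noncomputable def rh362ef3d1879ae226 : CRef := CRef.mk (Pat.mk 0x200000003000000020000000200000000 0x400000007000000070000000300000003000000030000000300000001 5 3) 0 0 (step_sound _ 0 [rh79877ebd3ef475dd, (rhc9aa0ffe37bb1c1d.shift 0 1)] (by decide +kernel))
noncomputable def rh8fd66ecbb66aee6b : CRef := CRef.mk (Pat.mk 0x80000000c000000080000000800000000 0x140000003c0000000f000000080000001800000010 5 6) 0 0 (step_sound _ 4 [(rh20ee5c2c4c3a9878.shift 0 1), (rhd3458b32566d63f7.shift 3 0)] (by decide +kernel))
noncomputable def rha8fb926999302092 : CRef := CRef.mk (Pat.mk 0x20000000300000002000000020000000000000000 0x600000006000000060000000300000003000000030000000300000003 5 3) 0 0 (step_sound _ 32 [(rh79877ebd3ef475dd.shift 0 1), rhfdb386ce312ae9a9] (by decide +kernel))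
noncomputable def rh8426b03b42bea125 : CRef := CRef.mk (Pat.mk 0xe00000002 0x700000003e00000037 5 7) 0 0 (step_sound _ 36 [(rh47386f791a2c91d7.shift 1 0), rheb0810cc63b001d8] (by decide +kernel))
noncomputable def rhb1bb43842f0cc9de : CRef := CRef.mk (Pat.mk 0x10000000e0000000c00000000 0xe0000001e0000000f0000001e0000000c00000008 5 5) 0 0 (step_sound _ 97 [rh369aca71e8df09ed, (rhf48373e13d2bc128.shift 0 2)] (by decide +kernel))
noncomputable def rh0ef5b7710af8c0b2 : CRef := CRef.mk (Pat.mk 0x10000000100000003c0000001000000000 0x2c0000007f0000003e0000003c0000001800000008 5 7) 0 0 (step_sound _ 131 [(rh50fbb5868c909700.shift 3 1), rh69523421e4430802] (by decide +kernel))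
noncomputable def rh9934fa641d4e3332 : CRef := CRef.mk (Pat.mk 0xc000000000000001e000000080000000000000000 0x1000000370000003e000000170000001e0000000c0000000400000004 5 6) 0 0 (step_sound _ 129 [rh0e472643444e3d82, (rh3244c3cc8379b070.shift 0 3)] (by decide +kernel))
noncomputable def rh6ee007921ad5e8b6 : CRef := CRef.mk (Pat.mk 0x18000000000000003c00000010 0x770000007e0000002f0000003c00000078 5 7) 0 0 (step_sound _ 101 [(rh028ee1d4f57afa94.shift 1 0), (rh16dbd004250b0dd9.shift 2 0), (rh23f227f105ceae39.shift 1 0), rhafaee7bc4e422d7c] (by decide +kernel))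
noncomputable def rhe475e6d81b4fa4b9 : CRef := CRef.mk (Pat.mk 0x18000000000000003c00000010 0x3f0000007c000000280000003c00000070 5 7) 0 0 (step_sound _ 131 [rh4b5aa664d568093a, (rhff0f29cb645b05f7.shift 3 0)] (by decide +kernel))
noncomputable def rh7bffeb91e03c2636 : CRef := CRef.mk (Pat.mk 0x30000000000000007800000020 0x4000001ff0000007e0000004f0000007800000030 5 9) 0 0 (step_sound _ 99 [(rh00999f7121ea5768.shift 1 0), rh203048e9d2f96cb1, (rh3e6d992280b05da2.shift 0 1), (rh653139d4cf0d2543.shift 1 0), (rh6c24bfbc6e221dd9.shift 2 0)] (by decide +kernel))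
noncomputable def rh4b870bee8a6107e8 : CRef := CRef.mk (Pat.mk 0xc000000000000001e000000080000000000000000 0xc0000000e000000070000001e0000000c0000000400000004 5 5) 0 0 (step_sound _ 129 [(rh015b72ac109324f3.shift 1 0), (rh3244c3cc8379b070.shift 0 3)] (by decide +kernel))
noncomputable def rh93cc13137627940f : CRef := CRef.mk (Pat.mk 0xc000000000000001e00000008 0x1c0000003c000000170000001e00000038 5 6) 0 0 (step_sound _ 4 [rhae253e840741eb84, (rhe25b0a99195a5d59.shift 1 0)] (by decide +kernel))
noncomputable def rh59c200cf8f8dec3d : CRef := CRef.mk (Pat.mk 0x8000000080000001e00000008 0x180000001c0000001c0000001f0000001e00000008 5 5) 0 0 (step_sound _ 64 [(rh3f8766e6ecb455ce.shift 0 1), (rhc0b2cf33c02b03eb.shift 2 0)] (by decide +kernel))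
noncomputable def rha3494eb53bee01dd : CRef := CRef.mk (Pat.mk 0x20000000e00000000 0x70000003e00000073 5 7) 0 0 (step_sound _ 36 [rh31905c9abd083ad2, (rh3244c3cc8379b070.shift 0 1)] (by decide +kernel))
noncomputable def rh4e2d1832b66c1f8c : CRef := CRef.mk (Pat.mk 0x80000001000000018000000100000000000000000 0x40000001f0000007c00000018000000180000001800000008 5 7) 0 0 (step_sound _ 131 [rh35d364533695abf1, (rh7b1f1fb55310c477.shift 3 1)] (by decide +kernel))
noncomputable def rh38a267084443bec7 : CRef := CRef.mk (Pat.mk 0x80000000c0000002c000000200000000000000000 0x100000007c0000002f0000002c000000280000000800000008 5 7) 0 0 (step_sound _ 164 [(rh8379dda7bed67b0f.shift 2 0), (rhd69c262cd33b94b3.shift 0 4), (rhfd6673c3da02e035.shift 0 2)] (by decide +kernel))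
noncomputable def rh4ed7978f14315a7a : CRef := CRef.mk (Pat.mk 0x2000000030000000b00000008 0x6000000060000001e0000000b0000000b0000000a 5 5) 0 0 (step_sound _ 129 [(rh5c5e593799055d58.shift 0 1), rh7de4028f69864aee] (by decide +kernel))
noncomputable def rh8f027d7bef68c27d : CRef := CRef.mk (Pat.mk 0x18000000180000005000000040 0x200000002000000077000000ff000000df0000005000000040 5 8) 0 0 (step_sound _ 101 [(rh278d04e89480acf0.shift 0 1), (rh4dc133ee0ba1420a.shift 1 2), (rh6e36e895ce1a35fe.shift 3 0)] (by decide +kernel))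
noncomputable def rh27c9106f6babc842 : CRef := CRef.mk (Pat.mk 0xc0000000c000000080000000000000000 0x100000003c0000000f000000080000000c0000000c 5 6) 0 0 (step_sound _ 35 [(rh7b1f1fb55310c477.shift 2 0), rhe9a6f79979c06978] (by decide +kernel))
noncomputable def rh80b578288da15354 : CRef := CRef.mk (Pat.mk 0x1800000018000000500000004000000000 0xc0000002c000000ff000000df0000005f0000004c00000008 5 8) 0 0 (step_sound _ 97 [(rh6d571b54e8dd9e33.shift 0 3), rhc16a89e8483c31ca, (rhfab5c93b60bffbf2.shift 1 1)] (by decide +kernel))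
noncomputable def rh1ef0fd2ac09a778d : CRef := CRef.mk (Pat.mk 0xc0000000c0000000800000000 0x1c0000003c0000000f0000000c0000000c00000004 5 6) 0 0 (step_sound _ 130 [(rh2145e1d24b96a57e.shift 2 1), rhad08522259e87e33] (by decide +kernel))
noncomputable def rh0d27ced009cad5ca : CRef := CRef.mk (Pat.mk 0x300000003000000020000000000000000 0x600000006000000060000000300000003000000030000000300000003 5 3) 0 0 (step_sound _ 33 [rh7b1f1fb55310c477, rh89367553d89737a0] (by decide +kernel))
noncomputable def rh4f146cf39bfe9c16 : CRef := CRef.mk (Pat.mk 0x400000016000000100000000000000000 0x4000000070000001e000000330000000200000002 5 6) 0 0 (step_sound _ 99 [rh4f129d8f37c2c70a, (rhe25b0a99195a5d59.shift 1 2)] (by decide +kernel))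
noncomputable def rh85ca26a3b9b8b6cb : CRef := CRef.mk (Pat.mk 0x80000002c00000020 0x380000003f00000067 5 7) 0 0 (step_sound _ 36 [rh1efbca428b37b99e, (rhe25b0a99195a5d59.shift 2 0)] (by decide +kernel))
noncomputable def rh870281ab139b9053 : CRef := CRef.mk (Pat.mk 0x1800000058000000480000000000000000 0x20000000e4000000ff0000005f000000480000000800000008 5 8) 0 0 (step_sound _ 133 [rh443beb14aac0b25e, (rh4dc133ee0ba1420a.shift 1 3), (rh928219def897e275.shift 2 2)] (by decide +kernel))
noncomputable def rha34bd16ba30bb185 : CRef := CRef.mk (Pat.mk 0x18000000180000000800000000 0xc0000000f0000007c000000180000001800000010 5 7) 0 0 (step_sound _ 131 [(rh55a1f6c57a317ce6.shift 3 0), (rhca405e350c462817.shift 0 1)] (by decide +kernel))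
noncomputable def rhb90c3e3de9811026 : CRef := CRef.mk (Pat.mk 0x8000000080000000c0000000400000000 0x4000000160000003f0000003f0000000f0000000e0000000a 5 6) 0 0 (step_sound _ 98 [rhad9e8d2ebfdbf25d, rhbe172af05515d347, rhf4f4ca8cb51f8632, rhf55e960decbfe488] (by decide +kernel))
noncomputable def rh9401f805ebdf32a4 : CRef := CRef.mk (Pat.mk 0x4000000040000001400000010 0xa0000000e0000000e00000004000000070000003e00000032 5 6) 0 0 (step_sound _ 130 [(rh20966da26a1c2ae8.shift 1 0), (rh565a0c22519f57e9.shift 1 0), rha336d587aa840e87, (rhc85cc95794737cf7.shift 1 1)] (by decide +kernel))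
noncomputable def rhe7d74c0e5d13bd40 : CRef := CRef.mk (Pat.mk 0x20000001a000000000000000000000000 0x4000000070000003e000000030000000200000002 5 6) 0 0 (step_sound _ 98 [(rh3244c3cc8379b070.shift 0 3), rh8fc6e84d6e407574] (by decide +kernel))
noncomputable def rh717a5ca21244e10e : CRef := CRef.mk (Pat.mk 0x2000000020000001a0000001800000000 0x5000000070000001f0000001e0000001a0000001e0000003b00000010 5 6) 0 0 (step_sound _ 161 [rh60f21f934ebb3440, (rhc85cc95794737cf7.shift 0 2), (rhe709585a84324703.shift 0 1)] (by decide +kernel))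
noncomputable def rhe8b4934e472993d6 : CRef := CRef.mk (Pat.mk 0x2000000020000001a0000001800000000 0x4000000040000001e0000001e0000001b0000001a0000001a00000010 5 5) 0 0 (step_sound _ 131 [rh46e83f217a7f2cd8, (rh6caf0255d24c06ec.shift 0 1), (rhda6cc5da102e1723.shift 3 0)] (by decide +kernel))
noncomputable def rhe7a5f9eb4b6a0715 : CRef := CRef.mk (Pat.mk 0x80000000c00000028000000200000000000000000 0x100000007c0000002f000000280000002c0000000c00000004 5 7) 0 0 (step_sound _ 164 [(rh953e410617738e80.shift 2 0), (rhd69c262cd33b94b3.shift 0 4), (rhfd6673c3da02e035.shift 0 2)] (by decide +kernel))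
noncomputable def rhec390ca0ae4dc666 : CRef := CRef.mk (Pat.mk 0x2000000020000001a000000000000000000000000 0x100000003000000030000001e000000030000000300000001 5 5) 0 0 (step_sound _ 65 [(rh0e2c3cfc624fc013.shift 0 1), (rh5710f30ba40ee3ec.shift 0 1), rh6aa5625770489e83] (by decide +kernel))
noncomputable def rh80545d60332f2fec : CRef := CRef.mk (Pat.mk 0x80000000800000008000000680000002000000000 0x40000002f0000007c0000002c00000078000000e000000040 5 8) 0 0 (step_sound _ 162 [(rh50fbb5868c909700.shift 2 2), rh78d994510be1b4ce] (by decide +kernel))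
noncomputable def rhf45225cee61080d2 : CRef := CRef.mk (Pat.mk 0x200000002000000020000001a 0x100000007000000070000000600000003000000030000001e 5 5) 0 0 (step_sound _ 130 [rh46ac2eeca16ffce3, (rhbaefcd01e0a8bca3.shift 1 0)] (by decide +kernel))
noncomputable def rha99a3a07ed47ab8d : CRef := CRef.mk (Pat.mk 0x200000002000000020000001a0000000800000000 0x40000001f0000003f0000001b0000001e0000003800000010 5 6) 0 0 (step_sound _ 132 [(rh540e099fa36a5ce9.shift 0 1), (rh8db3b1a0f6286d1a.shift 0 1), rhe724bc0d5763667a] (by decide +kernel))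
noncomputable def rh10b7907e281d6ef1 : CRef := CRef.mk (Pat.mk 0x200000002000000020000001a 0x400000007000000070000000300000003000000030000001e 5 5) 0 0 (step_sound _ 128 [rh91c8a5af03562901, rhffd04209dc8ea796] (by decide +kernel))
noncomputable def rh4f9fe315e4abf40b : CRef := CRef.mk (Pat.mk 0x2000000020000001a0000000000000000 0x50000000700000007000000020000001e0000000300000001 5 5) 0 0 (step_sound _ 33 [rh5710f30ba40ee3ec, (rhc85cc95794737cf7.shift 0 1)] (by decide +kernel))
noncomputable def rh6478298f3f21393e : CRef := CRef.mk (Pat.mk 0x2000000020000001e00000000 0x50000000700000007000000020000001e00000033 5 6) 0 0 (step_sound _ 1 [rh55471c9692a9a97a, rheb0810cc63b001d8] (by decide +kernel))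
noncomputable def rhb3783f572df1475f : CRef := CRef.mk (Pat.mk 0x80000000c000000340000000000000000 0x20000000f0000003c0000003c0000000600000006 5 6) 0 0 (step_sound _ 34 [(rh71222050f2c63a3a.shift 2 0), rhb314b49afda8e790] (by decide +kernel))
noncomputable def rhd7b56b4db0e6d390 : CRef := CRef.mk (Pat.mk 0x30000000c0000000400000000 0xe0000001e0000000f0000003c0000000c00000008 5 6) 0 0 (step_sound _ 98 [(rh4a0b10776449c3e9.shift 0 2), rh53e5c1cd464022b3] (by decide +kernel))
noncomputable def rh0f2ad82ddeefe864 : CRef := CRef.mk (Pat.mk 0x70000000c0000000400000000 0xe0000001e000000070000003c0000000c00000008 5 6) 0 0 (step_sound _ 130 [(rh112a25fc16b3b14b.shift 0 1), (rhd4b4beefcd67f51e.shift 2 0)] (by decide +kernel))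
noncomputable def rh087dc13f35ec4046 : CRef := CRef.mk (Pat.mk 0x4000000050000000c00000004 0xa0000001e0000000f0000003c00000004 5 6) 0 0 (step_sound _ 97 [(rh50fbb5868c909700.shift 1 0), rh83d699e7f28c6ad8] (by decide +kernel))
noncomputable def rhfe2f5f0e94653451 : CRef := CRef.mk (Pat.mk 0x10000000140000001400000010 0x2b0000003e000000360000001400000014 5 6) 0 0 (step_sound _ 99 [rh3e5bd007386cac85, (rh50fbb5868c909700.shift 3 0)] (by decide +kernel))
noncomputable def rh971ac14144b5c87b : CRef := CRef.mk (Pat.mk 0x20000001a00000000 0x70000003e00000073 5 7) 0 0 (step_sound _ 34 [rh31905c9abd083ad2, (rh3244c3cc8379b070.shift 0 1)] (by decide +kernel))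
noncomputable def rh371f6fd719518bfc : CRef := CRef.mk (Pat.mk 0x800000004000000140000000400000000 0xc0000000c000000040000003e0000000700000002 5 6) 0 0 (step_sound _ 130 [(rh2f68792b6b779e96.shift 2 1), rhf5caf409ccc8caf5] (by decide +kernel))
noncomputable def rh41eae2fac3de5cd9 : CRef := CRef.mk (Pat.mk 0x4000000020000000a0000000a00000008 0x340000001e0000003b0000001a0000001a00000008 5 6) 0 0 (step_sound _ 129 [rh040697bebc688ae6, (rh2f68792b6b779e96.shift 1 1)] (by decide +kernel))
noncomputable def rh1a6c6a67a3e976d9 : CRef := CRef.mk (Pat.mk 0x80000002800000028 0xf0000007e0000006f 5 7) 0 0 (step_sound _ 36 [rh2820ca9a6c4f41b4, rh6c6cc8f59caab3aa, (rha9fbfd4bb8cf890b.shift 0 1), (rhd9106766b9ff53c0.shift 2 0)] (by decide +kernel))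
noncomputable def rh8e01dfdd2d022281 : CRef := CRef.mk (Pat.mk 0x800000004000000140000001400000000 0xc0000000c000000040000001e0000003700000002 5 6) 0 0 (step_sound _ 130 [(rh2f68792b6b779e96.shift 2 1), rh9f0212359c7333ba] (by decide +kernel))
noncomputable def rh7bf656776bcdbf43 : CRef := CRef.mk (Pat.mk 0xe00000008000000200000002000000000 0x40000000600000007e0000007f000000600000006000000040 5 7) 0 0 (step_sound _ 101 [rh3462e41e3e30d27d, (rh68691964b29f233d.shift 1 3), (rhc1db5918def9f13b.shift 1 3), (rhe28dc3223a412fc9.shift 1 3)] (by decide +kernel))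
noncomputable def rhef10fae1657207bc : CRef := CRef.mk (Pat.mk 0x3800000020 0xf0000007e0000003f 5 7) 0 0 (step_sound _ 34 [(rh47c07cd0cc865f65.shift 1 0), rh775ca1963e850b80, rhd1d05263fabc0227, rhdceeca65bdd8095a] (by decide +kernel))
noncomputable def rhde573fb9eec4e89b : CRef := CRef.mk (Pat.mk 0xc00000008000000280000000000000000 0x40000001f0000007c000000680000000800000008 5 7) 0 0 (step_sound _ 35 [rh3910c77a3553bfa3, (rh50fbb5868c909700.shift 2 1)] (by decide +kernel))
noncomputable def rh47e776f0e4d3f92f : CRef := CRef.mk (Pat.mk 0xc00000004000000040000001400000010 0x20000003f0000003f000000140000001400000010 5 6) 0 0 (step_sound _ 129 [(rh50fbb5868c909700.shift 1 1), rh657dea8599269e57] (by decide +kernel))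
noncomputable def rh88bb2403be416090 : CRef := CRef.mk (Pat.mk 0xc000000080000002800000028 0x700000007f0000007f0000002800000028 5 7) 0 0 (step_sound _ 100 [(rh2f68792b6b779e96.shift 3 0), rhf29a0a24c2c631ae] (by decide +kernel))
noncomputable def rh91b4bdd3b8f6f8f0 : CRef := CRef.mk (Pat.mk 0x20000000e00000008 0x70000007e000000ec 5 8) 0 0 (step_sound _ 36 [(rh3244c3cc8379b070.shift 0 1), (rhb7a1be4bf1a195cd.shift 1 0)] (by decide +kernel))
noncomputable def rh4566aebd2d1d45df : CRef := CRef.mk (Pat.mk 0x20000000e00000008 0x7000000fe0000003c 5 8) 0 0 (step_sound _ 36 [(rh3244c3cc8379b070.shift 0 1), (rh4df605d6a934e0f4.shift 1 0)] (by decide +kernel))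
noncomputable def rhe0630501002572b7 : CRef := CRef.mk (Pat.mk 0x1c00000018000000000000000000000000 0x80000003c0000007f000000070000000400000004 5 7) 0 0 (step_sound _ 101 [rhc749934401f856ac, (rhf48373e13d2bc128.shift 2 3)] (by decide +kernel))
noncomputable def rh27c2202d6a886cf3 : CRef := CRef.mk (Pat.mk 0x1c000000180000000800000000 0x1800000018000000180000001c0000007c0000000f00000004 5 7) 0 0 (step_sound _ 69 [rh263bb0648877e52e, (rhf48373e13d2bc128.shift 2 2)] (by decide +kernel))
noncomputable def rhb935d214f02e33fb : CRef := CRef.mk (Pat.mk 0x40000001c00000038000000000000000000000000 0x6000000060000000e0000001c0000003f000000060000000400000004 5 6) 0 0 (step_sound _ 194 [(rh2145e1d24b96a57e.shift 2 3), rhc02cf04c0bb7185f] (by decide +kernel))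
noncomputable def rh53d93716fa7ff217 : CRef := CRef.mk (Pat.mk 0x18000000180000000800000000 0x1c0000001c0000001f00000078000000180000000c00000004 5 7) 0 0 (step_sound _ 131 [(rhaf97d21e7fb8f8b8.shift 2 0), (rhcaa080098f0e9e4a.shift 2 0), (rhdb019b0e908810fb.shift 0 1)] (by decide +kernel))
noncomputable def rh9bac905cb1020fca : CRef := CRef.mk (Pat.mk 0x600000006000000020000000000000000 0x300000003000000030000000600000006000000030000000300000003 5 3) 0 0 (step_sound _ 33 [rh5a576f4aa77ac87c, (rh71222050f2c63a3a.shift 1 0)] (by decide +kernel))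
noncomputable def rh146d5fff78aa98a8 : CRef := CRef.mk (Pat.mk 0x40000000c0000001c0000001000000000 0xa0000000f0000003c0000001c0000001400000004 5 6) 0 0 (step_sound _ 131 [(rh2145e1d24b96a57e.shift 3 1), rh370af384ddd2082c] (by decide +kernel))
noncomputable def rh88e4342af732efba : CRef := CRef.mk (Pat.mk 0x2000000030000000e00000008 0x10000000300000007000000060000001f0000000f0000000e0000000a 5 5) 0 0 (step_sound _ 129 [rh6a60e3bfa066bd5e, (rh74077b621f65b9d0.shift 1 0), rh7de4028f69864aee, (rhe8476f0b7eaf4046.shift 0 1)] (by decide +kernel))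
noncomputable def rh044c98165ddc91cc : CRef := CRef.mk (Pat.mk 0x18000000080000003000000020 0x100000007c0000003f0000003000000020 5 7) 0 0 (step_sound _ 132 [rh82ad08b8602b1d20, (rhff0f29cb645b05f7.shift 4 0)] (by decide +kernel))
noncomputable def rh55203c3261200b55 : CRef := CRef.mk (Pat.mk 0x180000000800000038000000000000000000000000 0x4000000060000007f0000003f000000380000000c0000000c00000004 5 7) 0 0 (step_sound _ 162 [(rh419e6f3ffab43f44.shift 0 3), (rh43d8dfd721575dfb.shift 2 0), (rh8f2ec7d8df44323f.shift 2 0), (rhd2d6f6aefecf0991.shift 0 3)] (by decide +kernel))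
noncomputable def rhdacd99aa77b05603 : CRef := CRef.mk (Pat.mk 0x400000004000000040000001c00000010 0xa0000000f0000003c0000000c0000001c00000010 5 6) 0 0 (step_sound _ 129 [(rh50fbb5868c909700.shift 1 1), rhd9d19cee20c3cc08] (by decide +kernel))
noncomputable def rhe5f654762a2757a0 : CRef := CRef.mk (Pat.mk 0x20000000600000006000000000000000000000000 0x300000003000000030000000600000006000000030000000300000003 5 3) 0 0 (step_sound _ 193 [(rh2145e1d24b96a57e.shift 1 3), rhe6252b830689ce8a] (by decide +kernel))
noncomputable def rh2b76a34e110926d0 : CRef := CRef.mk (Pat.mk 0x40000000c0000001c000000000000000000000000 0x600000006000000060000000f0000001c000000060000000600000006 5 5) 0 0 (step_sound _ 128 [(rh40f30c696fac1423.shift 1 0), (rhab22b5b56e7b3243.shift 0 3)] (by decide +kernel))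
noncomputable def rh70555b89576159f5 : CRef := CRef.mk (Pat.mk 0x2000000020000000a0000000800000000 0x50000000700000007000000020000001a0000000f00000005 5 5) 0 0 (step_sound _ 33 [(rhc85cc95794737cf7.shift 0 1), rhe8768a83bdb59c61] (by decide +kernel))
noncomputable def rhec17607bd1d271be : CRef := CRef.mk (Pat.mk 0x2000000020000000a0000000c 0x200000002000000030000003e0000003f 5 6) 0 0 (step_sound _ 34 [rh09a76b1bc40e82ed, (rh2145e1d24b96a57e.shift 1 0)] (by decide +kernel))
noncomputable def rh5b3d0471ae4ad01d : CRef := CRef.mk (Pat.mk 0x20000000e0000000c0000000000000000 0x30000007e0000007c0000000400000004 5 7) 0 0 (step_sound _ 2 [(rh610ac9a8eb925710.shift 0 2), (rh9e07f76261b05888.shift 1 0)] (by decide +kernel))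
noncomputable def rh1543682d0afc803a : CRef := CRef.mk (Pat.mk 0x800000008000000380000003000000000 0x300000007c0000002f00000038000000fe00000044 5 8) 0 0 (step_sound _ 133 [(rh372b992859050e31.shift 3 0), rhe462dbbef370e63f] (by decide +kernel))
noncomputable def rh036d7d26e8626ec9 : CRef := CRef.mk (Pat.mk 0x2000000020000000a000000080000000000000000 0x100000003000000030000001a0000000f0000000700000005 5 5) 0 0 (step_sound _ 65 [rh46baee19951a66e7, rh6aa5625770489e83, (rhe8768a83bdb59c61.shift 0 1)] (by decide +kernel))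
noncomputable def rh84a64553713948cf : CRef := CRef.mk (Pat.mk 0xc0000000800000008000000280000002000000000 0x7f0000007c00000028000000780000007000000050 5 7) 0 0 (step_sound _ 133 [(rh6f0f9f0ef2f601aa.shift 2 0), (rh8c25cb665ab79ec0.shift 0 4), rhea0dbd29e2943262] (by decide +kernel))
noncomputable def rhf91c42965b0b55a9 : CRef := CRef.mk (Pat.mk 0x200000002000000020000000e 0x400000007000000070000000300000003000000030000001e 5 5) 0 0 (step_sound _ 32 [rh9bfcedd6961f6a87, rhf48373e13d2bc128] (by decide +kernel))
noncomputable def rh6cb300a8a81c60e1 : CRef := CRef.mk (Pat.mk 0x200000002000000020000000e 0x50000000700000007000000060000000600000007000000030000001e 5 5) 0 0 (step_sound _ 129 [rh37c900b2bb7bc53d, (rh44f453b84f013105.shift 1 0), rh6d8905035fe7ec34] (by decide +kernel))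
noncomputable def rh327df372c818f0f0 : CRef := CRef.mk (Pat.mk 0x2000000020000000a000000080000000000000000 0x50000000700000007000000030000001a0000000f0000000700000004 5 5) 0 0 (step_sound _ 65 [rh46baee19951a66e7, (rhc85cc95794737cf7.shift 0 2), (rhe8768a83bdb59c61.shift 0 1)] (by decide +kernel))
noncomputable def rh18ce1c06357adb0d : CRef := CRef.mk (Pat.mk 0x20000001e000000080000000000000000 0x4000000060000001e0000003f0000000300000003 5 6) 0 0 (step_sound _ 68 [rh589464a80a16b035, (rhe25b0a99195a5d59.shift 1 2)] (by decide +kernel))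
noncomputable def rhf95806441cf28459 : CRef := CRef.mk (Pat.mk 0x80000000a000000180000000800000000 0x140000003c0000000f000000180000000c00000004 5 6) 0 0 (step_sound _ 2 [(rh79877ebd3ef475dd.shift 2 0), (rhcbf59b5c9a54e301.shift 0 1)] (by decide +kernel))
noncomputable def rh29ecdcaffa9abd19 : CRef := CRef.mk (Pat.mk 0x20000001a00000008 0x7000000fe0000003c 5 8) 0 0 (step_sound _ 34 [(rh3244c3cc8379b070.shift 0 1), (rh4df605d6a934e0f4.shift 1 0)] (by decide +kernel))
noncomputable def rha7f4ddb95da48714 : CRef := CRef.mk (Pat.mk 0x200000002000000020000000a000000010000000000000000 0x20000000200000006000000060000001e000000030000000300000002 5 5) 0 0 (step_sound _ 65 [(rh932754581e0f4330.shift 0 1), rhf549171afd855462] (by decide +kernel))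
noncomputable def rh94753fbe52244075 : CRef := CRef.mk (Pat.mk 0x80000002800000028000000000000000000000000 0x800000008000000780000003e0000001f0000001000000010 5 7) 0 0 (step_sound _ 100 [(rh681d9f8e79458a8b.shift 1 2), (rh7f0f728c796044ac.shift 0 2), (rha768b229dc254047.shift 3 0)] (by decide +kernel))
noncomputable def rhfc5ed974963ca339 : CRef := CRef.mk (Pat.mk 0x80000000800000028000000000000000000000000 0x100000001800000018000000780000001f0000001c00000014 5 7) 0 0 (step_sound _ 67 [(rh367118e0bf0473e0.shift 2 0), (rh50d4d0fd838213a3.shift 0 1), (rh8cdd36b03d57a2f6.shift 2 0), (rhc9de03f9731897d4.shift 3 0)] (by decide +kernel))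
noncomputable def rh2759b531b6f0985d : CRef := CRef.mk (Pat.mk 0x20000000200000002000000000000000000000000 0x400000006000000060000000600000003000000070000000700000005 5 3) 0 0 (step_sound _ 65 [(rh20966da26a1c2ae8.shift 0 1), rh8cdd36b03d57a2f6, (rhc9de03f9731897d4.shift 1 0)] (by decide +kernel))
noncomputable def rhe07086f5016912cc : CRef := CRef.mk (Pat.mk 0x80000000c000000280000002000000000 0x140000007c0000002f000000280000002800000008 5 7) 0 0 (step_sound _ 132 [(rh000637b5a81e86aa.shift 2 0), (rhd69c262cd33b94b3.shift 0 3), (rhfd6673c3da02e035.shift 0 1)] (by decide +kernel))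
noncomputable def rh91da0006f5df7f0b : CRef := CRef.mk (Pat.mk 0x80000000a0000000a0000000800000000 0x8000000080000000f0000007e0000000c00000004 5 7) 0 0 (step_sound _ 34 [(rh74b8b033e617db5a.shift 0 1), (rh932754581e0f4330.shift 2 0)] (by decide +kernel))
noncomputable def rhdb7081e5d95ff0b1 : CRef := CRef.mk (Pat.mk 0x1000000014000000140000003000000000 0x2c0000007f0000003c0000001c0000007800000008 5 7) 0 0 (step_sound _ 131 [(rh50fbb5868c909700.shift 3 1), rhdf51942a23df00ac] (by decide +kernel))
noncomputable def rh37559da68f71ea7a : CRef := CRef.mk (Pat.mk 0x80000000a0000000a0000000800000000 0x8000000080000000b0000001e0000003c00000014 5 6) 0 0 (step_sound _ 2 [rh358c231171d2d7ca, (rh79877ebd3ef475dd.shift 2 0)] (by decide +kernel))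
noncomputable def rhb8c2ec168a9ed19f : CRef := CRef.mk (Pat.mk 0xa0000001a00000008 0x1b000000fe000000fc 5 8) 0 0 (step_sound _ 34 [(rh3244c3cc8379b070.shift 0 1), (rhd2a4d4859e4af1aa.shift 1 0)] (by decide +kernel))
noncomputable def rh7b7aea069deba254 : CRef := CRef.mk (Pat.mk 0x20000000a000000020000000400000000 0x4000000060000003e000000030000000600000006 5 6) 0 0 (step_sound _ 33 [rh20af4238df87b975, (rh55afc6a59410cf00.shift 1 0)] (by decide +kernel))
noncomputable def rhf69842878991996e : CRef := CRef.mk (Pat.mk 0x20000000a0000000a0000000200000000 0x2000000020000003a0000003f0000000600000004 5 6) 0 0 (step_sound _ 34 [(rh55afc6a59410cf00.shift 1 0), (rh77b6dfe1169410f3.shift 0 1)] (by decide +kernel))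
noncomputable def rh78f97edf6de3f6e9 : CRef := CRef.mk (Pat.mk 0x20000000a0000000a00000006 0x1d0000000f0000001a0000000e00000006 5 5) 0 0 (step_sound _ 96 [rh50fbb5868c909700, rh5f65666c5d7a7003] (by decide +kernel))
noncomputable def rh5ea5b6c71c5c47fb : CRef := CRef.mk (Pat.mk 0xa0000000e000000000000000000000000 0x80000003b0000001e000000300000001000000010 5 6) 0 0 (step_sound _ 100 [(rh3244c3cc8379b070.shift 0 3), (rhe7d1749390aefb37.shift 1 0)] (by decide +kernel))
noncomputable def rhb95a3234de168ec3 : CRef := CRef.mk (Pat.mk 0x8000000080000003c000000000000000000000000 0x80000000f0000003f0000001c0000001c0000001c 5 6) 0 0 (step_sound _ 67 [(rh24f1f50856d74b15.shift 1 0), (rh2cecf6a8d2d06d17.shift 0 1), (rh8cdd36b03d57a2f6.shift 2 0), (rh8d29162e86432fc6.shift 1 0)] (by decide +kernel))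
noncomputable def rhfea987b6f2003d48 : CRef := CRef.mk (Pat.mk 0x20000000e00000000 0x30000003e00000077 5 7) 0 0 (step_sound _ 36 [rh0edd3afef6b5d7e0, (rh3244c3cc8379b070.shift 0 1)] (by decide +kernel))
noncomputable def rh372a8eea94ad6b28 : CRef := CRef.mk (Pat.mk 0x140000001c000000000000000000000000 0x400000004000000340000001e000000070000000200000002 5 6) 0 0 (step_sound _ 97 [(rh33e738c4ed385b9f.shift 1 3), rh3423e5ac208fb65b] (by decide +kernel))
noncomputable def rh7dc5059a8510f4a2 : CRef := CRef.mk (Pat.mk 0x140000001c000000000000000000000000 0x4000000340000003e000000070000000200000002 5 6) 0 0 (step_sound _ 97 [(rh33e738c4ed385b9f.shift 1 3), rhce12f85975fbaead] (by decide +kernel))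
noncomputable def rhe0e86b5867e969be : CRef := CRef.mk (Pat.mk 0x400000008000000280000002800000000 0x10000000100000003e0000007f0000006c0000002800000008 5 7) 0 0 (step_sound _ 132 [(rh08d50fe567eb1045.shift 3 0), (rh2e02ae96d64880aa.shift 2 0), (rh40b7fc3f47921148.shift 1 1), rhe76333e819872155] (by decide +kernel))
noncomputable def rhded110ed8c960ef7 : CRef := CRef.mk (Pat.mk 0x200000006000000120000000000000000 0x600000006000000060000001e0000000700000007 5 5) 0 0 (step_sound _ 33 [rh699c9c97b73f58ec, (rha707fb719e87fe6e.shift 1 0), (rhc9ecc39187250584.shift 1 0)] (by decide +kernel))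
noncomputable def rh61a265477cc71d12 : CRef := CRef.mk (Pat.mk 0x2000000030000000200000002 0x100000007000000070000000700000003000000030000000200000002 5 3) 0 0 (step_sound _ 129 [(rh0516f3b0c681c22f.shift 0 1), (rh1741680720c097b4.shift 0 1), rh3ca48e2a6d60153d, rh5b8ed3f93df90ce5] (by decide +kernel))
noncomputable def rh33d25d5ad1a3e055 : CRef := CRef.mk (Pat.mk 0x1e00000000 0x370000003e00000070 5 7) 0 0 (step_sound _ 68 [(rh33e738c4ed385b9f.shift 1 1), rh3947d1dfff0afc6c] (by decide +kernel))
noncomputable def rh04ab56fb7edb2aa8 : CRef := CRef.mk (Pat.mk 0x3400000000 0xf0000007e000000fe 5 8) 0 0 (step_sound _ 35 [rh0d378fd9e8917c5a, (rh0edd3afef6b5d7e0.shift 1 0), (rhd52e3929053d9d5f.shift 1 0)] (by decide +kernel))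
noncomputable def rh5dfc446a92ae3923 : CRef := CRef.mk (Pat.mk 0x3400000000 0x770000007e000000ee 5 8) 0 0 (step_sound _ 35 [(rh0edd3afef6b5d7e0.shift 1 0), (rh4c622fddc53a5f99.shift 0 1)] (by decide +kernel))
noncomputable def rhc6d8d083c79a9348 : CRef := CRef.mk (Pat.mk 0x7800000008 0xe0000000ff00000038 5 8) 0 0 (step_sound _ 70 [(rh33e738c4ed385b9f.shift 3 1), rh8889a06f12009045] (by decide +kernel))
noncomputable def rh62d7decd2c537097 : CRef := CRef.mk (Pat.mk 0x3400000000 0xff0000007e00000070 5 8) 0 0 (step_sound _ 35 [rh0d378fd9e8917c5a, (rh22b38309c56a80eb.shift 1 1), (rh2381ca26b8b38d1e.shift 1 0)] (by decide +kernel))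
noncomputable def rh38b2e5d9d012fb61 : CRef := CRef.mk (Pat.mk 0x400000007800000000 0x60000000ff0000003c 5 8) 0 0 (step_sound _ 3 [rh8889a06f12009045, (rheb0810cc63b001d8.shift 2 0)] (by decide +kernel))
noncomputable def rh252812771d70da16 : CRef := CRef.mk (Pat.mk 0x1a0000000a000000020000000000000000 0x20000003a0000003f000000060000000400000004 5 6) 0 0 (step_sound _ 98 [(rh53b3c253cb0c65f4.shift 0 3), (rhcc311c7b65042ed1.shift 1 0)] (by decide +kernel))
noncomputable def rh388f7e2a4406db03 : CRef := CRef.mk (Pat.mk 0x1a0000000a00000002000000000000000000000000 0x10000000120000001a0000001e0000000f0000000b0000000100000001 5 5) 0 0 (step_sound _ 96 [rh281c6819542c66e6, (rhfb29c2e6ff424c17.shift 0 2)] (by decide +kernel))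
noncomputable def rh6515a91ab04217d4 : CRef := CRef.mk (Pat.mk 0x30000001b000000060000000000000000 0x8000000080000001f0000001b0000001e0000001000000010 5 5) 0 0 (step_sound _ 131 [rh0f0e2cf3f70a257b, (rhc10214bf3fe8094a.shift 0 3)] (by decide +kernel))
noncomputable def rh5a2561f3f1836de8 : CRef := CRef.mk (Pat.mk 0x80000001800000008000000000000000000000000 0x80000000800000008000000780000001f0000001c0000000400000004 5 7) 0 0 (step_sound _ 98 [(rh574fdbf07bdd18b9.shift 0 3), (rh9df88d842ae15686.shift 2 0), (rhbb339bb7e4e96b38.shift 2 2)] (by decide +kernel))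
noncomputable def rh6333418176ede241 : CRef := CRef.mk (Pat.mk 0x2000000060000000200000003000000000000000000000000 0x2000000070000000700000007000000060000000600000002 5 3) 0 0 (step_sound _ 66 [rh6e5f5a463480b50d, (rhd3458b32566d63f7.shift 1 2)] (by decide +kernel))
noncomputable def rhf2372eebce3472ca : CRef := CRef.mk (Pat.mk 0x50000000d000000030000000000000000 0x5000000050000001d0000000f0000001a00000008 5 5) 0 0 (step_sound _ 33 [(rh2145e1d24b96a57e.shift 0 1), rh7f41d2bb1c8da290] (by decide +kernel))
noncomputable def rh0414b52e652d555f : CRef := CRef.mk (Pat.mk 0x10000001a0000000a0000000200000000 0xb0000000f0000001a0000000e0000000600000004 5 5) 0 0 (step_sound _ 129 [rh00e04475729c0d75, (rh50fbb5868c909700.shift 0 1)] (by decide +kernel))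
noncomputable def rh56c40d661cec60f2 : CRef := CRef.mk (Pat.mk 0x6000000000000000080000001c00000000 0x200000006000000040000000ff0000007e00000020 5 8) 0 0 (step_sound _ 37 [(rh4c622fddc53a5f99.shift 0 1), (rhe3060b190bc0bc78.shift 1 1), (rhe6f00b19f116d7bb.shift 2 0)] (by decide +kernel))
noncomputable def rhbf7616913467870e : CRef := CRef.mk (Pat.mk 0x1400000014000000040000000c00000000 0x1000000014000000140000003c0000003f00000032 5 6) 0 0 (step_sound _ 33 [(rh932754581e0f4330.shift 1 0), rheddc63a46e48430f] (by decide +kernel))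
noncomputable def rh029b6ceff91484a8 : CRef := CRef.mk (Pat.mk 0x20000001a000000020000000200000000 0x2000000020000003b0000001f0000000600000004 5 6) 0 0 (step_sound _ 34 [(rh55afc6a59410cf00.shift 1 0), (rh9482d7390d124cb4.shift 0 1)] (by decide +kernel))
noncomputable def rh3f167a6ae0da8247 : CRef := CRef.mk (Pat.mk 0x30000001a0000000a0000000200000000 0x80000000f0000001a0000001e0000001300000011 5 5) 0 0 (step_sound _ 131 [rh19df24c2350c1692, (rhc10214bf3fe8094a.shift 0 3)] (by decide +kernel))
noncomputable def rh8b9a1830214a05d6 : CRef := CRef.mk (Pat.mk 0x20000000200000002000000000000000000000000 0x100000003000000030000000300000003000000070000000700000005 5 3) 0 0 (step_sound _ 65 [rh6eff4158bb400f47, rh8ff3dde5b1c639e0, (rh968ba7b0df7e4096.shift 0 1)] (by decide +kernel))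
noncomputable def rh43bf56a7235efcb1 : CRef := CRef.mk (Pat.mk 0xd00000007000000000000000000000000 0xd0000000d0000000d000000070000001f0000000e00000002 5 5) 0 0 (step_sound _ 65 [(rh471c9edde87ddc5c.shift 0 1), rhade0f4c81793f68e, (rhcf80391c5046a495.shift 1 0)] (by decide +kernel))
noncomputable def rh0ad513941016f775 : CRef := CRef.mk (Pat.mk 0xc0000000c000000050000000600000000 0xc0000001c000000370000001e00000038 5 6) 0 0 (step_sound _ 35 [(rh55afc6a59410cf00.shift 2 0), rhc94617ddfb08d979] (by decide +kernel))
noncomputable def rh4484f1f6caa2756c : CRef := CRef.mk (Pat.mk 0x500000005000000040000000400000000 0x50000000500000005000000070000001e0000000a 5 5) 0 0 (step_sound _ 35 [(rh55afc6a59410cf00.shift 2 0), rhb41b27ecccbdcc36] (by decide +kernel))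
noncomputable def rh67d2d5a07ad83471 : CRef := CRef.mk (Pat.mk 0x60000000200000002000000020000000000000000 0x2000000060000000600000006000000070000000700000001 5 3) 0 0 (step_sound _ 66 [(rh55afc6a59410cf00.shift 1 1), rhee702b16e614dfe9] (by decide +kernel))
noncomputable def rh5761823b97465660 : CRef := CRef.mk (Pat.mk 0x8000000080000000a0000000800000000 0x800000008000000080000001b0000001f00000014 5 5) 0 0 (step_sound _ 36 [(rh55afc6a59410cf00.shift 3 0), rhf894c3c3ee1887eb] (by decide +kernel))
noncomputable def rhd79d52371fb5e7f2 : CRef := CRef.mk (Pat.mk 0x180000001a000000120000003000000000 0x40000001f0000001b0000001e0000003800000008 5 6) 0 0 (step_sound _ 67 [rh025f5a8d72a8b681, (rhab22b5b56e7b3243.shift 1 1)] (by decide +kernel))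
noncomputable def rh65a9d34d908f363c : CRef := CRef.mk (Pat.mk 0x200000002000000020000000200000000 0x4000000060000000600000002000000060000000700000005 5 3) 0 0 (step_sound _ 32 [(rh25208373db83e521.shift 1 0), rh932754581e0f4330] (by decide +kernel))
noncomputable def rhe9d21ca4de82bc56 : CRef := CRef.mk (Pat.mk 0x80000001a0000000e00000000 0x40000000c0000000f0000001a0000000e0000000e 5 5) 0 0 (step_sound _ 131 [(rh932754581e0f4330.shift 2 0), rheaf4189574da5b8b] (by decide +kernel))
noncomputable def rh9b45980480369234 : CRef := CRef.mk (Pat.mk 0x14000000340000000c00000000 0xa0000000f0000001e000000340000000c00000008 5 6) 0 0 (step_sound _ 130 [(rh32867e3943f3c89e.shift 0 1), (rh55afc6a59410cf00.shift 2 0)] (by decide +kernel))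
noncomputable def rh4882a33f21f09e0f : CRef := CRef.mk (Pat.mk 0x200000002000000060000000000000000 0x1000000030000000300000002000000070000000700000001 5 3) 0 0 (step_sound _ 161 [(rh55afc6a59410cf00.shift 1 1), rhc4526fc8abf298b6] (by decide +kernel))
noncomputable def rh6f628703170d3df2 : CRef := CRef.mk (Pat.mk 0x80000001a0000000a0000000000000000 0x10000000340000001f0000003a0000000a0000000a00000008 5 6) 0 0 (step_sound _ 130 [(rh46cfffc2ac517b76.shift 0 1), (rh668fc65514a55b16.shift 2 0), (rhcf8e04ac2e2850fe.shift 0 2)] (by decide +kernel))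
noncomputable def rh875eca000cce2350 : CRef := CRef.mk (Pat.mk 0xa0000001a0000000200000000 0x4000000070000001f0000003a0000000200000002 5 6) 0 0 (step_sound _ 98 [rh05ad842d75c48ae9, (rhb739f4f82bb681b4.shift 0 2)] (by decide +kernel))
noncomputable def rhf9cdf29caa1e90fc : CRef := CRef.mk (Pat.mk 0x10000000a0000001a0000000200000001 0x1c0000000f0000001a0000001a0000001300000001 5 5) 0 0 (step_sound _ 129 [rh79877ebd3ef475dd, (rh834d04a7eb8197c0.shift 0 1)] (by decide +kernel))
noncomputable def rh9030d61819b24aaf : CRef := CRef.mk (Pat.mk 0x10000000a0000001a00000002 0x1d0000000f0000001a0000001a00000012 5 5) 0 0 (step_sound _ 97 [rh50fbb5868c909700, rh834d04a7eb8197c0] (by decide +kernel))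
noncomputable def rhf0b2b07e489fca5f : CRef := CRef.mk (Pat.mk 0xc000000040000003400000004 0x20000003f0000003f0000003400000004 5 6) 0 0 (step_sound _ 97 [(rh14177cfe54d70215.shift 0 1), (rh50fbb5868c909700.shift 1 0)] (by decide +kernel))
noncomputable def rha33ecc1c0af70900 : CRef := CRef.mk (Pat.mk 0x800000068000000180000000800000000 0x140000003c00000068000000180000000f00000004 5 7) 0 0 (step_sound _ 34 [(rh932754581e0f4330.shift 2 0), (rhd0639720181d6385.shift 0 1)] (by decide +kernel))
noncomputable def rh4b0872fb7dc6b201 : CRef := CRef.mk (Pat.mk 0x8000000680000000c0000000800000000 0x140000003c000000680000000f0000001800000010 5 7) 0 0 (step_sound _ 36 [(rh42d98495bcbca15b.shift 0 1), (rh55afc6a59410cf00.shift 3 0)] (by decide +kernel))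
noncomputable def rhb3cb658d44e691b9 : CRef := CRef.mk (Pat.mk 0x800000068000000180000000c00000000 0x140000003c00000068000000180000001f00000010 5 7) 0 0 (step_sound _ 33 [(rh53b3c253cb0c65f4.shift 0 1), (rhdc5671191cba2261.shift 2 0)] (by decide +kernel))
noncomputable def rh94e01749497dba25 : CRef := CRef.mk (Pat.mk 0x6000000040000003400000004 0x380000003e000000370000003400000024 5 6) 0 0 (step_sound _ 99 [rh13686277c2a78df7, (rh2f68792b6b779e96.shift 2 0)] (by decide +kernel))
noncomputable def rh1cda65b5c64f5dda : CRef := CRef.mk (Pat.mk 0x60000001a00000002000000000000000000000000 0x10000000f0000001b00000002000000030000000300000001 5 5) 0 0 (step_sound _ 160 [rh01483ff9cba2f6ac, (rhd6e447e81774439e.shift 0 4)] (by decide +kernel))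
noncomputable def rhbb3f0f767052d86a : CRef := CRef.mk (Pat.mk 0x20000001a0000000a00000000 0x400000014000000360000001f0000003a0000000a00000002 5 6) 0 0 (step_sound _ 98 [(rh215e11e099257d75.shift 1 0), (rh7d9685dfb2c88fee.shift 0 1)] (by decide +kernel))
noncomputable def rh9a7bfd14ff7942bc : CRef := CRef.mk (Pat.mk 0x1a0000000e000000000000000000000000 0x20000003a0000003e000000070000000400000004 5 6) 0 0 (step_sound _ 100 [(rh33e738c4ed385b9f.shift 1 3), rh5002fd5ca5291a69] (by decide +kernel))
noncomputable def rh430b3eb90f34d167 : CRef := CRef.mk (Pat.mk 0x4000000070000000400000000 0xa0000000e0000000e00000004000000070000001e0000000a 5 5) 0 0 (step_sound _ 130 [(rh1741680720c097b4.shift 1 1), (rh79e70552f96217b9.shift 1 1), rhb379f99078aafa2d] (by decide +kernel))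
noncomputable def rh251b0c008acf0203 : CRef := CRef.mk (Pat.mk 0x1000000010000000180000000a00000000 0x280000003800000038000000380000003e00000037 5 6) 0 0 (step_sound _ 36 [(rh1e9e3641a49c3d16.shift 1 0), rh9b79cd1bc448a214, (rhfd2c478b9dbde44e.shift 3 0)] (by decide +kernel))
noncomputable def rhe4053cb9d4f2ef82 : CRef := CRef.mk (Pat.mk 0x20000000600000002000000020000000100000000 0x300000003000000030000000600000006000000020000000300000003 5 3) 0 0 (step_sound _ 33 [rh5448b6e823a2c85f, rh932754581e0f4330] (by decide +kernel))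
noncomputable def rhd351b5165b050003 : CRef := CRef.mk (Pat.mk 0x180000000a0000000000000000 0x800000008000000380000001f0000003000000010 5 6) 0 0 (step_sound _ 66 [(rh2f5dd1e0b615921c.shift 1 0), (rh53b3c253cb0c65f4.shift 0 2)] (by decide +kernel))
noncomputable def rhf13f312beb2a646b : CRef := CRef.mk (Pat.mk 0xe000000010000003000000000 0x700000003e000000630000003000000010 5 7) 0 0 (step_sound _ 100 [(rh80fcd6d0a18cb2dd.shift 0 2), (rhb701899451b33183.shift 1 0)] (by decide +kernel))
noncomputable def rhb12a891bc26239fe : CRef := CRef.mk (Pat.mk 0x400000034000000040000000e 0x80000000c000000340000003f0000003f 5 6) 0 0 (step_sound _ 99 [(rh2f68792b6b779e96.shift 2 0), rhe432faad9ad3774c] (by decide +kernel))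
noncomputable def rhd3c966ace34946de : CRef := CRef.mk (Pat.mk 0x180000000200000006000000020000000100000000 0x380000003f00000006000000020000000300000003 5 6) 0 0 (step_sound _ 33 [rh932754581e0f4330, rhd32cd9e81f0b2692] (by decide +kernel))
noncomputable def rha4c3e007886917da : CRef := CRef.mk (Pat.mk 0x18000000020000000200000002000000020000000000000000 0x190000000f0000000600000002000000060000000600000004 5 5) 0 0 (step_sound _ 34 [rh9146a3a664427a8b, (rhd3458b32566d63f7.shift 1 1)] (by decide +kernel))
noncomputable def rhb1cd64e6cd340f1d : CRef := CRef.mk (Pat.mk 0x38000000100000000000000008 0x70000007f0000003e0000000800000008 5 7) 0 0 (step_sound _ 98 [(rh12a4aa43a438d841.shift 1 0), (rh4f8edb321cf5b49d.shift 0 2), (rhb4f5b1f88c9a7c13.shift 0 2)] (by decide +kernel))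
noncomputable def rha953cba4d69f91e5 : CRef := CRef.mk (Pat.mk 0x20000000200000002000000000000000000000000 0x100000003000000030000000300000007000000070000000700000001 5 3) 0 0 (step_sound _ 65 [(rh5abfc4c9d959be03.shift 0 1), rhc4526fc8abf298b6, (rhed79e5c5ffee0217.shift 0 1)] (by decide +kernel))
noncomputable def rh458384369c405129 : CRef := CRef.mk (Pat.mk 0x6000000180000000000000000 0x10000000300000001f000000380000000800000008 5 6) 0 0 (step_sound _ 99 [(rh137e64670c5b7fdf.shift 1 0), (rhb739f4f82bb681b4.shift 0 2)] (by decide +kernel))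
noncomputable def rh481ce376ccd0a938 : CRef := CRef.mk (Pat.mk 0x20000001a00000002000000000000000000000000 0x4000000070000000f0000001b00000006000000070000000700000001 5 5) 0 0 (step_sound _ 65 [(rh330a005829cdd297.shift 0 2), (rhced6d86d2069808b.shift 1 1), rhe251f7900272287e] (by decide +kernel))
noncomputable def rh097bb3fde29ec130 : CRef := CRef.mk (Pat.mk 0x18000000030000000200000002000000000000000000000000 0x190000000f0000000600000002000000060000000600000004 5 5) 0 0 (step_sound _ 65 [(rh50fbb5868c909700.shift 0 2), rhe171645a4ed0e30e] (by decide +kernel))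
noncomputable def rh95fda1105234af5f : CRef := CRef.mk (Pat.mk 0x2000000020000000300000002000000000000000000000000 0x2000000030000000300000003000000070000000700000004 5 3) 0 0 (step_sound _ 64 [rh29367e05abc1b745, (rh79877ebd3ef475dd.shift 0 2)] (by decide +kernel))
noncomputable def rh748051494f108b1c : CRef := CRef.mk (Pat.mk 0x1a0000000800000008 0x1c0000001c0000001f0000001b0000001800000018 5 5) 0 0 (step_sound _ 99 [rh6132a70967ffabf6, (rh7ab09f375cd5d482.shift 3 0), (rhec1e3f6ff489986c.shift 2 0)] (by decide +kernel))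
noncomputable def rhad3c97be03b58abf : CRef := CRef.mk (Pat.mk 0xa0000001a0000000200000000 0x40000000c0000000e0000001e0000003b0000001a00000002 5 6) 0 0 (step_sound _ 130 [(rh54ae567a7f9561b7.shift 1 1), rhae8cdd214e3b25f4] (by decide +kernel))
noncomputable def rh0274cbe0c043f1a8 : CRef := CRef.mk (Pat.mk 0x1e0000000200000002000000020000000000000000 0x300000001e0000000200000002000000070000000700000005 5 6) 0 0 (step_sound _ 196 [(rh33e738c4ed385b9f.shift 1 5), rh6eff4158bb400f47] (by decide +kernel))
noncomputable def rhc3f1fc87bacfa842 : CRef := CRef.mk (Pat.mk 0x20000000a0000001a0000000200000000 0x90000000f0000001e0000001a0000001200000010 5 5) 0 0 (step_sound _ 128 [(rh50fbb5868c909700.shift 0 1), rhf32cdac55f60eb57] (by decide +kernel))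
noncomputable def rh05eea61af164c4ad : CRef := CRef.mk (Pat.mk 0x28000000080000000800000010 0x40000001f00000078000000080000001800000010 5 7) 0 0 (step_sound _ 131 [(rhd3458b32566d63f7.shift 3 0), (rhd5d193521cc593a5.shift 0 1)] (by decide +kernel))
noncomputable def rhbb3996f5a4b726c7 : CRef := CRef.mk (Pat.mk 0x3000000020000000200000006000000000000000000000000 0x200000003000000030000000600000006000000030000000300000003 5 3) 0 0 (step_sound _ 65 [rha57e27ffd18e5c84, (rhffd04209dc8ea796.shift 0 2)] (by decide +kernel))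
noncomputable def rhdec85e13ff70c10d : CRef := CRef.mk (Pat.mk 0x14000000040000000400000008 0xa0000000f0000001c000000040000000c0000000c 5 5) 0 0 (step_sound _ 130 [rh5e8888c5a8b0359b, (rhd3458b32566d63f7.shift 2 0)] (by decide +kernel))
noncomputable def rheb70b8a8fbf2830d : CRef := CRef.mk (Pat.mk 0x400000014000000040000000400000000 0xa0000001e00000037000000040000000400000004 5 6) 0 0 (step_sound _ 129 [rh323833fc65fd6143, (rh50fbb5868c909700.shift 1 1)] (by decide +kernel))
noncomputable def rh2aaa2d799f053650 : CRef := CRef.mk (Pat.mk 0x1000000010000000140000003000000000 0x1000000010000000360000003e0000000f 5 6) 0 0 (step_sound _ 35 [(rh932754581e0f4330.shift 3 0), rha923c86b183b0f97] (by decide +kernel))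
noncomputable def rhe4bb6bc95360e733 : CRef := CRef.mk (Pat.mk 0x1a00000002000000020000000000000000 0x50000000f0000001a00000002000000070000000700000005 5 5) 0 0 (step_sound _ 161 [(rh330a005829cdd297.shift 0 2), rh6eff4158bb400f47] (by decide +kernel))
noncomputable def rh63836632d3662071 : CRef := CRef.mk (Pat.mk 0x1a00000002000000020000000000000000 0x4000000070000000f0000001b00000003000000030000000300000001 5 5) 0 0 (step_sound _ 161 [(rh20966da26a1c2ae8.shift 0 1), (rh330a005829cdd297.shift 0 2), rhe251f7900272287e] (by decide +kernel))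
noncomputable def rh0b09374f69f41f42 : CRef := CRef.mk (Pat.mk 0x1a000000020000000200000000 0x5000000070000000f0000001a000000060000000600000004 5 5) 0 0 (step_sound _ 129 [(rh330a005829cdd297.shift 0 1), rh5abfc4c9d959be03, (rhced6d86d2069808b.shift 1 0)] (by decide +kernel))
noncomputable def rh583df6bcba00f617 : CRef := CRef.mk (Pat.mk 0x1a0000000e00000004 0xe0000000f0000001a0000000e0000000e 5 5) 0 0 (step_sound _ 97 [rh1e53ef3db9eea6c6, (rh2145e1d24b96a57e.shift 1 0)] (by decide +kernel))
noncomputable def rh08bd1ade47be33c9 : CRef := CRef.mk (Pat.mk 0x500000005000000040000000800000000 0x50000000500000005000000070000001e0000000a 5 5) 0 0 (step_sound _ 34 [(rh55afc6a59410cf00.shift 2 0), rhb41b27ecccbdcc36] (by decide +kernel))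
noncomputable def rh47bd26f3a17bea75 : CRef := CRef.mk (Pat.mk 0x60000000200000002000000040000000000000000 0x2000000060000000600000006000000070000000700000001 5 3) 0 0 (step_sound _ 65 [(rh55afc6a59410cf00.shift 1 1), rhee702b16e614dfe9] (by decide +kernel))
noncomputable def rhdf3015c1291f0d07 : CRef := CRef.mk (Pat.mk 0x400000016000000070000000100000000 0xa0000003e00000036000000070000000500000004 5 6) 0 0 (step_sound _ 129 [(rh253d435fa1031887.shift 1 0), (rh5c5e593799055d58.shift 0 1)] (by decide +kernel))
noncomputable def rh5719fa8207bae500 : CRef := CRef.mk (Pat.mk 0x40000000c0000001a000000020000000000000000 0x40000000c0000001b0000001f0000003800000010 5 6) 0 0 (step_sound _ 67 [rh70c88061d19295ac, (rh7b1f1fb55310c477.shift 2 1)] (by decide +kernel))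
noncomputable def rh9d7d16d264e8ffb3 : CRef := CRef.mk (Pat.mk 0x40000000e0000000a0000000200000000 0x100000003c0000000e0000000b0000001e0000001c 5 6) 0 0 (step_sound _ 35 [(rh7b1f1fb55310c477.shift 2 0), rhaa548217957140a1] (by decide +kernel))
noncomputable def rh4b95feabad09c01e : CRef := CRef.mk (Pat.mk 0x40000000e0000000a0000000a00000000 0x100000003c0000000e0000007b0000001f00000014 5 7) 0 0 (step_sound _ 34 [rh441c2127b54c2aa3, (rha11dfd15f08f96e3.shift 0 1), rhbf564aef9d769f78] (by decide +kernel))
noncomputable def rhedcde8e48f7f561c : CRef := CRef.mk (Pat.mk 0x10000000100000007c00000000 0x1000000010000000100000001c0000007f00000007 5 7) 0 0 (step_sound _ 67 [(rh3244c3cc8379b070.shift 2 1), rhcea6fdb1ff2fba2e] (by decide +kernel))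
noncomputable def rh02688bd1f8c0d9df : CRef := CRef.mk (Pat.mk 0xa0000000300000003000000000000000000000000 0x40000001e0000000300000003000000060000000600000006 5 5) 0 0 (step_sound _ 162 [(rh18965a982d73c794.shift 0 4), rh1a7be3d2b3382e35] (by decide +kernel))
noncomputable def rh0d086598dac1d042 : CRef := CRef.mk (Pat.mk 0xe0000000500000004 0x800000008000000380000001f0000000f00000004 5 6) 0 0 (step_sound _ 68 [rh1e803a780da5fd4e, (rh80fcd6d0a18cb2dd.shift 0 1)] (by decide +kernel))
noncomputable def rh704f9f8febddc611 : CRef := CRef.mk (Pat.mk 0x40000001c0000000e0000000000000000 0x10000000340000001f0000007e0000007800000008 5 7) 0 0 (step_sound _ 35 [(rh5f03a1e2184bea5e.shift 0 1), (rh7b1f1fb55310c477.shift 2 0)] (by decide +kernel))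
noncomputable def rh563f3a99178d9008 : CRef := CRef.mk (Pat.mk 0xc000000040000001c0000000e 0x100000003c000000370000001f0000003e 5 6) 0 0 (step_sound _ 33 [rh5c2ddd300f751bae, rh735f25c7f714f01e] (by decide +kernel))
noncomputable def rh889ca84faf480060 : CRef := CRef.mk (Pat.mk 0x200000006000000030000000200000000000000000000000000000000 0x200000006000000070000000300000003000000070000000700000004 5 3) 0 0 (step_sound _ 97 [(rh7928877f9bf74a91.shift 0 2), rh99807ad0ef617e05, (rha8bc3cae4d77a08f.shift 0 1)] (by decide +kernel))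
noncomputable def rh62327ae654d86216 : CRef := CRef.mk (Pat.mk 0x60000000d000000080000000000000000 0x4000000040000000e0000000f0000001a0000000a00000008 5 5) 0 0 (step_sound _ 97 [(rh22acb37d87b5b33c.shift 1 0), (rhe25b0a99195a5d59.shift 0 2)] (by decide +kernel))
noncomputable def rh31b6d69ad9c35c42 : CRef := CRef.mk (Pat.mk 0x38000000200000000000000000 0x20000000ef0000007e000000300000001000000010 5 8) 0 0 (step_sound _ 98 [(rh22b38309c56a80eb.shift 1 3), (rhba50fd7aca570c30.shift 1 0), (rhd1d05263fabc0227.shift 0 2)] (by decide +kernel))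
noncomputable def rh08986ef6a4f24d76 : CRef := CRef.mk (Pat.mk 0x600000006000000070000000000000000 0x80000003e0000003e000000070000000400000004 5 6) 0 0 (step_sound _ 34 [(rh7b1f1fb55310c477.shift 1 0), (rhfec2a119712df0ef.shift 0 1)] (by decide +kernel))
noncomputable def rh069f2d0ec3d2a08d : CRef := CRef.mk (Pat.mk 0x180000001e000000060000000400000000 0x1b0000001e000000360000003c00000018 5 6) 0 0 (step_sound _ 129 [(rh3244c3cc8379b070.shift 0 3), (rhbbe712c9e486db20.shift 1 0)] (by decide +kernel))
noncomputable def rha4102890a42c81c6 : CRef := CRef.mk (Pat.mk 0x1000000070000000000000003800000000 0x10000000780000000f0000007c0000000f 5 7) 0 0 (step_sound _ 67 [(rh993e2174d382d931.shift 2 1), (rh9b93c6a18ed538f9.shift 2 0), (rha9fbfd4bb8cf890b.shift 0 1), rhae41c86fcf2bcac3] (by decide +kernel))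
noncomputable def rh991258cf66a6a461 : CRef := CRef.mk (Pat.mk 0x400000004000000000000003c00000000 0x400000006000000630000003e00000007 5 7) 0 0 (step_sound _ 70 [rh2c56be22e7e0e355, (rh428265de8cd3cd2d.shift 2 1)] (by decide +kernel))
noncomputable def rhe9707ac4319287fb : CRef := CRef.mk (Pat.mk 0x100000003000000020000000300000000 0x600000006000000060000000300000003000000030000000300000001 5 3) 0 0 (step_sound _ 129 [rh932754581e0f4330, (rhc2638b18262e5471.shift 0 1)] (by decide +kernel))
noncomputable def rh0eaaadb4a79b89e9 : CRef := CRef.mk (Pat.mk 0x300000007000000020000000200000000 0x1c0000001f00000007000000060000000600000004 5 5) 0 0 (step_sound _ 130 [(rh2f68792b6b779e96.shift 1 1), rhe5f1d6f0879cdb28] (by decide +kernel))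
noncomputable def rhf8461f830324ba81 : CRef := CRef.mk (Pat.mk 0x40000000700000006000000000000000000000000 0x80000003c0000000f000000060000000c0000000c0000000c 5 6) 0 0 (step_sound _ 163 [(rh1a7be3d2b3382e35.shift 1 0), (rh572132728df34c43.shift 0 4)] (by decide +kernel))
noncomputable def rhd4aa727c776a8235 : CRef := CRef.mk (Pat.mk 0x60000000e000000030000000000000000 0x60000000e0000000f0000001e0000000e 5 5) 0 0 (step_sound _ 33 [(rh71222050f2c63a3a.shift 1 0), rh770992ee6cf16ba5] (by decide +kernel))
noncomputable def rh533304e70e39450e : CRef := CRef.mk (Pat.mk 0x1e00000000 0x370000003e00000070 5 7) 0 0 (step_sound _ 68 [(rh33e738c4ed385b9f.shift 1 1), rhe401600d466b97cd] (by decide +kernel))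
noncomputable def rh4f4774ab6982c560 : CRef := CRef.mk (Pat.mk 0x10000000e00000000 0x3b0000001f00000038 5 6) 0 0 (step_sound _ 36 [rh17f08a0ad30ba6e8, (rh3f8766e6ecb455ce.shift 0 1)] (by decide +kernel))
noncomputable def rhae2d5c0f36ca7608 : CRef := CRef.mk (Pat.mk 0x10000000f0000000100000000 0x100000001000000190000001f0000001b00000002 5 5) 0 0 (step_sound _ 33 [(rh18965a982d73c794.shift 0 1), rh4a932e27a870ad5f] (by decide +kernel))
noncomputable def rh16ad52829f65a5db : CRef := CRef.mk (Pat.mk 0xc00000004000000240000003400000000 0x320000003e00000077000000340000003400000010 5 7) 0 0 (step_sound _ 129 [(rh50fbb5868c909700.shift 1 1), rh7eb802971898658f] (by decide +kernel))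
noncomputable def rhf3f04f2e70bf25cc : CRef := CRef.mk (Pat.mk 0x800000008000000180000003800000000 0x140000001f00000038000000180000003800000020 5 6) 0 0 (step_sound _ 132 [(rh2f68792b6b779e96.shift 3 1), rh753fb9df3e36b5e3] (by decide +kernel))
noncomputable def rh45f1197fee09613b : CRef := CRef.mk (Pat.mk 0x800000058000000380000001000000000 0x10000000370000003f00000078000000380000003000000020 5 7) 0 0 (step_sound _ 130 [(rh2fe78cc5ca4405d8.shift 2 3), rhb2c8d7482000fc0b] (by decide +kernel))
noncomputable def rh74b598004bb9e239 : CRef := CRef.mk (Pat.mk 0xb0000000f0000000200000000 0x60000000e0000001e0000000b0000000f0000000600000004 5 5) 0 0 (step_sound _ 129 [(rh571950d89739e871.shift 0 1), (rh5fa50b509d4ce753.shift 0 1), rh7faba2a6504ebd41] (by decide +kernel))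
noncomputable def rhf644b3f7f54bbc91 : CRef := CRef.mk (Pat.mk 0x200000007000000020000000200000000 0xe0000001e00000007000000060000000600000004 5 5) 0 0 (step_sound _ 130 [(rh2f68792b6b779e96.shift 1 1), rh4f402ce420c5c06c] (by decide +kernel))
noncomputable def rh1b50c9b2ad0b9a60 : CRef := CRef.mk (Pat.mk 0x4000000070000001c0000000800000000 0x1a0000003e000000170000001c0000001c00000004 5 6) 0 0 (step_sound _ 131 [(rh000637b5a81e86aa.shift 1 0), (rh736751280ef2ab04.shift 1 1), (rh80f90a60d87caa0d.shift 0 3)] (by decide +kernel))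
noncomputable def rha5dc3864e160c44a : CRef := CRef.mk (Pat.mk 0x6000000070000000400000000 0xc0000000c0000000c000000060000000f0000003c00000008 5 6) 0 0 (step_sound _ 35 [(rh3e4567265cd571e4.shift 1 0), (rh4a0b10776449c3e9.shift 0 1)] (by decide +kernel))
noncomputable def rh8cab0de232db4b12 : CRef := CRef.mk (Pat.mk 0x3000000060000000600000000 0xe0000001e00000007000000060000000600000002 5 5) 0 0 (step_sound _ 129 [(rh2145e1d24b96a57e.shift 1 1), rha54b245286d9c9b7] (by decide +kernel))
noncomputable def rhffe265237d4a8bf4 : CRef := CRef.mk (Pat.mk 0x120000001e000000000000000000000000 0x20000001a0000003f000000070000000400000004 5 6) 0 0 (step_sound _ 65 [(rheb0810cc63b001d8.shift 0 2), rhf46ba56b66d3f945] (by decide +kernel))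
noncomputable def rh97372b5dd791e302 : CRef := CRef.mk (Pat.mk 0x60000000c000000000000000000000000 0x4000000070000003e000000030000000200000002 5 6) 0 0 (step_sound _ 100 [rh5deaed7f1c5b350b, (rhf48373e13d2bc128.shift 1 3)] (by decide +kernel))
noncomputable def rh1d0ac581f18dd026 : CRef := CRef.mk (Pat.mk 0x200000002000000060000001c000000000000000000000000 0x2000000060000003e0000001f0000003b0000000200000002 5 6) 0 0 (step_sound _ 97 [(rh2381ca26b8b38d1e.shift 0 2), (rh85839873d0f77248.shift 0 2), rh9a011a4d0ec8f646] (by decide +kernel))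
noncomputable def rhfc4f661c27d040d5 : CRef := CRef.mk (Pat.mk 0x4000000040000000e000000180000000000000000 0x40000007c000000fe0000001f0000000200000002 5 8) 0 0 (step_sound _ 100 [(rh032d7f124d77d7cf.shift 0 1), rh1e8d6e1ef30e2d92, (rh726ed8e3d0fdcf87.shift 1 2)] (by decide +kernel))
noncomputable def rhded6f33cb2115a86 : CRef := CRef.mk (Pat.mk 0x40000000c0000000e000000080000000000000000 0xa0000000f0000003c0000000e0000000e0000000600000006 5 6) 0 0 (step_sound _ 132 [(rh18965a982d73c794.shift 1 3), rhf4cb91dc0672a553] (by decide +kernel))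
noncomputable def rhd89aece9dac39914 : CRef := CRef.mk (Pat.mk 0x2000000060000000200000002 0x400000007000000070000000700000006000000060000000200000002 5 3) 0 0 (step_sound _ 129 [(rh1741680720c097b4.shift 0 1), (rh1db71118bee297d0.shift 0 1), (rh44f453b84f013105.shift 1 0), rhb67cb32759fb664f] (by decide +kernel))
noncomputable def rhb2900f27f08b3286 : CRef := CRef.mk (Pat.mk 0x2000000120000001e000000020000000400000000 0x90000000f0000001a0000001e0000003a0000001e0000001c 5 6) 0 0 (step_sound _ 68 [rh42cf1cedb8c53aee, (rhe25b0a99195a5d59.shift 1 2)] (by decide +kernel))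
noncomputable def rh470dc4650433fbae : CRef := CRef.mk (Pat.mk 0x2000000120000001e000000100000001000000000 0x12000000120000001e0000001f0000003c00000008 5 6) 0 0 (step_sound _ 65 [(rh1d6316615f64b03f.shift 1 0), (rheb0810cc63b001d8.shift 0 2)] (by decide +kernel))
noncomputable def rh520048d45bd71775 : CRef := CRef.mk (Pat.mk 0x1000000090000000d000000090000000000000000 0x2000000070000000d0000000d0000000f0000001a00000018 5 5) 0 0 (step_sound _ 65 [(rh55afc6a59410cf00.shift 0 1), rh66a0d6feb4d60b36] (by decide +kernel))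
noncomputable def rh52f1f1058b5f7a6f : CRef := CRef.mk (Pat.mk 0x2000000120000001200000012 0x1d0000001f0000001a0000001200000012 5 5) 0 0 (step_sound _ 98 [(rh2f68792b6b779e96.shift 1 0), rh4679a35a2a652574] (by decide +kernel))
noncomputable def rh29fdf8f921e1de28 : CRef := CRef.mk (Pat.mk 0x16000000020000000000000008 0x300000001e0000003b0000001800000008 5 6) 0 0 (step_sound _ 99 [(rh353ebc24c4d595b9.shift 1 0), (rheb0810cc63b001d8.shift 0 2)] (by decide +kernel))
noncomputable def rh287a7b2bc7251e56 : CRef := CRef.mk (Pat.mk 0xb000000030000000000000004 0x180000001f0000001f0000000c00000004 5 5) 0 0 (step_sound _ 98 [(rh18965a982d73c794.shift 0 2), rh353ebc24c4d595b9] (by decide +kernel))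
noncomputable def rhafd7dc3b9c2dc10b : CRef := CRef.mk (Pat.mk 0x1600000006000000000000000e00000000 0x360000003f000000780000001e00000008 5 7) 0 0 (step_sound _ 99 [rh6bd2bc1dcd4a14d0, (rh7aa4eeb8c3d3dc00.shift 1 0), (rheff610e725081997.shift 1 3)] (by decide +kernel))
noncomputable def rh3adbc395facab8f1 : CRef := CRef.mk (Pat.mk 0x6000000060000001c00000008 0x2000000330000003e0000003e0000001c00000008 5 6) 0 0 (step_sound _ 129 [(rh2145e1d24b96a57e.shift 1 1), rha8f60f9e25dfa418] (by decide +kernel))
noncomputable def rhca7643d48eeb75e8 : CRef := CRef.mk (Pat.mk 0x6000000040000000700000004 0x80000003f0000003f0000000700000004 5 6) 0 0 (step_sound _ 99 [(rh2f68792b6b779e96.shift 2 0), (rh3bf2a8147dfd5f83.shift 0 1)] (by decide +kernel))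
noncomputable def rh95c470ebe1be0a98 : CRef := CRef.mk (Pat.mk 0x1e0000001a0000000800000000 0xc0000000c0000001e0000001a0000001f00000016 5 5) 0 0 (step_sound _ 131 [rh53defbd6160b1c0a, (rh55a1f6c57a317ce6.shift 3 0)] (by decide +kernel))
noncomputable def rhef4c5250813696d3 : CRef := CRef.mk (Pat.mk 0x2000000060000000600000006 0xd0000003f000000070000000600000006 5 6) 0 0 (step_sound _ 98 [rh19f989cddda8aa20, (rh2f68792b6b779e96.shift 1 0)] (by decide +kernel))
noncomputable def rheedd64c777ea6f94 : CRef := CRef.mk (Pat.mk 0x180000001c000000180000001800000000 0x180000001f0000001c000000fc00000024 5 8) 0 0 (step_sound _ 96 [(rh08d874b696c8386c.shift 2 0), (rh24ae073cf30720c4.shift 0 3)] (by decide +kernel))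
noncomputable def rhbe46b4122a8d7f0c : CRef := CRef.mk (Pat.mk 0x8000000080000001c000000000000000000000000 0x8000000780000003f0000000f0000000400000004 5 7) 0 0 (step_sound _ 97 [(rh27ce058b59d72f64.shift 0 2), rh375f643453e42b7a, (rhec46bd5500c722c9.shift 0 3)] (by decide +kernel))
noncomputable def rh339ae43a89d2c3a2 : CRef := CRef.mk (Pat.mk 0x4000000040000000e000000000000000000000000 0x4000000740000003e000000770000000200000002 5 7) 0 0 (step_sound _ 100 [rh1e8d6e1ef30e2d92, (rha93a5dd541ab8209.shift 1 2), (rhf48e3b1c16a6ad0f.shift 0 1)] (by decide +kernel))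
noncomputable def rhe1219aaf688c3b9f : CRef := CRef.mk (Pat.mk 0x8000000080000001c000000100000000000000000 0x8000000080000003e0000003f0000000400000004 5 6) 0 0 (step_sound _ 97 [rh375f643453e42b7a, (rhe25b0a99195a5d59.shift 1 2)] (by decide +kernel))
noncomputable def rh522ecf462bdca2e3 : CRef := CRef.mk (Pat.mk 0x2000000060000000200000002 0x400000007000000070000000700000006000000060000000200000002 5 3) 0 0 (step_sound _ 129 [(rh1db71118bee297d0.shift 0 1), (rh44f453b84f013105.shift 1 0), rhb67cb32759fb664f, (rhc85cc95794737cf7.shift 0 1)] (by decide +kernel))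
noncomputable def rh65d4cadbdf005e7f : CRef := CRef.mk (Pat.mk 0x90000000d000000090000000100000000 0x180000001a0000000f0000000d0000000d0000000700000002 5 5) 0 0 (step_sound _ 129 [rh288a27a1bd973aa7, (rh2f68792b6b779e96.shift 0 1)] (by decide +kernel))
noncomputable def rh032606ba2cf201a0 : CRef := CRef.mk (Pat.mk 0x10000000100000001e0000001200000002 0x80000003c0000001f0000001e0000001200000012 5 6) 0 0 (step_sound _ 97 [(rh26d54a80d4654904.shift 1 0), (rh3244c3cc8379b070.shift 0 2)] (by decide +kernel))
noncomputable def rha8d4999eda0f9ec8 : CRef := CRef.mk (Pat.mk 0x1200000012000000120000000200000000 0x12000000120000001a0000001f0000001d 5 5) 0 0 (step_sound _ 34 [(rh55afc6a59410cf00.shift 1 0), rhabff1a05b293764f] (by decide +kernel))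
noncomputable def rh6849a65d0780d10e : CRef := CRef.mk (Pat.mk 0x800000000000000020000001600000000 0x8000000180000003b0000001e00000030 5 6) 0 0 (step_sound _ 35 [(rh0c7ea8e21d1faf2f.shift 1 0), (rh3244c3cc8379b070.shift 0 1)] (by decide +kernel))
noncomputable def rh9d386040b49b48e7 : CRef := CRef.mk (Pat.mk 0x400000000000000030000000b00000000 0x40000000c0000001f0000001f00000018 5 5) 0 0 (step_sound _ 34 [rh0c7ea8e21d1faf2f, (rhf48373e13d2bc128.shift 0 1)] (by decide +kernel))
noncomputable def rh1c38a0f61050241e : CRef := CRef.mk (Pat.mk 0xe000000000000000600000016 0x80000001e000000780000003f00000036 5 7) 0 0 (step_sound _ 35 [rh196cc96b99bfcd0e, rh676ad4546ffc5d28, (rhbca71ab025ef4262.shift 1 0)] (by decide +kernel))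
noncomputable def rh094a156a280dac06 : CRef := CRef.mk (Pat.mk 0xe000000380000000800000000 0x400000004000000060000000e0000003a0000001f0000000a 5 6) 0 0 (step_sound _ 130 [(rh7b1f1fb55310c477.shift 2 0), rh98c4708aaf0a5506] (by decide +kernel))
noncomputable def rh5c7fa21f80a55cf9 : CRef := CRef.mk (Pat.mk 0x1c0000000c000000000000000800000000 0x1c0000007f000000770000001800000018 5 7) 0 0 (step_sound _ 97 [(rh53b3c253cb0c65f4.shift 0 3), rhd754be27c4a04511] (by decide +kernel))
noncomputable def rh1bf9e7f30e0f2dab : CRef := CRef.mk (Pat.mk 0x70000000c0000000c0000000800000000 0x8000000180000000f0000000c0000001f0000007800000010 5 7) 0 0 (step_sound _ 131 [rh42e615827c8908b1, (rh5421160f8e9bcf07.shift 0 2)] (by decide +kernel))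
noncomputable def rh90ed844544e9bdb8 : CRef := CRef.mk (Pat.mk 0x6000000120000001a00000002 0x28000000390000003b0000001f000000120000001a0000000a 5 6) 0 0 (step_sound _ 100 [(rh6c03a9ef5fb89cef.shift 3 0), rhd87ffc78421e37d0, (rhe47b8b48749ef978.shift 1 0)] (by decide +kernel))
noncomputable def rhbfedffabbb60c912 : CRef := CRef.mk (Pat.mk 0x1e000000120000000000000000 0x2000000030000003f0000001e0000000400000004 5 6) 0 0 (step_sound _ 66 [(rh18965a982d73c794.shift 1 2), rhde1e482a93f5f360] (by decide +kernel))
noncomputable def rh039b8263e0627d20 : CRef := CRef.mk (Pat.mk 0x200000001c00000000 0x370000003e00000007 5 6) 0 0 (step_sound _ 33 [(rh428265de8cd3cd2d.shift 1 1), rhd52e3929053d9d5f] (by decide +kernel))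
noncomputable def rh33ac85ac131613c5 : CRef := CRef.mk (Pat.mk 0x1c000000070000000400000000 0xe0000000f0000001c000000070000003e00000008 5 6) 0 0 (step_sound _ 35 [(rh89ade209b3e28f13.shift 0 1), rhcc60a17a1a87c612, rhfa19c8c9744d6e19] (by decide +kernel))
noncomputable def rhe6c9672ec197abd6 : CRef := CRef.mk (Pat.mk 0x18000000080000001800000018 0x240000007f0000003e0000001800000018 5 7) 0 0 (step_sound _ 98 [rh331816361e228aec, (rh50fbb5868c909700.shift 2 0)] (by decide +kernel))
noncomputable def rh6a487ccebd34fe8d : CRef := CRef.mk (Pat.mk 0x80000001c000000040000000000000000 0x20000003f0000003f000000040000000400000004 5 6) 0 0 (step_sound _ 34 [(rh71222050f2c63a3a.shift 2 0), (rhd82d8f739aa450b0.shift 0 1)] (by decide +kernel))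
noncomputable def rhd60ebf537c048b2c : CRef := CRef.mk (Pat.mk 0xc000000040000001c0000000400000000 0x20000000f0000003f0000001c0000000400000004 5 6) 0 0 (step_sound _ 99 [(rh71222050f2c63a3a.shift 2 0), (rhb183b7ca4f065e7c.shift 0 1)] (by decide +kernel))
noncomputable def rh1b7deed2876c5eba : CRef := CRef.mk (Pat.mk 0x38000000100000000000000004 0x70000007e000000fe0000000400000004 5 8) 0 0 (step_sound _ 98 [(rh06db8ceda6269a47.shift 1 2), (rha03f6e28ea70fc7d.shift 1 2), rhb5aa4c725956da26] (by decide +kernel))
noncomputable def rh59e7c4701aa8ca2b : CRef := CRef.mk (Pat.mk 0x50000000f0000000c0000000000000000 0x100000001000000070000000f0000000f0000007e0000000a 5 7) 0 0 (step_sound _ 35 [(rh7b1f1fb55310c477.shift 2 0), rhcb6fd4a13e72e99a] (by decide +kernel))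
noncomputable def rhf5fd04145212d27f : CRef := CRef.mk (Pat.mk 0x100000001800000038000000080000000000000000 0xc0000001f0000003800000038000000380000003000000020 5 6) 0 0 (step_sound _ 37 [(rh3b5346b2e316d790.shift 4 0), (rh5278689ccab1c3c2.shift 4 0), (rh88aab9c281576477.shift 0 1)] (by decide +kernel))
noncomputable def rh91df1142e0517553 : CRef := CRef.mk (Pat.mk 0x70000000c000000000000000000000000 0x20000000e0000003e0000000f0000000c0000000c0000000c00000004 5 6) 0 0 (step_sound _ 66 [(rh319bf2738dd726f9.shift 0 1), (rh668fc65514a55b16.shift 1 0), (rhb1a251d9bff81766.shift 1 1)] (by decide +kernel))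
noncomputable def rh69f5dcea583a15b3 : CRef := CRef.mk (Pat.mk 0x80000000e000000140000003000000000 0x2000000020000003f0000001e000000140000003400000024 5 6) 0 0 (step_sound _ 34 [rh141d18d538994f93, (rh71222050f2c63a3a.shift 2 0)] (by decide +kernel))
noncomputable def rh6595adeeb2fb8654 : CRef := CRef.mk (Pat.mk 0x3000000070000000c00000000 0xc0000000c0000001c0000001f0000000f0000000c00000008 5 5) 0 0 (step_sound _ 98 [(rh1090e459624ad3a7.shift 0 1), rh10e5e485a18b5c81, (rh4070769292e08e0f.shift 1 0), rhdca5fb14d1124fd4] (by decide +kernel))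
noncomputable def rha9f7b2eea21b2c00 : CRef := CRef.mk (Pat.mk 0xe0000000c000000180000000800000000 0x20000000e0000000c0000001c0000001f00000016 5 5) 0 0 (step_sound _ 34 [rh4b4f5d4dbe2478bb, (rh932754581e0f4330.shift 2 0)] (by decide +kernel))
noncomputable def rha419f8278c1a82e8 : CRef := CRef.mk (Pat.mk 0x20000001e00000002000000060000000000000000 0x10000000320000001e0000003a0000001f0000000b00000001 5 6) 0 0 (step_sound _ 100 [rh4b097227b3790cf3, (rhe25b0a99195a5d59.shift 1 3)] (by decide +kernel))
noncomputable def rh59d93a31c4a5c1fa : CRef := CRef.mk (Pat.mk 0x20000001a0000001200000004000000000000000000000000 0xa0000001a0000001a0000001f0000003d0000003800000008 5 6) 0 0 (step_sound _ 68 [(rh15ea211abae10320.shift 1 1), (rh6cf0263d57b2aff5.shift 3 0), (rh7f36b76b62a39b3e.shift 0 2)] (by decide +kernel))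
noncomputable def rh1a617df1a8e4b4ba : CRef := CRef.mk (Pat.mk 0xc00000038000000080000000000000000 0xc0000000c000000380000001f0000000c00000004 5 6) 0 0 (step_sound _ 35 [(rh50fbb5868c909700.shift 2 1), rhde807367643436d4] (by decide +kernel))
noncomputable def rhd993386784fec5a8 : CRef := CRef.mk (Pat.mk 0x12000000060000000200000000 0x100000007000000070000001e000000060000000600000006 5 5) 0 0 (step_sound _ 129 [(rh812b908590c67662.shift 0 1), rhc465be9a3d567854, (rhd4b4beefcd67f51e.shift 1 0)] (by decide +kernel))
noncomputable def rh429b9bd2d8e93879 : CRef := CRef.mk (Pat.mk 0x200000002000000060000000e00000000 0xc0000003e00000007000000060000000e00000008 5 6) 0 0 (step_sound _ 130 [(rh2f68792b6b779e96.shift 1 1), rh4ecf83a280de0270] (by decide +kernel))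
noncomputable def rh160d525394f12cfd : CRef := CRef.mk (Pat.mk 0x1a0000001800000008 0x80000001c0000001f0000001b0000001800000018 5 5) 0 0 (step_sound _ 99 [(rh3e595262c1b737ad.shift 3 0), rh6132a70967ffabf6] (by decide +kernel))
noncomputable def rhde06902b74e919fc : CRef := CRef.mk (Pat.mk 0x600000006000000020000000000000000 0x20000000600000006000000070000000700000007 5 3) 0 0 (step_sound _ 33 [rh07ceb24a8d31099e, (rh71222050f2c63a3a.shift 1 0)] (by decide +kernel))
noncomputable def rh2f03791456a91b2b : CRef := CRef.mk (Pat.mk 0xc0000001c000000000000000000000000 0x80000000c0000000c0000003c0000000f0000000c00000008 5 6) 0 0 (step_sound _ 66 [rh697276e35d6246fc, (rh84d1c02a8954c6a8.shift 2 1)] (by decide +kernel))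
noncomputable def rh41a6113a5a9be7e7 : CRef := CRef.mk (Pat.mk 0xe0000000c00000004 0x200000002000000770000007e0000000c00000004 5 7) 0 0 (step_sound _ 68 [rh70bc92cbc4da96e7, (rh9462503d16fc4086.shift 1 1), rheddd3d8f7db62149] (by decide +kernel))
noncomputable def rh73d5c96b92820100 : CRef := CRef.mk (Pat.mk 0x80000000c0000001c0000000400000000 0x20000000f0000003c0000003c0000000600000002 5 6) 0 0 (step_sound _ 33 [(rh18965a982d73c794.shift 1 1), rha813eb03930c4935] (by decide +kernel))
noncomputable def rh64bb50761e3923d6 : CRef := CRef.mk (Pat.mk 0x80000000c0000001c000000000000000000000000 0xc0000000c0000003c0000001f0000001c00000008 5 6) 0 0 (step_sound _ 67 [(rh235174e1e2b7828d.shift 0 1), (rh3cb04db3dd2b6a55.shift 2 0)] (by decide +kernel))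
noncomputable def rha4aa9e78ef6b791a : CRef := CRef.mk (Pat.mk 0x1800000010000000380000001800000000 0x40000001f0000001f000000380000001800000010 5 6) 0 0 (step_sound _ 99 [(rh7b1f1fb55310c477.shift 3 0), (rh9c6fc39ad557aaae.shift 0 1)] (by decide +kernel))
noncomputable def rhf9c23affc3a78c99 : CRef := CRef.mk (Pat.mk 0x18000000080000001c0000001c00000000 0x40000001c000000180000001c0000007f00000060 5 7) 0 0 (step_sound _ 130 [(rh50fbb5868c909700.shift 2 1), rhb4b46d6b6015e7f2] (by decide +kernel))
noncomputable def rh97ee4674338c15de : CRef := CRef.mk (Pat.mk 0x8000000080000001c0000000c00000000 0x140000001c0000000c0000001c0000000f0000000a 5 5) 0 0 (step_sound _ 132 [rh2ba61473a518fcff, (rh2f68792b6b779e96.shift 3 1)] (by decide +kernel))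
noncomputable def rh3d2007c8b6a7a3ad : CRef := CRef.mk (Pat.mk 0xe000000060000000c0000000400000000 0x100000003f0000003e0000000c0000000c00000008 5 6) 0 0 (step_sound _ 35 [(rh55afc6a59410cf00.shift 2 0), (rh6d4d54c3c44364db.shift 0 1)] (by decide +kernel))
noncomputable def rh066c7692cce40b50 : CRef := CRef.mk (Pat.mk 0xe0000000c000000080000000000000000 0x130000001e0000000c0000000c0000000c0000000c 5 5) 0 0 (step_sound _ 35 [rh3bcc3b100d33c9ff, (rh7b1f1fb55310c477.shift 2 0)] (by decide +kernel))
noncomputable def rhee9494424fa1796d : CRef := CRef.mk (Pat.mk 0x2000000060000001e000000000000000000000000 0xb0000003e0000001e000000300000001000000010 5 6) 0 0 (step_sound _ 132 [(rh33e738c4ed385b9f.shift 1 3), rh9cbbb77e754ad3ae] (by decide +kernel))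
noncomputable def rh9f15cace915e145a : CRef := CRef.mk (Pat.mk 0x200000002000000070000000200000000 0x40000000600000006000000070000001e0000000e 5 5) 0 0 (step_sound _ 34 [rh05dfa05d99ee82f6, (rh55afc6a59410cf00.shift 1 0)] (by decide +kernel))
noncomputable def rh1e3b5386eed67ec1 : CRef := CRef.mk (Pat.mk 0x80000000e0000000c00000000 0x10000000100000007f0000007e0000000c00000008 5 7) 0 0 (step_sound _ 68 [(rh6e8a826a5508ce46.shift 0 1), rh727082ad614e8935, (rh9462503d16fc4086.shift 1 1)] (by decide +kernel))
noncomputable def rhbbf076d3d71c4c1a : CRef := CRef.mk (Pat.mk 0x2000000020000000300000000 0x5000000070000000700000007000000030000000300000002 5 3) 0 0 (step_sound _ 129 [(rh9a369cb82ea472da.shift 0 1), rhc4055b4872d6fb38, (rhe62cab2ff5ad6fe2.shift 0 1)] (by decide +kernel))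
noncomputable def rh3077540e42cd79dc : CRef := CRef.mk (Pat.mk 0x1a0000000e00000004 0xe0000000f0000001a0000000e0000000e 5 5) 0 0 (step_sound _ 99 [rh45d5c058f0c534ca, (rh5c5e593799055d58.shift 2 0)] (by decide +kernel))
noncomputable def rha7d828196854930b : CRef := CRef.mk (Pat.mk 0x1400000014000000100000001000000000 0x1400000014000000140000001f0000003800000008 5 6) 0 0 (step_sound _ 35 [(rh932754581e0f4330.shift 3 0), (rha905b2744211896e.shift 0 1)] (by decide +kernel))
noncomputable def rh35b637737a675811 : CRef := CRef.mk (Pat.mk 0x800000008000000180000000200000000 0x140000001c0000001c000000180000000f0000000c 5 5) 0 0 (step_sound _ 35 [rh3cf2764919f34f47, (rhc4055b4872d6fb38.shift 2 0)] (by decide +kernel))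
noncomputable def rheaa992f44778090f : CRef := CRef.mk (Pat.mk 0x800000008000000180000000200000000 0x140000001c0000001c0000001800000018000000180000000f00000004 5 5) 0 0 (step_sound _ 164 [(rh739b1d2a1da9317d.shift 2 2), (rh87d5e4118780fa3b.shift 3 1), rhdc8c5958c8cd1809] (by decide +kernel))
noncomputable def rh261acbd0633f8587 : CRef := CRef.mk (Pat.mk 0x8000000080000001a0000000200000000 0x140000001c0000001c0000003b0000001e00000018 5 6) 0 0 (step_sound _ 35 [(rhc4055b4872d6fb38.shift 2 0), rhfc9d2512fa555345] (by decide +kernel))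
noncomputable def rh6fe71c6961286277 : CRef := CRef.mk (Pat.mk 0x800000008000000080000001a000000080000000000000000 0x8000000080000000c0000001f0000001b000000080000000800000008 5 5) 0 0 (step_sound _ 132 [rh025f5a8d72a8b681, (rh2145e1d24b96a57e.shift 3 3)] (by decide +kernel))
noncomputable def rheec8ae7ada8ac4e3 : CRef := CRef.mk (Pat.mk 0x2000000020000001e00000002 0x50000000700000007000000020000001e00000032 5 6) 0 0 (step_sound _ 4 [rh1741680720c097b4, (rhe25b0a99195a5d59.shift 1 0)] (by decide +kernel))
noncomputable def rhe9474d03effd11f7 : CRef := CRef.mk (Pat.mk 0x100000006000000020000001a000000080000000000000000 0x1000000130000001e000000120000001a000000180000000800000008 5 5) 0 0 (step_sound _ 193 [rh35f9c79198cbb66b, (rh50fbb5868c909700.shift 0 3)] (by decide +kernel))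
noncomputable def rh267727717dc604b3 : CRef := CRef.mk (Pat.mk 0x200000002000000020000000100000000 0x5000000070000000700000002000000020000000300000001 5 3) 0 0 (step_sound _ 33 [rh932754581e0f4330, (rhc85cc95794737cf7.shift 0 1)] (by decide +kernel))
noncomputable def rha195eeb79f27b68c : CRef := CRef.mk (Pat.mk 0x800000068000000080000000800000000 0x800000008000000680000003f0000003800000010 5 7) 0 0 (step_sound _ 36 [(rh3b5b64014d530594.shift 0 1), (rh55afc6a59410cf00.shift 3 0)] (by decide +kernel))
noncomputable def rh5165eed026f7cb84 : CRef := CRef.mk (Pat.mk 0x10000000d0000000f000000010000000000000000 0x10000000d0000000f0000001f0000001a00000018 5 5) 0 0 (step_sound _ 67 [(rhe25b0a99195a5d59.shift 0 2), rhf676284ed4783213] (by decide +kernel))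
noncomputable def rh5105acd8a9ec5812 : CRef := CRef.mk (Pat.mk 0x20000001a0000000a000000020000000000000000 0x30000001b0000000f000000030000000300000003 5 5) 0 0 (step_sound _ 96 [(rh1c62b6193297d9e3.shift 0 3), rhd1fa8140a3eb151f] (by decide +kernel))
noncomputable def rh852865f1f7bf94fe : CRef := CRef.mk (Pat.mk 0x20000001a0000000a0000000200000000 0x120000001a0000001a0000000f0000001d 5 5) 0 0 (step_sound _ 32 [rh605cb69d40a7de0f, rh932754581e0f4330] (by decide +kernel))
noncomputable def rh78ebaebada09b245 : CRef := CRef.mk (Pat.mk 0x200000002000000020000000200000002000000040000000000000000 0x200000002000000030000000300000003000000070000000700000001 5 3) 0 0 (step_sound _ 65 [rh1947efee544d7e13, (rh55afc6a59410cf00.shift 1 1)] (by decide +kernel))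
noncomputable def rhf640e34cdd84f398 : CRef := CRef.mk (Pat.mk 0x180000000a0000000800000000 0x100000001c0000001f000000380000000e0000003c00000014 5 6) 0 0 (step_sound _ 131 [(rh20966da26a1c2ae8.shift 2 0), (rh5aa5e9dc84124dd6.shift 0 1), (rh934b7b499abbb98b.shift 1 0)] (by decide +kernel))
noncomputable def rh0ba92f246018f4b7 : CRef := CRef.mk (Pat.mk 0x20000001a00000002000000000000000000000000 0x4000000070000000f0000001b00000003000000030000000300000001 5 5) 0 0 (step_sound _ 65 [(rh20966da26a1c2ae8.shift 0 1), (rh330a005829cdd297.shift 0 2), rhe251f7900272287e] (by decide +kernel))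
noncomputable def rhfe49cb91b66e3865 : CRef := CRef.mk (Pat.mk 0x200000006000000020000001a 0x30000000300000003000000060000000f0000001b 5 5) 0 0 (step_sound _ 128 [rh36e0d86891c60a25, rhffd04209dc8ea796] (by decide +kernel))
noncomputable def rh935e980c17a584f0 : CRef := CRef.mk (Pat.mk 0x200000002000000020000000200000018 0x4000000060000000600000002000000060000000f00000019 5 5) 0 0 (step_sound _ 162 [(rhbaefcd01e0a8bca3.shift 1 1), rhf4d1e20cd5671fa3] (by decide +kernel))
noncomputable def rh2626bf2cd7609b56 : CRef := CRef.mk (Pat.mk 0x20000000200000002000000020000000000000000 0x1000000030000000200000002000000070000000700000005 5 3) 0 0 (step_sound _ 160 [(rh50fbb5868c909700.shift 0 2), rh6eff4158bb400f47] (by decide +kernel))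
noncomputable def rh5d5fb30bd13e1075 : CRef := CRef.mk (Pat.mk 0x80000001a00000002000000060000000100000000 0x800000008000000180000001a000000120000001e0000001300000001 5 5) 0 0 (step_sound _ 33 [(rh62de76dfacbd7b79.shift 0 1), rh932754581e0f4330] (by decide +kernel))
noncomputable def rh82a1eb6dfea10329 : CRef := CRef.mk (Pat.mk 0xa000000020000000200000004 0x50000000f0000001e000000020000000600000004 5 5) 0 0 (step_sound _ 129 [(rhd3458b32566d63f7.shift 1 0), (rhe0eec876ed7cdc46.shift 0 1)] (by decide +kernel))
noncomputable def rh36aa3fb9b3ed560b : CRef := CRef.mk (Pat.mk 0xa0000001a0000000200000000 0x4000000040000000c0000000f0000001a0000000a0000000a 5 5) 0 0 (step_sound _ 98 [(rh95f7dc53d6306ca7.shift 1 0), (rhb739f4f82bb681b4.shift 0 2)] (by decide +kernel))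
noncomputable def rh834298ab15ffb7b0 : CRef := CRef.mk (Pat.mk 0x60000000a0000001a0000000200000000 0x60000000f0000003b0000001e0000000c 5 6) 0 0 (step_sound _ 98 [(rhb739f4f82bb681b4.shift 0 2), rhf9cbe1dfb122fa9d] (by decide +kernel))
noncomputable def rh9103ba40ffab22e2 : CRef := CRef.mk (Pat.mk 0x4000000020000000a0000001a 0x10000000700000007000000020000000f0000001b 5 5) 0 0 (step_sound _ 97 [(rh2f68792b6b779e96.shift 1 0), rh91306597b45ae6ae] (by decide +kernel))
noncomputable def rh0a521e874439b647 : CRef := CRef.mk (Pat.mk 0x1000000060000000a0000001a000000000000000000000000 0x10000000b0000001e0000000a0000001a000000180000001000000010 5 5) 0 0 (step_sound _ 193 [(rh50fbb5868c909700.shift 0 3), rh8d6ed59239e65266] (by decide +kernel))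
noncomputable def rha7ecdcd6c41a7132 : CRef := CRef.mk (Pat.mk 0x20000001a00000002000000020000000000000000 0x10000000f0000001b00000002000000060000000600000004 5 5) 0 0 (step_sound _ 160 [rh0ef5b62a6a4dbcaa, (rh50fbb5868c909700.shift 0 2)] (by decide +kernel))
noncomputable def rh46f7088379a9b2d8 : CRef := CRef.mk (Pat.mk 0x80000000f00000004000000000000000000000000 0xc0000000c0000000c0000000f0000001c000000180000001800000018 5 5) 0 0 (step_sound _ 99 [(rh3f193471b9412c2b.shift 2 0), (rhe25b0a99195a5d59.shift 0 3)] (by decide +kernel))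
noncomputable def rh99cc03d62322624a : CRef := CRef.mk (Pat.mk 0x4000000140000001e00000008 0x180000003c000000170000001e00000038 5 6) 0 0 (step_sound _ 4 [rhb720be5c88816620, (rhe25b0a99195a5d59.shift 1 0)] (by decide +kernel))
noncomputable def rh963de7c22839d482 : CRef := CRef.mk (Pat.mk 0x80000001c000000140000001000000000 0x1c0000001c000000760000003e0000000f 5 7) 0 0 (step_sound _ 34 [rh21f74fc6a5943c4c, (rh71222050f2c63a3a.shift 2 0)] (by decide +kernel))
noncomputable def rhbfb4d1154f993d60 : CRef := CRef.mk (Pat.mk 0x40000000700000006000000000000000000000000 0x80000003c0000000f000000060000000c0000000c0000000c 5 6) 0 0 (step_sound _ 163 [(rh3470fcd67ff81181.shift 1 0), (rh572132728df34c43.shift 0 4)] (by decide +kernel))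
noncomputable def rh59d89ad9ae689cb9 : CRef := CRef.mk (Pat.mk 0xc0000000c000000040000000c00000000 0xc0000000c0000003e0000007f00000012 5 7) 0 0 (step_sound _ 33 [rh67a45aff1ea551b3, (rh932754581e0f4330.shift 1 0)] (by decide +kernel))
noncomputable def rhd0eaf608081d3210 : CRef := CRef.mk (Pat.mk 0x160000001e0000000400000000 0xa0000000b0000001e0000001e0000003400000010 5 6) 0 0 (step_sound _ 36 [rh4e54466f6f83ab31, (rhe25b0a99195a5d59.shift 1 1)] (by decide +kernel))
noncomputable def rhdf9e1c36a9565cd2 : CRef := CRef.mk (Pat.mk 0x160000001e00000004 0x1800000018000000380000001e0000001f00000004 5 6) 0 0 (step_sound _ 67 [(rh53b3c253cb0c65f4.shift 0 1), (rhb5a5b9d9db627df0.shift 1 0)] (by decide +kernel))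
noncomputable def rh17160e5dca41bea7 : CRef := CRef.mk (Pat.mk 0x40000000c0000000700000002000000000000000000000000 0x80000000c0000000c000000070000001e0000000c0000000c0000000c 5 5) 0 0 (step_sound _ 98 [(rh3470fcd67ff81181.shift 1 0), (rh42afa1af9fffa0e1.shift 0 2), (rha707fb719e87fe6e.shift 2 2)] (by decide +kernel))
noncomputable def rh8b967be2c36d3b82 : CRef := CRef.mk (Pat.mk 0x80000000e0000000c000000000000000000000000 0x80000001e0000003f000000380000001000000010 5 6) 0 0 (step_sound _ 100 [(rhf48373e13d2bc128.shift 1 3), rhf8fc01544216c6d4] (by decide +kernel))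
noncomputable def rh399c5923aab4017c : CRef := CRef.mk (Pat.mk 0x18000000140000001c0000001000000000 0x20000000780000001c0000001f0000001400000014 5 7) 0 0 (step_sound _ 99 [(rh7b1f1fb55310c477.shift 3 0), rhcac8dbe4bdc875ef] (by decide +kernel))
noncomputable def rhcb4b9492ee15528f : CRef := CRef.mk (Pat.mk 0x1c000000070000000400000000 0xa0000000f0000001c000000070000003e00000008 5 6) 0 0 (step_sound _ 35 [(rh89ade209b3e28f13.shift 0 1), rhf485a23dc0d72b30] (by decide +kernel))
noncomputable def rha11fca3094092a4f : CRef := CRef.mk (Pat.mk 0x600000002000000070000000200000000 0x8000000080000003e0000003e000000070000001e0000000a 5 6) 0 0 (step_sound _ 98 [(rh71222050f2c63a3a.shift 1 0), rh96aadb845b372f19] (by decide +kernel))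
noncomputable def rh3823a13274111863 : CRef := CRef.mk (Pat.mk 0x80000001c00000006000000040000000000000000 0xc0000001c0000003e0000003f0000001200000002 5 6) 0 0 (step_sound _ 65 [(rh1e309b005ffa1b36.shift 1 0), (rh8b3ea92b68147620.shift 0 1)] (by decide +kernel))
noncomputable def rh153eacbc41f9a568 : CRef := CRef.mk (Pat.mk 0x120000001e000000120000000000000000 0x1000000014000000160000001e0000001e0000000b0000000b 5 5) 0 0 (step_sound _ 67 [(rh1e309b005ffa1b36.shift 3 0), rh2835d01155f44ec1, rhafbcac73f591f37d] (by decide +kernel))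
noncomputable def rhbd67ec2162f87882 : CRef := CRef.mk (Pat.mk 0x1c00000002 0x770000003e00000006 5 7) 0 0 (step_sound _ 37 [(rh4c622fddc53a5f99.shift 0 1), (rh80fcd6d0a18cb2dd.shift 1 0)] (by decide +kernel))
noncomputable def rh383db82cbe7a2eeb : CRef := CRef.mk (Pat.mk 0x20000000600000007000000000000000000000000 0x50000000700000007000000070000001e0000000e00000002 5 5) 0 0 (step_sound _ 66 [rh01b489d9b8032e4a, (rh7b1f1fb55310c477.shift 1 1)] (by decide +kernel))
noncomputable def rhcd6e5052db4dc6a7 : CRef := CRef.mk (Pat.mk 0x200000002000000060000000200000000 0x100000003000000030000000200000006000000070000000300000001 5 3) 0 0 (step_sound _ 32 [rh932754581e0f4330, (rhdf9f2056a37121a5.shift 0 1)] (by decide +kernel))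
noncomputable def rh400c7516e9ba6ecd : CRef := CRef.mk (Pat.mk 0x400000007000000040000000600000000 0x40000000f0000003f0000003e00000008 5 6) 0 0 (step_sound _ 35 [(rh55afc6a59410cf00.shift 2 0), (rhbb3a67d7b9432576.shift 0 1)] (by decide +kernel))
noncomputable def rhb1bf05aef70c346b : CRef := CRef.mk (Pat.mk 0x100000009000000030000000300000000 0x60000001f0000001b000000030000000300000001 5 5) 0 0 (step_sound _ 129 [(rh2f68792b6b779e96.shift 0 1), rh6aecf259d3d492e1] (by decide +kernel))
noncomputable def rh5a21143955ad5638 : CRef := CRef.mk (Pat.mk 0x8000000080000001e0000001800000000 0x40000000c0000000c0000003e0000001f0000000a 5 6) 0 0 (step_sound _ 33 [(rh1329d7f952631334.shift 1 0), (rheb0810cc63b001d8.shift 0 1)] (by decide +kernel))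
noncomputable def rhe1666e33f795fde7 : CRef := CRef.mk (Pat.mk 0x1e000000120000001000000000 0x4000000040000003e0000001e0000003300000002 5 6) 0 0 (step_sound _ 66 [(rh18965a982d73c794.shift 1 2), rh90b7179ed187cb22] (by decide +kernel))
noncomputable def rhe985b165153fbda6 : CRef := CRef.mk (Pat.mk 0x3800000000 0x7f0000007e0000000f 5 7) 0 0 (step_sound _ 34 [(rh4c622fddc53a5f99.shift 0 1), rh9e97bba44c1b13e4, (rhd52e3929053d9d5f.shift 1 0)] (by decide +kernel))
noncomputable def rhe439cc982574dc4f : CRef := CRef.mk (Pat.mk 0xe0000000400000004 0x8000000080000003c0000003f0000007600000004 5 7) 0 0 (step_sound _ 68 [rh4c7411087d622b9c, (rh9ab60d74117ac343.shift 1 1)] (by decide +kernel))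
noncomputable def rhfec22aa83ece2027 : CRef := CRef.mk (Pat.mk 0x4000000040000000e0000000200000008 0x40000000c0000007e0000007b00000008 5 7) 0 0 (step_sound _ 99 [(rh9e07f76261b05888.shift 2 0), (rhbb8ddf6556e5ee9b.shift 0 1)] (by decide +kernel))
noncomputable def rhe308b926a0bdad2f : CRef := CRef.mk (Pat.mk 0xe00000002 0x700000003e00000073 5 7) 0 0 (step_sound _ 36 [(rh5c4e3b9267338a4f.shift 1 0), rheb0810cc63b001d8] (by decide +kernel))
noncomputable def rh629560b04dc05533 : CRef := CRef.mk (Pat.mk 0x1c000000040000001c00000008 0x200000002000000130000001e000000360000001c00000008 5 6) 0 0 (step_sound _ 68 [(rh5c5e593799055d58.shift 3 0), (rhfee6cf4b1b804c14.shift 0 1)] (by decide +kernel))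
noncomputable def rh0841198d1e4533cf : CRef := CRef.mk (Pat.mk 0xe000000020000000c00000000 0x10000000380000001f0000000b0000000c00000004 5 6) 0 0 (step_sound _ 100 [rh4b64044749c06ee6, (rheb0810cc63b001d8.shift 0 2)] (by decide +kernel))
noncomputable def rha9b1454a384cff90 : CRef := CRef.mk (Pat.mk 0x1e000000100000000c00000000 0xc0000000c0000000c0000001f000000180000000c00000004 5 5) 0 0 (step_sound _ 67 [(rhb739f4f82bb681b4.shift 0 2), (rhe15235ae45416f2c.shift 2 0)] (by decide +kernel))
noncomputable def rh667ae0e57209b03e : CRef := CRef.mk (Pat.mk 0x1c000000000000001800000000 0x28000000f80000003f000000300000001800000008 5 8) 0 0 (step_sound _ 132 [rh613cf870deda137f, (rha11dfd15f08f96e3.shift 1 3), (rhbe55ad9cc386c092.shift 2 0)] (by decide +kernel))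
noncomputable def rh14763620fae57fb1 : CRef := CRef.mk (Pat.mk 0x1c000000040000001c00000000 0x20000002a0000007b0000001e000000360000001c00000008 5 7) 0 0 (step_sound _ 68 [(rhaf4ad5ddcc61af8c.shift 1 0), (rhfee6cf4b1b804c14.shift 0 1), (rhfffd95658e7eb85a.shift 2 0)] (by decide +kernel))
noncomputable def rhb8f415117956f37c : CRef := CRef.mk (Pat.mk 0x100000001e0000000000000008 0x1000000010000000180000003f0000007800000008 5 7) 0 0 (step_sound _ 99 [(rh53b3c253cb0c65f4.shift 0 2), (rhbf58c39d59916737.shift 1 0)] (by decide +kernel))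
noncomputable def rh86e87edf7a950fde : CRef := CRef.mk (Pat.mk 0x20000000e000000040000000000000000 0x8000000080000007e0000001f000000040000000400000004 5 7) 0 0 (step_sound _ 34 [(rh7b1f1fb55310c477.shift 1 0), (rhbffe74cdbc4ff8ea.shift 0 1)] (by decide +kernel))
noncomputable def rh889dce6a60d172eb : CRef := CRef.mk (Pat.mk 0x380000000000000070 0x70000007e000000e700000078 5 8) 0 0 (step_sound _ 38 [(rh3f8463b1b243085b.shift 0 1), (rhd4e38fcad27edc47.shift 3 0)] (by decide +kernel))
noncomputable def rh137d7dfa92d91645 : CRef := CRef.mk (Pat.mk 0x20000000600000012000000000000000000000000 0x5000000070000000700000006000000060000001e000000070000000300000002 5 5) 0 0 (step_sound _ 193 [rh09712fccd168bd8f, (rh1741680720c097b4.shift 0 3), (rhd4b4beefcd67f51e.shift 1 2)] (by decide +kernel))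
noncomputable def rh063d2210da79eeef : CRef := CRef.mk (Pat.mk 0xc0000000f000000030000000000000000 0x80000000c0000000f0000001f0000001c0000000c 5 5) 0 0 (step_sound _ 67 [rhb26f729a86cbe1bb, (rhe25b0a99195a5d59.shift 0 2)] (by decide +kernel))
noncomputable def rhcd93c9e1fd250270 : CRef := CRef.mk (Pat.mk 0x800000008000000080000000800000000 0x800000008000000080000001f0000007c00000010 5 7) 0 0 (step_sound _ 36 [(rh55afc6a59410cf00.shift 3 0), (rh89b970f8c237cf8d.shift 0 1)] (by decide +kernel))
noncomputable def rh8bf430e36d13dc0f : CRef := CRef.mk (Pat.mk 0x1400000014000000100000001000000000 0x1400000014000000340000001f0000001800000008 5 6) 0 0 (step_sound _ 35 [(rh7dbc6d4231be866c.shift 0 1), (rh932754581e0f4330.shift 3 0)] (by decide +kernel))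
noncomputable def rhfb6c88cd6e08b813 : CRef := CRef.mk (Pat.mk 0x14000000060000000e 0x2000000030000003f0000003e0000000f 5 6) 0 0 (step_sound _ 67 [(rh18965a982d73c794.shift 1 1), rh752884da105128ca] (by decide +kernel))
noncomputable def rh1b879ff3850eb8a5 : CRef := CRef.mk (Pat.mk 0x14000000060000000c00000008 0x2000000330000003e000000360000001c00000008 5 6) 0 0 (step_sound _ 99 [(rh18965a982d73c794.shift 1 2), rhc522a98d687f6333] (by decide +kernel))
noncomputable def rhab33f02cabeab5dc : CRef := CRef.mk (Pat.mk 0x40000000f0000000a0000000800000000 0x80000001c0000000f0000000e0000003c00000014 5 6) 0 0 (step_sound _ 131 [(rh33e738c4ed385b9f.shift 0 3), (rh6e6b590cd38a882d.shift 1 0)] (by decide +kernel))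
noncomputable def rhb74ca14f2ecc0f11 : CRef := CRef.mk (Pat.mk 0x1000000008000000080000000800000000 0x140000001f00000038000000080000000800000008 5 6) 0 0 (step_sound _ 131 [(rh2f68792b6b779e96.shift 3 1), rh9955b4045fc97d81] (by decide +kernel))
noncomputable def rh1cf9a5413fbda23d : CRef := CRef.mk (Pat.mk 0x3c00000010 0x70000007f0000001e 5 7) 0 0 (step_sound _ 65 [(rh3f8766e6ecb455ce.shift 1 1), rh6d2c2e38fb7db1fa] (by decide +kernel))
noncomputable def rh5a8c20ae5ea82dd8 : CRef := CRef.mk (Pat.mk 0xe000000040000000400000000 0x30000003e000000760000000400000004 5 7) 0 0 (step_sound _ 129 [(rh7b1f1fb55310c477.shift 1 0), (rha086f24fc46b4198.shift 0 2)] (by decide +kernel))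
noncomputable def rh7bd1353fa01bb0bc : CRef := CRef.mk (Pat.mk 0x1c000000040000001c00000000 0x2a0000007b0000001e000000370000001c00000008 5 7) 0 0 (step_sound _ 68 [(rh8c3a1fff475f5ecd.shift 0 1), (rhaf4ad5ddcc61af8c.shift 1 0), (rhfffd95658e7eb85a.shift 2 0)] (by decide +kernel))
noncomputable def rh8078be2587e6ef45 : CRef := CRef.mk (Pat.mk 0x14000000240000001c0000000800000000 0x80000001e0000003c0000001e0000000f00000006 5 6) 0 0 (step_sound _ 34 [(rh19ff9f3f40b433ec.shift 1 0), rhf5094ad2a427d4d3] (by decide +kernel))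
noncomputable def rh5ca1b0eab7f14ed8 : CRef := CRef.mk (Pat.mk 0x5000000090000000700000000 0x200000002000000020000000f0000001b0000000f00000001 5 5) 0 0 (step_sound _ 68 [(rh3fc040e777f1679e.shift 0 1), rh97a786a51d883760] (by decide +kernel))
noncomputable def rh491d8a86fb785c4c : CRef := CRef.mk (Pat.mk 0x14000000040000001c0000000800000000 0xf80000003e0000000c0000001c0000000f00000002 5 8) 0 0 (step_sound _ 131 [rh675ab9d4ddf88e9c, (rhfb2dc840317dabeb.shift 1 1)] (by decide +kernel))
noncomputable def rh1e0526dd4bfa89a9 : CRef := CRef.mk (Pat.mk 0x14000000040000001c0000000800000000 0x180000001c0000001c0000001c0000000f00000002 5 5) 0 0 (step_sound _ 164 [rh2ac394b9004c1c0d, (rh3c88ce959c0e423f.shift 3 1)] (by decide +kernel))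
noncomputable def rha4a8a599f763540c : CRef := CRef.mk (Pat.mk 0x2000000120000001a000000120000000000000000 0xa0000001a0000001a0000001e0000001f0000001d 5 5) 0 0 (step_sound _ 34 [rhbe5734f4091528bc, (rhd3458b32566d63f7.shift 1 1)] (by decide +kernel))
noncomputable def rh01132bb023ed3604 : CRef := CRef.mk (Pat.mk 0x4000000000000001c0000000e0000000000000000 0x16000000160000003b0000001e0000000e0000000800000008 5 6) 0 0 (step_sound _ 97 [(rh6eb76252a9026692.shift 1 0), (rhc6719c6594e47b00.shift 0 2)] (by decide +kernel))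
noncomputable def rh7126354e3cba7e68 : CRef := CRef.mk (Pat.mk 0x1c00000020 0x770000003e00000030 5 7) 0 0 (step_sound _ 33 [(rh96851dee118c1ba3.shift 1 0), (rhb18e6c78a554867d.shift 0 1)] (by decide +kernel))
noncomputable def rh89fe1d4ff4de83ec : CRef := CRef.mk (Pat.mk 0x1c000000100000001c000000000000000000000000 0x80000000a0000000f0000001c000000140000001c0000000f0000000a00000008 5 5) 0 0 (step_sound _ 130 [(rh215e11e099257d75.shift 2 2), (rha768b229dc254047.shift 2 0), (rhb2bdfbd0153d3403.shift 0 1), (rhcc60a17a1a87c612.shift 0 2)] (by decide +kernel))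
noncomputable def rh7e82451033ba2948 : CRef := CRef.mk (Pat.mk 0xc0000001c000000080000000800000000 0x80000000c0000001c0000000f0000003c00000014 5 6) 0 0 (step_sound _ 34 [(rh932754581e0f4330.shift 2 0), rhe7cdacf78b96a0ca] (by decide +kernel))
noncomputable def rh0218fec4ac002d38 : CRef := CRef.mk (Pat.mk 0x200000002c0000002000000000 0x1000000010000000300000007c0000002f0000002000000020 5 7) 0 0 (step_sound _ 100 [(rhb1a251d9bff81766.shift 4 0), (rhbd2e91c3fdbfa961.shift 0 2), rhbd7328f1a9e7950e] (by decide +kernel))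
noncomputable def rh1387195064741994 : CRef := CRef.mk (Pat.mk 0x1c00000020 0x700000003e00000037 5 7) 0 0 (step_sound _ 33 [rh3b00e9e9432b8f40, (rh96851dee118c1ba3.shift 1 0)] (by decide +kernel))
noncomputable def rh4160eb3d8501e3b6 : CRef := CRef.mk (Pat.mk 0x2000000020000000a0000000200000000 0x200000002000000020000001b0000001f00000005 5 5) 0 0 (step_sound _ 32 [rh3da968ed5ed56de1, rh932754581e0f4330] (by decide +kernel))
noncomputable def rhaea4904f3dc207ed : CRef := CRef.mk (Pat.mk 0x70000000400000004000000000000000000000000 0x500000007000000060000000e0000000e0000000e00000008 5 4) 0 0 (step_sound _ 66 [(rha613ffd40b6c9d24.shift 1 0), (rhc9ac229b3c77cd55.shift 1 1), (rhcc97830421a1d116.shift 0 1)] (by decide +kernel))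
noncomputable def rh1e25ae592a75cf84 : CRef := CRef.mk (Pat.mk 0x1000000018000000110000001000000000 0x1000000010000000180000001f0000007800000028 5 7) 0 0 (step_sound _ 35 [rh1f6dd0627e0e34a9, (rh932754581e0f4330.shift 3 0)] (by decide +kernel))
noncomputable def rh1df5c2849d2149f2 : CRef := CRef.mk (Pat.mk 0x1000000018000000110000001800000000 0x1800000018000000180000001f0000007800000020 5 7) 0 0 (step_sound _ 67 [rh2f9f895074bdd71a, (rh5c5e593799055d58.shift 3 1)] (by decide +kernel))
noncomputable def rh67b1f7e21d653710 : CRef := CRef.mk (Pat.mk 0xc0000001c000000080000000800000000 0x80000000c0000001c0000000f0000003c00000014 5 6) 0 0 (step_sound _ 34 [(rh932754581e0f4330.shift 2 0), rh96bc1acee9c2148b] (by decide +kernel))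
noncomputable def rh9646f8330dca7733 : CRef := CRef.mk (Pat.mk 0xa000000080000000600000004 0x20000001f0000007e0000000600000004 5 7) 0 0 (step_sound _ 129 [rh59b4ab1b74bb7deb, (rhff0f29cb645b05f7.shift 1 0)] (by decide +kernel))
noncomputable def rh02ebf059a75c0c5a : CRef := CRef.mk (Pat.mk 0x4000000140000001c000000080000000000000000 0x20000000e0000003c0000001c0000000f0000000600000004 5 6) 0 0 (step_sound _ 66 [(rh1a5f2d50492f2f70.shift 1 0), (rhf5094ad2a427d4d3.shift 0 1)] (by decide +kernel))
noncomputable def rhd1ac5adbecde6469 : CRef := CRef.mk (Pat.mk 0xa000000080000000e00000004 0x330000001e0000000e0000000e0000000c 5 6) 0 0 (step_sound _ 129 [rhbfbf7808e17dd60b, (rhff0f29cb645b05f7.shift 1 0)] (by decide +kernel))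
noncomputable def rhf58eb78f299f3e51 : CRef := CRef.mk (Pat.mk 0x14000000140000001c0000000800000000 0x2000000360000003e0000001c0000000f00000006 5 6) 0 0 (step_sound _ 34 [(rh39278a6f4a4bb0bf.shift 1 0), rhf5094ad2a427d4d3] (by decide +kernel))
noncomputable def rh83796761e2f125d3 : CRef := CRef.mk (Pat.mk 0x14000000140000001c0000000800000000 0x20000003e000000360000001c0000000f00000006 5 6) 0 0 (step_sound _ 34 [(rhbbe65726872ca083.shift 1 0), rhf5094ad2a427d4d3] (by decide +kernel))
noncomputable def rhb2e54128ced39f3c : CRef := CRef.mk (Pat.mk 0xa000000080000000c00000004 0x330000001f0000007c0000000c0000000c 5 7) 0 0 (step_sound _ 98 [rh29683fc53f66f5df, (rh8ee80cc30e93a344.shift 0 2), rhd89c6daa16a70eaa] (by decide +kernel))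
noncomputable def rhadc40f16ab20be18 : CRef := CRef.mk (Pat.mk 0xa000000080000000600000004 0x30000001f0000003e0000000600000004 5 6) 0 0 (step_sound _ 129 [rha05a5ec1e0217231, (rhff0f29cb645b05f7.shift 1 0)] (by decide +kernel))
noncomputable def rh20bb97f1f0fdc8f3 : CRef := CRef.mk (Pat.mk 0x1000000038000000200000000000000000 0x100000001000000018000000780000003f0000000800000008 5 7) 0 0 (step_sound _ 164 [(rh2145e1d24b96a57e.shift 4 2), rh90e4d0bd6de6b6a7] (by decide +kernel))
noncomputable def rh7b1951c3afb94f35 : CRef := CRef.mk (Pat.mk 0xe00000006000000040000000000000000 0x3000000030000001f00000006000000060000000200000002 5 5) 0 0 (step_sound _ 161 [(rh2145e1d24b96a57e.shift 1 2), rh9c5e962b378fc3a4] (by decide +kernel))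
noncomputable def rhae0d2afb4bbaac6c : CRef := CRef.mk (Pat.mk 0x1c0000000e000000000000000000000000 0xc0000000c0000001c0000001e000000370000001200000002 5 6) 0 0 (step_sound _ 65 [(rh5bf746ecd15c6274.shift 0 1), (rhadf429772c25fde0.shift 1 0)] (by decide +kernel))
noncomputable def rh791425c240ba3bca : CRef := CRef.mk (Pat.mk 0x100000001c00000018000000000000000800000000 0x100000001f0000001f000000300000003800000018 5 6) 0 0 (step_sound _ 129 [rha7873bf583a3b568, (rhb739f4f82bb681b4.shift 0 3)] (by decide +kernel))
noncomputable def rh3c345e034217bb7b : CRef := CRef.mk (Pat.mk 0x80000000e0000000c000000000000000400000000 0x80000000e0000003f000000380000001c0000000c 5 6) 0 0 (step_sound _ 100 [rh46d685e2d114d8a3, (rhf48373e13d2bc128.shift 1 3)] (by decide +kernel))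
noncomputable def rh022042513a96faf6 : CRef := CRef.mk (Pat.mk 0x10000000100000001e000000180000000000000000 0x2000000038000000180000001e0000001f0000003000000030 5 6) 0 0 (step_sound _ 65 [(rhd0ec45ccb0960ef5.shift 1 0), (rheb0810cc63b001d8.shift 0 2)] (by decide +kernel))
noncomputable def rh8ff055ce628c134b : CRef := CRef.mk (Pat.mk 0xa000000180000000c000000000000000000000000 0xa0000000a0000001a0000000f000000060000000400000004 5 5) 0 0 (step_sound _ 66 [(rh5c5e593799055d58.shift 2 2), rh9f1d7e1f3e6cbd2c] (by decide +kernel))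
noncomputable def rh898cfb2f5da0ae76 : CRef := CRef.mk (Pat.mk 0x200000003000000060000000000000000 0x400000006000000070000000300000007000000070000000300000003 5 3) 0 0 (step_sound _ 161 [(rh03dfdf12d5937476.shift 0 1), (rh73f605273a09a9d0.shift 1 2), rhd1fa8140a3eb151f] (by decide +kernel))
noncomputable def rh54c959373dc82211 : CRef := CRef.mk (Pat.mk 0x80000000e000000180000001800000000 0xc0000000e0000001b0000001f00000007 5 5) 0 0 (step_sound _ 34 [(rh932754581e0f4330.shift 2 0), rhc5bb9abb5c08e86e] (by decide +kernel))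
noncomputable def rh4bbb847fbca0e3bd : CRef := CRef.mk (Pat.mk 0x6000000070000000100000000 0x60000000600000006000000070000000700000007 5 3) 0 0 (step_sound _ 129 [rh3b4b22564c8e2a2d, (rh5c5e593799055d58.shift 0 1)] (by decide +kernel))
noncomputable def rhc7405c1d24553638 : CRef := CRef.mk (Pat.mk 0x1c000000120000000000000000 0x8000000080000003c0000001f0000003000000010 5 6) 0 0 (step_sound _ 66 [rh13ed9047e90862fe, (rh18965a982d73c794.shift 1 2)] (by decide +kernel))
noncomputable def rh0f8451c1712073f5 : CRef := CRef.mk (Pat.mk 0x20000001c00000000 0x3b0000001f00000038 5 6) 0 0 (step_sound _ 33 [rh17f08a0ad30ba6e8, (rh3244c3cc8379b070.shift 0 1)] (by decide +kernel))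
noncomputable def rh260082dfbe684224 : CRef := CRef.mk (Pat.mk 0x800000016000000020000000000000000 0x800000008000000080000001e0000003b0000001000000010 5 6) 0 0 (step_sound _ 99 [(rh84970c2ccb9fe470.shift 1 0), (rheb0810cc63b001d8.shift 0 2)] (by decide +kernel))
noncomputable def rh035ec83edc8ef9d7 : CRef := CRef.mk (Pat.mk 0x100000001e0000000000000000 0x8000000080000001b0000001f0000003000000010 5 6) 0 0 (step_sound _ 99 [rh426a29b34452fc84, (rh53b3c253cb0c65f4.shift 0 2)] (by decide +kernel))
noncomputable def rh9c2e993369b51ae9 : CRef := CRef.mk (Pat.mk 0x10000000d0000000d0000000100000000 0xa0000001b0000000f0000000d0000000500000005 5 5) 0 0 (step_sound _ 129 [(rh2f68792b6b779e96.shift 0 1), rh7f2180783228f3e3] (by decide +kernel))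
noncomputable def rhd78eefdcbd4794e2 : CRef := CRef.mk (Pat.mk 0x120000001c0000000000000000 0x8000000080000001b0000001f0000003000000010 5 6) 0 0 (step_sound _ 65 [(rh3244c3cc8379b070.shift 0 2), rhd9f8fdeeb50c6416] (by decide +kernel))
noncomputable def rh7995ccdad824d670 : CRef := CRef.mk (Pat.mk 0xc0000000e000000080000000800000000 0xc0000000e0000003a0000001f00000017 5 6) 0 0 (step_sound _ 34 [rh01fedbc54b5b62d7, (rh932754581e0f4330.shift 2 0)] (by decide +kernel))
noncomputable def rh5447eb11ecf34727 : CRef := CRef.mk (Pat.mk 0x400000007000000060000000000000000 0x30000000b0000001f00000007000000060000000600000006 5 5) 0 0 (step_sound _ 33 [rh631d559cd23a0fdb, (rh71222050f2c63a3a.shift 1 0)] (by decide +kernel))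
noncomputable def rh7d16b6293961da2a : CRef := CRef.mk (Pat.mk 0x80000001e000000000000000000000000 0x2000000020000000f0000003e000000060000000400000004 5 6) 0 0 (step_sound _ 129 [(rh2b0655ef223f62c5.shift 1 0), (rh3244c3cc8379b070.shift 0 3)] (by decide +kernel))
noncomputable def rh11aa1728f3af130f : CRef := CRef.mk (Pat.mk 0xc000000080000000e0000000800000000 0x100000003c0000003f0000000e0000000800000008 5 6) 0 0 (step_sound _ 98 [(rh6f9d0ef92c6bc639.shift 0 1), (rh7b1f1fb55310c477.shift 2 0)] (by decide +kernel))
noncomputable def rh2b277e447d454ab3 : CRef := CRef.mk (Pat.mk 0x300000003000000060000000200000000 0x200000002000000060000000700000007000000070000000300000001 5 3) 0 0 (step_sound _ 130 [(rh2f68792b6b779e96.shift 1 1), rh8fec1ddea6bd2bba] (by decide +kernel))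
noncomputable def rh328952966679b03a : CRef := CRef.mk (Pat.mk 0x3000000030000000600000006 0x1c0000001f0000001b0000000e00000006 5 5) 0 0 (step_sound _ 98 [(rh2f68792b6b779e96.shift 1 0), rhaeb6e39a4f45dd68] (by decide +kernel))
noncomputable def rhcf713fb9e4c35c86 : CRef := CRef.mk (Pat.mk 0x2000000020000000200000002000000020000000000000000 0x100000003000000020000000200000002000000070000000700000005 5 3) 0 0 (step_sound _ 224 [rh6eff4158bb400f47, (rhffd04209dc8ea796.shift 0 3)] (by decide +kernel))
noncomputable def rh9a2a463c8ba8caec : CRef := CRef.mk (Pat.mk 0x400000004000000040000000400000000 0x20000000f0000003e000000040000000400000004 5 6) 0 0 (step_sound _ 129 [rh46189e50c0cfd17e, (rh50fbb5868c909700.shift 1 1)] (by decide +kernel))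
noncomputable def rh2cc7cdadeed6296a : CRef := CRef.mk (Pat.mk 0xc000000040000001c0000000c00000000 0x120000003e000000370000001c0000000e00000002 5 6) 0 0 (step_sound _ 129 [(rh50fbb5868c909700.shift 1 1), rhe123f0a74ef8280a] (by decide +kernel))
noncomputable def rhff586c1cba3b288f : CRef := CRef.mk (Pat.mk 0x600000003000000060000000200000000 0x800000008000000080000001e0000000f000000060000000600000002 5 5) 0 0 (step_sound _ 98 [(rh702feffd8fcfec03.shift 0 1), (rh71222050f2c63a3a.shift 1 0)] (by decide +kernel))
noncomputable def rhf7718475f45e1e99 : CRef := CRef.mk (Pat.mk 0x2000000070000000c0000000400000000 0xc0000000c0000000c0000001e000000070000000c0000000c00000008 5 5) 0 0 (step_sound _ 130 [(rh4c60faed9e5f228f.shift 1 1), (rh712526e472efe489.shift 0 1), (rhd4b4beefcd67f51e.shift 2 0)] (by decide +kernel))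
noncomputable def rhdc4c5c2bfb1bc868 : CRef := CRef.mk (Pat.mk 0x30000000a00000002000000000000000000000000 0x2000000030000007e0000001f000000060000000400000004 5 7) 0 0 (step_sound _ 132 [(rh5419adcd928dba20.shift 0 4), rha4c828d843b24f79] (by decide +kernel))
noncomputable def rhc5fcd363134bce71 : CRef := CRef.mk (Pat.mk 0x1800000018000000380000000000000000 0x40000001f0000001f000000380000000800000008 5 6) 0 0 (step_sound _ 97 [rh025f5a8d72a8b681, (rhab22b5b56e7b3243.shift 1 2)] (by decide +kernel))
noncomputable def rha1caad567ab8c6b4 : CRef := CRef.mk (Pat.mk 0xe0000001c0000001000000010 0x200000002000000270000007e0000001c0000001400000014 5 7) 0 0 (step_sound _ 100 [(rh712526e472efe489.shift 2 0), rh7abdac32ff6bd120, rhd5889c99d29bf7d6] (by decide +kernel))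
noncomputable def rh4545046f80935371 : CRef := CRef.mk (Pat.mk 0x2000000020000000e0000000a00000000 0x4000000070000003e0000000e0000000a0000000a 5 6) 0 0 (step_sound _ 130 [rh1d280e2468c058e7, (rh2f68792b6b779e96.shift 1 1)] (by decide +kernel))
noncomputable def rh1da7a0935fbd0dca : CRef := CRef.mk (Pat.mk 0x2000000020000000a0000000a00000000 0x5000000070000001e0000000a0000000a0000000a 5 5) 0 0 (step_sound _ 130 [(rh2f68792b6b779e96.shift 1 1), rhddc47abeada1ab67] (by decide +kernel))
noncomputable def rhbfe0159ae8f7fabb : CRef := CRef.mk (Pat.mk 0x2000000038000000100000000000000000 0x8000000080000003f00000078000000180000001000000010 5 7) 0 0 (step_sound _ 36 [(rh71222050f2c63a3a.shift 4 0), (rhf9e36269fdb9e191.shift 0 1)] (by decide +kernel))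
noncomputable def rh382cce9752f1d426 : CRef := CRef.mk (Pat.mk 0xa0000000b0000000400000004 0x7c0000001f0000000b0000000c00000004 5 7) 0 0 (step_sound _ 98 [(rh18965a982d73c794.shift 0 2), rh73248f6169943a03] (by decide +kernel))
noncomputable def rh705e7c85eba5c5e8 : CRef := CRef.mk (Pat.mk 0x380000001c0000001000000030 0x14000000160000003f0000003c0000001e000000f8 5 8) 0 0 (step_sound _ 35 [(rh3c3e23a02e82b2ed.shift 1 0), (rh84d1c02a8954c6a8.shift 3 0), rha1a374a68c837249] (by decide +kernel))
noncomputable def rh9502fb3f55017c7f : CRef := CRef.mk (Pat.mk 0x180000001c0000001800000030 0x10000000300000001f0000003e0000001f00000030 5 6) 0 0 (step_sound _ 33 [(rhab22b5b56e7b3243.shift 1 0), (rhf94da2a102828e83.shift 0 1)] (by decide +kernel))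
noncomputable def rhe8d0a17a8109e5fb : CRef := CRef.mk (Pat.mk 0x8000000180000003800000008 0x140000001f0000003e0000003800000008 5 6) 0 0 (step_sound _ 100 [(rh2f68792b6b779e96.shift 3 0), rh46f34fdbf6b9ab76] (by decide +kernel))
noncomputable def rh45e346eb229ab3ee : CRef := CRef.mk (Pat.mk 0x200000016000000080000000000000000 0x10000000100000003b0000001e000000080000000800000008 5 6) 0 0 (step_sound _ 99 [(rh3244c3cc8379b070.shift 0 3), (rh6eb76252a9026692.shift 1 0)] (by decide +kernel))
noncomputable def rhbddc5727b3713962 : CRef := CRef.mk (Pat.mk 0x40000000e0000000a0000000200000000 0x100000001c0000000f0000000b0000001e0000001c 5 5) 0 0 (step_sound _ 35 [rh6902a7735486f600, (rh7b1f1fb55310c477.shift 2 0)] (by decide +kernel))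
noncomputable def rhd107e57b3b42fcdf : CRef := CRef.mk (Pat.mk 0x1e00000000 0xe70000007e000000e0 5 8) 0 0 (step_sound _ 65 [(rh1136b81d2c6924ee.shift 1 0), (rh3244c3cc8379b070.shift 0 1)] (by decide +kernel))
noncomputable def rh837f2f242894e5a8 : CRef := CRef.mk (Pat.mk 0x160000001c000000080000000800000000 0x630000007e0000001c0000001c0000001c00000014 5 7) 0 0 (step_sound _ 131 [(rhe5f1d6f0879cdb28.shift 2 0), rhf53ee62ce7c07a09] (by decide +kernel))
noncomputable def rh3e3fd9dffbbee25b : CRef := CRef.mk (Pat.mk 0x200000003000000060000000200000000000000000000000000000000 0x200000003000000070000000600000006000000070000000700000005 5 3) 0 0 (step_sound _ 97 [rh46bfb734f58a0e67, (rha613ffd40b6c9d24.shift 0 1), (rhd29a1fb688eae70f.shift 1 2), rhde32e0b5ff3be9cc] (by decide +kernel))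
noncomputable def rh4e0a00af34735ff2 : CRef := CRef.mk (Pat.mk 0x200000002000000060000000200000000000000000000000000000000 0x200000002000000060000000600000007000000070000000700000004 5 3) 0 0 (step_sound _ 97 [rh218cd2e070c414fb, (rh6eff4158bb400f47.shift 0 1), (rh96f119fce01cb5f6.shift 0 1), (rhd29a1fb688eae70f.shift 1 2)] (by decide +kernel))
noncomputable def rhe2b6bcb4ab60c04b : CRef := CRef.mk (Pat.mk 0xc0000000e000000040000000600000000 0x100000003c0000000e0000003c0000000f00000008 5 6) 0 0 (step_sound _ 132 [(rh18965a982d73c794.shift 1 3), rh42dbef67c898bcac] (by decide +kernel))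
noncomputable def rh755154be1e5158ce : CRef := CRef.mk (Pat.mk 0x600000007000000030000000200000000 0x80000001e00000007000000070000001e0000000c 5 5) 0 0 (step_sound _ 34 [rh268ee27c5874a546, (rh55afc6a59410cf00.shift 1 0)] (by decide +kernel))
noncomputable def rha30e284cc65e9499 : CRef := CRef.mk (Pat.mk 0x140000001e000000060000000000000000 0x10000000140000001e0000003e0000000b0000000a 5 6) 0 0 (step_sound _ 68 [rh15228c732569498b, (rhe25b0a99195a5d59.shift 1 2)] (by decide +kernel))
noncomputable def rh596495a47f18b273 : CRef := CRef.mk (Pat.mk 0x3800000058000000080000001800000000 0x2000000038000000780000003c0000001f00000004 5 7) 0 0 (step_sound _ 66 [(rh361cc68994bd8a63.shift 2 2), rha47e70e267e1b165] (by decide +kernel))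
noncomputable def rhec3b003719047807 : CRef := CRef.mk (Pat.mk 0x60000000f000000010000000000000000 0x600000006000000060000000f0000001d0000000800000008 5 5) 0 0 (step_sound _ 161 [(rh5c5e593799055d58.shift 0 2), rh84970c2ccb9fe470] (by decide +kernel))
noncomputable def rhe797a3b51f96dc73 : CRef := CRef.mk (Pat.mk 0x380000005a000000080000000800000000 0x20000000380000007b0000001f0000001800000010 5 7) 0 0 (step_sound _ 36 [(rh55afc6a59410cf00.shift 3 0), (rh889e5eedbd58fb6c.shift 0 1)] (by decide +kernel))
noncomputable def rh003ddae2ea9e8034 : CRef := CRef.mk (Pat.mk 0x80000005a000000080000000000000000 0x80000007b0000001f0000003000000010 5 7) 0 0 (step_sound _ 66 [(rh361cc68994bd8a63.shift 2 2), rh725110c9d60a949c] (by decide +kernel))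
noncomputable def rh96159445973467c3 : CRef := CRef.mk (Pat.mk 0x60000000f000000010000000000000000 0x6000000060000000e0000000f000000190000000800000008 5 5) 0 0 (step_sound _ 161 [(rh5c5e593799055d58.shift 0 2), rh85069a6d037617f9] (by decide +kernel))
noncomputable def rh3a8a159dea931c6a : CRef := CRef.mk (Pat.mk 0x80000001c0000000e0000000000000000 0x80000001c0000003e0000003700000014 5 6) 0 0 (step_sound _ 34 [rh681dcf98856e23e1, (rh71222050f2c63a3a.shift 2 0)] (by decide +kernel))
noncomputable def rhe5880a632366aa31 : CRef := CRef.mk (Pat.mk 0xf0000000b0000000000000000 0x40000001c0000000f0000000b0000001e0000001c 5 5) 0 0 (step_sound _ 131 [(rh33e738c4ed385b9f.shift 0 3), rh4fbfde65966a5a67] (by decide +kernel))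
noncomputable def rh017a73cf4ac84e83 : CRef := CRef.mk (Pat.mk 0x600000007000000030000000200000000 0x80000001e00000007000000070000001e0000000c 5 5) 0 0 (step_sound _ 34 [(rh55afc6a59410cf00.shift 1 0), rhfc15e036455523cd] (by decide +kernel))
noncomputable def rhce1391072bc7801c : CRef := CRef.mk (Pat.mk 0x4000000080000000b0000000b00000000 0x100000001e0000001f0000000a0000000b0000000b00000001 5 5) 0 0 (step_sound _ 131 [(rh50fbb5868c909700.shift 2 1), rhd1129791c9e97c23] (by decide +kernel))
noncomputable def rh271fa525e6d3787d : CRef := CRef.mk (Pat.mk 0x8000000080000000e0000000c00000000 0x60000000f0000003c0000000e0000000c00000008 5 6) 0 0 (step_sound _ 130 [rh2f57a4ea087aa79a, (rh50fbb5868c909700.shift 2 1)] (by decide +kernel))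
noncomputable def rh1641d7b72f3d9d94 : CRef := CRef.mk (Pat.mk 0x40000000e00000007000000000000000000000000 0x80000000c0000000e000000070000001e0000000e0000000c 5 5) 0 0 (step_sound _ 65 [rh61e1c0b2d5df57e3, (rh71222050f2c63a3a.shift 1 1)] (by decide +kernel))
noncomputable def rh87d485692c6d158b : CRef := CRef.mk (Pat.mk 0x600000006000000030000000300000000 0x60000000e0000001b0000001f0000001c 5 5) 0 0 (step_sound _ 34 [(rh55afc6a59410cf00.shift 1 0), rh5c878e124d90db45] (by decide +kernel))
noncomputable def rhd252072856beafb9 : CRef := CRef.mk (Pat.mk 0xc00000014000000040000000c00000000 0x40000000c0000001c0000000f0000003c00000014 5 6) 0 0 (step_sound _ 67 [(rh2145e1d24b96a57e.shift 2 1), rhcde3d66b346cf48d] (by decide +kernel))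
noncomputable def rhe06e0bacb1aba756 : CRef := CRef.mk (Pat.mk 0x600000006000000020000000000000000 0x40000000600000006000000070000003e0000000c00000004 5 6) 0 0 (step_sound _ 162 [rh017d253d90ceaa84, (rh5c5e593799055d58.shift 1 2)] (by decide +kernel))
noncomputable def rhc104498b355f0445 : CRef := CRef.mk (Pat.mk 0x10000000180000000e00000008 0x20000000300000001f000000fe0000007c 5 8) 0 0 (step_sound _ 36 [(rh870359598daa9f92.shift 0 1), (rhc6919780d26a686c.shift 1 0), rhd8d98eb6ec46d5f8] (by decide +kernel))
noncomputable def rh6847b991c3555125 : CRef := CRef.mk (Pat.mk 0x200000003000000018 0x1e00000007f0000001f 5 9) 0 0 (step_sound _ 35 [(rh4dc133ee0ba1420a.shift 1 0), (rha11dfd15f08f96e3.shift 2 1), rhf0ab1ab592ea3c19] (by decide +kernel))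
noncomputable def rh526941cda37e6069 : CRef := CRef.mk (Pat.mk 0x600000006000000140000000000000000 0x70000003e0000003e0000000300000002 5 6) 0 0 (step_sound _ 100 [(rh665fa2b016ee28ae.shift 0 2), rh7a9f124911bb3251, (rhfd0f316c42bbba52.shift 0 3)] (by decide +kernel))
noncomputable def rhf05707dfa99a940f : CRef := CRef.mk (Pat.mk 0x80000000c00000006000000140000000000000000 0x80000001c000000360000003e0000003300000002 5 6) 0 0 (step_sound _ 67 [rhe18dcba996aa39d4, (rhf48373e13d2bc128.shift 1 2)] (by decide +kernel))
noncomputable def rh46fd159d79a130f9 : CRef := CRef.mk (Pat.mk 0x80000000c00000006000000140000000000000000 0x80000000c0000000e0000003e0000003300000002 5 6) 0 0 (step_sound _ 67 [rh0f1d0b889a1adcaa, (rhf48373e13d2bc128.shift 1 2)] (by decide +kernel))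
noncomputable def rhf9a0c9517571d87f : CRef := CRef.mk (Pat.mk 0x4000000070000000b0000000200000000 0x1c0000000f0000001b0000001e0000000c 5 5) 0 0 (step_sound _ 99 [rhc6740ea15e0d7784, (rhe25b0a99195a5d59.shift 0 2)] (by decide +kernel))
noncomputable def rh6c5bba6fbb46b7c5 : CRef := CRef.mk (Pat.mk 0x4000000070000000b000000020000000000000000 0x1c0000000f0000000f0000001e0000000c00000008 5 5) 0 0 (step_sound _ 67 [rh07ddfbf5f5d4b6d6, (rh74a43b9a483760f6.shift 2 0), (rha6816dee951f7ee6.shift 0 2), (rhd139fa3f32e95937.shift 0 1), rhe0dfcc5b9ef85f8a] (by decide +kernel))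
noncomputable def rheaf084005eae2bfe : CRef := CRef.mk (Pat.mk 0x1c0000001c00000004 0x1800000018000000380000001f0000001c00000004 5 6) 0 0 (step_sound _ 65 [(rhb5a5b9d9db627df0.shift 1 0), (rhb739f4f82bb681b4.shift 0 1)] (by decide +kernel))
noncomputable def rh0a9f0b838d537430 : CRef := CRef.mk (Pat.mk 0x3800000018 0xe0000000ff00000038 5 8) 0 0 (step_sound _ 38 [(rh18965a982d73c794.shift 3 0), rh210e2d9c685c857e] (by decide +kernel))
noncomputable def rh8e95d053fbeaa01f : CRef := CRef.mk (Pat.mk 0x80000000c0000001c00000000 0x1000000010000000780000007e0000001f00000008 5 7) 0 0 (step_sound _ 68 [rh51182b616f0ce581, (rh96216ee396889d2c.shift 1 0), (rhf9d36e158778ce35.shift 1 1)] (by decide +kernel))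
noncomputable def rh2b7bd790d70dbc72 : CRef := CRef.mk (Pat.mk 0x180000001c000000180000000000000000 0x180000001c0000007c0000000f0000000c 5 7) 0 0 (step_sound _ 35 [rh11258dce8573113d, (rh71222050f2c63a3a.shift 3 0)] (by decide +kernel))
noncomputable def rh4a07daf82040e119 : CRef := CRef.mk (Pat.mk 0x4000000180000001c00000004 0xa0000000f0000001b0000001f00000004 5 5) 0 0 (step_sound _ 99 [rh5881b3d15bdec131, (rh5c5e593799055d58.shift 2 0)] (by decide +kernel))
noncomputable def rhc4d61533d68dee1f : CRef := CRef.mk (Pat.mk 0x4000000180000000c00000006 0xe0000000f0000001a0000000f00000006 5 5) 0 0 (step_sound _ 33 [rh4bb7931b798957df, (rh53b3c253cb0c65f4.shift 0 1)] (by decide +kernel))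
noncomputable def rh0e93b50f4d99aa7b : CRef := CRef.mk (Pat.mk 0x14000000100000001c00000004 0x800000028000000380000003f000000f80000001c00000004 5 8) 0 0 (step_sound _ 99 [(rh7914cfa1578c69df.shift 2 0), (rh8ee80cc30e93a344.shift 1 2), (rh907ed7275486ec25.shift 0 1), (rh92f1a5215ff998bb.shift 1 0), (rhceabe5d87163fcf5.shift 1 0)] (by decide +kernel))
noncomputable def rh22316f9c09191c5b : CRef := CRef.mk (Pat.mk 0xa000000080000000c00000000 0x10000000780000001f000000080000000c00000004 5 7) 0 0 (step_sound _ 131 [(rh0363d47a46978688.shift 0 1), (rh932754581e0f4330.shift 2 0)] (by decide +kernel))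
noncomputable def rh66d0ca03d9234b4c : CRef := CRef.mk (Pat.mk 0x8000000180000001e00000004 0x70000000f0000001e0000001e00000007 5 5) 0 0 (step_sound _ 1 [rh59389d28620f96eb, rheb0810cc63b001d8] (by decide +kernel))
noncomputable def rh3ce9bda712329b1c : CRef := CRef.mk (Pat.mk 0x40000000700000006000000020000000000000000 0x6000000070000001f0000003e0000000c00000004 5 6) 0 0 (step_sound _ 99 [rh017d253d90ceaa84, (rhf48373e13d2bc128.shift 0 3)] (by decide +kernel))
noncomputable def rh44ba3727d720a474 : CRef := CRef.mk (Pat.mk 0x10000000180000000c000000040000000000000000 0x100000003c0000000f0000000c0000000c0000000c 5 6) 0 0 (step_sound _ 97 [(rh16dd32c7f9e93d27.shift 1 0), (rh53b3c253cb0c65f4.shift 0 3)] (by decide +kernel))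
noncomputable def rh42ef1c5fc08c7964 : CRef := CRef.mk (Pat.mk 0x30000000180000003800000000 0x8000000780000001f0000003f00000007 5 7) 0 0 (step_sound _ 34 [(rh87fb4af8316b9600.shift 0 1), (rhc0387b2f6c60d88c.shift 1 0), rhcc2be1f880c5ea3e] (by decide +kernel))
noncomputable def rh917a89c549281cbe : CRef := CRef.mk (Pat.mk 0xc00000007000000060000000000000000 0x2000000020000001e00000007000000070000000300000003 5 5) 0 0 (step_sound _ 129 [(rh18965a982d73c794.shift 0 3), rh29e0362802793f45] (by decide +kernel))
noncomputable def rh338da26de1ef36c6 : CRef := CRef.mk (Pat.mk 0x400000016000000160000000000000000 0x2000000060000001e0000001f0000000300000003 5 5) 0 0 (step_sound _ 64 [rh17bffab5f14c640f, (rh361cc68994bd8a63.shift 0 2)] (by decide +kernel))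
noncomputable def rh9bd51d61991a9a87 : CRef := CRef.mk (Pat.mk 0x80000000c00000006000000140000000000000000 0x80000001c000000360000003e0000003300000002 5 6) 0 0 (step_sound _ 67 [rhbef1492f44ebe3f7, (rhf48373e13d2bc128.shift 1 2)] (by decide +kernel))
noncomputable def rh6dcb6e4d6a6b5038 : CRef := CRef.mk (Pat.mk 0x80000000c0000000e000000160000000000000000 0x10000000180000001c0000000e0000001e0000000b0000000a 5 5) 0 0 (step_sound _ 33 [(rh71222050f2c63a3a.shift 1 0), rhd997e55b88cd3a55] (by decide +kernel))
noncomputable def rhba9e8146026dae1c : CRef := CRef.mk (Pat.mk 0x80000001c0000002c000000000000000000000000 0xc0000001c0000003f000000060000000600000002 5 6) 0 0 (step_sound _ 66 [rh0a09c9f544642afe, (rh71222050f2c63a3a.shift 2 1)] (by decide +kernel))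
noncomputable def rh83261caa9d757b45 : CRef := CRef.mk (Pat.mk 0x40000000e000000080000000800000000 0x180000003c0000000f000000780000001800000010 5 7) 0 0 (step_sound _ 68 [(rhb739f4f82bb681b4.shift 0 2), (rhe320a693f897e845.shift 1 0)] (by decide +kernel))
noncomputable def rh63bf991ecdeaf67f : CRef := CRef.mk (Pat.mk 0x400000006000000030000000a0000000000000000 0x80000000c0000000e000000070000001e0000000c00000004 5 5) 0 0 (step_sound _ 66 [(rh1277175f94ed1ab3.shift 1 0), (rhf48373e13d2bc128.shift 0 2)] (by decide +kernel))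
noncomputable def rhf6ee49bec159cae2 : CRef := CRef.mk (Pat.mk 0x80000000c00000007000000000000000000000000 0x80000001c0000000f0000001c0000000c0000000c 5 5) 0 0 (step_sound _ 99 [rh225a66d7634c3aad, (rh33e738c4ed385b9f.shift 0 3)] (by decide +kernel))
noncomputable def rh5b9522c69367ba66 : CRef := CRef.mk (Pat.mk 0x1c000000180000000c0000000c00000000 0x1f000000180000001c0000007c00000070 5 7) 0 0 (step_sound _ 129 [(rh459f1a5b6d1b1e06.shift 2 0), (rhb739f4f82bb681b4.shift 0 3)] (by decide +kernel))
noncomputable def rh73a8d4d1f56d46c1 : CRef := CRef.mk (Pat.mk 0x80000000c0000000c000000060000000000000000 0x10000000780000001f0000000c0000000f0000001800000018 5 7) 0 0 (step_sound _ 164 [rh389fd00ca40dfe21, (rh69012675dfdb1a5b.shift 0 4), (rh84bebdeadf3219f3.shift 2 0)] (by decide +kernel))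
noncomputable def rh9f1838818b033f4f : CRef := CRef.mk (Pat.mk 0xe00000006000000140000000000000000 0xf0000003e0000003f0000000300000002 5 6) 0 0 (step_sound _ 67 [(rhf48373e13d2bc128.shift 1 2), rhf70a93efeebe3de4] (by decide +kernel))
noncomputable def rh71b3b4e4185ed0e6 : CRef := CRef.mk (Pat.mk 0x80000000e00000016000000000000000000000000 0x80000000e0000003e0000003b0000001000000010 5 6) 0 0 (step_sound _ 99 [rh3593e1fdb4246637, (rhf48373e13d2bc128.shift 1 3)] (by decide +kernel))
noncomputable def rh2803229b05a4c7b5 : CRef := CRef.mk (Pat.mk 0x80000000e00000016000000040000000000000000 0x380000001e0000001e0000003f0000001800000010 5 6) 0 0 (step_sound _ 68 [(rh40555e7ca63f5013.shift 1 0), (rh74a43b9a483760f6.shift 3 0), (rha6816dee951f7ee6.shift 1 2), (rhd139fa3f32e95937.shift 1 1), rhe49ed828379aaab1] (by decide +kernel))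
noncomputable def rhbede5b5599826d04 : CRef := CRef.mk (Pat.mk 0x8000000080000000c00000004000000000000000000000000 0x10000000180000001c0000000f0000003c000000180000000800000008 5 6) 0 0 (step_sound _ 99 [(rh3502d92c6cce609b.shift 2 0), (rhfe557af9112f51d6.shift 0 2)] (by decide +kernel))
noncomputable def rh25e4b98dc1c0e947 : CRef := CRef.mk (Pat.mk 0x2000000038000000180000000800000000 0x80000002800000038000000380000001f00000014 5 6) 0 0 (step_sound _ 36 [(rh71222050f2c63a3a.shift 4 0), rhe2d7daae1577d340] (by decide +kernel))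
noncomputable def rh50824dbbbdd956f6 : CRef := CRef.mk (Pat.mk 0x10000000300000001c0000000800000000 0xc0000001e0000003c0000003c0000000f00000004 5 6) 0 0 (step_sound _ 34 [(rh4043de58fad100db.shift 1 0), (rh4dc133ee0ba1420a.shift 0 1)] (by decide +kernel))
noncomputable def rh2f80ad7ffe2e9ba8 : CRef := CRef.mk (Pat.mk 0x1c000000080000000c00000004 0x30000001f0000007a0000001f00000004 5 7) 0 0 (step_sound _ 68 [(rh6292bd8784ece55f.shift 1 2), (rh8f9617ee17321bd4.shift 0 1), rh9b30014d4bb33c13] (by decide +kernel))
noncomputable def rhadec0b23d94befe2 : CRef := CRef.mk (Pat.mk 0x1e000000180000000800000000 0x4000000040000000c0000001e0000001f0000000f00000002 5 5) 0 0 (step_sound _ 65 [rhc5f89d3c2c4d4af8, (rheb0810cc63b001d8.shift 0 2)] (by decide +kernel))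
noncomputable def rhba4021636480f5ad : CRef := CRef.mk (Pat.mk 0x8000000180000001c000000000000000000000000 0x1000000018000000180000003c0000000f0000000c0000000c 5 6) 0 0 (step_sound _ 67 [(rh46530d756bdf8511.shift 2 0), (rh84d1c02a8954c6a8.shift 3 1), (rhea91b5b6d9c8c5e9.shift 0 1)] (by decide +kernel))
noncomputable def rh901e9a3b6ee71e4f : CRef := CRef.mk (Pat.mk 0x140000001c0000000c0000000800000000 0x8000000fc0000003c0000003c0000000f00000006 5 8) 0 0 (step_sound _ 133 [(rh572132728df34c43.shift 2 3), rha6cb0f0c3fac5209] (by decide +kernel))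
noncomputable def rhc251cad2c5d11a88 : CRef := CRef.mk (Pat.mk 0x40000000700000006000000020000000000000000 0x1000000010000000700000007000000070000003e0000000c00000004 5 6) 0 0 (step_sound _ 160 [rh14dda0cb7e02f704, (rhc89253ff58c66167.shift 0 2), (rhe072fffdd2fccf38.shift 0 2)] (by decide +kernel))
noncomputable def rh820a958e8ba35b00 : CRef := CRef.mk (Pat.mk 0xc0000000700000003000000020000000000000000 0x80000000c0000000f0000001f0000001e0000000c0000000c 5 5) 0 0 (step_sound _ 98 [(rh285e15fe8a0693b9.shift 0 1), rh5311deb114bad81b, rhdf141a346f32232f] (by decide +kernel))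
noncomputable def rh85a2c4cfeb3c2e45 : CRef := CRef.mk (Pat.mk 0x20000000200000003000000010000000000000000 0x4000000070000000700000003000000030000000300000002 5 3) 0 0 (step_sound _ 65 [rh3724468151636231, (rh932754581e0f4330.shift 0 1)] (by decide +kernel))
noncomputable def rh4c65f10359450326 : CRef := CRef.mk (Pat.mk 0x1800000038000000180000000800000000 0x2000000020000000780000003e000000180000001f00000004 5 7) 0 0 (step_sound _ 34 [(rh932754581e0f4330.shift 2 0), (rhfcc99204c38ea1e5.shift 0 1)] (by decide +kernel))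
noncomputable def rh15ced007ad23b6d1 : CRef := CRef.mk (Pat.mk 0xc0000000c000000060000000200000000 0x18000000180000001c0000000c0000001e0000001b00000008 5 5) 0 0 (step_sound _ 163 [rh4d6fd19731df277e, (rh5c5e593799055d58.shift 2 2)] (by decide +kernel))
noncomputable def rhbd78abdca3aaeb9f : CRef := CRef.mk (Pat.mk 0xc0000000c000000060000000200000000 0xc0000000c0000007e0000007f00000018 5 7) 0 0 (step_sound _ 67 [(rh166b616967b83a48.shift 1 0), rhd810b6b8881f4b8a, (rhedf43d9310a523b3.shift 0 1)] (by decide +kernel))
noncomputable def rhfcfe040e3c8f5f91 : CRef := CRef.mk (Pat.mk 0xc0000000e000000000000000000000000 0x8000000080000001f0000003e000000300000001000000010 5 6) 0 0 (step_sound _ 100 [(rh85069a6d037617f9.shift 1 0), (rhe3060b190bc0bc78.shift 0 3)] (by decide +kernel))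
noncomputable def rhcc9e16a06547b9c5 : CRef := CRef.mk (Pat.mk 0xc0000000c0000000a0000000300000000 0x18000000180000001c0000000c0000001e0000000b00000008 5 5) 0 0 (step_sound _ 35 [(rh708d84819ce46a3a.shift 0 1), (rh7b1f1fb55310c477.shift 2 0)] (by decide +kernel))
noncomputable def rh6f0b420a43dc858d : CRef := CRef.mk (Pat.mk 0x180000001c000000040000000600000000 0x1000000010000000300000001f0000001c0000000c0000000600000002 5 6) 0 0 (step_sound _ 130 [(rh932754581e0f4330.shift 1 0), (rhc04bdb4f52da4841.shift 0 2)] (by decide +kernel))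
noncomputable def rh6511e0625cc92620 : CRef := CRef.mk (Pat.mk 0x80000000e000000140000000600000000 0xc0000001e000000340000001f00000038 5 6) 0 0 (step_sound _ 36 [(rh1b8d735d1ec00cd4.shift 1 0), rh35866a89f3370c4d, rh434399ea96930d00, (rh4b676234a5ebf2d3.shift 1 1)] (by decide +kernel))
noncomputable def rh05314c7cc02da3e7 : CRef := CRef.mk (Pat.mk 0x180000000c00000014000000060000000000000000 0x100000001c0000001c0000001c0000001f0000003800000018 5 6) 0 0 (step_sound _ 67 [(rh431ae7760c5a2d78.shift 0 2), (rh4dbf74e83cc050b1.shift 2 0), (rhf44e5298a7df0b57.shift 0 1)] (by decide +kernel))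
noncomputable def rh9ac3f78ef71b8df5 : CRef := CRef.mk (Pat.mk 0x400000006000000020000000300000000 0x200000003000000030000000700000006000000060000000300000001 5 3) 0 0 (step_sound _ 129 [rh932754581e0f4330, (rh933f3ac7d57d09d8.shift 0 1)] (by decide +kernel))
noncomputable def rhf6dd15a66aea03cb : CRef := CRef.mk (Pat.mk 0x2000000020000000000000003800000000 0x2000000060000000c70000007e000000ef 5 8) 0 0 (step_sound _ 34 [(rh06db8ceda6269a47.shift 1 0), (rh59810ecc3e5f50ca.shift 2 0), rh775ca1963e850b80] (by decide +kernel))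
noncomputable def rhe237ceca1ca3d57b : CRef := CRef.mk (Pat.mk 0x1000000004000000040000000e00000000 0x1400000014000000340000001f00000038 5 6) 0 0 (step_sound _ 3 [(rh2145e1d24b96a57e.shift 2 0), rh39f7dc2d5777ac47] (by decide +kernel))
noncomputable def rh9bed6090409d1093 : CRef := CRef.mk (Pat.mk 0x1c00000006000000020000000200000000 0x3b0000001f00000006000000060000000600000004 5 6) 0 0 (step_sound _ 129 [rh4b4bd3c7652db278, (rh8af9a32e61457eb0.shift 1 0), (rha25c0e62bb8d55c9.shift 0 1)] (by decide +kernel))
noncomputable def rh929536e4b5549a40 : CRef := CRef.mk (Pat.mk 0xc0000000700000014000000000000000000000000 0xc0000000f0000001c0000000f0000000e0000000a 5 5) 0 0 (step_sound _ 66 [(rh41f458053cc6e2ad.shift 0 1), (rh6eff4158bb400f47.shift 1 0), (rhd7919c2e864531da.shift 0 1)] (by decide +kernel))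
noncomputable def rh4890a12c75191028 : CRef := CRef.mk (Pat.mk 0x80000001e000000080000000800000000 0x80000003e0000000f0000003c00000014 5 6) 0 0 (step_sound _ 65 [(rh9472fd238816ceb5.shift 1 0), (rheb0810cc63b001d8.shift 0 2)] (by decide +kernel))
noncomputable def rh469fc8b8848478d7 : CRef := CRef.mk (Pat.mk 0x6000000070000000a0000000000000000 0x60000000f0000001a0000000f00000007 5 5) 0 0 (step_sound _ 33 [rh34d1b435c04dddd3, (rh71222050f2c63a3a.shift 1 0)] (by decide +kernel))
noncomputable def rhcd965181f0e6e5db : CRef := CRef.mk (Pat.mk 0x80000001e000000280000000800000000 0x80000001e0000006f0000003c00000014 5 7) 0 0 (step_sound _ 34 [rh100b94bb500c49cc, (rh932754581e0f4330.shift 2 0)] (by decide +kernel))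
noncomputable def rhe5e3498d8e2a9333 : CRef := CRef.mk (Pat.mk 0x180000000e00000018 0x10000000300000001f0000003e00000038 5 6) 0 0 (step_sound _ 36 [rh98bfe017ab5fead7, (rhe25b0a99195a5d59.shift 1 0)] (by decide +kernel))
noncomputable def rh138f18a302b072d2 : CRef := CRef.mk (Pat.mk 0xc00000007000000020000000000000000 0xa0000001e00000007000000060000000600000006 5 5) 0 0 (step_sound _ 129 [(rh01063aa26991a6f6.shift 1 0), (rh18965a982d73c794.shift 0 3)] (by decide +kernel))
noncomputable def rh9dceb27c4b913b12 : CRef := CRef.mk (Pat.mk 0x180000000c0000000e000000000000000400000000 0x180000000f0000003e000000030000000600000006 5 6) 0 0 (step_sound _ 129 [(rh53b3c253cb0c65f4.shift 0 4), rh9f91f4c630f56b97] (by decide +kernel))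
noncomputable def rhb02c4ed86b7615fe : CRef := CRef.mk (Pat.mk 0x180000000c0000000e00000000 0x40000003c0000000f0000003e00000003 5 6) 0 0 (step_sound _ 65 [(rh53b3c253cb0c65f4.shift 0 2), rheda0a136732ee145] (by decide +kernel))
noncomputable def rh10ccf09b5eaa2039 : CRef := CRef.mk (Pat.mk 0x60000000f000000000000000000000000 0x4000000040000000e0000000f0000001a0000000a00000008 5 5) 0 0 (step_sound _ 67 [(rh22acb37d87b5b33c.shift 1 0), (rhe25b0a99195a5d59.shift 0 2)] (by decide +kernel))
noncomputable def rh801c2d845ee20048 : CRef := CRef.mk (Pat.mk 0x40000000600000007000000000000000000000000 0x80000000c0000000e000000070000001e0000000e00000004 5 5) 0 0 (step_sound _ 65 [rh528293e7310ad3ab, (rh71222050f2c63a3a.shift 1 1)] (by decide +kernel))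
noncomputable def rhc5199ddf111222ef : CRef := CRef.mk (Pat.mk 0xc0000001c000000080000001800000000 0xf0000001c0000003c0000001f00000007 5 6) 0 0 (step_sound _ 34 [(rh932754581e0f4330.shift 2 0), rhee75737fd1591582] (by decide +kernel))
noncomputable def rhe704ed0ef686f3fc : CRef := CRef.mk (Pat.mk 0x600000007000000020000000000000000 0xc0000000c0000000e000000070000001e0000000c00000004 5 5) 0 0 (step_sound _ 162 [rh528293e7310ad3ab, (rh5c5e593799055d58.shift 1 2)] (by decide +kernel))
noncomputable def rh24a1517134504796 : CRef := CRef.mk (Pat.mk 0xc0000000e000000000000000000000000 0x8000000080000000f0000003e000000380000001000000010 5 6) 0 0 (step_sound _ 100 [(rh84970c2ccb9fe470.shift 1 0), (rhe3060b190bc0bc78.shift 0 3)] (by decide +kernel))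
noncomputable def rh13b9c360dd67ed7c : CRef := CRef.mk (Pat.mk 0xe00000004000000060000000e00000000 0xf0000003c0000000e0000003e00000030 5 6) 0 0 (step_sound _ 36 [rh309019e4b17e5c91, (rhf48373e13d2bc128.shift 1 1)] (by decide +kernel))
noncomputable def rhfc3fc51f4c1cda06 : CRef := CRef.mk (Pat.mk 0x2000000020000000300000003000000000000000000000000 0x400000006000000070000000300000007000000060000000200000002 5 3) 0 0 (step_sound _ 98 [rh3502d92c6cce609b, (rh55afc6a59410cf00.shift 1 2)] (by decide +kernel))
noncomputable def rh1b627eaab79632a1 : CRef := CRef.mk (Pat.mk 0x1000000018000000080000000e0000000000000000 0x80000001800000038000000780000003e0000007300000010 5 7) 0 0 (step_sound _ 68 [(rh6d75b105b460225e.shift 1 1), (rh7ee98a7d269839f7.shift 1 1), rhae97d925dc15854a, (rhba04d77b039f69d9.shift 1 1)] (by decide +kernel))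
noncomputable def rhcd0dffaa4480f90b : CRef := CRef.mk (Pat.mk 0x10000000100000001c00000000 0x1000000010000000170000003e00000067 5 7) 0 0 (step_sound _ 37 [rh592c7139d2c44767, (rhba04d77b039f69d9.shift 2 0)] (by decide +kernel))
noncomputable def rh271de49530410bf6 : CRef := CRef.mk (Pat.mk 0x8000000080000000e0000000000000000 0x8000000380000001f0000003300000010 5 6) 0 0 (step_sound _ 100 [rh44d06b50eed63681, (rh53b3c253cb0c65f4.shift 0 2)] (by decide +kernel))
noncomputable def rh33bdc805d0683d44 : CRef := CRef.mk (Pat.mk 0x1c00000008 0xf0000007e000000ef 5 8) 0 0 (step_sound _ 37 [rh592c7139d2c44767, (rhaf9f2efc81a8312b.shift 1 0), (rhe401600d466b97cd.shift 1 0)] (by decide +kernel))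
noncomputable def rh2283b862b4e53142 : CRef := CRef.mk (Pat.mk 0x160000001a0000000000000000 0x400000004000000360000001e0000003300000002 5 6) 0 0 (step_sound _ 66 [(rh33e738c4ed385b9f.shift 1 2), rhafa79035fcfa694f] (by decide +kernel))
noncomputable def rha764cf1d3d7bd69c : CRef := CRef.mk (Pat.mk 0x1c0000001c000000080000000800000000 0x1c0000001f0000003b0000000f00000006 5 6) 0 0 (step_sound _ 97 [(rh53b3c253cb0c65f4.shift 0 3), rh7f0aebd6a74d269a] (by decide +kernel))
noncomputable def rh1f4a2a17c4a45e9d : CRef := CRef.mk (Pat.mk 0x800000008000000180000003c00000000 0x140000001c00000018000000180000003f00000060 5 7) 0 0 (step_sound _ 132 [(rh2f68792b6b779e96.shift 3 1), rh80ee186b3fbff6d5] (by decide +kernel))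
noncomputable def rh774bf6224e57ed0b : CRef := CRef.mk (Pat.mk 0x3c00000010 0x700000007f0000001e 5 7) 0 0 (step_sound _ 2 [rh20349eea1f185628, (rheb0810cc63b001d8.shift 1 0)] (by decide +kernel))
noncomputable def rh108dc19176929e17 : CRef := CRef.mk (Pat.mk 0x20000001e0000000000000000 0x400000004000000060000003e0000003300000002 5 6) 0 0 (step_sound _ 98 [rhafa79035fcfa694f, (rhf48373e13d2bc128.shift 1 2)] (by decide +kernel))
noncomputable def rhc378b5278af6607c : CRef := CRef.mk (Pat.mk 0x20000000600000007000000000000000000000000 0x40000000600000006000000070000001f0000000f00000003 5 5) 0 0 (step_sound _ 66 [(rh7b1f1fb55310c477.shift 1 1), rhe08c2e86a0a5e454] (by decide +kernel))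
noncomputable def rh68c39d7d23f6cd1f : CRef := CRef.mk (Pat.mk 0x40000000c0000000e0000000200000000 0x40000000c0000007e0000003f00000008 5 7) 0 0 (step_sound _ 35 [(rh5d36853a1f5546c5.shift 0 1), (rh7b1f1fb55310c477.shift 2 0)] (by decide +kernel))
noncomputable def rh67c040bdddfb4fb2 : CRef := CRef.mk (Pat.mk 0x200000006000000060000000d000000000000000000000000 0x100000003000000070000000e0000000f0000001a0000000a00000008 5 5) 0 0 (step_sound _ 67 [(rh08edf065357d68e5.shift 2 0), (rh2a6e2b357bad0856.shift 0 1)] (by decide +kernel))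
noncomputable def rh1491f566c810e097 : CRef := CRef.mk (Pat.mk 0x8000000080000001c0000001c00000000 0x40000000c0000000c0000001c0000007f00000003 5 7) 0 0 (step_sound _ 33 [(rh53b3c253cb0c65f4.shift 0 1), rh8d6a04af6e2674c4] (by decide +kernel))
noncomputable def rh0c0c17a8bb95707c : CRef := CRef.mk (Pat.mk 0x180000000c000000070000000400000000 0x40000001c0000003c000000170000003e0000001a 5 6) 0 0 (step_sound _ 100 [(rh18965a982d73c794.shift 1 2), rh1abcf17183b30503] (by decide +kernel))
noncomputable def rhe00ac20c6cdce694 : CRef := CRef.mk (Pat.mk 0x100000001c000000180000000000000000 0x100000007c0000007f0000006700000020 5 7) 0 0 (step_sound _ 69 [rh60fd89e95760eba3, (rhf48373e13d2bc128.shift 2 2)] (by decide +kernel))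
noncomputable def rhffdfe66d110cb31a : CRef := CRef.mk (Pat.mk 0x180000001c00000006000000140000000000000000 0x180000001c000000360000001e0000001b00000002 5 6) 0 0 (step_sound _ 100 [rh232dd237579a5cde, (rh7b1f1fb55310c477.shift 3 1)] (by decide +kernel))
noncomputable def rh39e0a79baee328e5 : CRef := CRef.mk (Pat.mk 0x3800000030000000000000003800000000 0xf80000003c000001cf000000fe000001c7 5 9) 0 0 (step_sound _ 38 [(rh3fc3a7fb6866dcd4.shift 3 0), rh7f0ecef2edf946e1] (by decide +kernel))
noncomputable def rh0073aa65e43ac61d : CRef := CRef.mk (Pat.mk 0x20000000c0000000c00000004 0x400000006000000060000003c0000000f00000006 5 6) 0 0 (step_sound _ 98 [(rh50fbb5868c909700.shift 1 0), rh9eee85ee015596a3] (by decide +kernel))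
noncomputable def rhb2dc5819a19df02e : CRef := CRef.mk (Pat.mk 0x200000002000000020000000200000000 0x1000000070000000700000002000000030000000300000001 5 3) 0 0 (step_sound _ 130 [(rh2f68792b6b779e96.shift 1 1), rh968ba7b0df7e4096] (by decide +kernel))
noncomputable def rh894b223e2396ecd3 : CRef := CRef.mk (Pat.mk 0x20000000200000002000000020000000200000000 0x500000007000000070000000200000002000000020000000600000004 5 3) 0 0 (step_sound _ 2 [(rhc85cc95794737cf7.shift 0 2), (rhd3458b32566d63f7.shift 1 0)] (by decide +kernel))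
noncomputable def rh0226886c380c23e8 : CRef := CRef.mk (Pat.mk 0x120000001e0000000000000000 0x10000000300000001e0000003f0000000800000008 5 6) 0 0 (step_sound _ 98 [rh0c2a9b4f6c6bac74, (rhf48373e13d2bc128.shift 1 2)] (by decide +kernel))
noncomputable def rh3a924a7605734e63 : CRef := CRef.mk (Pat.mk 0x20000001e000000100000000000000000 0x4000000040000000e0000003f000000180000000800000008 5 6) 0 0 (step_sound _ 130 [(rhf48373e13d2bc128.shift 1 3), rhf74cb5e4c96a704d] (by decide +kernel))
noncomputable def rh5b967d8b02a27e55 : CRef := CRef.mk (Pat.mk 0x6000000060000000e0000000c00000000 0x80000000f0000003e0000000e0000003c00000010 5 6) 0 0 (step_sound _ 36 [rhc6ed613b9b63d801, (rhf48373e13d2bc128.shift 1 1)] (by decide +kernel))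
noncomputable def rh24f49b243d70c044 : CRef := CRef.mk (Pat.mk 0x200000003000000070000000600000000 0xc0000001e00000007000000070000001e00000008 5 5) 0 0 (step_sound _ 130 [(rh2f68792b6b779e96.shift 1 1), rh49f7100bc74d6b53] (by decide +kernel))
noncomputable def rh39abb0b6cda25940 : CRef := CRef.mk (Pat.mk 0x60000001e0000001400000000 0xa0000000b0000003e0000001e0000001400000010 5 6) 0 0 (step_sound _ 100 [(rh33e738c4ed385b9f.shift 1 2), rh4e54466f6f83ab31] (by decide +kernel))
noncomputable def rha58ce28639129630 : CRef := CRef.mk (Pat.mk 0x160000000e0000000000000000 0x12000000120000003b0000001e0000000e0000000c00000008 5 6) 0 0 (step_sound _ 99 [(rh6eb76252a9026692.shift 1 0), (rhbdb8dfd08861fbf7.shift 0 1)] (by decide +kernel))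
noncomputable def rh23d1be744f2ebe94 : CRef := CRef.mk (Pat.mk 0x80000003800000018000000000000000000000000 0x40000000f0000003c00000018000000180000001800000018 5 6) 0 0 (step_sound _ 36 [(rh9e07f76261b05888.shift 3 1), rha37a510fffddf90e] (by decide +kernel))
noncomputable def rh47328d81ac9dedcf : CRef := CRef.mk (Pat.mk 0x800000008000000580000003800000000 0x10000000380000001f000000780000003800000020 5 7) 0 0 (step_sound _ 132 [(rh2f68792b6b779e96.shift 3 1), rhcfb02b36ff5e04fa] (by decide +kernel))
noncomputable def rh1c3c3eecb52bb78e : CRef := CRef.mk (Pat.mk 0x80000005a00000008 0x10000000300000001f0000007b00000008 5 7) 0 0 (step_sound _ 66 [(rh2fe78cc5ca4405d8.shift 2 1), rh96a37d09af5e675e] (by decide +kernel))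
noncomputable def rh3d3d998f5c02544a : CRef := CRef.mk (Pat.mk 0x10000000f000000060000000000000000 0x800000008000000190000000f0000000e0000000600000006 5 5) 0 0 (step_sound _ 33 [rh7b1f1fb55310c477, rhe5ad44e27e846693] (by decide +kernel))
noncomputable def rhe63812221c7caf65 : CRef := CRef.mk (Pat.mk 0x200000003000000070000000600000000 0xc0000001e00000007000000070000001e00000008 5 5) 0 0 (step_sound _ 130 [(rh2f68792b6b779e96.shift 1 1), rhd90565cc734c5919] (by decide +kernel))
noncomputable def rh364f3b3e5af318e4 : CRef := CRef.mk (Pat.mk 0xb000000070000000000000000 0x8000000080000001c0000001f000000070000000400000004 5 5) 0 0 (step_sound _ 98 [(rh18965a982d73c794.shift 0 2), rh6eb76252a9026692] (by decide +kernel))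
noncomputable def rh5c3b1ef299498214 : CRef := CRef.mk (Pat.mk 0xb0000000f0000000000000000 0x1c0000001e0000000b0000000f0000001c00000004 5 5) 0 0 (step_sound _ 35 [rhba23916ff8044139, (rhe25b0a99195a5d59.shift 0 1)] (by decide +kernel))
noncomputable def rh23238c967e55cddb : CRef := CRef.mk (Pat.mk 0x800000008000000180000003800000000 0x140000001f00000038000000180000003800000020 5 6) 0 0 (step_sound _ 132 [(rh2f68792b6b779e96.shift 3 1), rh69ff3ea7ea149754] (by decide +kernel))
noncomputable def rha31ac673217c9972 : CRef := CRef.mk (Pat.mk 0xb0000000b00000008000000040000000000000000 0x10000000b0000000b0000000a0000001f0000001e00000010 5 5) 0 0 (step_sound _ 67 [(rh932754581e0f4330.shift 2 1), rha144175aac957a97] (by decide +kernel))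
noncomputable def rhe294ea383dc983d4 : CRef := CRef.mk (Pat.mk 0xb00000007000000020000000000000000 0x1c0000000f00000007000000060000000600000006 5 5) 0 0 (step_sound _ 33 [rh7b1f1fb55310c477, rhd1ed84a67ad62d88] (by decide +kernel))
noncomputable def rh9c5841c347f228c2 : CRef := CRef.mk (Pat.mk 0x1c0000000c00000006 0x2000000030000001f0000003f00000006 5 6) 0 0 (step_sound _ 36 [(rh18965a982d73c794.shift 1 0), rh9f0c6b08749f3233] (by decide +kernel))
noncomputable def rh62777f1585c1177a : CRef := CRef.mk (Pat.mk 0xc0000000e000000080000000800000000 0x80000000c0000000e0000003c0000000f00000006 5 6) 0 0 (step_sound _ 34 [rh7304ffad377ccf14, (rh932754581e0f4330.shift 2 0)] (by decide +kernel))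
noncomputable def rhc0a100117aedecfa : CRef := CRef.mk (Pat.mk 0x4000000020000000a0000000a00000008 0x50000001f0000001e0000000a0000000a00000008 5 5) 0 0 (step_sound _ 129 [(rh2f68792b6b779e96.shift 1 1), rh93c3d1f88c7497a3] (by decide +kernel))
noncomputable def rhfcd9a92ccbac1667 : CRef := CRef.mk (Pat.mk 0xc00000004000000140000000c00000000 0x140000003c0000000f0000001c0000000c00000004 5 6) 0 0 (step_sound _ 99 [(rh18a0adf46d6cd925.shift 0 1), (rh71222050f2c63a3a.shift 2 0)] (by decide +kernel))
noncomputable def rhfa569934339c5693 : CRef := CRef.mk (Pat.mk 0x200000001c00000000 0x370000003e00000070 5 7) 0 0 (step_sound _ 33 [(rh428265de8cd3cd2d.shift 1 1), rhe401600d466b97cd] (by decide +kernel))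
noncomputable def rhd2ce4b02c87f1dee : CRef := CRef.mk (Pat.mk 0x4000000050000000e000000000000000200000000 0xa0000001e000000070000001e000000040000000600000006 5 5) 0 0 (step_sound _ 129 [rh284cca1a6faf99be, (rhf48373e13d2bc128.shift 0 3)] (by decide +kernel))
noncomputable def rh95f469c858c36667 : CRef := CRef.mk (Pat.mk 0xe0000001e000000100000001000000000 0x200000002000000170000001e0000001e0000001c0000001800000008 5 5) 0 0 (step_sound _ 35 [rh1483644a837094fc, (rh3c8a9bf5f176fb0c.shift 0 1), (rhdd1b84382d19bcbb.shift 2 0)] (by decide +kernel))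
noncomputable def rhed63137316e51d38 : CRef := CRef.mk (Pat.mk 0x8000000070000000c000000000000000000000000 0x40000003c0000000f0000000c0000000c0000000800000008 5 6) 0 0 (step_sound _ 164 [(rh3fc040e777f1679e.shift 0 4), (rh8fa0f526a91fbab1.shift 1 0)] (by decide +kernel))
noncomputable def rh1d74ace842e9b695 : CRef := CRef.mk (Pat.mk 0xc000000040000000c00000000 0xa0000000f0000003c000000040000000c00000008 5 6) 0 0 (step_sound _ 130 [(rh55afc6a59410cf00.shift 2 0), (rhf9c5f57e36ff1a39.shift 0 1)] (by decide +kernel))
noncomputable def rh428561802c2dc291 : CRef := CRef.mk (Pat.mk 0x38000000200000000000000000 0x20000000ef0000007e000000300000001000000010 5 8) 0 0 (step_sound _ 98 [(rh22b38309c56a80eb.shift 1 3), (rh833381308a6c8cf7.shift 1 0), (rhd1d05263fabc0227.shift 0 2)] (by decide +kernel))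
noncomputable def rhc001be25ad260437 : CRef := CRef.mk (Pat.mk 0xc00000008000000100000003000000000 0x200000007f0000007e000000100000003000000020 5 7) 0 0 (step_sound _ 100 [(rh3c3e23a02e82b2ed.shift 0 3), (rh8bfafb9e7ef9ac91.shift 1 0), rha8ab5e9b6e46a3bd] (by decide +kernel))
noncomputable def rhfc08a55dcae0848d : CRef := CRef.mk (Pat.mk 0xc00000008000000180000003000000000 0x140000001f00000038000000180000003800000020 5 6) 0 0 (step_sound _ 35 [(rh50fbb5868c909700.shift 2 1), rhd065604ef1c2a36c] (by decide +kernel))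
noncomputable def rh45d4a03fbbb5ba58 : CRef := CRef.mk (Pat.mk 0x3000000030000000e0000000200000000 0xc0000001f0000001b0000000e0000000600000004 5 5) 0 0 (step_sound _ 130 [rh117ee2272e29d9ff, (rh2f68792b6b779e96.shift 1 1)] (by decide +kernel))
noncomputable def rh94a707a6801781d8 : CRef := CRef.mk (Pat.mk 0x38000000080000000800000000 0x770000003e000000080000000800000008 5 7) 0 0 (step_sound _ 98 [(rh132883a60cd8aed8.shift 1 0), (rh371357d551e5b98c.shift 1 0), (rh4c622fddc53a5f99.shift 0 3)] (by decide +kernel))
noncomputable def rhdfbdb88f661f3471 : CRef := CRef.mk (Pat.mk 0x2000000030000000600000000 0x70000000700000007000000070000000700000002 5 3) 0 0 (step_sound _ 129 [rh00c644645561e9be, (rh85a605aac6183f28.shift 0 1)] (by decide +kernel))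
noncomputable def rh1ffd2c09bf35b66f : CRef := CRef.mk (Pat.mk 0x8000000180000001800000070000000000000000000000000 0x40000000f0000007c000000380000007c000000e40000002000000020 5 8) 0 0 (step_sound _ 99 [(rh995e30a494057876.shift 2 2), (rhaa5997f027e3866e.shift 2 0), (rhca405e350c462817.shift 0 3)] (by decide +kernel))
noncomputable def rhed4673141d99f263 : CRef := CRef.mk (Pat.mk 0x1800000008000000300000001000000010 0x1e00000007c0000002f000000300000003000000010 5 9) 0 0 (step_sound _ 133 [(rh2820ca9a6c4f41b4.shift 0 3), (rh648846ccf64492b9.shift 2 1), (rhb009278fdd334770.shift 4 0)] (by decide +kernel))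
noncomputable def rha08a5baa0353fca4 : CRef := CRef.mk (Pat.mk 0x1c000000040000001c00000008 0x2000000130000003e000000360000001c00000008 5 6) 0 0 (step_sound _ 65 [rh1467579d82f7fd3f, (rh18965a982d73c794.shift 1 2)] (by decide +kernel))
noncomputable def rhb0ecd5f6988228b2 : CRef := CRef.mk (Pat.mk 0x18000000700000002000000020 0x4000000040000000f80000007f0000003e00000020 5 8) 0 0 (step_sound _ 67 [(rh0fdd92e34c44548d.shift 0 1), (rh13cff1aaa4924947.shift 2 0), (rh971b3ab80d822487.shift 2 0)] (by decide +kernel))
noncomputable def rh3cb73f93766ebb9f : CRef := CRef.mk (Pat.mk 0xe000000180000001000000010 0x1000000010000000370000003e0000001f0000001800000010 5 6) 0 0 (step_sound _ 100 [(rh3bbb6459c441914e.shift 0 2), (rh5ba2d67652840f34.shift 1 1), rhd0ea23fbd3cbe784] (by decide +kernel))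
noncomputable def rh35d175d97e0a20e2 : CRef := CRef.mk (Pat.mk 0x600000006000000020000000300000000 0x2000000060000000e0000001b0000001f0000001c 5 5) 0 0 (step_sound _ 34 [(rh55afc6a59410cf00.shift 1 0), rhbd12996dace43de4] (by decide +kernel))
noncomputable def rhb28b6027e12c5e11 : CRef := CRef.mk (Pat.mk 0x300000007000000020000000000000000 0x600000006000000060000000300000007000000060000000600000006 5 3) 0 0 (step_sound _ 33 [rh207ea446841ad005, rh7b1f1fb55310c477] (by decide +kernel))
noncomputable def rhaa5e8b2784572945 : CRef := CRef.mk (Pat.mk 0x2000000120000001c0000001400000000 0x20000000380000003f0000001e0000001c0000001400000010 5 6) 0 0 (step_sound _ 131 [(rh0dc8b42ff0b64d8a.shift 1 1), (rh2f33d1d0bcfdca52.shift 2 0), rh66364df72371f933] (by decide +kernel))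
noncomputable def rhe1cc2d7ff43952cb : CRef := CRef.mk (Pat.mk 0x20000000a0000000e00000004 0x80000001f0000007e0000000e00000004 5 7) 0 0 (step_sound _ 99 [(rh55f0481848c2170a.shift 0 1), (rh5c5e593799055d58.shift 2 0)] (by decide +kernel))
noncomputable def rhc3830a68545a0d60 : CRef := CRef.mk (Pat.mk 0x400000005000000040000000800000000 0xa0000001e00000007000000040000000c0000000c 5 5) 0 0 (step_sound _ 34 [rh516963541d5f8797, (rh55afc6a59410cf00.shift 2 0)] (by decide +kernel))
noncomputable def rhefa4889b9274c977 : CRef := CRef.mk (Pat.mk 0x1400000014000000140000002000000000 0xb0000001e00000034000000140000003400000020 5 6) 0 0 (step_sound _ 36 [(rh55afc6a59410cf00.shift 4 0), (rh634c2f63f715f226.shift 0 1)] (by decide +kernel))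
noncomputable def rh7aa4ea4a56007a94 : CRef := CRef.mk (Pat.mk 0xe00000001 0x380000001f0000003b 5 6) 0 0 (step_sound _ 36 [rh44fae8d9c1045ff0, rh80fcd6d0a18cb2dd] (by decide +kernel))
noncomputable def rh6e3d62e5dc7de74d : CRef := CRef.mk (Pat.mk 0x60000000600000004 0xe0000000e0000003e000000070000000600000004 5 6) 0 0 (step_sound _ 98 [(rh5fa50b509d4ce753.shift 1 0), (rh7f9f3607ee25a93b.shift 1 0), rhd8406b09026060f8] (by decide +kernel))
noncomputable def rh56fc069c0e953fb6 : CRef := CRef.mk (Pat.mk 0x40000001c0000000a0000000300000000 0x1000000030000000ff0000001e0000000a0000000b00000001 5 8) 0 0 (step_sound _ 132 [(rh92c20afd71c3ecfc.shift 0 1), rh9b83ce2c570e1191, (rhff7d63dcb3cf9f74.shift 1 3)] (by decide +kernel))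
noncomputable def rh25542d7130130dbd : CRef := CRef.mk (Pat.mk 0x100000001e00000006000000040000000000000000 0x10000000140000001e0000003e0000000f0000000a00000002 5 6) 0 0 (step_sound _ 100 [rhd23c3ebe64086a16, (rhe25b0a99195a5d59.shift 1 3)] (by decide +kernel))
noncomputable def rh607e230a2861588d : CRef := CRef.mk (Pat.mk 0x3c00000000 0x70000003e00000076 5 7) 0 0 (step_sound _ 2 [rh9c548838e8725ba1, (rheb0810cc63b001d8.shift 1 0)] (by decide +kernel))
noncomputable def rh215532fb13b504eb : CRef := CRef.mk (Pat.mk 0x80000000e0000001c0000000400000000 0x140000007c0000001e0000001c0000000f00000002 5 7) 0 0 (step_sound _ 132 [(rh572132728df34c43.shift 1 3), rh58f2cd165f0785f8] (by decide +kernel))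
noncomputable def rh0733ccfc6b9d1d3b : CRef := CRef.mk (Pat.mk 0x800000008000000180000000c 0x140000001c0000001c00000008000000180000000f 5 5) 0 0 (step_sound _ 1 [rh53b3c253cb0c65f4, (rhc85cc95794737cf7.shift 2 0)] (by decide +kernel))
noncomputable def rh62428058b16a24ae : CRef := CRef.mk (Pat.mk 0x1000000038000000200000000000000000 0x1000000010000000100000007c0000003f0000000800000008 5 7) 0 0 (step_sound _ 164 [(rh2145e1d24b96a57e.shift 4 2), rh68ad2d31fe6607bc] (by decide +kernel))
noncomputable def rh1755b2f5b375c6f8 : CRef := CRef.mk (Pat.mk 0x80000001e000000100000001000000000 0x80000003e0000001f0000003c00000004 5 6) 0 0 (step_sound _ 65 [(rh8d59075a6f0d745a.shift 1 0), (rheb0810cc63b001d8.shift 0 2)] (by decide +kernel))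
noncomputable def rh99c4f2cb47723b80 : CRef := CRef.mk (Pat.mk 0x20000001c00000000 0x60000003e00000077 5 7) 0 0 (step_sound _ 37 [rh185f35b8bd8ec37f, (rh3f8766e6ecb455ce.shift 1 1)] (by decide +kernel))
noncomputable def rh6c574ba1646780be : CRef := CRef.mk (Pat.mk 0x40000001c000000100000000800000002 0x140000001c00000018000000780000001f 5 7) 0 0 (step_sound _ 3 [rh01108c09a1c83822, (rh2613c889e411427e.shift 2 0)] (by decide +kernel))
noncomputable def rh522e176cc596fc24 : CRef := CRef.mk (Pat.mk 0x20000000f000000090000000400000000 0x6000000060000000e0000000f0000000d0000000c00000008 5 4) 0 0 (step_sound _ 161 [(rh5c5e593799055d58.shift 0 2), (rhf8709b4d49cbe4cf.shift 1 0)] (by decide +kernel))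
noncomputable def rhc7d9f31c3f373cb4 : CRef := CRef.mk (Pat.mk 0x1800000010000000080000000200000000 0x8000000080000001800000018000000100000007c0000001f00000008 5 7) 0 0 (step_sound _ 68 [rh11d8e999cd3bad99, (rh47ecea03df6fae84.shift 3 0), (rh6df94eeac20c6bcf.shift 0 1), (rhb1a251d9bff81766.shift 3 1)] (by decide +kernel))
noncomputable def rhfa1c14ffe5905733 : CRef := CRef.mk (Pat.mk 0x40000000e000000180000001800000000 0x80000000c0000000e0000001b0000001f00000006 5 5) 0 0 (step_sound _ 131 [(rh2145e1d24b96a57e.shift 3 1), rh8dc6f25384ef0701] (by decide +kernel))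
noncomputable def rh1ff1c4032a3ec08f : CRef := CRef.mk (Pat.mk 0x40000000e00000018000000180000000000000000 0x40000000e0000001f0000003f0000003200000010 5 6) 0 0 (step_sound _ 36 [(rh0e555b1998dc114e.shift 0 1), (rh7b1f1fb55310c477.shift 3 0)] (by decide +kernel))
noncomputable def rh0fa534de089c342a : CRef := CRef.mk (Pat.mk 0x1c000000080000000000000000 0x1000000010000000380000001f000000180000000800000008 5 6) 0 0 (step_sound _ 132 [(rh4821dcf828b9d7bf.shift 3 0), (rh6558fc11d90a948b.shift 0 2), (rhce8036d852a12ec0.shift 0 1)] (by decide +kernel))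
noncomputable def rh574c8d3fb915a494 : CRef := CRef.mk (Pat.mk 0x3c00000000 0x770000003e00000060 5 7) 0 0 (step_sound _ 69 [(rh33e738c4ed385b9f.shift 2 1), rh6d5565f77100ba6a] (by decide +kernel))
noncomputable def rh7fe297edb3fab9c8 : CRef := CRef.mk (Pat.mk 0x20000000300000002000000000000000000000000 0x100000003000000030000000300000003000000070000000700000005 5 3) 0 0 (step_sound _ 65 [rh24b4f41f846cb1d8, rh8cdd36b03d57a2f6, (rh968ba7b0df7e4096.shift 0 1), (rhe286c75f2739cce2.shift 0 1)] (by decide +kernel))
noncomputable def rh375838d6a4a0543d : CRef := CRef.mk (Pat.mk 0x7800000040 0x70000007e0000006e 5 7) 0 0 (step_sound _ 34 [(rh96851dee118c1ba3.shift 2 0), rhf37550b7caf1eba8] (by decide +kernel))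
noncomputable def rh4d286a13f85ebb94 : CRef := CRef.mk (Pat.mk 0xc000000040000001c0000000800000000 0x20000003e000000070000001c0000000f00000006 5 6) 0 0 (step_sound _ 34 [rhbf917515d9aa5742, rhf5094ad2a427d4d3] (by decide +kernel))
noncomputable def rh312f48898b66b953 : CRef := CRef.mk (Pat.mk 0x70000000100000007000000000000000000000000 0x20000000a0000001e0000000700000005000000070000001e0000000a00000002 5 5) 0 0 (step_sound _ 130 [(rh281c6819542c66e6.shift 1 0), (rh47ecea03df6fae84.shift 1 1), (rhd01ed0cc6ce530d4.shift 0 2), (rhe3e29ad984c3b423.shift 0 1), (rhfffd95658e7eb85a.shift 0 2)] (by decide +kernel))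
noncomputable def rh6ba895d2fd4a5e4a : CRef := CRef.mk (Pat.mk 0x40000001c0000000c0000000800000000 0x10000000180000001c0000001c0000003c0000000f00000006 5 6) 0 0 (step_sound _ 132 [(rh69755ef358ebfd54.shift 3 1), rha6cb0f0c3fac5209, (rhbfb5770941270498.shift 3 1)] (by decide +kernel))
noncomputable def rhb5c2dab81678b5bb : CRef := CRef.mk (Pat.mk 0x10000000100000001a0000001800000000 0x800000018000000180000001b0000001f00000014 5 5) 0 0 (step_sound _ 131 [(rh50fbb5868c909700.shift 3 1), rhdd4e7468bfa16f06] (by decide +kernel))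
noncomputable def rhb931946bcab59e62 : CRef := CRef.mk (Pat.mk 0x18000000080000000c0000000400000000 0x400000004000000070000001f0000007c0000000c0000000c00000008 5 7) 0 0 (step_sound _ 130 [(rh3f73bb03721ec56a.shift 1 0), (rh64d912a96d263ce3.shift 0 1), (rhf9a6286f1d5377a2.shift 2 1)] (by decide +kernel))
noncomputable def rh572ca676b7f40e2d : CRef := CRef.mk (Pat.mk 0x38000000080000000c00000004 0x400000004000000770000003e0000007c0000000c00000004 5 7) 0 0 (step_sound _ 98 [(rh17f08a0ad30ba6e8.shift 1 2), (rh768a472a1ebe455c.shift 1 1), rhdcd41b90328b7f7d] (by decide +kernel))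
noncomputable def rh8dbdb3fbddf7f6a7 : CRef := CRef.mk (Pat.mk 0x1a0000000c000000080000000000000000 0xa0000000a0000001a0000000f0000003e0000001400000004 5 6) 0 0 (step_sound _ 97 [(rh0aea810a1a2d0444.shift 1 0), (rh53b3c253cb0c65f4.shift 0 3)] (by decide +kernel))
noncomputable def rh46d2b4ab8aeb8b13 : CRef := CRef.mk (Pat.mk 0x80000000c000000060000000c00000000 0xc0000000c0000000e0000003e00000033 5 6) 0 0 (step_sound _ 36 [rh4c0b5733d656b062, (rhf48373e13d2bc128.shift 1 1)] (by decide +kernel))
noncomputable def rhe3cfb1d09dcf475a : CRef := CRef.mk (Pat.mk 0x40000000600000003000000060000000000000000 0x80000000c0000000e000000070000001e0000000c00000004 5 5) 0 0 (step_sound _ 67 [(rh1277175f94ed1ab3.shift 1 0), (rhf48373e13d2bc128.shift 0 2)] (by decide +kernel))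
noncomputable def rhd8b13a8b32a0b481 : CRef := CRef.mk (Pat.mk 0x8000000380000000c00000000 0x40000000c0000001f000000380000000c0000000c 5 6) 0 0 (step_sound _ 131 [(rh932754581e0f4330.shift 2 0), rhd716e2ab31203e19] (by decide +kernel))
noncomputable def rh8657e0a0a8ae9fe0 : CRef := CRef.mk (Pat.mk 0x3e0000001200000010 0x40000000c0000000c0000007f0000001a00000018 5 7) 0 0 (step_sound _ 35 [(rhb739f4f82bb681b4.shift 0 1), (rhdc08a94c6234059a.shift 1 0)] (by decide +kernel))
noncomputable def rh97f4178c9ecf7a2e : CRef := CRef.mk (Pat.mk 0x100000001a0000000a0000000800000000 0x40000001e0000003f0000000b0000001e00000014 5 6) 0 0 (step_sound _ 64 [rh563f5a1d962b390c, (rhb2a0b9ccfb5cecd5.shift 0 2)] (by decide +kernel))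
noncomputable def rh387ee86f184b0e23 : CRef := CRef.mk (Pat.mk 0x100000001a0000000a0000000800000000 0xc0000001e0000003b0000000e0000003c00000014 5 6) 0 0 (step_sound _ 131 [(rh934b7b499abbb98b.shift 1 0), (rhc7091031673fac6a.shift 0 1)] (by decide +kernel))
noncomputable def rhe99dcc9c35c954fb : CRef := CRef.mk (Pat.mk 0x1e000000080000000000000000 0x400000004000000060000003e0000000f0000000200000002 5 6) 0 0 (step_sound _ 65 [(rh387efc145680cca8.shift 1 0), (rheb0810cc63b001d8.shift 0 2)] (by decide +kernel))
noncomputable def rhe2789ddd35219d79 : CRef := CRef.mk (Pat.mk 0x10000000120000001a0000000c00000000 0xc0000000c0000003c0000001e0000001b0000000c00000004 5 6) 0 0 (step_sound _ 99 [(rh623a731171d66e50.shift 2 0), (rh760717e835f8c2f3.shift 0 2)] (by decide +kernel))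
noncomputable def rhb1b6ad3b5ec8f4e1 : CRef := CRef.mk (Pat.mk 0x20000000200000002000000020000000000000000 0x1000000030000000200000002000000070000000700000005 5 3) 0 0 (step_sound _ 34 [rh1ea1013d3998dc3b, (rhd3458b32566d63f7.shift 1 1)] (by decide +kernel))
noncomputable def rh9e8e701d333e216c : CRef := CRef.mk (Pat.mk 0xc00000004000000040000000c00000000 0x60000000f0000003c0000000c0000000c00000004 5 6) 0 0 (step_sound _ 99 [(rh3e6658e7c3dcf240.shift 0 1), (rh71222050f2c63a3a.shift 2 0)] (by decide +kernel))
noncomputable def rh55c3b4072d15e6e1 : CRef := CRef.mk (Pat.mk 0x10000000f0000000e000000000000000000000000 0xc0000000d0000000f0000000e0000003e0000001e00000006 5 6) 0 0 (step_sound _ 66 [(rh12a35c802d242e1b.shift 1 1), rh1ee904a7d6618c6a, (rhea7a1800d6f053bd.shift 2 0)] (by decide +kernel))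
noncomputable def rhfa81b83d81e664e4 : CRef := CRef.mk (Pat.mk 0x600000006000000020000000000000000 0x1000000030000000700000006000000060000000600000006 5 3) 0 0 (step_sound _ 33 [(rh71222050f2c63a3a.shift 1 0), rhbad6ff9bdc3f8001] (by decide +kernel))
noncomputable def rh7beffdc4aaa32384 : CRef := CRef.mk (Pat.mk 0x400000006000000060000000200000000 0x30000000b0000003f00000007000000060000000600000004 5 6) 0 0 (step_sound _ 129 [rh20e3cbe97aab9353, (rh7b9fbdf6d2d059e4.shift 0 1)] (by decide +kernel))
noncomputable def rh4e122cdbfc16a401 : CRef := CRef.mk (Pat.mk 0x80000002800000030000000100000000000000000 0x80000002f0000007c000000180000001000000010 5 7) 0 0 (step_sound _ 36 [(rh163975820a32be9a.shift 0 1), (rh71222050f2c63a3a.shift 4 0)] (by decide +kernel))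
noncomputable def rh6144ebd877bbe462 : CRef := CRef.mk (Pat.mk 0x280000002800000030000000000000000000000000 0x20000000280000006f0000007c000000ce0000000400000004 5 8) 0 0 (step_sound _ 99 [(rh299a18a9bb09cab4.shift 2 2), (rha9fbfd4bb8cf890b.shift 0 3), (rhe1a136e2584efaaa.shift 1 0)] (by decide +kernel))
noncomputable def rh68eda91374d50789 : CRef := CRef.mk (Pat.mk 0x80000002800000030000000000000000000000000 0x80000006f000000fc0000001e0000001400000004 5 8) 0 0 (step_sound _ 99 [(rha9fbfd4bb8cf890b.shift 0 3), (rhe1a136e2584efaaa.shift 1 0), (rhe8ea5f2a637fddf3.shift 2 1)] (by decide +kernel))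
noncomputable def rh2d4579bccb0e0d04 : CRef := CRef.mk (Pat.mk 0x1000000010000000140000001800000000 0x1000000010000000360000003e00000027 5 6) 0 0 (step_sound _ 37 [(rh55afc6a59410cf00.shift 4 0), rha923c86b183b0f97] (by decide +kernel))
noncomputable def rhb6c382dc9015d826 : CRef := CRef.mk (Pat.mk 0x80000001a0000000a0000000800000000 0x80000003b0000001e0000003c00000014 5 6) 0 0 (step_sound _ 36 [(rh55afc6a59410cf00.shift 3 0), rhf728734ac08a111f] (by decide +kernel))
noncomputable def rh4213941770608396 : CRef := CRef.mk (Pat.mk 0x8000000080000001a0000000a00000000 0x40000000c0000000f0000001a0000001a0000001a 5 5) 0 0 (step_sound _ 36 [(rh55afc6a59410cf00.shift 3 0), rheaf4189574da5b8b] (by decide +kernel))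
noncomputable def rhf09e010130ad488f : CRef := CRef.mk (Pat.mk 0x300000002000000020000000200000000 0x4000000060000000700000003000000030000000300000003 5 3) 0 0 (step_sound _ 96 [rh7b1f1fb55310c477, rhdf78c869cb679a1a] (by decide +kernel))
noncomputable def rh89234a3e3cca1cf1 : CRef := CRef.mk (Pat.mk 0x18000000080000000800000000 0x140000001c0000001f00000038000000180000001800000010 5 6) 0 0 (step_sound _ 131 [(rh25208373db83e521.shift 3 0), (rh5aa5e9dc84124dd6.shift 0 1), (rh5abfc4c9d959be03.shift 2 0)] (by decide +kernel))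
noncomputable def rh3013c60725dd9a46 : CRef := CRef.mk (Pat.mk 0x380000001000000010 0x2000000020000000770000003e0000001700000010 5 7) 0 0 (step_sound _ 66 [(rh13cff1aaa4924947.shift 1 0), (rh49606a42a30c7ac4.shift 2 0), (rh592c7139d2c44767.shift 0 1)] (by decide +kernel))
noncomputable def rh5fccf04058b90444 : CRef := CRef.mk (Pat.mk 0x50000000d000000010000000200000000 0x5000000050000001d0000000f0000001a00000008 5 5) 0 0 (step_sound _ 65 [(rh2145e1d24b96a57e.shift 0 1), rh7f41d2bb1c8da290] (by decide +kernel))
noncomputable def rh885a8f1e65602644 : CRef := CRef.mk (Pat.mk 0x1400000014000000040000000400000000 0x1400000014000000140000001c0000000f0000000a 5 5) 0 0 (step_sound _ 35 [(rh55afc6a59410cf00.shift 2 0), rh78377e379d74e2dc] (by decide +kernel))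
noncomputable def rhb65bd434105da3a1 : CRef := CRef.mk (Pat.mk 0x40000000a0000001a00000002 0x1d0000000f0000001a0000001a00000012 5 5) 0 0 (step_sound _ 97 [rh174ef7c0f0cab5a7, (rh2f68792b6b779e96.shift 1 0)] (by decide +kernel))
noncomputable def rh52bbedde8910f8a3 : CRef := CRef.mk (Pat.mk 0x4000000040000000c0000000100000000 0xa0000000e0000000e0000001c0000000f0000000e 5 5) 0 0 (step_sound _ 34 [(rhc4055b4872d6fb38.shift 1 0), rhe17e69e1de5088c4] (by decide +kernel))
noncomputable def rhf3fa58c3dfb2e0e4 : CRef := CRef.mk (Pat.mk 0x50000000d0000000100000000 0x20000000a0000001b0000000f0000001d0000000500000005 5 5) 0 0 (step_sound _ 97 [rh137e64670c5b7fdf, rh215e11e099257d75] (by decide +kernel))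
noncomputable def rhc9c3a9c8d6e0efda : CRef := CRef.mk (Pat.mk 0xc0000000c000000050000000400000000 0xc0000000c0000000f0000001e0000003a 5 6) 0 0 (step_sound _ 35 [(rh55afc6a59410cf00.shift 2 0), rhae40823224a79ac2] (by decide +kernel))
noncomputable def rhd196f8b78c35570e : CRef := CRef.mk (Pat.mk 0x10000000100000001a0000000a00000000 0x2800000038000000380000003b0000001e00000010 5 6) 0 0 (step_sound _ 36 [(rh9ce9666211d7d662.shift 0 1), (rhfd2c478b9dbde44e.shift 3 0)] (by decide +kernel))
noncomputable def rhdad194b419f37ccc : CRef := CRef.mk (Pat.mk 0xa0000001a00000002 0x4000000070000003f0000003a00000002 5 6) 0 0 (step_sound _ 66 [rh2c6cdd722022e875, (rhb739f4f82bb681b4.shift 0 1)] (by decide +kernel))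
noncomputable def rh300786cfaf61bbf9 : CRef := CRef.mk (Pat.mk 0xc000000080000000800000000 0x1c0000001c0000003c0000000f0000000c0000000c00000004 5 6) 0 0 (step_sound _ 131 [(rh20966da26a1c2ae8.shift 2 0), (rh41341977c0a884ba.shift 0 1), (rh79bf920132cab629.shift 2 1)] (by decide +kernel))
noncomputable def rh9f762535f7adf79d : CRef := CRef.mk (Pat.mk 0x20000000a0000001a00000002 0x1d0000000f0000001a0000001a00000012 5 5) 0 0 (step_sound _ 98 [rh174ef7c0f0cab5a7, (rh2f68792b6b779e96.shift 1 0)] (by decide +kernel))
noncomputable def rh2792e59c44d1efd1 : CRef := CRef.mk (Pat.mk 0x3400000000 0x7f0000007e0000000f 5 7) 0 0 (step_sound _ 35 [(rh4c622fddc53a5f99.shift 0 1), rh9e97bba44c1b13e4, (rhaeebc73f5a9c796a.shift 1 0)] (by decide +kernel))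
noncomputable def rh41ac50d8461636ce : CRef := CRef.mk (Pat.mk 0x180000000e0000000800000000 0x800000008000000380000003e0000000f00000004 5 6) 0 0 (step_sound _ 68 [(rh33e738c4ed385b9f.shift 1 2), rh52d0d34192a807e0] (by decide +kernel))
noncomputable def rhbae069776425adec : CRef := CRef.mk (Pat.mk 0x80000000c0000000c0000000c00000000 0x140000001c0000000c0000003c0000000f00000002 5 6) 0 0 (step_sound _ 130 [(rh50fbb5868c909700.shift 2 1), rhc7ca4b2ec7cb7f61] (by decide +kernel))
noncomputable def rh1e273754ee843479 : CRef := CRef.mk (Pat.mk 0x180000001c000000040000000c00000000 0x700000007f0000001c000000040000000c00000008 5 7) 0 0 (step_sound _ 130 [(rh55afc6a59410cf00.shift 2 0), (rhee4c4dd27f5d0359.shift 0 3)] (by decide +kernel))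
noncomputable def rh50945c69de428f0a : CRef := CRef.mk (Pat.mk 0x80000000c0000000e0000000000000000 0x1800000018000000180000000c0000000f0000001800000010 5 5) 0 0 (step_sound _ 163 [(rh5c5e593799055d58.shift 2 2), rhfdd9aee12f9d3331] (by decide +kernel))
noncomputable def rhdfa7369bd908f0c6 : CRef := CRef.mk (Pat.mk 0x400000006000000020000000600000000 0xa0000003e00000007000000060000000600000004 5 6) 0 0 (step_sound _ 129 [(rh3cb959d13ed9ca45.shift 0 1), (rh55afc6a59410cf00.shift 1 0)] (by decide +kernel))
noncomputable def rh0dcdf444ef1bf8e0 : CRef := CRef.mk (Pat.mk 0x30000000180000000a0000001800000000 0x2800000038000000180000001b0000001f00000004 5 6) 0 0 (step_sound _ 68 [(rh2f68792b6b779e96.shift 4 1), rh99f3dece77d6de9c] (by decide +kernel))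
noncomputable def rhd9245f65dee8a054 : CRef := CRef.mk (Pat.mk 0x20000001c00000000 0x30000003e00000077 5 7) 0 0 (step_sound _ 33 [rh06db8ceda6269a47, (rh3244c3cc8379b070.shift 0 1)] (by decide +kernel))
noncomputable def rh6c1c444ab4ca27dc : CRef := CRef.mk (Pat.mk 0x1a00000038 0xfb000000ff 5 8) 0 0 (step_sound _ 6 [rhb5ded604c1355bfc, (rhf48373e13d2bc128.shift 3 0)] (by decide +kernel))
noncomputable def rhda5bb4e54d881837 : CRef := CRef.mk (Pat.mk 0x10000000180000000a0000001800000000 0x800000018000000180000001b0000001f00000014 5 5) 0 0 (step_sound _ 131 [(rh55afc6a59410cf00.shift 3 0), rhaf946ee235eb6b0d] (by decide +kernel))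
noncomputable def rh4fe28d9656358ab8 : CRef := CRef.mk (Pat.mk 0x600000006000000030000000200000000 0x200000002000000030000000700000007000000070000000600000004 5 3) 0 0 (step_sound _ 128 [rh1f31a35375523519, (rh50fbb5868c909700.shift 0 1)] (by decide +kernel))
noncomputable def rhda0491c5ee69f919 : CRef := CRef.mk (Pat.mk 0x1c0000000c000000080000000000000000 0xe0000000f0000001c0000000c0000000e0000000600000006 5 5) 0 0 (step_sound _ 162 [(rh2145e1d24b96a57e.shift 2 2), rh7f542f109d0803ee] (by decide +kernel))
noncomputable def rh362da68dd10412a4 : CRef := CRef.mk (Pat.mk 0x800000018000000180000000800000000 0x8000000380000003f0000000f00000004 5 6) 0 0 (step_sound _ 34 [(rh932754581e0f4330.shift 2 0), (rhea6e6080790f38b5.shift 0 1)] (by decide +kernel))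
noncomputable def rh0f187056ef5cdcc0 : CRef := CRef.mk (Pat.mk 0x8000000000000000c0000001c 0x1800000018000000300000007f0000001e 5 7) 0 0 (step_sound _ 36 [rh499de316127b99d6, (rhf9d36e158778ce35.shift 1 0)] (by decide +kernel))
noncomputable def rhfc4c1430e53c5b78 : CRef := CRef.mk (Pat.mk 0x80000000c0000000e0000000000000000 0x4000000140000003c0000000f0000000e0000000a00000008 5 6) 0 0 (step_sound _ 130 [(rh37d9ceebb86d75d1.shift 1 1), rh677e6fbb651585de, (rhac7e3de52c3ca3fc.shift 1 1)] (by decide +kernel))
noncomputable def rha025026f8b8f522f : CRef := CRef.mk (Pat.mk 0x18000000100000001c0000000c00000000 0x800000018000000100000001c0000007f00000007 5 7) 0 0 (step_sound _ 36 [(rh50fbb5868c909700.shift 3 1), rh9ce3a16f91dcd4b0] (by decide +kernel))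
noncomputable def rh2e6a4fa3ff75ba87 : CRef := CRef.mk (Pat.mk 0xe00000006000000020000000000000000 0x1000000030000001e00000006000000030000000300000003 5 5) 0 0 (step_sound _ 33 [rh6720799bdc7f6a6c, (rh71222050f2c63a3a.shift 1 0)] (by decide +kernel))
noncomputable def rh8177de947f319ea5 : CRef := CRef.mk (Pat.mk 0x1c00000020 0x770000003e00000060 5 7) 0 0 (step_sound _ 37 [(rh4c622fddc53a5f99.shift 0 1), (rhe25b0a99195a5d59.shift 2 0)] (by decide +kernel))
noncomputable def rh48c26f06fe65ca5e : CRef := CRef.mk (Pat.mk 0x18000000180000001800000008 0x40000003f0000001f0000003800000008 5 6) 0 0 (step_sound _ 98 [(rh50fbb5868c909700.shift 2 0), (rh67a2afc464f6d014.shift 0 1)] (by decide +kernel))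
noncomputable def rh355cba2bf30de26b : CRef := CRef.mk (Pat.mk 0x1800000010000000180000000800000000 0x80000001800000018000000380000001f00000014 5 6) 0 0 (step_sound _ 36 [(rh50fbb5868c909700.shift 3 1), rheebe8ab979afbd72] (by decide +kernel))
noncomputable def rhee3f5b1209cad075 : CRef := CRef.mk (Pat.mk 0x20000000380000001a0000000800000000 0x800000028000000380000001b0000001f00000014 5 6) 0 0 (step_sound _ 36 [(rh71222050f2c63a3a.shift 4 0), rh918bcafda8d5258e] (by decide +kernel))
noncomputable def rh01ef8ccb1c2965f8 : CRef := CRef.mk (Pat.mk 0x80000000c000000060000003400000000 0x20000000b0000001e0000003e0000003400000010 5 6) 0 0 (step_sound _ 68 [rh035294ead7819c7c, (rhc10214bf3fe8094a.shift 1 1)] (by decide +kernel))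
noncomputable def rh7d8278aee352a05f : CRef := CRef.mk (Pat.mk 0x80000000c00000006000000140000000000000000 0x20000000b0000001e0000003e000000360000001000000010 5 6) 0 0 (step_sound _ 100 [(rh035294ead7819c7c.shift 0 1), (rh40555e7ca63f5013.shift 1 0), (rh88700e9c067a80e8.shift 1 2)] (by decide +kernel))
noncomputable def rh25f6b69693ec80dc : CRef := CRef.mk (Pat.mk 0x20000001e00000004000000000000000000000000 0x600000006000000060000001e00000007000000030000000300000003 5 5) 0 0 (step_sound _ 97 [rhb3d343e731cd41cc, (rheb0810cc63b001d8.shift 0 3)] (by decide +kernel))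
noncomputable def rh31abe7672c23f898 : CRef := CRef.mk (Pat.mk 0x2000000060000000300000003000000000000000000000000 0x100000003000000060000000700000007000000060000000600000002 5 3) 0 0 (step_sound _ 192 [rh270502ca45ea5299, (rh50fbb5868c909700.shift 0 3)] (by decide +kernel))
noncomputable def rhcb7c35715d50de8d : CRef := CRef.mk (Pat.mk 0x80000000c000000040000000600000000 0x40000000c0000000c0000003c0000000f0000000a 5 6) 0 0 (step_sound _ 130 [rh3e78a1e3d90ce0a5, (rh932754581e0f4330.shift 1 0)] (by decide +kernel))
noncomputable def rhf4b26e788aa444b9 : CRef := CRef.mk (Pat.mk 0xc0000000c000000040000000600000000 0xc0000000c0000003f0000003f00000018 5 6) 0 0 (step_sound _ 35 [(rh55afc6a59410cf00.shift 2 0), rhfaf99c764dc14cd0] (by decide +kernel))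
noncomputable def rh414e147219b16972 : CRef := CRef.mk (Pat.mk 0x1000000018000000080000000e0000000000000000 0x2000000030000000180000003f0000003e0000003700000010 5 6) 0 0 (step_sound _ 68 [(rhb7991bb3432d61c3.shift 1 0), (rhc107cb47b14321d4.shift 0 1), (rhd52e3929053d9d5f.shift 0 1)] (by decide +kernel))
noncomputable def rh6e5525376c9f0ffa : CRef := CRef.mk (Pat.mk 0x1000000010000000000000001e00000000 0x1000000030000000630000003e00000070 5 7) 0 0 (step_sound _ 64 [(rh3f8766e6ecb455ce.shift 0 1), (rh59810ecc3e5f50ca.shift 1 0)] (by decide +kernel))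
noncomputable def rhef296edb1195fb99 : CRef := CRef.mk (Pat.mk 0x30000000100000001c00000000 0x300000003f0000003e00000003 5 6) 0 0 (step_sound _ 33 [rh2f9d22af65f019dc, (rh33e738c4ed385b9f.shift 1 1)] (by decide +kernel))
noncomputable def rh5e2669d9bb9bb7fe : CRef := CRef.mk (Pat.mk 0x40000000f0000000800000004 0x1800000018000000180000001c0000000f0000000c00000004 5 5) 0 0 (step_sound _ 99 [(rh33e738c4ed385b9f.shift 0 2), (rhc2638b18262e5471.shift 2 0)] (by decide +kernel))
noncomputable def rhfc3b3745c3fdbaa9 : CRef := CRef.mk (Pat.mk 0x60000001c000000060000000000000000 0x80000003e0000001f000000070000000400000004 5 6) 0 0 (step_sound _ 97 [rh14b81e50852bfcd0, (rheb0810cc63b001d8.shift 0 2)] (by decide +kernel))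
noncomputable def rhe521b4edb5a4595c : CRef := CRef.mk (Pat.mk 0xe000000180000000c 0x12000000330000003e0000001f0000000c 5 6) 0 0 (step_sound _ 68 [rh18df145e883a5761, (rh5421160f8e9bcf07.shift 1 0)] (by decide +kernel))
noncomputable def rh3a82e4b62b5793c3 : CRef := CRef.mk (Pat.mk 0x40000000400000006000000020000000000000000 0x80000000e0000000e000000070000003e0000000c00000004 5 6) 0 0 (step_sound _ 66 [(rh36d4d92ef3dad5f8.shift 0 1), (rh3724468151636231.shift 1 0)] (by decide +kernel))
noncomputable def rhf333e93df316a673 : CRef := CRef.mk (Pat.mk 0x200000003000000018000000180000000800000000 0x640000003c0000001c000000fc0000000f00000004 5 8) 0 0 (step_sound _ 69 [(rh79b3c29022acbdf3.shift 2 2), (rhd9106766b9ff53c0.shift 2 1), rhf19642d16b19b3d4] (by decide +kernel))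
noncomputable def rh0658e6e220595fac : CRef := CRef.mk (Pat.mk 0x40000001c000000100000000000000000 0x400000004000000060000001e000000330000000200000002 5 6) 0 0 (step_sound _ 97 [rh50e736ca27d8bdbd, (rhe25b0a99195a5d59.shift 1 2)] (by decide +kernel))
noncomputable def rhf4021a473e0c5adb : CRef := CRef.mk (Pat.mk 0x2000000038000000180000000000000000 0x4000000040000003e0000003f000000180000000800000008 5 6) 0 0 (step_sound _ 98 [(rh4baa30ac13a5afd1.shift 0 2), (rhd5889c99d29bf7d6.shift 1 0)] (by decide +kernel))
noncomputable def rhf601da3be3b85307 : CRef := CRef.mk (Pat.mk 0x20000000600000006000000000000000000000000 0x200000002000000060000000600000007000000030000000300000002 5 3) 0 0 (step_sound _ 193 [(rh2145e1d24b96a57e.shift 1 3), rh7b18f3f209f14cd6] (by decide +kernel))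
noncomputable def rhc842a18a36847944 : CRef := CRef.mk (Pat.mk 0x80000007800000018 0x800000008000000e80000007f00000038 5 8) 0 0 (step_sound _ 99 [rh210e2d9c685c857e, (rh2145e1d24b96a57e.shift 3 0)] (by decide +kernel))
noncomputable def rh96cc8bc894da8e39 : CRef := CRef.mk (Pat.mk 0x18000000180000001000000018 0x26000000ff000000f80000001800000018 5 8) 0 0 (step_sound _ 101 [(rh2f68792b6b779e96.shift 4 0), rh8bae36c8a4ee4aa4] (by decide +kernel))
noncomputable def rh80af398c490005df : CRef := CRef.mk (Pat.mk 0x10000000080000007000000018 0x1800000018000000e80000007f00000038 5 8) 0 0 (step_sound _ 35 [rh210e2d9c685c857e, (rh82bd946b1709a78e.shift 3 0)] (by decide +kernel))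
noncomputable def rh8c3db3f2c175a5d8 : CRef := CRef.mk (Pat.mk 0x8000000000000001c0000000c00000003 0x1800000018000000300000001f0000001e00000003 5 6) 0 0 (step_sound _ 36 [(rh499de316127b99d6.shift 0 1), rhca9569cc80abfe76] (by decide +kernel))
noncomputable def rh22d0675c38b0ef1f : CRef := CRef.mk (Pat.mk 0x1c0000000c0000000400000000 0x40000000e0000000f0000001c0000000e0000000600000002 5 5) 0 0 (step_sound _ 131 [(rh5c5e593799055d58.shift 2 1), rhf4a0a81c7b8e5f50] (by decide +kernel))
noncomputable def rh51624a0372ba35e4 : CRef := CRef.mk (Pat.mk 0x8000000080000001e0000000c 0x60000000f0000003b0000001e0000000c 5 6) 0 0 (step_sound _ 68 [(rh33e738c4ed385b9f.shift 1 1), rh524efcf9b289c579] (by decide +kernel))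
noncomputable def rh55a5fef6392e2182 : CRef := CRef.mk (Pat.mk 0x10000000380000001800000008 0x400000004000000760000003f0000003c00000008 5 7) 0 0 (step_sound _ 66 [(rhad5d8fc3675c15dd.shift 0 1), (rhcf86d050071af9b3.shift 1 1), (rhd121449e3b5bb42e.shift 1 0)] (by decide +kernel))
noncomputable def rhacd8f38d4f2a50f3 : CRef := CRef.mk (Pat.mk 0x10000000120000001e0000000c00000000 0x2e0000003f0000001e0000001e0000001c00000010 5 6) 0 0 (step_sound _ 99 [(rh34a76292b511f2d2.shift 1 0), (rhd0a3a04832940d43.shift 0 1), (rhdab0e6f012231ab6.shift 0 1)] (by decide +kernel))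
noncomputable def rh75053e02f68f23f7 : CRef := CRef.mk (Pat.mk 0x1c000000080000000c0000000c00000000 0x20000003f0000003f0000000c0000001c00000010 5 6) 0 0 (step_sound _ 36 [(rh521a035f40f9b51e.shift 0 1), (rh55afc6a59410cf00.shift 3 0)] (by decide +kernel))
noncomputable def rh537bb2b4dd82ae35 : CRef := CRef.mk (Pat.mk 0x80000001c0000000c0000000000000000 0x4000000060000000f0000001c0000000e0000000600000006 5 5) 0 0 (step_sound _ 34 [(rh71222050f2c63a3a.shift 2 0), rhf4a0a81c7b8e5f50] (by decide +kernel))
noncomputable def rh93b435fd780d1d26 : CRef := CRef.mk (Pat.mk 0x38000000180000000000000000 0x4000000040000000e0000003f000000380000000800000008 5 6) 0 0 (step_sound _ 98 [(rhad5d8fc3675c15dd.shift 0 2), (rhd5889c99d29bf7d6.shift 1 0)] (by decide +kernel))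
noncomputable def rh5948655ba78de16c : CRef := CRef.mk (Pat.mk 0x2000000020000000300000000 0x50000000700000007000000020000000300000003 5 3) 0 0 (step_sound _ 129 [rh32e32f03ae89b559, rh932754581e0f4330] (by decide +kernel))
noncomputable def rh4b5ba89a3395845f : CRef := CRef.mk (Pat.mk 0x2000000020000000200000004 0x50000000700000007000000020000000600000006 5 3) 0 0 (step_sound _ 129 [rh32e32f03ae89b559, (rhd3458b32566d63f7.shift 1 0)] (by decide +kernel))
noncomputable def rh4dd3481dd8191710 : CRef := CRef.mk (Pat.mk 0x200000002000000020000000400000000 0x5000000070000000700000002000000020000000600000004 5 3) 0 0 (step_sound _ 33 [(rh55afc6a59410cf00.shift 1 0), (rhc85cc95794737cf7.shift 0 1)] (by decide +kernel))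
noncomputable def rhf44d10b1c8ccb1db : CRef := CRef.mk (Pat.mk 0x1e000000000000000800000000 0x200000002000000070000003e000000060000000c0000000c 5 6) 0 0 (step_sound _ 129 [(rh3244c3cc8379b070.shift 0 3), (rh5ee4588f9f7397b6.shift 1 0)] (by decide +kernel))
noncomputable def rh8b653325acffd565 : CRef := CRef.mk (Pat.mk 0x1e00000000000000180000000000000000 0x80000003e000000070000003c0000000400000004 5 6) 0 0 (step_sound _ 97 [(rhb47d8170e1946f87.shift 1 0), (rheb0810cc63b001d8.shift 0 3)] (by decide +kernel))
noncomputable def rhd5ce515dd238c8f8 : CRef := CRef.mk (Pat.mk 0x2000000080000000e000000060000000400000000 0x6000000060000000c0000000e0000000f0000003c00000018 5 6) 0 0 (step_sound _ 130 [(rh16567ae718d9fd54.shift 1 2), rh3b554621f60c5f0b] (by decide +kernel))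
noncomputable def rh08d15d6b7577ea1a : CRef := CRef.mk (Pat.mk 0x18000000180000001c00000008 0xe4000000fc0000001f0000001f00000008 5 8) 0 0 (step_sound _ 98 [(rh1d4a94729eb7261d.shift 0 1), (rh50fbb5868c909700.shift 2 0)] (by decide +kernel))
noncomputable def rhfdb9155b021a94cf : CRef := CRef.mk (Pat.mk 0x10000000180000001c00000004 0x2000000330000001f0000001f00000004 5 6) 0 0 (step_sound _ 33 [rh224c880ba0316e80, (rh53b3c253cb0c65f4.shift 0 1)] (by decide +kernel))
noncomputable def rh4fb3082d08f8dd8a : CRef := CRef.mk (Pat.mk 0x8000000180000001c0000000c 0x60000000f0000001b0000001f0000000c 5 5) 0 0 (step_sound _ 98 [rh3b4041903bd7aedd, (rh50fbb5868c909700.shift 2 0)] (by decide +kernel))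
noncomputable def rh8cfe05f18b5615b1 : CRef := CRef.mk (Pat.mk 0x8000000180000000e0000000200000000 0x140000001f0000007a0000000e0000000a00000008 5 7) 0 0 (step_sound _ 101 [rh0c0f4a4d1dd75875, (rh18965a982d73c794.shift 2 2)] (by decide +kernel))
noncomputable def rh808d547c7e0a7ab6 : CRef := CRef.mk (Pat.mk 0x8000000180000000e000000060000000000000000 0x160000001f0000001e0000000e0000000f0000001800000010 5 5) 0 0 (step_sound _ 67 [(rh501207f89dcab93e.shift 0 2), rh6ae680e8601885b7, (rha707fb719e87fe6e.shift 3 1)] (by decide +kernel))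
noncomputable def rhfadfb915cb711078 : CRef := CRef.mk (Pat.mk 0x3800000018000000100000000000000000 0xc0000000f0000003c000000180000001c0000000c0000000c 5 6) 0 0 (step_sound _ 163 [rh05732d937c59a6d1, (rh2145e1d24b96a57e.shift 3 2)] (by decide +kernel))
noncomputable def rhc39e22ccd22dd120 : CRef := CRef.mk (Pat.mk 0x38000000180000000000000000 0x2400000024000000660000003f0000003c0000001800000018 5 7) 0 0 (step_sound _ 98 [(rh6cc58692ec716844.shift 1 0), (rhad5d8fc3675c15dd.shift 0 2), (rhe5ad44e27e846693.shift 2 0)] (by decide +kernel))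
noncomputable def rh6b3bb66c895a6c10 : CRef := CRef.mk (Pat.mk 0x8000000180000001800000000 0xc0000000c00000008000000380000001f00000004 5 6) 0 0 (step_sound _ 131 [(rh2145e1d24b96a57e.shift 3 1), rh639d03bb7ecce991] (by decide +kernel))
noncomputable def rh41ea53a0d28a091a : CRef := CRef.mk (Pat.mk 0x600000002000000070000000400000000 0x50000000700000006000000070000001e0000000a 5 5) 0 0 (step_sound _ 33 [(rh2f68792b6b779e96.shift 1 1), rh44a13ac0854a3ce5] (by decide +kernel))
noncomputable def rh16b76ab99baeda4b : CRef := CRef.mk (Pat.mk 0x18000000180000000e0000000c00000000 0x20000003f0000001f0000000e0000001c00000010 5 6) 0 0 (step_sound _ 36 [(rh483b36d2926fa52f.shift 0 1), (rh55afc6a59410cf00.shift 3 0)] (by decide +kernel))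
noncomputable def rhbe832dd0e678179a : CRef := CRef.mk (Pat.mk 0x20000000e0000000a000000080000000000000000 0xa0000000a0000000e0000000e0000003f0000001700000001 5 6) 0 0 (step_sound _ 66 [(rh0d7a0747005d3ac1.shift 1 1), (rh83e4086ccde87a9e.shift 1 1), rhb1385f5583bb96cc] (by decide +kernel))
noncomputable def rh393ce3fb11b5c0d9 : CRef := CRef.mk (Pat.mk 0x100000001e0000000a0000000800000000 0xa0000001b0000001f0000000e0000000c00000004 5 5) 0 0 (step_sound _ 131 [(rh53b3c253cb0c65f4.shift 0 3), rhf18259a9ab3fb4cc] (by decide +kernel))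
noncomputable def rhd0eac2eab3a49309 : CRef := CRef.mk (Pat.mk 0x1000000020000000700000000000000000 0x10000000100000003f000001fe0000000f00000008 5 9) 0 0 (step_sound _ 67 [(rh1069dcc4c6d7d888.shift 0 1), (rh592c7139d2c44767.shift 1 1), (rh6f819ab0e2f6cdd3.shift 2 0), (rh8e985bc9a6b410ef.shift 2 1), (rhac3be1f21c7f3db7.shift 2 1), (rhc0d3e82dfe617fcf.shift 0 1)] (by decide +kernel))
noncomputable def rhbd445e4fb413ccd5 : CRef := CRef.mk (Pat.mk 0x20000001a0000000300000001000000000000000000000000 0x50000000f0000001b0000000300000007000000060000000600000002 5 5) 0 0 (step_sound _ 97 [(rh330a005829cdd297.shift 0 3), rh4f66b8b299b10e60] (by decide +kernel))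
noncomputable def rhb71a7ffb0d6d87c1 : CRef := CRef.mk (Pat.mk 0x2800000038000000100000001800000000 0x3e0000003e000000170000001c0000000c 5 6) 0 0 (step_sound _ 98 [(rh07bcdc9aa121f1fe.shift 1 0), (rh21d582c147e7e118.shift 0 2), (rh80d989ad9265e9fa.shift 1 0)] (by decide +kernel))
noncomputable def rhf7445aa7664b4cd2 : CRef := CRef.mk (Pat.mk 0x800000038000000180000000800000000 0x40000000f0000003c0000001e0000000c00000004 5 6) 0 0 (step_sound _ 66 [(rh53b3c253cb0c65f4.shift 1 2), rh8292e11cff743ce0] (by decide +kernel))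
noncomputable def rhce8cf937c2f79f00 : CRef := CRef.mk (Pat.mk 0xc0000001c000000080000001800000000 0x20000000f0000001c0000000f0000003c00000004 5 6) 0 0 (step_sound _ 34 [(rh932754581e0f4330.shift 2 0), (rhab327551321a17d4.shift 0 1)] (by decide +kernel))
noncomputable def rhdb8919f0fe688407 : CRef := CRef.mk (Pat.mk 0x1e0000001a0000000000000000 0xa0000000b0000001e0000001e0000003400000014 5 6) 0 0 (step_sound _ 129 [(rh3244c3cc8379b070.shift 0 3), (rhc43ae95d0791ef79.shift 1 0)] (by decide +kernel))
noncomputable def rh18a5fcc8c0135054 : CRef := CRef.mk (Pat.mk 0x100000001a0000000e000000000000000000000000 0xa0000001f0000001b0000000e0000000e0000000400000004 5 5) 0 0 (step_sound _ 66 [(rh9107cf880dfe23f1.shift 0 2), (rhade0f4c81793f68e.shift 1 0), (rhcf80391c5046a495.shift 2 0)] (by decide +kernel))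
noncomputable def rhc9af77495191c21a : CRef := CRef.mk (Pat.mk 0x1a0000000c0000000000000000 0x8000000080000001b0000001f0000003000000010 5 6) 0 0 (step_sound _ 65 [rh0eba255d854412ca, (rh53b3c253cb0c65f4.shift 0 2)] (by decide +kernel))
noncomputable def rhc1b4f88904a306e9 : CRef := CRef.mk (Pat.mk 0x1800000018000000080000001c00000000 0x40000001c000000180000003e0000007f00000020 5 7) 0 0 (step_sound _ 130 [(rh50fbb5868c909700.shift 2 1), rh5edf8196ffe5ecbc] (by decide +kernel))
noncomputable def rhde654f192f78c1d2 : CRef := CRef.mk (Pat.mk 0xc0000000e000000010000000400000000 0xc0000001e0000000b0000001e0000000e 5 5) 0 0 (step_sound _ 65 [(rh18965a982d73c794.shift 0 2), rhd54b25399f6c2fd8] (by decide +kernel))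
noncomputable def rh8b27b128bb14f1fc : CRef := CRef.mk (Pat.mk 0x10000000180000001c000000000000000800000000 0x300000001f0000007c000000060000000c0000000c 5 7) 0 0 (step_sound _ 130 [(rh34517e326ddb5b25.shift 0 3), (rh9f91f4c630f56b97.shift 1 0), (rhcf86d050071af9b3.shift 1 3)] (by decide +kernel))
noncomputable def rh01716bff61dc89e3 : CRef := CRef.mk (Pat.mk 0x80000000c0000000c000000000000000400000000 0x80000000c0000001f000000780000001c0000000c 5 7) 0 0 (step_sound _ 67 [(rh42e615827c8908b1.shift 0 1), (rhe437f081bfcdb831.shift 2 0)] (by decide +kernel))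
noncomputable def rh8559b8298a4b3c38 : CRef := CRef.mk (Pat.mk 0x40000000600000006000000000000000000000000 0x400000006000000070000003e0000000e0000000e 5 6) 0 0 (step_sound _ 66 [(rh820d4e04d5dcd02e.shift 1 0), (rhbdf73b26f73f8159.shift 1 0), (rhcd4e30cc39602f0f.shift 0 1), (rhf2a1605b0bbd76de.shift 1 0)] (by decide +kernel))
noncomputable def rh5b9a0f4f94121591 : CRef := CRef.mk (Pat.mk 0x20000000e0000001a0000000000000000 0x400000006000000060000000e0000001e0000000f0000000e 5 5) 0 0 (step_sound _ 130 [rh386c6a5833090f0f, (rh84d1c02a8954c6a8.shift 1 1), (rhc38f566cab2818e5.shift 2 0)] (by decide +kernel))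
noncomputable def rh07bd8a7e6471476a : CRef := CRef.mk (Pat.mk 0x120000001e0000001a0000000000000000 0x180000001c000000160000001e0000001e0000000300000003 5 5) 0 0 (step_sound _ 164 [rh287ebb0758bae1d2, (rh5c5e593799055d58.shift 3 2)] (by decide +kernel))
noncomputable def rh5caf90bd9fb34c6c : CRef := CRef.mk (Pat.mk 0x2000000030000000b000000000000000000000000 0x2000000030000001b0000001f0000000700000007 5 5) 0 0 (step_sound _ 65 [(rh52ff7e9a89b30e93.shift 0 1), rh820d4e04d5dcd02e, rhbdf73b26f73f8159] (by decide +kernel))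
noncomputable def rh0fcd25af66600f50 : CRef := CRef.mk (Pat.mk 0x200000002000000020000000200000000 0x5000000070000000700000002000000020000000300000001 5 3) 0 0 (step_sound _ 32 [(rh1741680720c097b4.shift 0 1), rh932754581e0f4330] (by decide +kernel))
noncomputable def rh7a6e8d40f87384b7 : CRef := CRef.mk (Pat.mk 0x180000000e000000000000000000000000 0x80000001c000000fe000000370000001000000010 5 8) 0 0 (step_sound _ 100 [(rhb447f348b8f2aaa5.shift 0 2), (rhbbe16ff26f7822db.shift 1 0)] (by decide +kernel))
noncomputable def rh1605544a64f55ac1 : CRef := CRef.mk (Pat.mk 0x80000000e000000020000000000000000 0x20000000b0000003e000000070000000400000004 5 6) 0 0 (step_sound _ 100 [rh97008031ef76f114, (rheb0810cc63b001d8.shift 0 2)] (by decide +kernel))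
noncomputable def rh6f940788225ad31f : CRef := CRef.mk (Pat.mk 0x400000004000000000000000e00000002 0x400000006000000030000003e00000076 5 7) 0 0 (step_sound _ 65 [(rh1006c02ae4212ff0.shift 1 0), rhbee26e5080a9f072] (by decide +kernel))
noncomputable def rh28f05ee6149ea5f2 : CRef := CRef.mk (Pat.mk 0x4000000180000001e0000000200000000 0x2000000070000001f0000001e0000000600000006 5 5) 0 0 (step_sound _ 97 [rh231a8b3ac59a595a, (rh3244c3cc8379b070.shift 0 2)] (by decide +kernel))
noncomputable def rh7e4deef4d82b6307 : CRef := CRef.mk (Pat.mk 0x1a0000000e00000002 0x1b000000fe000000e6 5 8) 0 0 (step_sound _ 36 [(rh3244c3cc8379b070.shift 0 1), (rhc59c9f6e11dc219c.shift 1 0)] (by decide +kernel))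
noncomputable def rh3617d28ab03673e9 : CRef := CRef.mk (Pat.mk 0x180000000e00000002 0x18000000fe000000e7 5 8) 0 0 (step_sound _ 36 [(rhc59c9f6e11dc219c.shift 1 0), rheb0810cc63b001d8] (by decide +kernel))
noncomputable def rh3a5d2511163a2188 : CRef := CRef.mk (Pat.mk 0x20000000e0000000200000000 0x10000000300000003000000020000001e0000000700000001 5 5) 0 0 (step_sound _ 32 [rh08e4861c03f0bc4a, (rh18965a982d73c794.shift 0 1)] (by decide +kernel))
noncomputable def rh88c815b0af71dbd9 : CRef := CRef.mk (Pat.mk 0xe0000001a0000000c00000000 0xc0000000c0000000c0000001e0000001b0000000c00000004 5 5) 0 0 (step_sound _ 131 [(rh932754581e0f4330.shift 2 0), (rhc52e19aaccac871b.shift 0 1)] (by decide +kernel))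
noncomputable def rh66b3ed115746f627 : CRef := CRef.mk (Pat.mk 0x1c00000008 0xe00000007e000000ff 5 8) 0 0 (step_sound _ 37 [rh41140eaa67c26838, (rha93a5dd541ab8209.shift 2 0), (rhaf9f2efc81a8312b.shift 1 0)] (by decide +kernel))
noncomputable def rhf1bb73b92594d85b : CRef := CRef.mk (Pat.mk 0x30000001800000002000000000000000000000000 0x1000000030000001f00000002000000030000000300000001 5 5) 0 0 (step_sound _ 129 [rh01483ff9cba2f6ac, (rh5419adcd928dba20.shift 0 4)] (by decide +kernel))
noncomputable def rh9f76e925b9b6607f : CRef := CRef.mk (Pat.mk 0xa000000180000000e000000000000000000000000 0x20000003b0000001f0000000e000000060000000400000004 5 6) 0 0 (step_sound _ 66 [(rhad3bc24c2bfb5a3c.shift 0 2), (rhce88038d11f24fde.shift 1 0), (rhf9af042da61fc652.shift 2 0)] (by decide +kernel))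
noncomputable def rh7d1513f5e0dc9931 : CRef := CRef.mk (Pat.mk 0xc0000001e00000000 0x4000000040000000c0000007e00000073 5 7) 0 0 (step_sound _ 1 [(rh71c958324ccaa29a.shift 1 0), rheb0810cc63b001d8] (by decide +kernel))
noncomputable def rh24676cbc4f786d14 : CRef := CRef.mk (Pat.mk 0x6000000070000000400000000 0xc0000000c0000000c000000060000000f0000003c00000008 5 6) 0 0 (step_sound _ 35 [(rh4070769292e08e0f.shift 1 0), (rh4a0b10776449c3e9.shift 0 1), (rh4c60faed9e5f228f.shift 1 0)] (by decide +kernel))
noncomputable def rhf58d8e840e8c47e3 : CRef := CRef.mk (Pat.mk 0x60000000f0000000000000000 0x600000006000000060000000f0000001c0000000c 5 5) 0 0 (step_sound _ 35 [(rhab0af5afad99f567.shift 1 0), (rhe25b0a99195a5d59.shift 0 1)] (by decide +kernel))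
noncomputable def rhab1645d3db667ad9 : CRef := CRef.mk (Pat.mk 0x600000003000000060000000600000000 0x80000001e00000007000000070000003e00000008 5 6) 0 0 (step_sound _ 131 [(rh18965a982d73c794.shift 0 3), rhb58244e1c19055b6] (by decide +kernel))
noncomputable def rha8a51b88046a8381 : CRef := CRef.mk (Pat.mk 0x120000001e0000001a00000000 0x1f0000001f0000001a0000001e0000001e00000004 5 5) 0 0 (step_sound _ 131 [(rh16567ae718d9fd54.shift 3 1), rhba4add7f0d90013a, rhe3b2dcd2be7fe34d] (by decide +kernel))
noncomputable def rh39b8dd00bfd24308 : CRef := CRef.mk (Pat.mk 0x1e000000000000000000000000 0x4000000070000003e000000030000000200000002 5 6) 0 0 (step_sound _ 129 [(rh3244c3cc8379b070.shift 0 3), rh8fc6e84d6e407574] (by decide +kernel))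
noncomputable def rh37c601ec378a0fc8 : CRef := CRef.mk (Pat.mk 0x1e00000010000000100000001800000000 0x30000001e00000014000000760000003e00000020 5 7) 0 0 (step_sound _ 37 [(rh2d1b4e071b841b5a.shift 0 1), (rh55afc6a59410cf00.shift 4 0)] (by decide +kernel))
noncomputable def rh02fc6c204d2df1c2 : CRef := CRef.mk (Pat.mk 0x80000000e00000018000000100000000400000000 0x80000000e0000001e000000370000000600000006 5 6) 0 0 (step_sound _ 98 [(rh9e3edb185cc347de.shift 2 1), rhf46eab6356bde13e] (by decide +kernel))
noncomputable def rh6fe628e6bb6a3525 : CRef := CRef.mk (Pat.mk 0x1e0000001a000000000000000000000000 0x2000000020000000b0000001e0000001e000000340000001000000010 5 6) 0 0 (step_sound _ 161 [(rh3244c3cc8379b070.shift 0 4), (rh7ddfe45eab7e47c4.shift 1 0)] (by decide +kernel))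
noncomputable def rh14df1ce3628a00a2 : CRef := CRef.mk (Pat.mk 0x60000001a00000012000000100000000000000000 0x60000001e000000320000001f0000000700000001 5 6) 0 0 (step_sound _ 65 [(rh4360cd61f767f81c.shift 1 1), (rh7f2c6c353f01f191.shift 0 1), rha8bc3cae4d77a08f] (by decide +kernel))
noncomputable def rh56bb2513d081979b : CRef := CRef.mk (Pat.mk 0xe00000002000000120000001000000000 0x1000000030000001e00000002000000330000001f00000007 5 6) 0 0 (step_sound _ 33 [rh571d9c498ff3c718, rh6720799bdc7f6a6c, rh7f2c6c353f01f191] (by decide +kernel))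
noncomputable def rhaf36dd76c23255ac : CRef := CRef.mk (Pat.mk 0x80000000e0000001e000000100000000000000000 0x10000000780000001e0000001e0000001b0000000f0000000e 5 7) 0 0 (step_sound _ 33 [rh3ea8f185d13574b4, rh8c07789cb75a795d] (by decide +kernel))
noncomputable def rhf46c78010ac0227d : CRef := CRef.mk (Pat.mk 0x20000001e000000020000000200000000 0x20000001e0000003e0000000f00000005 5 6) 0 0 (step_sound _ 34 [(rh55afc6a59410cf00.shift 1 0), rh873f3a3b743b6049] (by decide +kernel))
noncomputable def rh59dd3c2f3f749df0 : CRef := CRef.mk (Pat.mk 0x800000038000000280000002000000000 0x80000003e0000003f0000006600000004 5 7) 0 0 (step_sound _ 66 [(rh1ed7a3503fa50fc8.shift 0 2), (rh5360fcf49c083c33.shift 1 1), (rh869de1ad3de8b8fb.shift 1 0)] (by decide +kernel))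
noncomputable def rh2b0103de5eac2cd1 : CRef := CRef.mk (Pat.mk 0x70000000e000000080000000800000000 0x1000000070000000e0000007e0000001f00000007 5 7) 0 0 (step_sound _ 68 [rh33025e9f4f2ea3d9, rh70ce7f6fbeb3f2a7, (rh89ade209b3e28f13.shift 1 2)] (by decide +kernel))
noncomputable def rh3f6896ff5702037c : CRef := CRef.mk (Pat.mk 0x2000000020000001a0000000000000000 0x5000000070000000700000002000000020000001b0000000f00000005 5 5) 0 0 (step_sound _ 161 [rhbd7d57cbe6532a20, (rhc85cc95794737cf7.shift 0 2)] (by decide +kernel))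
noncomputable def rh2f0e9c9ab520be2e : CRef := CRef.mk (Pat.mk 0x60000000c0000001c0000000000000000 0x60000003f0000001f0000000300000002 5 6) 0 0 (step_sound _ 100 [rh537c67efd11d1fdc, (rhf48373e13d2bc128.shift 1 3)] (by decide +kernel))
noncomputable def rh8b24fb6e4eeb6db7 : CRef := CRef.mk (Pat.mk 0xe000000080000000c0000000400000000 0x20000000e0000000c0000000f0000003c00000018 5 6) 0 0 (step_sound _ 98 [rh4f7c000fb666917c, (rh50fbb5868c909700.shift 1 1)] (by decide +kernel))
noncomputable def rh846eed1434641323 : CRef := CRef.mk (Pat.mk 0x400000000000000100000003c00000000 0x4000000040000001e0000007f00000003 5 7) 0 0 (step_sound _ 66 [(rh3244c3cc8379b070.shift 1 1), rhcc559e593dfe1598] (by decide +kernel))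
noncomputable def rhfac487b7191118c9 : CRef := CRef.mk (Pat.mk 0x80000001e00000000 0x7e0000007e00000003 5 7) 0 0 (step_sound _ 0 [rh80fcd6d0a18cb2dd, (rhe6bdd62e1711df0b.shift 1 1)] (by decide +kernel))
noncomputable def rh722849d2489740a2 : CRef := CRef.mk (Pat.mk 0x800000008000000080000000800000000 0x800000008000000080000001f0000003c00000010 5 6) 0 0 (step_sound _ 36 [(rh36945961245c70fd.shift 0 1), (rh55afc6a59410cf00.shift 3 0)] (by decide +kernel))
noncomputable def rhee299fef33b323a9 : CRef := CRef.mk (Pat.mk 0x2000000060000001a00000000000000000000000000000000 0x20000000200000002000000060000001e00000007000000070000000700000004 5 5) 0 0 (step_sound _ 97 [(rh5710f30ba40ee3ec.shift 0 2), (rh6eff4158bb400f47.shift 0 1), (rh7c836f2e0ccdad14.shift 1 0)] (by decide +kernel))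
noncomputable def rh8874a68efa090777 : CRef := CRef.mk (Pat.mk 0x2000000060000001a000000000000000000000000 0x5000000070000000700000002000000060000001e000000070000000700000005 5 5) 0 0 (step_sound _ 193 [(rh1741680720c097b4.shift 0 3), (rh22cde4a1aed087ae.shift 1 3), rhe089a8a599a512e6] (by decide +kernel))
noncomputable def rh8e75230445bea7c6 : CRef := CRef.mk (Pat.mk 0x3800000000 0xef0000007e0000000f 5 8) 0 0 (step_sound _ 34 [(rh22b38309c56a80eb.shift 1 1), rh592c7139d2c44767, (rh6cc0f305be0098c0.shift 1 0), (rhaeebc73f5a9c796a.shift 1 0)] (by decide +kernel))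
noncomputable def rh9284d38f8133d700 : CRef := CRef.mk (Pat.mk 0x20000000a0000000a000000080000000400000000 0x20000000a0000000a0000001f0000000f00000005 5 5) 0 0 (step_sound _ 35 [(rh932754581e0f4330.shift 2 0), rhd4d2b871e42cedd8] (by decide +kernel))
noncomputable def rh3e436022c2e556fc : CRef := CRef.mk (Pat.mk 0x3c00000030000000100000001800000000 0x60000003c000000360000003f0000003f00000027 5 6) 0 0 (step_sound _ 33 [rh16dcf073062cfc06, (rh6550be38bfd67d88.shift 1 1), (rhbfb73dde80311250.shift 0 1)] (by decide +kernel))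
noncomputable def rh1a6e2fc4c2d16788 : CRef := CRef.mk (Pat.mk 0x1c000000100000001000000018 0x360000003c000000340000001f00000018 5 6) 0 0 (step_sound _ 35 [(rh5c5e593799055d58.shift 3 0), rh7e327c59e94de264] (by decide +kernel))
noncomputable def rhb7781bd3a1a55432 : CRef := CRef.mk (Pat.mk 0x30000000200000002000000000000000000000000 0x400000006000000070000000700000006000000060000000600000004 5 3) 0 0 (step_sound _ 65 [rha613ffd40b6c9d24, (rhced6d86d2069808b.shift 1 1), (rhd22616887d452319.shift 0 1)] (by decide +kernel))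
noncomputable def rha5f2a9fea75e94ba : CRef := CRef.mk (Pat.mk 0x1c0000000c000000080000000c00000000 0x1c0000000f0000007e0000001f00000002 5 7) 0 0 (step_sound _ 97 [(rh53b3c253cb0c65f4.shift 0 3), rh5a8a7f9e51be3b01] (by decide +kernel))
noncomputable def rh5e844bc12c95f56c : CRef := CRef.mk (Pat.mk 0xc000000080000000c000000000000000000000000 0x100000001c0000001c0000000f0000003c0000001c00000014 5 6) 0 0 (step_sound _ 66 [(rh42548283029e2a39.shift 2 0), rh50ad5e520c5fe08d, (rhf9af042da61fc652.shift 2 0)] (by decide +kernel))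
noncomputable def rh0c14f84f6205c5d6 : CRef := CRef.mk (Pat.mk 0x6000000040000000c000000000000000000000000 0xe0000000e0000003c0000000f0000000e0000000c 5 6) 0 0 (step_sound _ 66 [(rh257d7200ab2a6828.shift 1 0), (rhab6ffbdaef6e235a.shift 0 1), (rhedb11bef59254b8a.shift 1 0)] (by decide +kernel))
noncomputable def rh26c63b5f0f787247 : CRef := CRef.mk (Pat.mk 0x4000000030000000200000006 0x1000000030000000700000006000000030000000700000006 5 3) 0 0 (step_sound _ 97 [(rh2f68792b6b779e96.shift 1 0), rhe01be80656df83b3] (by decide +kernel))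
noncomputable def rhccce7ec739887e81 : CRef := CRef.mk (Pat.mk 0x100000000800000008000000180000000000000000 0x1000000018000000080000007c0000000f00000004 5 7) 0 0 (step_sound _ 35 [rhb0de455c382c5b1c, (rhbaefcd01e0a8bca3.shift 3 1)] (by decide +kernel))
noncomputable def rh66769d3256397137 : CRef := CRef.mk (Pat.mk 0x800000004000000040000000c00000000 0xc0000000c000000040000003c0000000f00000002 5 6) 0 0 (step_sound _ 130 [(rh2f68792b6b779e96.shift 2 1), rh9657c25562dad1df] (by decide +kernel))
noncomputable def rh8dc8ef7ec7f835d2 : CRef := CRef.mk (Pat.mk 0x1800000000000000040000000e00000000 0x1000000018000000080000003f0000003f00000010 5 6) 0 0 (step_sound _ 67 [(rh30e1c1faf34c3d54.shift 0 1), rh8ccbe8601f28db58, (rhf9d36e158778ce35.shift 0 1)] (by decide +kernel))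
noncomputable def rh538f0df19b30d692 : CRef := CRef.mk (Pat.mk 0x80000000e0000000a000000000000000000000000 0x380000001e0000000b0000001e0000001c00000014 5 6) 0 0 (step_sound _ 67 [(rh5bc090164f229948.shift 0 1), (rh7e024c044149193a.shift 0 1), (rh8cdd36b03d57a2f6.shift 2 0)] (by decide +kernel))
noncomputable def rha0e4d5ff8ce6597a : CRef := CRef.mk (Pat.mk 0x1c0000001c000000080000000000000000 0x4000000040000001c0000001f0000000f0000000200000002 5 5) 0 0 (step_sound _ 97 [(rh53b3c253cb0c65f4.shift 0 3), rhcd9b0b6280b77689] (by decide +kernel))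
noncomputable def rhf29737a8ad727ecc : CRef := CRef.mk (Pat.mk 0x80000000e000000020000000000000004 0x3b0000001e000000070000000600000004 5 6) 0 0 (step_sound _ 100 [(rheb0810cc63b001d8.shift 0 2), rhf8eeff4b70ea7438] (by decide +kernel))
noncomputable def rh80b95cfeb9de7ca7 : CRef := CRef.mk (Pat.mk 0x80000000c00000008000000000000000400000000 0x10000000780000001f00000008000000180000001c00000014 5 7) 0 0 (step_sound _ 164 [(rh3e5a028a89dac53b.shift 2 0), (rh618619869b160a36.shift 2 0), (rh69012675dfdb1a5b.shift 0 4)] (by decide +kernel))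
noncomputable def rh6f613394a2a14399 : CRef := CRef.mk (Pat.mk 0x60000000300000002000000000000000000000000 0x6000000060000000700000003000000030000000300000002 5 3) 0 0 (step_sound _ 65 [(rh2f68792b6b779e96.shift 1 2), rhc484816b49ecee2c] (by decide +kernel))
noncomputable def rh63c5e32c22698848 : CRef := CRef.mk (Pat.mk 0x800000004000000040000000400000000 0xa0000000f0000003c000000040000000400000004 5 6) 0 0 (step_sound _ 130 [rh099a4ec72b73d1a6, (rh2f68792b6b779e96.shift 2 1)] (by decide +kernel))
noncomputable def rh52be3046160229e9 : CRef := CRef.mk (Pat.mk 0x200000003000000060000000200000000000000000000000000000000 0x200000003000000070000000600000007000000070000000700000004 5 3) 0 0 (step_sound _ 97 [rh46bfb734f58a0e67, (rhd29a1fb688eae70f.shift 1 2), (rhe4441baab75a6f73.shift 0 1)] (by decide +kernel))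
noncomputable def rhe8ce8258bd94c865 : CRef := CRef.mk (Pat.mk 0x1c000000040000000000000000 0x200000002000000770000003e000000740000000400000004 5 7) 0 0 (step_sound _ 97 [(rha93a5dd541ab8209.shift 1 2), rhe1ef59f9ff87186c] (by decide +kernel))
noncomputable def rh42be0d878a7406f4 : CRef := CRef.mk (Pat.mk 0x200000003c00000028000000180000000000000000 0x280000003e0000002f0000007e0000006600000004 5 7) 0 0 (step_sound _ 66 [(rh07cec374efd0d77c.shift 1 1), (rh18fd060f871c7679.shift 0 2), (rh782d03dd4dc1a048.shift 1 0)] (by decide +kernel))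
noncomputable def rh979bf0c0182ae827 : CRef := CRef.mk (Pat.mk 0x1e000000040000000c00000000 0x6000000060000001e000000070000000e0000000a 5 5) 0 0 (step_sound _ 65 [(rh48de4a766d42ddcd.shift 1 0), (rheb0810cc63b001d8.shift 0 2)] (by decide +kernel))
noncomputable def rh86b7c0b083dc15c8 : CRef := CRef.mk (Pat.mk 0x7c00000010 0x70000007f000000dc 5 8) 0 0 (step_sound _ 3 [rha7419416b48358d1, (rheb0810cc63b001d8.shift 2 0)] (by decide +kernel))
noncomputable def rh2921619f5029adb1 : CRef := CRef.mk (Pat.mk 0x7c00000000 0x70000007e000000c7 5 8) 0 0 (step_sound _ 6 [rh592c7139d2c44767, (rhe25b0a99195a5d59.shift 3 0)] (by decide +kernel))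
noncomputable def rh3c8a2aaa77cdb6c0 : CRef := CRef.mk (Pat.mk 0x200000001c00000000 0x670000003e00000007 5 7) 0 0 (step_sound _ 37 [(rh33e738c4ed385b9f.shift 2 1), rh592c7139d2c44767] (by decide +kernel))
noncomputable def rh2ae9b26091ae7592 : CRef := CRef.mk (Pat.mk 0x180000000c000000180000000000000000 0x10000000180000000c000000780000001f00000004 5 7) 0 0 (step_sound _ 35 [rh0b007fc291716b29, (rh2f68792b6b779e96.shift 3 1)] (by decide +kernel))
noncomputable def rhc64669d5d47baf59 : CRef := CRef.mk (Pat.mk 0x90000000e000000000000000000000000 0x8000000080000000b0000001e000000380000001000000010 5 6) 0 0 (step_sound _ 100 [(rh3f8766e6ecb455ce.shift 0 3), (rh65dcfd18fd55cba0.shift 1 0)] (by decide +kernel))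
noncomputable def rh9bdd97b56ac4cd22 : CRef := CRef.mk (Pat.mk 0x120000001c0000000000000000 0x8000000080000001b0000001f0000003000000010 5 6) 0 0 (step_sound _ 65 [(rh3244c3cc8379b070.shift 0 2), rh4983c44f3a2eb597] (by decide +kernel))
noncomputable def rh6ab45e77d8eb4514 : CRef := CRef.mk (Pat.mk 0x3c0000000c000000080000000c00000000 0x3c0000006c0000003c0000001f00000013 5 7) 0 0 (step_sound _ 36 [(rh55afc6a59410cf00.shift 3 0), rhf78af88bddc76f96] (by decide +kernel))
noncomputable def rhe2acccda336fd16c : CRef := CRef.mk (Pat.mk 0xc000000380000007000000000 0x280000007c0000002f000000380000007000000040 5 7) 0 0 (step_sound _ 131 [rh0f8eb040348f8bfd, (rh2145e1d24b96a57e.shift 3 1)] (by decide +kernel))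
noncomputable def rhc062547b86609067 : CRef := CRef.mk (Pat.mk 0x30000000e0000001c00000000 0x1e0000001e0000000f0000000e0000001c00000010 5 5) 0 0 (step_sound _ 129 [(rh2145e1d24b96a57e.shift 1 1), rhec53427b00862255] (by decide +kernel))
noncomputable def rhb85d2033d50567b5 : CRef := CRef.mk (Pat.mk 0x200000001c00000000 0x300000003e00000077 5 7) 0 0 (step_sound _ 33 [rh06db8ceda6269a47, (rh428265de8cd3cd2d.shift 1 1)] (by decide +kernel))
noncomputable def rh29b1d96689613142 : CRef := CRef.mk (Pat.mk 0xe0000000c00000018 0x10000000300000003e0000003f00000018 5 6) 0 0 (step_sound _ 33 [(rh51ed00482da02b40.shift 1 0), rhb739f4f82bb681b4] (by decide +kernel))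
noncomputable def rh3105794ef2f0e619 : CRef := CRef.mk (Pat.mk 0x6000000030000000a00000000 0x400000004000000060000001e0000000b0000000a0000000a 5 5) 0 0 (step_sound _ 130 [(rh71222050f2c63a3a.shift 1 0), rha3da355e64266cdb] (by decide +kernel))
noncomputable def rh29572a3c0c1f3a32 : CRef := CRef.mk (Pat.mk 0x80000000c0000000c0000001c 0x60000000f0000003c0000000f0000001c 5 6) 0 0 (step_sound _ 98 [rh09de94108b46f724, (rh50fbb5868c909700.shift 2 0)] (by decide +kernel))
noncomputable def rh316779fa70280f04 : CRef := CRef.mk (Pat.mk 0xe00000004000000000000001800000000 0x100000007f0000003f000000080000001800000010 5 7) 0 0 (step_sound _ 132 [(rh269f3e050f7dc7b9.shift 0 3), rh4409cc81c404c729, (rhaf9f2efc81a8312b.shift 0 3)] (by decide +kernel))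
noncomputable def rh8e08e9692487b39b : CRef := CRef.mk (Pat.mk 0xc0000000c000000040000001000000000 0x3c0000007f000000360000001000000010 5 7) 0 0 (step_sound _ 100 [rh960ba56f083628ab, (rha9e1a5d55b907abf.shift 1 2)] (by decide +kernel))
noncomputable def rhc6520a7e76d1fddc : CRef := CRef.mk (Pat.mk 0x800000018000000380000002000000000 0x140000001f00000038000000380000002800000008 5 6) 0 0 (step_sound _ 132 [(rh2145e1d24b96a57e.shift 4 1), rhc24ef288f4895ae7] (by decide +kernel))
noncomputable def rhc8f82a2c72565602 : CRef := CRef.mk (Pat.mk 0x60000001c000000180000000800000000 0x80000000a0000000e0000001c0000007c0000001f00000004 5 7) 0 0 (step_sound _ 69 [rh960db334ff74075d, (rhf48373e13d2bc128.shift 2 2)] (by decide +kernel))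
noncomputable def rhdb45db45d2f1520c : CRef := CRef.mk (Pat.mk 0x60000001c000000180000000800000000 0xa0000000e0000001c0000001c0000001f00000016 5 5) 0 0 (step_sound _ 131 [(rh474875b2ab064539.shift 1 0), (rh55a1f6c57a317ce6.shift 3 0), rha7e63793ac992cd7] (by decide +kernel))
noncomputable def rh3d6748dee6669795 : CRef := CRef.mk (Pat.mk 0xe000000040000000e0000000600000000 0x300000003e000000360000001f0000003e00000004 5 6) 0 0 (step_sound _ 35 [(rh703201954ad41fca.shift 1 0), (rh79b3c29022acbdf3.shift 0 1)] (by decide +kernel))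
noncomputable def rh9395e33280d9cda1 : CRef := CRef.mk (Pat.mk 0x70000000900000005000000000000000000000000 0x10000000f0000001b0000000f000000020000000200000002 5 5) 0 0 (step_sound _ 132 [rh2073fde18add1a7d, (rhd6e447e81774439e.shift 0 4)] (by decide +kernel))
noncomputable def rh334e342bd9da48dc : CRef := CRef.mk (Pat.mk 0x8000000080000003800000000 0x800000008000000080000003e00000077 5 7) 0 0 (step_sound _ 34 [rh185f35b8bd8ec37f, (rh1ae4704ae86cb9a8.shift 1 0), (rh975c4ddca9e0d579.shift 1 0)] (by decide +kernel))
noncomputable def rh5701b20fd9176727 : CRef := CRef.mk (Pat.mk 0x6000000030000000e0000000200000000 0x90000001f0000001b0000000e0000000600000004 5 5) 0 0 (step_sound _ 128 [rh117ee2272e29d9ff, (rh50fbb5868c909700.shift 0 1)] (by decide +kernel))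
noncomputable def rhbd277d3162960358 : CRef := CRef.mk (Pat.mk 0x4000000040000001c000000000000000000000000 0x200000006000000060000001c0000000f0000000e0000000a 5 5) 0 0 (step_sound _ 66 [(rhc4526fc8abf298b6.shift 1 0), (rhf5e394b641108220.shift 1 0), (rhfbf2eae4035425b6.shift 0 1)] (by decide +kernel))
noncomputable def rh3898390db5fb7e6a : CRef := CRef.mk (Pat.mk 0x18000000000000000c0000000800000000 0x1000000018000000080000001f0000007800000010 5 7) 0 0 (step_sound _ 99 [(rh2f68792b6b779e96.shift 3 1), rh42e615827c8908b1] (by decide +kernel))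
noncomputable def rh623e2f7b8650c83f : CRef := CRef.mk (Pat.mk 0x2000000020000000e0000000000000000 0x50000000700000007000000020000001e0000000300000001 5 5) 0 0 (step_sound _ 33 [rh157b220518f94713, (rh1741680720c097b4.shift 0 1)] (by decide +kernel))
noncomputable def rhf22d9deb3ad9aff0 : CRef := CRef.mk (Pat.mk 0x200000006000000030000000600000000 0x40000000600000006000000070000001f00000019 5 5) 0 0 (step_sound _ 32 [rh932754581e0f4330, rhc92a87466e403616] (by decide +kernel))
noncomputable def rh897cccfc662b4d97 : CRef := CRef.mk (Pat.mk 0x60000001e00000000 0x600000007000000070000003e0000001e00000003 5 6) 0 0 (step_sound _ 1 [rhcbc359ce2aa6b893, rheb0810cc63b001d8] (by decide +kernel))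
noncomputable def rhfb291fac4cfbfd46 : CRef := CRef.mk (Pat.mk 0xc000000040000000c0000000c 0x120000003f0000003f0000000c0000000c 5 6) 0 0 (step_sound _ 97 [(rh50fbb5868c909700.shift 1 0), rh85cb3b12700f992f] (by decide +kernel))
noncomputable def rhe17348fd73e0781b : CRef := CRef.mk (Pat.mk 0xf00000004 0x700000007f000000fc 5 8) 0 0 (step_sound _ 36 [rh27f28fc6ea159c6b, (rh3fc3a7fb6866dcd4.shift 1 0), rh4ad5fc38f1b69f65, (rhfb69184a5e95e0cd.shift 1 0)] (by decide +kernel))
noncomputable def rh75b8e63c7ce93dc2 : CRef := CRef.mk (Pat.mk 0x4000000080000001c0000000000000000 0x40000003f0000003f0000000300000002 5 6) 0 0 (step_sound _ 65 [rhc4658766f200b447, (rhec46bd5500c722c9.shift 0 2)] (by decide +kernel))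
noncomputable def rh2b652555cdbfcf59 : CRef := CRef.mk (Pat.mk 0x80000000c000000080000000800000008000000000000000000000000 0x80000000c0000007c0000001f0000000c000000180000001800000010 5 7) 0 0 (step_sound _ 164 [(rh0b007fc291716b29.shift 0 3), (rh11258dce8573113d.shift 0 3), (rh46bfb734f58a0e67.shift 2 0)] (by decide +kernel))
noncomputable def rhe880c8eb626b6670 : CRef := CRef.mk (Pat.mk 0x200000003000000020000000200000002000000000000000000000000 0x200000003000000070000000600000006000000060000000600000004 5 3) 0 0 (step_sound _ 65 [(rh0525660a5c5640b6.shift 1 0), (rhffd04209dc8ea796.shift 0 2)] (by decide +kernel))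
noncomputable def rh3e582bf3fd71d79c : CRef := CRef.mk (Pat.mk 0x10000000200000002000000020000000000000000 0x1000000030000000200000002000000070000000700000005 5 3) 0 0 (step_sound _ 161 [(rh50fbb5868c909700.shift 0 2), rh8cdd36b03d57a2f6] (by decide +kernel))
noncomputable def rh9ef3e32da0a3dd82 : CRef := CRef.mk (Pat.mk 0x1e00000018 0x37000000fe0000001c 5 8) 0 0 (step_sound _ 68 [(rh33e738c4ed385b9f.shift 1 1), rh412d230494194d0a] (by decide +kernel))
noncomputable def rh6eb544d41e180c4d : CRef := CRef.mk (Pat.mk 0x5800000070000000000000002000000020 0x780000007f000000c70000006000000020 5 8) 0 0 (step_sound _ 99 [(rhb5e747220bd827fa.shift 3 0), (rhf062016f557148a6.shift 0 2)] (by decide +kernel))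
noncomputable def rh125e5fc82c000abb : CRef := CRef.mk (Pat.mk 0x160000001c000000000000000800000008 0x18000000180000007f0000007e0000001c000000100000001800000008 5 7) 0 0 (step_sound _ 131 [(rh226655e3fe6b4a8a.shift 1 3), rh64231a5a46e3b71f, (rhc4c3cece7e1eac9b.shift 1 0)] (by decide +kernel))
noncomputable def rh7e103d6836dd7d51 : CRef := CRef.mk (Pat.mk 0x580000007000000000 0xf80000007f00000007 5 8) 0 0 (step_sound _ 35 [(rh33e738c4ed385b9f.shift 3 1), rhf062016f557148a6] (by decide +kernel))
noncomputable def rh3233f5ce9eefd643 : CRef := CRef.mk (Pat.mk 0x800000008000000180000001800000000 0x100000001800000018000000380000001f0000000c 5 6) 0 0 (step_sound _ 132 [(rh2f68792b6b779e96.shift 3 1), rhad013cf28f563c1f] (by decide +kernel))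
noncomputable def rhab7df5b5c1c536ae : CRef := CRef.mk (Pat.mk 0x180000000c000000080000001c00000000 0x20000000780000001c000001f8000000ff000001e0 5 9) 0 0 (step_sound _ 37 [rh7a67e75e55be92d9, (rh8f19012d70ebaf98.shift 2 0), (rha93a5dd541ab8209.shift 2 0), (rhc3f8d890a3bb80c0.shift 2 0), rhf3731febd9c20499] (by decide +kernel))
noncomputable def rh37c9b24804160eb7 : CRef := CRef.mk (Pat.mk 0x600000002000000030000000200000000 0x20000000600000006000000070000001e0000000e 5 5) 0 0 (step_sound _ 34 [(rh55afc6a59410cf00.shift 1 0), rhafa2418859fd5362] (by decide +kernel))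
noncomputable def rhac160a555f45b187 : CRef := CRef.mk (Pat.mk 0x700000004000000030000000200000000 0xc0000000f0000001c000000070000001e0000000c 5 5) 0 0 (step_sound _ 66 [(rh5c5e593799055d58.shift 1 1), rhb1856ba0556956be] (by decide +kernel))
noncomputable def rh83991d5a1aeac4df : CRef := CRef.mk (Pat.mk 0x1e000000000000000800000008 0x330000001e000000330000001800000008 5 6) 0 0 (step_sound _ 129 [(rh3244c3cc8379b070.shift 0 3), rhfae71fa5823ab7ff] (by decide +kernel))
noncomputable def rhbf3ffd8a54ac7ec1 : CRef := CRef.mk (Pat.mk 0x200000002000000020000000000000004 0x5000000070000000700000002000000020000000600000004 5 3) 0 0 (step_sound _ 33 [(rh1741680720c097b4.shift 0 1), (rhd3458b32566d63f7.shift 1 0)] (by decide +kernel))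
noncomputable def rh44203f618ea442d8 : CRef := CRef.mk (Pat.mk 0x200000002000000020000000200000000 0x4000000070000000700000002000000060000000600000004 5 3) 0 0 (step_sound _ 128 [(rh50fbb5868c909700.shift 0 1), (rhced6d86d2069808b.shift 1 0)] (by decide +kernel))
noncomputable def rh11660d8aab237291 : CRef := CRef.mk (Pat.mk 0x380000001000000010 0x20000000670000003e0000007700000010 5 7) 0 0 (step_sound _ 66 [(rh592c7139d2c44767.shift 0 1), (rhbbda3e5cf400e6dd.shift 2 0), (rhd0782bcc7d08fb46.shift 0 1)] (by decide +kernel))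
noncomputable def rhb973b6a066a49940 : CRef := CRef.mk (Pat.mk 0x4000000060000001c0000000800000008 0x100000003e000000360000001f0000003800000008 5 6) 0 0 (step_sound _ 100 [(rh5dec5e73a267a1c4.shift 0 1), (rh69755ef358ebfd54.shift 3 0), (rhf25f4ca1d080bf10.shift 1 1)] (by decide +kernel))
noncomputable def rh13cb012042c2699c : CRef := CRef.mk (Pat.mk 0x10000000000000002000000020000000200000000 0x4000000070000000700000002000000060000000600000004 5 3) 0 0 (step_sound _ 129 [(rh25208373db83e521.shift 1 0), (rhffd04209dc8ea796.shift 0 1)] (by decide +kernel))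
noncomputable def rh98969c2b5bc7fe0a : CRef := CRef.mk (Pat.mk 0xc0000001e000000180000000000000000 0xc0000001e0000001f0000003300000012 5 6) 0 0 (step_sound _ 65 [rh593658fd7da791c2, (rheb0810cc63b001d8.shift 0 2)] (by decide +kernel))
noncomputable def rh7fe0063505842155 : CRef := CRef.mk (Pat.mk 0x3000000060000000300000000 0x40000000600000006000000030000001e0000000700000001 5 5) 0 0 (step_sound _ 67 [rh57a06b43e72703e1, (rhf48373e13d2bc128.shift 0 2)] (by decide +kernel))
noncomputable def rh230ee59bbfb914bf : CRef := CRef.mk (Pat.mk 0x30000000200000002000000000000000000000000 0x2000000030000000300000007000000070000000700000005 5 3) 0 0 (step_sound _ 65 [rh257d7200ab2a6828, rhe4441baab75a6f73, (rhed79e5c5ffee0217.shift 0 1)] (by decide +kernel))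
noncomputable def rh35562bf0fbea4a15 : CRef := CRef.mk (Pat.mk 0xe000000040000000c0000000c00000000 0xe0000003c0000000f0000003c00000014 5 6) 0 0 (step_sound _ 99 [(rh71222050f2c63a3a.shift 2 0), rhd6f74a6e2771cfa5] (by decide +kernel))
noncomputable def rhe507c0c498cf310c : CRef := CRef.mk (Pat.mk 0x30000000200000002000000000000000000000000 0x400000006000000070000000700000006000000060000000600000004 5 3) 0 0 (step_sound _ 65 [rh257d7200ab2a6828, (rhced6d86d2069808b.shift 1 1), (rhd22616887d452319.shift 0 1)] (by decide +kernel))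
noncomputable def rh87a80d039f1d0875 : CRef := CRef.mk (Pat.mk 0xc0000000e000000000000000000000000 0x8000000080000001c0000007e000000370000001000000010 5 7) 0 0 (step_sound _ 100 [(rh85069a6d037617f9.shift 1 0), (rh8a88abf038d31fd2.shift 0 2)] (by decide +kernel))
noncomputable def rhe05f4c001cebd64c : CRef := CRef.mk (Pat.mk 0x80000000e000000020000000000000000 0x800000008000000180000001e000000330000001000000010 5 6) 0 0 (step_sound _ 100 [(rh85069a6d037617f9.shift 1 0), (rheb0810cc63b001d8.shift 0 2)] (by decide +kernel))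
noncomputable def rh9a2904bbbc9328af : CRef := CRef.mk (Pat.mk 0x80000000c000000000000000c00000000 0x140000003c0000000f000000080000000c00000004 5 6) 0 0 (step_sound _ 67 [(rh20ee5c2c4c3a9878.shift 0 1), (rh932754581e0f4330.shift 2 0)] (by decide +kernel))
noncomputable def rh2714673b4f57b0f6 : CRef := CRef.mk (Pat.mk 0x380000001000000010 0x8000000080000000f000000fc000001de00000010 5 9) 0 0 (step_sound _ 99 [(rh960a8f47a8f1fa0e.shift 1 0), (rha086f24fc46b4198.shift 2 1), (rha9fbfd4bb8cf890b.shift 0 2), (rhe072fffdd2fccf38.shift 3 0)] (by decide +kernel))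
noncomputable def rh384fcdf43c4657c9 : CRef := CRef.mk (Pat.mk 0x1000000010000000100000000e0000000000000004 0x200000003000000032000000130000003e0000003700000004 5 6) 0 0 (step_sound _ 68 [(rh2aa7c1d375387a4e.shift 1 1), (rh36586e595fdbb742.shift 1 1), rhcdee6bd3ac30bbd9] (by decide +kernel))
noncomputable def rh2f9cba0992b64cfb : CRef := CRef.mk (Pat.mk 0x1c0000000c0000000000000004 0x30000007e0000007c0000000400000004 5 7) 0 0 (step_sound _ 101 [(rh18965a982d73c794.shift 2 2), rhd165e4fa71f06c54] (by decide +kernel))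
noncomputable def rh97986c9a896c836f : CRef := CRef.mk (Pat.mk 0x10000000e00000000 0x3b0000001f00000038 5 6) 0 0 (step_sound _ 36 [(rh3f8766e6ecb455ce.shift 0 1), rh44fae8d9c1045ff0] (by decide +kernel))
noncomputable def rh0b0ff5b6a06014fe : CRef := CRef.mk (Pat.mk 0xf000000000000000000000004 0x40000001c0000000f000000180000000c0000000c 5 5) 0 0 (step_sound _ 131 [(rh33e738c4ed385b9f.shift 0 3), rhe3cf3bbbdac0acc1] (by decide +kernel))
noncomputable def rh408973e54453a147 : CRef := CRef.mk (Pat.mk 0x4000000380000001800000000 0x1000000010000000360000003f0000001800000008 5 6) 0 0 (step_sound _ 66 [(rh3244c3cc8379b070.shift 1 2), rhc04bdb4f52da4841] (by decide +kernel))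
noncomputable def rh0ba61214d031d41a : CRef := CRef.mk (Pat.mk 0xe00000002 0x380000001f0000003b 5 6) 0 0 (step_sound _ 36 [rh2381ca26b8b38d1e, rheb0810cc63b001d8] (by decide +kernel))
noncomputable def rhb48c7ee127287bcc : CRef := CRef.mk (Pat.mk 0x120000001e0000000000000000 0x4000000040000001e0000003f0000000300000002 5 6) 0 0 (step_sound _ 98 [rh50d4375a936551e6, (rhf48373e13d2bc128.shift 1 2)] (by decide +kernel))
noncomputable def rh0d1bca49b936c475 : CRef := CRef.mk (Pat.mk 0x80000000c000000000000000c00000000 0x18000000780000001f0000001c0000001c00000010 5 7) 0 0 (step_sound _ 132 [(rh574fdbf07bdd18b9.shift 0 3), (rhf07e5976712d0cf0.shift 0 1), (rhf66943792be19228.shift 2 0)] (by decide +kernel))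
noncomputable def rh06e02cef0009a548 : CRef := CRef.mk (Pat.mk 0x1c00000008000000080000001800000000 0x80000001c0000000f0000007c0000001800000008 5 7) 0 0 (step_sound _ 98 [(rh47f8712bfbd060a1.shift 0 1), (rh7b1f1fb55310c477.shift 2 0)] (by decide +kernel))
noncomputable def rh5a3dc4cb0ccbbb55 : CRef := CRef.mk (Pat.mk 0x1c0000000c000000000000001800000000 0x80000001c0000000f0000007c0000001800000008 5 7) 0 0 (step_sound _ 97 [(rh37557f0dc98feb0c.shift 1 0), (rh53b3c253cb0c65f4.shift 0 3)] (by decide +kernel))
noncomputable def rhdd751302cc181003 : CRef := CRef.mk (Pat.mk 0x700000003000000000000000600000000 0x200000002000000020000001f00000003000000070000000600000002 5 5) 0 0 (step_sound _ 131 [(rh18965a982d73c794.shift 0 3), rh46dc0467ef404eeb] (by decide +kernel))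
noncomputable def rhd35a20d59dadf053 : CRef := CRef.mk (Pat.mk 0xe000000040000000000000004 0x70000003e000000360000000400000004 5 6) 0 0 (step_sound _ 129 [(rh9e07f76261b05888.shift 1 0), (rhd4bd0ff53b8cc7d0.shift 0 2)] (by decide +kernel))
noncomputable def rh68d3b8acf1216a71 : CRef := CRef.mk (Pat.mk 0x600000006000000030000000000000000 0x20000000600000006000000070000001e0000000e 5 5) 0 0 (step_sound _ 33 [(rh71222050f2c63a3a.shift 1 0), rh7c5c9e3d7752e57e] (by decide +kernel))
noncomputable def rhffc6ca9cdf33df76 : CRef := CRef.mk (Pat.mk 0x38000000100000001000000000 0x670000003e000000300000001000000010 5 7) 0 0 (step_sound _ 133 [(rh52a80f206a70e131.shift 0 2), (rh71222050f2c63a3a.shift 4 0)] (by decide +kernel))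
noncomputable def rhc9b8e3f4ebc9676b : CRef := CRef.mk (Pat.mk 0x80000000c000000000000000c00000000 0x140000003c0000000f000000080000000c00000004 5 6) 0 0 (step_sound _ 67 [(rh41341977c0a884ba.shift 0 1), (rh932754581e0f4330.shift 2 0)] (by decide +kernel))
noncomputable def rh5c17f35af4ccaa8d : CRef := CRef.mk (Pat.mk 0x4000000020000000200000002000000180000000000000000 0x40000000600000002000000020000001b0000000f00000005 5 5) 0 0 (step_sound _ 65 [(rhbaefcd01e0a8bca3.shift 1 2), rhbd7d57cbe6532a20] (by decide +kernel))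
noncomputable def rh01ed95bbcc628867 : CRef := CRef.mk (Pat.mk 0xe000000000000000800000000 0x10000000770000003e000000780000000800000008 5 7) 0 0 (step_sound _ 100 [(rh818f0eab6cdd36bd.shift 1 0), (rhb18e6c78a554867d.shift 0 3), (rhe401600d466b97cd.shift 0 2)] (by decide +kernel))
noncomputable def rhe4a8506e0094c347 : CRef := CRef.mk (Pat.mk 0x1c00000000 0xef0000007e000000e7 5 8) 0 0 (step_sound _ 37 [rh592c7139d2c44767, (rha93a5dd541ab8209.shift 2 0), (rhb18e6c78a554867d.shift 1 1)] (by decide +kernel))
noncomputable def rh335f185818a0f322 : CRef := CRef.mk (Pat.mk 0xe00000000000000080000000000000000 0x770000003f00000078000000080000000800000008 5 7) 0 0 (step_sound _ 132 [(rha93a5dd541ab8209.shift 1 3), (rhb18e6c78a554867d.shift 0 4), rhbf514b0117492d60] (by decide +kernel))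
noncomputable def rh2128ce59b18e1eff : CRef := CRef.mk (Pat.mk 0x100000001e000000000000000800000000 0x1b0000001f000000300000001800000018 5 6) 0 0 (step_sound _ 129 [(rh3244c3cc8379b070.shift 0 3), rhf4149447b397d1d6] (by decide +kernel))
noncomputable def rh8809c4560da56088 : CRef := CRef.mk (Pat.mk 0x12000000060000000200000000 0x3000000070000000f0000001e000000060000000600000002 5 5) 0 0 (step_sound _ 129 [(rh3da62da861143b9a.shift 0 1), (rh69c904193a3792b5.shift 1 0), (rhc3115e0f4b0bf27b.shift 0 1)] (by decide +kernel))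
noncomputable def rh97eff879ed1d5c0b : CRef := CRef.mk (Pat.mk 0x30000000f0000000800000004 0x140000001e0000001b0000000f0000000c00000004 5 5) 0 0 (step_sound _ 99 [(rh33e738c4ed385b9f.shift 0 2), rhcb3936243b0474e7] (by decide +kernel))
noncomputable def rh5418bb250389bc85 : CRef := CRef.mk (Pat.mk 0x1e000000000000000800000000 0x380000001f000000300000001800000018 5 6) 0 0 (step_sound _ 132 [rh10b6f88be0b08f1d, (rh33e738c4ed385b9f.shift 1 3)] (by decide +kernel))
noncomputable def rh06d29ee78b4c6777 : CRef := CRef.mk (Pat.mk 0x40000003c00000000 0x3c0000007f00000070 5 7) 0 0 (step_sound _ 67 [rh8553864a7729a62a, (rhf48373e13d2bc128.shift 2 1)] (by decide +kernel))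
noncomputable def rh2391b325a64c4473 : CRef := CRef.mk (Pat.mk 0x60000000700000004 0x8000000080000007c0000001f0000000f00000004 5 7) 0 0 (step_sound _ 67 [rh03c81bd8c7d3291c, (rh18965a982d73c794.shift 0 1)] (by decide +kernel))
noncomputable def rh2a4d1febe9f720a7 : CRef := CRef.mk (Pat.mk 0x6000000160000000000000000 0x400000004000000070000001e0000003300000002 5 6) 0 0 (step_sound _ 67 [(rh3244c3cc8379b070.shift 0 2), rhafa79035fcfa694f] (by decide +kernel))
noncomputable def rh35acd53df7e0601e : CRef := CRef.mk (Pat.mk 0x1c0000001400000000 0x200000002000000070000003e0000003400000004 5 6) 0 0 (step_sound _ 65 [rh6c918a7151ce5cb8, (rhe25b0a99195a5d59.shift 1 1)] (by decide +kernel))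
noncomputable def rhfb7adb62270065c0 : CRef := CRef.mk (Pat.mk 0x1e000000180000000000000000 0x10000000300000003e0000001f0000000800000008 5 6) 0 0 (step_sound _ 65 [(rh36445fd0eea418dc.shift 1 0), (rheb0810cc63b001d8.shift 0 2)] (by decide +kernel))
noncomputable def rh719fbd64269e2fef : CRef := CRef.mk (Pat.mk 0x1e0000001a000000000000000000000000 0xb0000003e0000001e000000300000001000000010 5 6) 0 0 (step_sound _ 98 [(rh33e738c4ed385b9f.shift 1 3), rh4c513998ea093d0f] (by decide +kernel))
noncomputable def rh93940ff4541b5073 : CRef := CRef.mk (Pat.mk 0xc0000001c000000080000000c00000000 0xc0000001e0000007c0000001f00000013 5 7) 0 0 (step_sound _ 36 [rh3dd212725aa9e091, (rh55afc6a59410cf00.shift 3 0)] (by decide +kernel))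
noncomputable def rhd8eafc9cebbbc864 : CRef := CRef.mk (Pat.mk 0x40000000700000006000000000000000000000000 0xa0000001e00000007000000060000000e0000000e0000000c 5 5) 0 0 (step_sound _ 65 [rh2ffde1b7fbcd95c3, (rh71222050f2c63a3a.shift 1 1)] (by decide +kernel))
noncomputable def rhe3eb5cc39f4ec9b6 : CRef := CRef.mk (Pat.mk 0x1c00000038000000000000000000000000 0x10000000100000003c0000003f000000700000002000000020 5 7) 0 0 (step_sound _ 98 [(rh4dc133ee0ba1420a.shift 0 3), (rh84970c2ccb9fe470.shift 2 0)] (by decide +kernel))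
noncomputable def rh3ac6bf92fa22d71c : CRef := CRef.mk (Pat.mk 0x2000000060000001e0000000000000000 0x5000000070000003e0000001e0000000200000002 5 6) 0 0 (step_sound _ 100 [(rh33e738c4ed385b9f.shift 1 2), rhcc8b91dc2ea2a3f5] (by decide +kernel))
noncomputable def rhe6ede8d44a68661d : CRef := CRef.mk (Pat.mk 0x1c000000100000000800000000 0x380000001f000000300000001800000018 5 6) 0 0 (step_sound _ 97 [rh0fef42578f1b2c23, (rhe25b0a99195a5d59.shift 1 2)] (by decide +kernel))
noncomputable def rh71e9fc42ca0769eb : CRef := CRef.mk (Pat.mk 0x80000001c00000000 0xff0000007e000000e0 5 8) 0 0 (step_sound _ 37 [(rh4c622fddc53a5f99.shift 0 1), (rha93a5dd541ab8209.shift 2 0), (rhe3060b190bc0bc78.shift 1 1)] (by decide +kernel))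
noncomputable def rh4010787460564113 : CRef := CRef.mk (Pat.mk 0x400000004000000000000000e0000000800000000 0x1400000016000000330000001f0000003b00000008 5 6) 0 0 (step_sound _ 68 [(rh6e7d2ec3f845460c.shift 0 1), (rha03f6e28ea70fc7d.shift 0 1), (rhf84bf8ec79229446.shift 1 0)] (by decide +kernel))
noncomputable def rh8d10fe49e165ceee : CRef := CRef.mk (Pat.mk 0x70000000400000000 0x800000008000000380000003f0000003f00000004 5 6) 0 0 (step_sound _ 67 [(rh300eedc557b86950.shift 0 1), (rhed57d1a6d4db2db6.shift 0 1), rhf84bf8ec79229446] (by decide +kernel))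
noncomputable def rh1d31a175d6fbe48d : CRef := CRef.mk (Pat.mk 0x2000000020000000200000002000000000000000000000000 0x6000000060000000600000006000000070000000700000001 5 3) 0 0 (step_sound _ 65 [(rh96b9ddd2353c6a13.shift 0 1), rhcab3157f7bdcba3e, (rhd29a1fb688eae70f.shift 1 1)] (by decide +kernel))
noncomputable def rh75f0014aa71dd966 : CRef := CRef.mk (Pat.mk 0x20000000200000002000000000000000400000000 0x1000000030000000300000002000000070000000700000001 5 3) 0 0 (step_sound _ 65 [rhc4526fc8abf298b6, (rhd3458b32566d63f7.shift 1 1)] (by decide +kernel))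
noncomputable def rh27b052a1db720fef : CRef := CRef.mk (Pat.mk 0x2000000020000000200000002 0x5000000070000000700000006000000030000000300000003 5 3) 0 0 (step_sound _ 129 [(rh44f453b84f013105.shift 1 0), rh771d065bdc85bf2d, (rhc85cc95794737cf7.shift 0 1)] (by decide +kernel))
noncomputable def rh7f9656c9646c636f : CRef := CRef.mk (Pat.mk 0x1000000010000000180000000800000028 0x10000000700000007e0000002f0000007c 5 7) 0 0 (step_sound _ 34 [(rh2f543ecb125aa9be.shift 1 0), rhe901d1c101dc9830] (by decide +kernel))
noncomputable def rh442363765b76cf33 : CRef := CRef.mk (Pat.mk 0x40000001e000000020000000800000008 0x340000001e000000120000007a0000001f 5 7) 0 0 (step_sound _ 1 [rh275a8c47e2d94ba3, (rh9e3edb185cc347de.shift 1 0)] (by decide +kernel))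
noncomputable def rhc67871fc88359092 : CRef := CRef.mk (Pat.mk 0x1e00000000000000040000000400000000 0x180000001f000000380000000c0000000c00000008 5 6) 0 0 (step_sound _ 100 [rha0caabc179c0c7f8, (rhe25b0a99195a5d59.shift 1 3)] (by decide +kernel))
noncomputable def rhc6d7e3d9ebf2506f : CRef := CRef.mk (Pat.mk 0x80000003c00000040 0x18000000ff000000c7 5 8) 0 0 (step_sound _ 38 [rh526ab715d76a6fbc, (rhe25b0a99195a5d59.shift 3 0)] (by decide +kernel))
noncomputable def rh0ffe27c19d003fc0 : CRef := CRef.mk (Pat.mk 0x40000003c00000000 0x3c0000007f00000070 5 7) 0 0 (step_sound _ 5 [rha4ea8c05f31c1e20, (rhe25b0a99195a5d59.shift 2 0)] (by decide +kernel))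
noncomputable def rh6a821513b363b51a : CRef := CRef.mk (Pat.mk 0x1c00000008 0xe0000000ff0000007f 5 8) 0 0 (step_sound _ 37 [(rh008dfe57da6a6a22.shift 1 0), (rhaf9f2efc81a8312b.shift 1 0), rhed95296174ee961f] (by decide +kernel))
noncomputable def rh124e4c8ec04b1110 : CRef := CRef.mk (Pat.mk 0x18000000380000002000000000 0x8000000080000001e0000003f0000003600000004 5 6) 0 0 (step_sound _ 98 [rh478cecb8fd165732, (rhb739f4f82bb681b4.shift 1 2)] (by decide +kernel))
noncomputable def rh44e676bb7316853f : CRef := CRef.mk (Pat.mk 0x180000003800000020 0x18000000ff0000003e 5 8) 0 0 (step_sound _ 38 [rh0fdd92e34c44548d, (rhf48373e13d2bc128.shift 3 1)] (by decide +kernel))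
noncomputable def rh947e8d32ac4376f1 : CRef := CRef.mk (Pat.mk 0xe0000001c000000100000001000000000 0x170000007e0000001c000000380000003800000028 5 7) 0 0 (step_sound _ 132 [(rh0cf13ccc76a23a72.shift 3 0), (rh474875b2ab064539.shift 2 0), (rh6e8a826a5508ce46.shift 0 3)] (by decide +kernel))
noncomputable def rh6430697d2174e779 : CRef := CRef.mk (Pat.mk 0xe0000000c000000080000000800000000 0x30000003e0000000f0000000c0000000c00000004 5 6) 0 0 (step_sound _ 34 [(rh3177ab62e99e7bb3.shift 0 1), (rh932754581e0f4330.shift 2 0)] (by decide +kernel))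
noncomputable def rh11cb38a0e0d3e51d : CRef := CRef.mk (Pat.mk 0x40000000e000000080000000000000000 0x400000004000000070000003e0000000f0000000200000002 5 6) 0 0 (step_sound _ 162 [(rh2145e1d24b96a57e.shift 2 2), rhf7bb7b31ae932f9b] (by decide +kernel))
noncomputable def rh9b6ec48a77bb101f : CRef := CRef.mk (Pat.mk 0x40000000e000000180000000800000000 0x70000003e0000001f0000000f00000002 5 6) 0 0 (step_sound _ 100 [rh0bf19fab06097111, rh5dc64652fdd44fa3, (rhe3060b190bc0bc78.shift 0 3)] (by decide +kernel))
noncomputable def rha5b069cd7b4420a4 : CRef := CRef.mk (Pat.mk 0x30000000e0000001800000004000000000000000000000000 0x10000000b0000000e0000007a0000001e0000001c0000001400000004 5 7) 0 0 (step_sound _ 133 [rh7e364f6ec276d486, (rhf48373e13d2bc128.shift 2 4)] (by decide +kernel))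
noncomputable def rh453ab78a19930874 : CRef := CRef.mk (Pat.mk 0x600000010000000100000001800000000 0x2f0000003e00000010000000100000001800000008 5 6) 0 0 (step_sound _ 132 [(rh35d9c3aa15158747.shift 0 1), (rh932754581e0f4330.shift 3 0)] (by decide +kernel))
noncomputable def rh2eb22ef0675872d1 : CRef := CRef.mk (Pat.mk 0x1c000000100000000800000000 0x8000000380000001f000000300000001800000008 5 6) 0 0 (step_sound _ 97 [rh0699bff44eac5620, (rhe25b0a99195a5d59.shift 1 2)] (by decide +kernel))
noncomputable def rh04affa16fd411ea8 : CRef := CRef.mk (Pat.mk 0x20000000e00000018 0x73000000fe0000001c 5 8) 0 0 (step_sound _ 36 [(rh3244c3cc8379b070.shift 0 1), (rh70f75251a6f67951.shift 1 0)] (by decide +kernel))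
noncomputable def rh958a77832533e858 : CRef := CRef.mk (Pat.mk 0x20000000e00000018 0x730000003e0000001f 5 7) 0 0 (step_sound _ 36 [(rh3244c3cc8379b070.shift 0 1), rh40635836353d44db] (by decide +kernel))
noncomputable def rh72364c8a5c6db0b6 : CRef := CRef.mk (Pat.mk 0x8000000380000000800000000 0x140000001c0000001c00000008000000380000001f00000004 5 6) 0 0 (step_sound _ 131 [(rh22cde4a1aed087ae.shift 3 1), rh852e818bc8629e77, (rhc85cc95794737cf7.shift 2 1)] (by decide +kernel))
noncomputable def rh0f9fff781c6962ba : CRef := CRef.mk (Pat.mk 0xc0000001800000008 0x140000007c0000001f0000001800000008 5 7) 0 0 (step_sound _ 65 [(rh15dd82c81fd7bd5d.shift 1 0), (rhb739f4f82bb681b4.shift 0 1)] (by decide +kernel))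
noncomputable def rhb540a02b7e5898ca : CRef := CRef.mk (Pat.mk 0x80000003800000008000000000000000000000000 0x10000000180000001800000008000000380000001f0000000c0000000400000004 5 6) 0 0 (step_sound _ 98 [(rh281c6819542c66e6.shift 2 0), (rh57a06b43e72703e1.shift 2 2), (rheea1a90336e79c71.shift 0 3)] (by decide +kernel))
noncomputable def rh5de78c6f848da88a : CRef := CRef.mk (Pat.mk 0xc000000180000000800000000 0x800000018000000380000001f0000001c0000001c00000008 5 6) 0 0 (step_sound _ 97 [(rh4ac277047c642be5.shift 1 0), (rhb739f4f82bb681b4.shift 0 2)] (by decide +kernel))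
noncomputable def rh611dbeaef9e2d7da : CRef := CRef.mk (Pat.mk 0x1400000038000000000000000000000000 0x4000000040000001c0000007c0000000f0000000800000008 5 7) 0 0 (step_sound _ 67 [(rh2820ca9a6c4f41b4.shift 0 2), (rh7c54922dcc04cd2b.shift 2 0), (rha402fd69739441cb.shift 2 0)] (by decide +kernel))
noncomputable def rh82e95cb22f2dba05 : CRef := CRef.mk (Pat.mk 0x40000001e000000180000000800000000 0x80000003c0000001e0000001b0000001f00000016 5 6) 0 0 (step_sound _ 132 [(rh33e738c4ed385b9f.shift 1 3), rhadbd6566b948e002] (by decide +kernel))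
noncomputable def rh1dc0a53ad649b4db : CRef := CRef.mk (Pat.mk 0xe0000001a0000000000000000 0x2000000030000003e0000001f0000000400000004 5 6) 0 0 (step_sound _ 100 [(rheb0810cc63b001d8.shift 0 2), rhf8122e575c46b027] (by decide +kernel))
noncomputable def rh4bb7889d45f0b341 : CRef := CRef.mk (Pat.mk 0xe0000001a0000000000000000 0x6000000070000003e0000001e0000000700000006 5 6) 0 0 (step_sound _ 66 [rh031a926e4a883687, rh0c6c933ef0e0882e] (by decide +kernel))
noncomputable def rh152da1847ba60c2c : CRef := CRef.mk (Pat.mk 0xe0000001a0000000000000000 0x4000000040000003e0000001f0000000300000002 5 6) 0 0 (step_sound _ 100 [rh06d1b4e63eb56a91, (rheb0810cc63b001d8.shift 0 2)] (by decide +kernel))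
noncomputable def rh9e67d482fd3c1285 : CRef := CRef.mk (Pat.mk 0x400000000000000080000001c00000000 0x4000000040000003f0000007f00000003 5 7) 0 0 (step_sound _ 66 [rh7b07991295f6496f, rha9bb70d9df99dfc0, (rhe2b63c00a3d7bb73.shift 0 1)] (by decide +kernel))
noncomputable def rhfab507b382e88e61 : CRef := CRef.mk (Pat.mk 0x40000000000000002000000020000000200000000 0x4000000060000000600000002000000030000000700000005 5 3) 0 0 (step_sound _ 129 [(rhbaefcd01e0a8bca3.shift 1 1), rheb0689193266b61e] (by decide +kernel))
noncomputable def rh64e6469e3d8ae03c : CRef := CRef.mk (Pat.mk 0x40000000000000002000000020000000200000000 0x60000000600000002000000070000000700000005 5 3) 0 0 (step_sound _ 129 [(rhbaefcd01e0a8bca3.shift 1 1), rhc9ac229b3c77cd55] (by decide +kernel))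
noncomputable def rhbbaae7ee8f4f6e57 : CRef := CRef.mk (Pat.mk 0xc0000001c00000000 0x3c0000007f00000070 5 7) 0 0 (step_sound _ 37 [rh8553864a7729a62a, (rhf48373e13d2bc128.shift 2 1)] (by decide +kernel))
noncomputable def rh3a8ee565fbf33170 : CRef := CRef.mk (Pat.mk 0x1c000000380000000000000000 0x20000000600000007c0000003f0000001700000010 5 7) 0 0 (step_sound _ 66 [(rh0c7fcc8062a231c2.shift 2 0), (rhcc2be1f880c5ea3e.shift 0 1), (rhf9d36e158778ce35.shift 1 2)] (by decide +kernel))
noncomputable def rh3badb3709c7508e9 : CRef := CRef.mk (Pat.mk 0xc00000006000000000000000e00000002 0x80000003c00000016000000300000001e0000000b 5 6) 0 0 (step_sound _ 132 [(rh18965a982d73c794.shift 1 3), rh44791f78d0277040] (by decide +kernel))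
noncomputable def rhf5f7e133f0dae5b1 : CRef := CRef.mk (Pat.mk 0x3000000018000000000000003800000008 0x40000000f000000038000000600000003f0000007f 5 8) 0 0 (step_sound _ 34 [(rh04a8014075209363.shift 2 0), (rh6797c410c820e91e.shift 2 0), rhed95296174ee961f] (by decide +kernel))
noncomputable def rh57079c96556cf2c7 : CRef := CRef.mk (Pat.mk 0xc00000006000000000000000e00000000 0x100000003c0000000e000000780000001f00000004 5 7) 0 0 (step_sound _ 132 [(rh18965a982d73c794.shift 1 3), rh4f8670a12ca1540b] (by decide +kernel))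
noncomputable def rh1ec31c04ebc6fb29 : CRef := CRef.mk (Pat.mk 0x300000001c000000000000001800000008 0x3e000001fc000001e00000007c0000003f 5 9) 0 0 (step_sound _ 101 [(rh1960b7bea141c657.shift 1 2), rh626289b618e1fee0, (rhdc461deccfb05432.shift 2 0)] (by decide +kernel))
noncomputable def rh1ae0746674388f39 : CRef := CRef.mk (Pat.mk 0xf000000030000000000000000 0xc0000001c0000000f0000001f0000001c0000000c 5 5) 0 0 (step_sound _ 67 [rhcbf4507d3aab7f34, (rhe25b0a99195a5d59.shift 0 2)] (by decide +kernel))
noncomputable def rhc797bccf0e1e8140 : CRef := CRef.mk (Pat.mk 0xe00000004000000040000000400000000 0x300000003f0000003f0000000c0000000c00000008 5 6) 0 0 (step_sound _ 35 [(rh29d0ded336beac48.shift 0 1), (rh55afc6a59410cf00.shift 2 0)] (by decide +kernel))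
noncomputable def rhbb230affd71b6a12 : CRef := CRef.mk (Pat.mk 0x80000000e000000000000000000000000 0x80000007f0000007e000000700000001000000010 5 7) 0 0 (step_sound _ 100 [(rh1e83e3922265d3f7.shift 0 2), (rh4569bd9aa4440d20.shift 1 0), (rhe6bdd62e1711df0b.shift 1 3)] (by decide +kernel))
noncomputable def rh385eb00e58f5b438 : CRef := CRef.mk (Pat.mk 0x80000001e000000100000000400000004 0xb0000001e000000120000001f0000003e 5 6) 0 0 (step_sound _ 4 [(rh9e07f76261b05888.shift 3 0), rhae6a97e514fb1226] (by decide +kernel))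
noncomputable def rhf777fc9d789d1569 : CRef := CRef.mk (Pat.mk 0xc0000000c000000060000000200000000 0x18000000180000001c0000000c0000001e0000001b00000018 5 5) 0 0 (step_sound _ 163 [rh530fe3c1ec60f255, (rh5c5e593799055d58.shift 2 2)] (by decide +kernel))
noncomputable def rhd915d793561220ee : CRef := CRef.mk (Pat.mk 0x200000002000000070000000200000000 0x40000000600000006000000070000001e0000000e 5 5) 0 0 (step_sound _ 130 [(rh2f68792b6b779e96.shift 1 1), rha7035ede331a5f6d] (by decide +kernel))
noncomputable def rhcfff2031c8a11334 : CRef := CRef.mk (Pat.mk 0x1c0000000e0000000000000000 0x10000000300000001f0000007e0000007800000008 5 7) 0 0 (step_sound _ 68 [(rh0cb6a409506b34ea.shift 1 1), rhb48fed03d8127111] (by decide +kernel))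
noncomputable def rh652cf06798693271 : CRef := CRef.mk (Pat.mk 0x8000000000000001c0000000c00000000 0x1000000018000000380000001f0000000c0000000c 5 6) 0 0 (step_sound _ 99 [rh6dc2d17b5ce1ca6f, (rh932754581e0f4330.shift 2 0)] (by decide +kernel))
noncomputable def rh9caf4909bca84b42 : CRef := CRef.mk (Pat.mk 0x8000000100000001e0000001400000000 0x200000003a0000003e000000120000001e0000001700000004 5 6) 0 0 (step_sound _ 132 [(rh50fbb5868c909700.shift 3 1), rh9058c11861a06236] (by decide +kernel))
noncomputable def rh5e0bd0e5e80a22dc : CRef := CRef.mk (Pat.mk 0x8000000000000001e00000000 0x1800000018000000300000001f00000038 5 6) 0 0 (step_sound _ 68 [(rh33e738c4ed385b9f.shift 1 1), rh4be00726d308f7d6] (by decide +kernel))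
noncomputable def rh5cef4e00b6ad8a6f : CRef := CRef.mk (Pat.mk 0x20000000c0000000700000000000000000000000000000000 0xe0000000e0000000c0000000f0000001c0000000e0000000600000002 5 5) 0 0 (step_sound _ 98 [(rh1b09a855e0f58c8f.shift 0 2), (rh274a837cd7eaa569.shift 1 0), (rh287bbd72e6a03919.shift 1 2)] (by decide +kernel))
noncomputable def rhc4ec2b00fdfd49a5 : CRef := CRef.mk (Pat.mk 0x4000000180000000c0000000000000000 0x40000001c0000001f000000780000000c0000000c00000008 5 7) 0 0 (step_sound _ 101 [(rh18965a982d73c794.shift 2 2), rh7f3127b231264871] (by decide +kernel))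
noncomputable def rhb93464389b9704ed : CRef := CRef.mk (Pat.mk 0x2000000080000000c0000000800000000 0x100000001e0000001f0000000c0000000c0000000c0000000c 5 5) 0 0 (step_sound _ 131 [(rh03dfdf12d5937476.shift 2 0), (rh7182140bdec2c358.shift 0 1), (rhcf5bec1d4eb2d82b.shift 1 0)] (by decide +kernel))
noncomputable def rhcbbe7719bad8ee64 : CRef := CRef.mk (Pat.mk 0xc00000004000000040000000c00000000 0x40000000c0000000c0000000f0000003c00000014 5 6) 0 0 (step_sound _ 99 [(rh71222050f2c63a3a.shift 2 0), rhf8d9ac5b35cc26f5] (by decide +kernel))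
noncomputable def rh3ce7792043b47634 : CRef := CRef.mk (Pat.mk 0x200000002000000020000000200000000 0x4000000060000000600000002000000070000000700000004 5 3) 0 0 (step_sound _ 162 [(rhbaefcd01e0a8bca3.shift 1 1), rhe2df421f659002e2] (by decide +kernel))
noncomputable def rhdb9fb32389dea509 : CRef := CRef.mk (Pat.mk 0x800000008000000080000001000000000 0x80000000800000008000000380000001f00000014 5 6) 0 0 (step_sound _ 35 [(rh55afc6a59410cf00.shift 3 0), rh989334f0df11959e] (by decide +kernel))
noncomputable def rh54b051f028acf409 : CRef := CRef.mk (Pat.mk 0x1c000000080000000000000004 0xe3000000fe0000007e0000000400000004 5 8) 0 0 (step_sound _ 101 [(rh008dfe57da6a6a22.shift 1 2), rh0176a4c6a1ff8c8f, (rhaf9f2efc81a8312b.shift 1 2)] (by decide +kernel))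
noncomputable def rhe5e2464a2a6d1c10 : CRef := CRef.mk (Pat.mk 0x600000007000000000000000000000000 0x40000001f0000003f000000180000000800000008 5 6) 0 0 (step_sound _ 131 [rh01dd0ad9eef877ef, (rh18965a982d73c794.shift 0 3)] (by decide +kernel))
noncomputable def rh383aa5f99c690fc3 : CRef := CRef.mk (Pat.mk 0x180000001e00000000 0x18000000fe000000e7 5 8) 0 0 (step_sound _ 1 [(rha8898c5ebd303051.shift 1 0), rheb0810cc63b001d8] (by decide +kernel))
noncomputable def rh1f6cd962078857e2 : CRef := CRef.mk (Pat.mk 0x800000008000000040000000400000000 0x800000008000000080000000f0000003c00000014 5 6) 0 0 (step_sound _ 67 [(rh5c5e593799055d58.shift 2 1), rhc6c8721b98efe6cc] (by decide +kernel))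
noncomputable def rh3221883801c9ce0e : CRef := CRef.mk (Pat.mk 0x8000000080000000e0000000400000004 0x20000000a0000003b0000001e0000003700000014 5 6) 0 0 (step_sound _ 97 [rh135a58e43c935add, rhbd64b171dbe672bd, (rhe072fffdd2fccf38.shift 1 0)] (by decide +kernel))
noncomputable def rhb44f5b4f29314cd5 : CRef := CRef.mk (Pat.mk 0x20000000200000002000000000000000100000000 0x1000000030000000300000002000000070000000700000004 5 3) 0 0 (step_sound _ 65 [(rh79877ebd3ef475dd.shift 0 1), rh8ff3dde5b1c639e0] (by decide +kernel))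
noncomputable def rh661f92c9d230e342 : CRef := CRef.mk (Pat.mk 0x200000002000000020000000000000001 0x50000000700000007000000020000000300000003 5 3) 0 0 (step_sound _ 33 [rh00c644645561e9be, rh79877ebd3ef475dd] (by decide +kernel))
noncomputable def rh676276dcb55ce347 : CRef := CRef.mk (Pat.mk 0x100000001c000000000000000000000004 0x330000003e000000070000000400000004 5 6) 0 0 (step_sound _ 97 [(rh33e738c4ed385b9f.shift 1 3), rha13e0cc01fd3dc1a] (by decide +kernel))
noncomputable def rh45cfe21f74b715e3 : CRef := CRef.mk (Pat.mk 0x3800000000000000300000001800000000 0x100000007c0000000f000000380000001e00000004 5 7) 0 0 (step_sound _ 34 [(rh53b3c253cb0c65f4.shift 1 1), rh8c709f15fcbebee2] (by decide +kernel))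
noncomputable def rhde9f3e00a2d7e84a : CRef := CRef.mk (Pat.mk 0x1c00000000000000180000000c00000000 0xee0000007c000000060000001c0000000f00000002 5 8) 0 0 (step_sound _ 133 [(rh04395309fba550d6.shift 1 1), rh292c6a600aceaffc, (rh56a24c72f1c55520.shift 1 4)] (by decide +kernel))
noncomputable def rhc7f0434056cb8a4d : CRef := CRef.mk (Pat.mk 0x2000000030000000000000007000000018 0x1f80000007c0000000f0000007f000000f8 5 9) 0 0 (step_sound _ 35 [rh15a2b73944acc7e4, rh689e056323c25498, (rh6f1b78e9c2511884.shift 2 0)] (by decide +kernel))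
noncomputable def rhd1358474cab01e00 : CRef := CRef.mk (Pat.mk 0x180000000e000000040000000000000000 0x20000001b000000fe0000007f0000000400000004 5 8) 0 0 (step_sound _ 100 [rh2642de6ca2d23e3a, (rh31b96bf68293d1ba.shift 1 2), (rhaf9f2efc81a8312b.shift 0 2)] (by decide +kernel))
noncomputable def rh2ef1f5b3eb84ef3a : CRef := CRef.mk (Pat.mk 0x180000000e000000040000000000000000 0x80000001f0000003e000000770000001000000010 5 7) 0 0 (step_sound _ 100 [(rhaf9f2efc81a8312b.shift 0 2), (rhbbe16ff26f7822db.shift 1 0), (rhe401600d466b97cd.shift 0 2)] (by decide +kernel))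
noncomputable def rh9a977dc0b8bb6299 : CRef := CRef.mk (Pat.mk 0x800000008000000020000001e00000004 0x1f0000003e000000120000001e00000034 5 6) 0 0 (step_sound _ 129 [(rh6f1cbe15c631ee70.shift 1 0), rhb4465af743b19551] (by decide +kernel))
noncomputable def rh389316671f72e705 : CRef := CRef.mk (Pat.mk 0x200000002000000020000000100000000 0x1000000030000000300000002000000060000000700000005 5 3) 0 0 (step_sound _ 33 [rh5abfc4c9d959be03, rh932754581e0f4330] (by decide +kernel))
noncomputable def rh8687888ae319dcfb : CRef := CRef.mk (Pat.mk 0x200000002000000020000000200000000 0x4000000070000000700000002000000060000000600000004 5 3) 0 0 (step_sound _ 128 [(rh25208373db83e521.shift 1 0), (rh50fbb5868c909700.shift 0 1)] (by decide +kernel))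
noncomputable def rhb7795a2ed739ec31 : CRef := CRef.mk (Pat.mk 0x20000000300000001c0000001800000000000000000000000000000000 0x640000003c0000001c0000007c0000000f0000000c0000000400000004 5 7) 0 0 (step_sound _ 99 [rh4ce3a5cd97e7b315, (rh71222050f2c63a3a.shift 3 2)] (by decide +kernel))
noncomputable def rhc2cbfab6cb3a2186 : CRef := CRef.mk (Pat.mk 0x140000001e0000000000000000 0x2000000030000001f0000001f0000000400000004 5 5) 0 0 (step_sound _ 97 [rh2a6d13f47ca0e172, (rh3244c3cc8379b070.shift 0 2)] (by decide +kernel))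
noncomputable def rhcd163f1646ad2f99 : CRef := CRef.mk (Pat.mk 0x180000000c000000180000000000000000 0x10000000180000000c0000007c0000000f00000004 5 7) 0 0 (step_sound _ 35 [rh11258dce8573113d, (rh2f68792b6b779e96.shift 3 1)] (by decide +kernel))
noncomputable def rh94fba449c38eab96 : CRef := CRef.mk (Pat.mk 0xa0000001e00000002000000040000000000000000 0x80000003a0000001e000000120000001f0000001700000001 5 6) 0 0 (step_sound _ 65 [(rh55afc6a59410cf00.shift 1 1), rh567aa2ddbff0f2e1] (by decide +kernel))
noncomputable def rha92d25a5b204b788 : CRef := CRef.mk (Pat.mk 0xe000000020000000400000000 0x5000000770000003e000000020000000600000006 5 7) 0 0 (step_sound _ 129 [(rh38791ac5737ed75e.shift 0 3), (rh8f4050c06a082165.shift 1 0), rhb80a6ca5eab6f806] (by decide +kernel))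
noncomputable def rh25fa3af2cfc2e502 : CRef := CRef.mk (Pat.mk 0xc000000040000000c0000000000000000 0x80000000c000000040000003c0000000f0000000a 5 6) 0 0 (step_sound _ 34 [(rh2f68792b6b779e96.shift 2 1), rh5d1f2830390e4c60] (by decide +kernel))
noncomputable def rhc0b1b6ec899c810a : CRef := CRef.mk (Pat.mk 0x200000002000000020000000100000000 0x50000000700000007000000020000000300000003 5 3) 0 0 (step_sound _ 33 [rh32e32f03ae89b559, rh932754581e0f4330] (by decide +kernel))
noncomputable def rhf4545da3950224b4 : CRef := CRef.mk (Pat.mk 0x8000000080000000c000000180000000000000000 0x100000001c0000001c0000000f000000180000000800000008 5 5) 0 0 (step_sound _ 97 [(rh16aa8deac015341b.shift 2 0), (rhb739f4f82bb681b4.shift 0 2)] (by decide +kernel))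
noncomputable def rhc92af7fa9c5dc414 : CRef := CRef.mk (Pat.mk 0x100000002000000020000000200000000 0x30000000300000002000000070000000700000005 5 3) 0 0 (step_sound _ 129 [(rh50fbb5868c909700.shift 0 1), rhc4ec57a3756c3a6c] (by decide +kernel))
noncomputable def rhc9c7cf671dc35cad : CRef := CRef.mk (Pat.mk 0x380000000800000008 0x4000000770000003e0000000f00000008 5 7) 0 0 (step_sound _ 66 [(rh4c622fddc53a5f99.shift 0 2), (rh7654d7b92c96fe12.shift 0 1), (rhe4f9133a81c1dbc5.shift 1 0), (rhf335f49b75676fa9.shift 1 0)] (by decide +kernel))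
noncomputable def rh7fa6382dfc6783a6 : CRef := CRef.mk (Pat.mk 0x8000000380000001c0000001000000000 0x140000001f0000003c0000001c0000007800000020 5 7) 0 0 (step_sound _ 130 [(rh4233e6a441eb894c.shift 2 0), (rhdbcea10a0fbe5ba6.shift 0 3)] (by decide +kernel))
noncomputable def rhdffb3ea08f5c1840 : CRef := CRef.mk (Pat.mk 0x600000007000000040000000000000000 0x400000006000000070000003e0000000c0000000c 5 6) 0 0 (step_sound _ 34 [rh6f235c76ee6d9186, (rh7b1f1fb55310c477.shift 1 0)] (by decide +kernel))
noncomputable def rhc3c45143d7dede26 : CRef := CRef.mk (Pat.mk 0xc000000180000000c00000000 0x1000000018000000180000000f000000180000001c00000004 5 5) 0 0 (step_sound _ 131 [(rh932754581e0f4330.shift 2 0), (rhaec2d3e1e165b119.shift 0 1)] (by decide +kernel))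
noncomputable def rhaf936b924497e278 : CRef := CRef.mk (Pat.mk 0x1e000000000000000000000008 0x300000001f0000003b0000000800000008 5 6) 0 0 (step_sound _ 64 [(rh80fcd6d0a18cb2dd.shift 0 2), rhe4331c6b06ac49c3] (by decide +kernel))
noncomputable def rhc9e58f3e04846938 : CRef := CRef.mk (Pat.mk 0x200000002000000020000000200000000 0x4000000070000000700000002000000030000000300000001 5 3) 0 0 (step_sound _ 128 [rh3b734c5288922837, (rh50fbb5868c909700.shift 0 1)] (by decide +kernel))
noncomputable def rhad5932cf3d0c4ad6 : CRef := CRef.mk (Pat.mk 0x200000002000000020000000000000001 0x4000000060000000600000002000000060000000700000005 5 3) 0 0 (step_sound _ 33 [rh79877ebd3ef475dd, (rhced6d86d2069808b.shift 1 0)] (by decide +kernel))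
noncomputable def rhc235049a6009d34e : CRef := CRef.mk (Pat.mk 0x200000002000000020000000000000001 0x1000000030000000300000002000000060000000700000005 5 3) 0 0 (step_sound _ 33 [rh5abfc4c9d959be03, rh79877ebd3ef475dd] (by decide +kernel))
noncomputable def rha597fdf21e533acf : CRef := CRef.mk (Pat.mk 0x40000000700000005000000000000000000000000 0x80000001c0000001f0000001f0000001c0000000c00000008 5 5) 0 0 (step_sound _ 97 [rh149a04bc98a86550, (rha4166f17a3e2583d.shift 0 1), (rha83e60ed968d6fa1.shift 0 1)] (by decide +kernel))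
noncomputable def rheb15cf8ac6b18c5f : CRef := CRef.mk (Pat.mk 0x8000000080000000e0000000400000004 0x20000000a0000003b0000001e0000003600000014 5 6) 0 0 (step_sound _ 97 [rh7e2beecf027e4880, rhbd64b171dbe672bd, (rhe072fffdd2fccf38.shift 1 0)] (by decide +kernel))
noncomputable def rh476ca6439068be11 : CRef := CRef.mk (Pat.mk 0x8000000080000003800000004 0x8000000080000007f0000003e00000004 5 7) 0 0 (step_sound _ 34 [(rh5c5e593799055d58.shift 2 0), (rh61325f73ebf98108.shift 0 1)] (by decide +kernel))
noncomputable def rhfc6c61a4eb00f9e5 : CRef := CRef.mk (Pat.mk 0x10000000300000001c0000000000000008 0x300000003f0000007c0000006800000028 5 7) 0 0 (step_sound _ 99 [(rh9e3edb185cc347de.shift 3 0), rhd2151eb3ab291c6d] (by decide +kernel))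
noncomputable def rh741369cff117c171 : CRef := CRef.mk (Pat.mk 0x1e000000160000000000000000 0x80000003b0000001e0000001e0000003000000030 5 6) 0 0 (step_sound _ 132 [(rh33e738c4ed385b9f.shift 1 3), rh36dcc6a6917edd15] (by decide +kernel))
noncomputable def rhf5ad212bbb559f42 : CRef := CRef.mk (Pat.mk 0x1a0000001e000000000000000400000000 0x600000006000000070000001e0000003e000000020000000600000006 5 6) 0 0 (step_sound _ 130 [rh06a4d554238c6d82, (rhf48373e13d2bc128.shift 1 3)] (by decide +kernel))
noncomputable def rh32ba4427a7d050e9 : CRef := CRef.mk (Pat.mk 0x380000000c 0x700000003f0000003e 5 7) 0 0 (step_sound _ 34 [rh1b1a23e58c3e6ec7, (rheb0810cc63b001d8.shift 1 0)] (by decide +kernel))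
noncomputable def rh31e6eac5d02d2f12 : CRef := CRef.mk (Pat.mk 0x8000000080000000c000000060000000000000000 0x8000000380000003f0000003e0000001000000010 5 6) 0 0 (step_sound _ 100 [(rh18965a982d73c794.shift 1 2), rhb8199f9da34db7e7] (by decide +kernel))
noncomputable def rha829733f1610a02e : CRef := CRef.mk (Pat.mk 0x1000000010000000180000000e0000000000000000 0x12000000330000001f0000003e0000003400000004 5 6) 0 0 (step_sound _ 97 [(rh7aac183e7656caeb.shift 0 1), rh9458e878ee940312] (by decide +kernel))
noncomputable def rhcc8c8463eff5249d : CRef := CRef.mk (Pat.mk 0x10000000180000000c 0x370000007e0000000e 5 7) 0 0 (step_sound _ 37 [(rh18965a982d73c794.shift 2 0), rh2427cfbc99a0c8b7] (by decide +kernel))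
noncomputable def rhd3251b5097de71f0 : CRef := CRef.mk (Pat.mk 0x80000000c000000080000001000000000 0x100000003c0000000f000000080000001800000018 5 6) 0 0 (step_sound _ 35 [rh0410d9d850bebcf9, (rh55afc6a59410cf00.shift 3 0)] (by decide +kernel))
noncomputable def rhc095b61251d3af26 : CRef := CRef.mk (Pat.mk 0x80000001e000000180000001000000000 0x20000000b0000001e0000001f0000003400000004 5 6) 0 0 (step_sound _ 65 [rh5b1c1ca9dd0d4116, (rheb0810cc63b001d8.shift 0 2)] (by decide +kernel))
noncomputable def rh715db9cb16bb489c : CRef := CRef.mk (Pat.mk 0x2000000030000000f00000000 0x60000000600000006000000070000000f0000001a 5 5) 0 0 (step_sound _ 129 [(rh5c5e593799055d58.shift 0 1), rhff9088ea106d0623] (by decide +kernel))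
noncomputable def rh855f843c5d302995 : CRef := CRef.mk (Pat.mk 0x80000001c00000000 0x3f000000ff000000e0 5 8) 0 0 (step_sound _ 37 [rh4ed76abcbe657f14, (rh915c3ff3d4fe3a39.shift 0 1), (rhe3060b190bc0bc78.shift 1 1)] (by decide +kernel))
noncomputable def rhc26e7542207e9060 : CRef := CRef.mk (Pat.mk 0x800000008000000080000001800000000 0x1800000018000000080000000f0000003c00000004 5 6) 0 0 (step_sound _ 34 [(rh932754581e0f4330.shift 2 0), (rhe4bed3fb389240dd.shift 0 1)] (by decide +kernel))
noncomputable def rhccfa8390619f1805 : CRef := CRef.mk (Pat.mk 0x60000000200000002000000000000000000000000 0x100000003000000070000000700000003000000030000000300000001 5 3) 0 0 (step_sound _ 65 [(rh771d065bdc85bf2d.shift 0 1), rh8aec56c4ee12918c, (rh8c7e6c931af72977.shift 0 1)] (by decide +kernel))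
noncomputable def rh4d5cbbe943bdf318 : CRef := CRef.mk (Pat.mk 0x1c00000020000000080000001800000000 0xe00000007c000000600000003f00000078000000c0 5 8) 0 0 (step_sound _ 133 [rh7732e150950ac7f8, (rhe25b0a99195a5d59.shift 2 3)] (by decide +kernel))
noncomputable def rhe0ae08ca7eb83dbb : CRef := CRef.mk (Pat.mk 0xe000000040000000000000008 0x700000007f0000003e0000000800000008 5 7) 0 0 (step_sound _ 100 [(rh269f3e050f7dc7b9.shift 0 2), (rh84d84ec8e59a0da5.shift 1 2), rhe4331c6b06ac49c3] (by decide +kernel))
noncomputable def rhea1b5039f46f25ec : CRef := CRef.mk (Pat.mk 0x80000000c0000000600000004 0x20000003b0000003f0000003600000004 5 6) 0 0 (step_sound _ 68 [(rh18965a982d73c794.shift 1 1), rha91e7fd3a55c12d6] (by decide +kernel))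
noncomputable def rhb336e96f4b38b834 : CRef := CRef.mk (Pat.mk 0x200000003800000010 0x700000007f0000001e 5 7) 0 0 (step_sound _ 34 [rh155996631bca8576, (rh33e738c4ed385b9f.shift 2 1)] (by decide +kernel))
noncomputable def rhd5322e4712fe2124 : CRef := CRef.mk (Pat.mk 0xa000000080000000e0000000400000000 0x140000001f0000007c0000001e0000000c00000008 5 7) 0 0 (step_sound _ 100 [(rh1cff6558d292e989.shift 0 1), (rh572132728df34c43.shift 1 2), rhf94242872edd9720] (by decide +kernel))
noncomputable def rhe9cc77b723a1aa88 : CRef := CRef.mk (Pat.mk 0x14000000100000001c0000000800000000 0xe0000001e000000340000001c0000000f00000002 5 6) 0 0 (step_sound _ 98 [(rh2145e1d24b96a57e.shift 2 1), rh9951a3b96c2e73c7] (by decide +kernel))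
noncomputable def rh70adc1bff4ba0ea0 : CRef := CRef.mk (Pat.mk 0xa000000080000000e0000000400000000 0x160000001f0000003c0000000e0000000e00000002 5 6) 0 0 (step_sound _ 130 [(rh045a29dae8c97265.shift 1 0), (rh29683fc53f66f5df.shift 0 1), (rh842920869d266e8f.shift 0 1)] (by decide +kernel))
noncomputable def rh8bf371c8e58c729a : CRef := CRef.mk (Pat.mk 0x14000000000000000c00000008 0xf0000003e0000000c0000000c00000008 5 6) 0 0 (step_sound _ 130 [rh76491a31ccf5af61, (rhff0f29cb645b05f7.shift 2 0)] (by decide +kernel))
noncomputable def rh5368e30d195f6108 : CRef := CRef.mk (Pat.mk 0x80000000e0000000a0000000000000000 0x80000003e0000003f0000003000000010 5 6) 0 0 (step_sound _ 100 [(rh17626db5fe75f0de.shift 1 0), (rheb0810cc63b001d8.shift 0 2)] (by decide +kernel))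
noncomputable def rha80dbd73d19eb482 : CRef := CRef.mk (Pat.mk 0x10000000180000000e0000000a0000000000000000 0x6000000370000001e0000000e0000000e0000000600000002 5 6) 0 0 (step_sound _ 130 [(rh0182d199955ec3ce.shift 1 0), (rh62b003815e541d93.shift 1 1), (rh67608fbd135ba3d0.shift 0 1)] (by decide +kernel))
noncomputable def rh45df9fc9d63c49fa : CRef := CRef.mk (Pat.mk 0x80000001c000000060000000400000000 0x20000000b0000001f0000003e0000003c00000010 5 6) 0 0 (step_sound _ 68 [(rh6a7d78a202a43da8.shift 1 0), rh89012dd016b5feb1, (rhfe3b4040a5e9fe0b.shift 0 1)] (by decide +kernel))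
noncomputable def rh07085d6f41632762 : CRef := CRef.mk (Pat.mk 0x4000000040000001e0000000200000000 0x80000000c0000003c0000003f0000000600000004 5 6) 0 0 (step_sound _ 34 [(rh18965a982d73c794.shift 1 1), rh54ad5ef8eb989bf7] (by decide +kernel))
noncomputable def rhac8cafe966315d2a : CRef := CRef.mk (Pat.mk 0x4000000040000000e0000000400000000 0xa0000000e0000003c0000000f0000000400000004 5 6) 0 0 (step_sound _ 131 [(rh2f68792b6b779e96.shift 2 1), rh36936568b5fd12a6] (by decide +kernel))
noncomputable def rh50b4343e9f3d3a23 : CRef := CRef.mk (Pat.mk 0xc000000080000001c0000000c00000000 0x100000003c0000000f0000001c0000000f00000002 5 6) 0 0 (step_sound _ 33 [(rh53b3c253cb0c65f4.shift 0 1), rhaac4eca025ee7762] (by decide +kernel))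
noncomputable def rh79aa5629d05a3e3b : CRef := CRef.mk (Pat.mk 0xe000000140000000400000000 0x600000006000000060000000e0000003c0000000f0000000a 5 6) 0 0 (step_sound _ 67 [rh29ce7f6575b7ca7a, (rhf48373e13d2bc128.shift 1 2)] (by decide +kernel))
noncomputable def rhef8e62a18e91e634 : CRef := CRef.mk (Pat.mk 0x180000000e000000140000000400000000 0x60000001f0000003e0000001c0000000f0000000a 5 6) 0 0 (step_sound _ 130 [rh5196894f25ccb47b, (rhff4c737aebdcf19e.shift 0 1)] (by decide +kernel))
noncomputable def rh81371391c3ab18f9 : CRef := CRef.mk (Pat.mk 0xc00000006000000020000000200000000 0x3b0000003f00000006000000060000000600000004 5 6) 0 0 (step_sound _ 132 [(rh18965a982d73c794.shift 1 3), rh2b4c28ecf54bd524] (by decide +kernel))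
noncomputable def rh17313626f383d9f6 : CRef := CRef.mk (Pat.mk 0x1000000010000000180000000c00000000 0x800000018000000180000001f0000003f00000034 5 6) 0 0 (step_sound _ 33 [(rh53b3c253cb0c65f4.shift 0 1), rh56dfd1f7cf22ecb2] (by decide +kernel))
noncomputable def rh69def47215bd3c64 : CRef := CRef.mk (Pat.mk 0x80000000f00000000000000000000000000000000 0xc0000000c0000000c0000000f0000001c0000001c0000001c00000014 5 5) 0 0 (step_sound _ 99 [(rh900f07d1e6974715.shift 2 0), (rhe25b0a99195a5d59.shift 0 3)] (by decide +kernel))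
noncomputable def rha3f610973156b90c : CRef := CRef.mk (Pat.mk 0x140000000e000000000000000000000000 0x10000000100000001c0000001f000000780000000800000008 5 7) 0 0 (step_sound _ 67 [rh3fc06d4babbea075, (rh8ee80cc30e93a344.shift 0 2), (rhb23334cf3920b207.shift 2 0), (rhe3dc93746cbe6e7c.shift 0 2)] (by decide +kernel))
noncomputable def rh3b59f219eab5d15b : CRef := CRef.mk (Pat.mk 0x40000001c0000000600000002000000000000000000000000 0xa0000000f0000001c0000000e0000000e0000000c0000000c00000004 5 5) 0 0 (step_sound _ 98 [(rh039efe07c35de3d4.shift 0 3), (rh127b405bd7f7b930.shift 2 1), (rh270502ca45ea5299.shift 1 0)] (by decide +kernel))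
noncomputable def rh73bc67ea0effc4e1 : CRef := CRef.mk (Pat.mk 0x1800000008000000080000001c0000000000000000 0x7c0000001f0000000f0000003c0000000800000008 5 7) 0 0 (step_sound _ 130 [(rh00b2f1f16e5d0384.shift 1 1), rh0472ea5f0562a0d2, (rh69012675dfdb1a5b.shift 0 4)] (by decide +kernel))
noncomputable def rhf34d07b617fbc9c9 : CRef := CRef.mk (Pat.mk 0x200000002000000020000000100000000 0x1000000030000000300000002000000070000000700000004 5 3) 0 0 (step_sound _ 161 [(rh79877ebd3ef475dd.shift 0 1), rh8ff3dde5b1c639e0] (by decide +kernel))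
noncomputable def rh3b3318507996b1e5 : CRef := CRef.mk (Pat.mk 0x20000000400000004000000040000000200000000 0x600000006000000040000003c0000000f00000008 5 6) 0 0 (step_sound _ 34 [rh3038ab5f74634e6d, (rhffd04209dc8ea796.shift 1 1)] (by decide +kernel))
end Crest.Agent.S0047.Helper85.Cert
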