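import Crest.Agent.Lib.S0047.Helper85CertPL5F0
import Crest.Agent.Lib.S0047.Helper85CertPL5F1
import Crest.Agent.Lib.S0047.Helper85CertPL5F2
import Crest.Agent.Lib.S0047.Helper85CertPL5F3
import Crest.Agent.Lib.S0047.Helper85CertPL5F4
import Crest.Agent.Lib.S0047.Helper85CertPL5F5
import Crest.Agent.Lib.S0047.Helper85CertPL5F6
import Crest.Agent.Lib.S0047.Helper85CertPL5F7
import Crest.Agent.Lib.S0047.Helper85CertPL5F8
import Crest.Agent.Lib.S0047.Helper85CertPL5F9
import Crest.Agent.Lib.S0047.Helper85CertPL5F10
import Crest.Agent.Lib.S0047.Helper85CertPL5F11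
import Crest.Agent.Lib.S0047.Helper85CertPL5F12
set_option autoImplicit false
set_option linter.all false
set_option Elab.async false
namespace Crest.Agent.S0047.Helper85.Cert
open Crest.Agent.S0047.Helper85

noncomputable def rhfdf08be8414317bf : CRef := CRef.mk (Pat.mk 0x1000000010000000500000003000000000 0x1000000010000000770000003e0000000f 6 7) 0 0 (step_sound _ 35 [rh5e601430b8bc2e39, (rh932754581e0f4330.shift 3 0)] (by decide +kernel))
noncomputable def rh32baa36dc86897fd : CRef := CRef.mk (Pat.mk 0x1c0000000800000000 0x200000002000000030000003f0000003f00000004 6 6) 0 0 (step_sound _ 65 [rh3a69dc315759d1b4, (rha03f6e28ea70fc7d.shift 0 1)] (by decide +kernel))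
noncomputable def rh6ebf7ca86daecfd9 : CRef := CRef.mk (Pat.mk 0x400000004000000040000001c00000000 0x1c0000003c0000000f0000000c0000001c00000010 6 6) 0 0 (step_sound _ 67 [(rh2145e1d24b96a57e.shift 2 1), rhefddf76ae3f6b005] (by decide +kernel))
noncomputable def rh42072218f2c33190 : CRef := CRef.mk (Pat.mk 0x1c00000018000000080000003000000000 0x1f0000001f0000003f0000003000000020 6 6) 0 0 (step_sound _ 129 [(rhb739f4f82bb681b4.shift 0 3), rhdc109eea5fa255d8] (by decide +kernel))
noncomputable def rh148a4fd74ec99e95 : CRef := CRef.mk (Pat.mk 0xe00000005 0x700000007e000000ef 6 8) 0 0 (step_sound _ 36 [rh80fcd6d0a18cb2dd, (rhdbe30b89b8872db3.shift 1 0)] (by decide +kernel))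
noncomputable def rh211863601e18499a : CRef := CRef.mk (Pat.mk 0x300000006000000020000000200000000 0x1c0000003f0000001f000000060000000600000004 6 6) 0 0 (step_sound _ 130 [(rh2f68792b6b779e96.shift 1 1), rhcb314898215121fb] (by decide +kernel))
noncomputable def rh65ea3f73ad355052 : CRef := CRef.mk (Pat.mk 0x1e00000018000000080000002000000000 0x3e0000001f0000003f0000003000000010 6 6) 0 0 (step_sound _ 97 [rhd1ab13bb6bc5ff3b, (rheb0810cc63b001d8.shift 0 3)] (by decide +kernel))
noncomputable def rh5097ebe0f36b58ed : CRef := CRef.mk (Pat.mk 0xf000000020 0xe000000fe0000003f 6 8) 0 0 (step_sound _ 35 [rh2efad3051cff7df1, (rh592c7139d2c44767.shift 1 0), (rh70543c5e7e75eabe.shift 1 0), (rheae1728ff4a56756.shift 2 0)] (by decide +kernel))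
noncomputable def rhff258c3cce1a4c52 : CRef := CRef.mk (Pat.mk 0x28000000080000002800000000 0x40000000c0000001f000000780000003e0000003800000010 6 7) 0 0 (step_sound _ 131 [(rh5abfc4c9d959be03.shift 2 0), (rh980ba89963b3476c.shift 1 0), (rhd5d193521cc593a5.shift 0 1)] (by decide +kernel))
noncomputable def rh51e7fa61fe50fe55 : CRef := CRef.mk (Pat.mk 0xe0000000000000008000000000000000000000000 0x40000000f0000007c000000080000001c0000001c00000014 6 7) 0 0 (step_sound _ 131 [(rh0a6888916bcef86b.shift 2 0), (rhc21a95c499b3efdb.shift 0 4)] (by decide +kernel))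
noncomputable def rhc833175dd2fdb85b : CRef := CRef.mk (Pat.mk 0x7800000010 0x70000007f000000fc 6 8) 0 0 (step_sound _ 3 [rh04adde65229dd8ca, (rheb0810cc63b001d8.shift 2 0)] (by decide +kernel))
noncomputable def rh5beb7610d0611ad0 : CRef := CRef.mk (Pat.mk 0xf000000000000000a000000000000000000000000 0x80000000f0000001c0000000e0000003c0000001c00000014 6 6) 0 0 (step_sound _ 131 [(rhe25b0a99195a5d59.shift 0 4), (rhe6bb7469ca7a5510.shift 1 0)] (by decide +kernel))
noncomputable def rh33d3f1ba39b8bd00 : CRef := CRef.mk (Pat.mk 0xf0000000000000008000000000000000000000000 0x40000000f00000018000000080000001c0000001c00000014 6 5) 0 0 (step_sound _ 131 [(rh0a6888916bcef86b.shift 2 0), (rhe25b0a99195a5d59.shift 0 4)] (by decide +kernel))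
noncomputable def rhbdb07089a4623ed7 : CRef := CRef.mk (Pat.mk 0xf00000000 0x770000003f00000038 6 7) 0 0 (step_sound _ 4 [rh96851dee118c1ba3, rhf6218b33ee453c67] (by decide +kernel))
noncomputable def rhc8d9633b1f70f83e : CRef := CRef.mk (Pat.mk 0x780000001000000010 0x8000000e80000007f0000003c00000010 6 8) 0 0 (step_sound _ 35 [rhaa08a5927668bc60, (rheb0810cc63b001d8.shift 2 1)] (by decide +kernel))
noncomputable def rh988dac8d009f9f77 : CRef := CRef.mk (Pat.mk 0x7800000000 0xe70000007e00000007 6 8) 0 0 (step_sound _ 70 [(rh33e738c4ed385b9f.shift 3 1), rh5e601430b8bc2e39] (by decide +kernel))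
noncomputable def rh642e50382fd7f7a3 : CRef := CRef.mk (Pat.mk 0x20000000300000003000000000000000000000000 0x600000006000000060000000300000003000000060000000600000006 6 3) 0 0 (step_sound _ 193 [(rh5c5e593799055d58.shift 0 3), rh82c6aec0c6f8e399] (by decide +kernel))
noncomputable def rha139e96feed5dfef : CRef := CRef.mk (Pat.mk 0x380000002000000000 0x8000000080000000f0000007e0000003700000004 6 7) 0 0 (step_sound _ 66 [(rh0de499e0455c9c14.shift 0 1), (rh21460d2d48a35cb8.shift 1 0), (rhd1d05263fabc0227.shift 0 1)] (by decide +kernel))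
noncomputable def rhc8ae77ecad49585e : CRef := CRef.mk (Pat.mk 0x1c0000001000000000 0x400000004000000070000003e0000003300000002 6 6) 0 0 (step_sound _ 65 [rh21460d2d48a35cb8, (rhe25b0a99195a5d59.shift 1 1)] (by decide +kernel))
noncomputable def rha82661e4da870e90 : CRef := CRef.mk (Pat.mk 0x380000000800000028000000000000000000000000 0x40000000c0000001f000000380000003800000038000000300000002000000020 6 6) 0 0 (step_sound _ 195 [(rh5abfc4c9d959be03.shift 2 2), (rh79905f95cb2d899a.shift 0 3), (rh94ee7ea9ee914036.shift 3 0)] (by decide +kernel))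
noncomputable def rh87509bc56932c1d3 : CRef := CRef.mk (Pat.mk 0x380000000000000020000000000000000000000000 0x20000000770000003e0000007000000030000000300000003000000010 6 7) 0 0 (step_sound _ 162 [(rh12ea4c871ce22297.shift 2 0), (rh4c622fddc53a5f99.shift 0 5), (rh9e29fb7c6bb32015.shift 1 2)] (by decide +kernel))
noncomputable def rhc24f8d367658c081 : CRef := CRef.mk (Pat.mk 0x80000000e00000008000000000000000000000000 0x10000000180000000f000000080000001c0000001c00000014 6 5) 0 0 (step_sound _ 164 [(rh53b3c253cb0c65f4.shift 0 4), (rhffb8e5993241bf15.shift 2 0)] (by decide +kernel))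
noncomputable def rh191213466e58ac74 : CRef := CRef.mk (Pat.mk 0x140000001e0000001c 0x360000003e000000170000001e0000001c 6 6) 0 0 (step_sound _ 65 [(rh00c2fdbcc9ba8c59.shift 1 0), (rh3244c3cc8379b070.shift 0 1)] (by decide +kernel))
noncomputable def rh484d8f58e103a87f : CRef := CRef.mk (Pat.mk 0x20000000e00000002 0xe30000007e000000e6 6 8) 0 0 (step_sound _ 36 [(rh3244c3cc8379b070.shift 0 1), (rhf2b3bcf1454375d8.shift 1 0)] (by decide +kernel))
noncomputable def rhd43c0afe6156a3bc : CRef := CRef.mk (Pat.mk 0xa0000000a0000000a000000080000000000000000 0xa0000000b0000003e0000000e0000001c0000001800000018 6 6) 0 0 (step_sound _ 36 [(rhd3458b32566d63f7.shift 3 1), rhfe6df841c1369114] (by decide +kernel))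
noncomputable def rh66b55b52022e937c : CRef := CRef.mk (Pat.mk 0x8000000280000002000000020000000200000000000000000 0xf0000007c0000003000000020000000300000003000000010 6 7) 0 0 (step_sound _ 36 [(rh79877ebd3ef475dd.shift 4 1), rhdc24761dba93f1a8] (by decide +kernel))
noncomputable def rhc4ae1709afd8ad30 : CRef := CRef.mk (Pat.mk 0x28000000080000002800000000 0x40000000c0000000f0000007c0000003e0000003800000010 6 7) 0 0 (step_sound _ 131 [(rh29dd5384d80ecb1e.shift 2 0), (rh7430a052bcb4bacd.shift 0 1), (rh980ba89963b3476c.shift 1 0)] (by decide +kernel))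
noncomputable def rh749d33e05cb90f52 : CRef := CRef.mk (Pat.mk 0x800000008000000280000000800000000 0xc0000000c0000001f000000380000001800000018 6 6) 0 0 (step_sound _ 36 [rh37d60c59e482f284, (rh55afc6a59410cf00.shift 3 0)] (by decide +kernel))
noncomputable def rhb1d8a7e321a4785e : CRef := CRef.mk (Pat.mk 0x3800000018 0x7000000ff000000f8 6 8) 0 0 (step_sound _ 38 [rh04adde65229dd8ca, (rh18965a982d73c794.shift 3 0)] (by decide +kernel))
noncomputable def rhdf2efb5aa7329afb : CRef := CRef.mk (Pat.mk 0x40000000e0000001c 0x30000000300000007f0000007e0000001c 6 7) 0 0 (step_sound _ 36 [(rh226655e3fe6b4a8a.shift 1 0), (rhb762f327c85d41a0.shift 1 0), rhbe218c4b64d0fb80, (rhe3060b190bc0bc78.shift 0 1)] (by decide +kernel))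
noncomputable def rhf515f701b82bbaa6 : CRef := CRef.mk (Pat.mk 0x2000000020000000200000002 0x1000000070000000700000006000000030000000300000003 6 3) 0 0 (step_sound _ 130 [rha1ee609811ef0ede, (rhbaefcd01e0a8bca3.shift 1 0)] (by decide +kernel))
noncomputable def rh20e56a1196e70fcc : CRef := CRef.mk (Pat.mk 0x200000002000000020000000200000000 0x500000007000000070000000200000002000000060000000600000004 6 3) 0 0 (step_sound _ 34 [(rh55afc6a59410cf00.shift 1 0), (rhba97f7f4ade5e136.shift 0 1)] (by decide +kernel))
noncomputable def rhfe573e726889db6b : CRef := CRef.mk (Pat.mk 0x700000004000000000 0x8000000080000000f000000fe0000007f00000010 6 8) 0 0 (step_sound _ 67 [(rh0de499e0455c9c14.shift 1 1), (rh36eba2a3de447758.shift 0 1), (rh3a69dc315759d1b4.shift 2 0), (rh775ca1963e850b80.shift 1 1), (rhd1d05263fabc0227.shift 1 1)] (by decide +kernel))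
noncomputable def rh900144b0f9adb2af : CRef := CRef.mk (Pat.mk 0x2000000020000000000000003800000000 0x2000000020000000670000003e00000017 6 7) 0 0 (step_sound _ 69 [(rh932754581e0f4330.shift 4 0), rhb12ffaec36122c99] (by decide +kernel))
noncomputable def rhbb13f9e1d387f64a : CRef := CRef.mk (Pat.mk 0x7800000000 0x70000007e000000e7 6 8) 0 0 (step_sound _ 6 [rh36eba2a3de447758, (rhe25b0a99195a5d59.shift 3 0)] (by decide +kernel))
noncomputable def rh7af882bee0289bdd : CRef := CRef.mk (Pat.mk 0x20000000e00000004 0xe30000007e000000e6 6 8) 0 0 (step_sound _ 36 [(rh3244c3cc8379b070.shift 0 1), (rh352b7f91eba0c81f.shift 1 0)] (by decide +kernel))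
noncomputable def rh97c2a40835de0979 : CRef := CRef.mk (Pat.mk 0x40000001e000000080000000000000000 0x70000001e0000003f0000000300000003 6 6) 0 0 (step_sound _ 65 [rh54f24e26e8fe79a4, (rheb0810cc63b001d8.shift 0 2)] (by decide +kernel))
noncomputable def rhbad5016fcf171414 : CRef := CRef.mk (Pat.mk 0x1e000000020000000000000000 0x50000000700000007000000070000001e000000060000000600000004 6 5) 0 0 (step_sound _ 129 [(rh3244c3cc8379b070.shift 0 3), rhe8ad0f20030a8b65] (by decide +kernel))
noncomputable def rh880f707c990d6f11 : CRef := CRef.mk (Pat.mk 0xe000000020000002000000000 0xe00000007e000000730000002000000020 6 8) 0 0 (step_sound _ 100 [(rheb0810cc63b001d8.shift 0 2), (rhff137c455409f0e3.shift 1 0)] (by decide +kernel))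
noncomputable def rh311f2129f0451b58 : CRef := CRef.mk (Pat.mk 0x60000000c00000018 0x30000000300000003e0000003f00000018 6 6) 0 0 (step_sound _ 36 [rh369f87e380fb0016, (rhf48373e13d2bc128.shift 1 1)] (by decide +kernel))
noncomputable def rhdfce6298e63dfa8e : CRef := CRef.mk (Pat.mk 0x1e000000180000001000000000 0x200000002000000070000001e0000001f0000003400000004 6 6) 0 0 (step_sound _ 65 [rh0379ef05c17b491f, (rheb0810cc63b001d8.shift 0 2)] (by decide +kernel))
noncomputable def rhabd47b69dd53aca1 : CRef := CRef.mk (Pat.mk 0x180000000a00000008000000080000000000000000 0x800000008000000180000000f0000000c0000001c0000001800000018 6 5) 0 0 (step_sound _ 130 [(rh53b3c253cb0c65f4.shift 0 4), (rh8ff71bc284510f75.shift 2 0)] (by decide +kernel))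
noncomputable def rh612e3772ebde12f7 : CRef := CRef.mk (Pat.mk 0x180000000a0000000800000008000000000000000000000000 0x180000000f0000000c000000180000001c0000001c00000004 6 5) 0 0 (step_sound _ 162 [(rh53b3c253cb0c65f4.shift 0 5), (rhbaff7ec0fcc038ba.shift 2 0)] (by decide +kernel))
noncomputable def rh3cbd361033ca5860 : CRef := CRef.mk (Pat.mk 0x400000004000000050000000600000000 0x400000004000000770000003e00000078 6 7) 0 0 (step_sound _ 35 [rh167fff566cb27b75, (rh55afc6a59410cf00.shift 2 0)] (by decide +kernel))
noncomputable def rhf74ba0b876993016 : CRef := CRef.mk (Pat.mk 0x18000000300000002000000000 0x8000000080000001e0000007f0000003700000004 6 7) 0 0 (step_sound _ 98 [rh8a4cebab0502a820, (rhb739f4f82bb681b4.shift 1 2)] (by decide +kernel))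
noncomputable def rhd57634499fd9ae10 : CRef := CRef.mk (Pat.mk 0x2000000060000001a00000000000000000000000000000000 0x400000006000000060000001e00000003000000070000000700000005 6 5) 0 0 (step_sound _ 97 [rh1b9022be4f7af407, (rh393c739438a2b520.shift 0 2), (rh5710f30ba40ee3ec.shift 0 2)] (by decide +kernel))
noncomputable def rhaeb0128d2ae70dd8 : CRef := CRef.mk (Pat.mk 0x20000001e000000000000000000000000 0x50000000700000007000000060000001e000000070000000600000004 6 5) 0 0 (step_sound _ 65 [rhe8ad0f20030a8b65, (rheb0810cc63b001d8.shift 0 2)] (by decide +kernel))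
noncomputable def rhc4e06418c828c95e : CRef := CRef.mk (Pat.mk 0x2000000060000000200000010000000300000000000000000 0x40000000600000006000000020000001f000000370000000700000005 6 6) 0 0 (step_sound _ 97 [rh1b9022be4f7af407, (rh8cdd36b03d57a2f6.shift 0 1), (rha707fb719e87fe6e.shift 1 2), (rhf11a656c4019127b.shift 1 2)] (by decide +kernel))
noncomputable def rh5b07087ef1733ff9 : CRef := CRef.mk (Pat.mk 0x20000001a00000012000000000000000000000000 0x40000000600000006000000020000001b0000001f000000070000000400000004 6 5) 0 0 (step_sound _ 98 [(rh70e33bfdf511e144.shift 1 0), (rh7e2297059c77b3a4.shift 0 3), (rh9fecc968bced2cac.shift 0 2)] (by decide +kernel))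
noncomputable def rh3e7aa43dbffe7d7b : CRef := CRef.mk (Pat.mk 0x1000000010000000100000003800000000 0x8000000180000001c0000003f0000003e00000007 6 6) 0 0 (step_sound _ 131 [(rh50fbb5868c909700.shift 3 1), rh955c8fc2b04852d4] (by decide +kernel))
noncomputable def rhe01cfd8f0577defd : CRef := CRef.mk (Pat.mk 0x2000000020000000200000002 0x1000000070000000700000006000000030000000300000003 6 3) 0 0 (step_sound _ 130 [rh8f3c544a17d1186e, (rhbaefcd01e0a8bca3.shift 1 0)] (by decide +kernel))
noncomputable def rh824d79d8da16a934 : CRef := CRef.mk (Pat.mk 0x6800000040 0x70000007e000000e7 6 8) 0 0 (step_sound _ 36 [rh36eba2a3de447758, (rhe25b0a99195a5d59.shift 3 0)] (by decide +kernel))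
noncomputable def rhecf3a99a62af8959 : CRef := CRef.mk (Pat.mk 0x10000000f000000020 0x37000000fe0000007c 6 8) 0 0 (step_sound _ 3 [rh0065abada5c72e0d, (rh80fcd6d0a18cb2dd.shift 3 0)] (by decide +kernel))
noncomputable def rhd916d7fcd727c3e4 : CRef := CRef.mk (Pat.mk 0x2000000320000001200000000 0x4000000060000000600000002000000330000001f00000005 6 6) 0 0 (step_sound _ 34 [(rh1c62b6193297d9e3.shift 1 1), rh9fecc968bced2cac] (by decide +kernel))
noncomputable def rh64c2947e2d06c6c8 : CRef := CRef.mk (Pat.mk 0x2000000320000001200000000 0x5000000070000000700000002000000320000001e00000004 6 6) 0 0 (step_sound _ 34 [(rh1c62b6193297d9e3.shift 1 1), rhfb9fb48a5e63ed80] (by decide +kernel))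
noncomputable def rh51e89694bd6abe77 : CRef := CRef.mk (Pat.mk 0x800000000000000100000003800000000 0x80000000c0000007f0000003e00000007 6 7) 0 0 (step_sound _ 34 [rh592c7139d2c44767, (rh7999f13d61da1d49.shift 1 0), (rhec46bd5500c722c9.shift 1 1)] (by decide +kernel))
noncomputable def rha809f892eca3ddc5 : CRef := CRef.mk (Pat.mk 0x10000000100000001e00000012 0x2e0000003e000000170000001e00000012 6 6) 0 0 (step_sound _ 65 [(rh3244c3cc8379b070.shift 0 1), (rha9c3000a4a04b985.shift 1 0)] (by decide +kernel))
noncomputable def rh2e7d4dac8c353942 : CRef := CRef.mk (Pat.mk 0x1e000000180000000000000000 0x4000000070000001e0000001b0000000f00000007 6 5) 0 0 (step_sound _ 65 [rha789cb63a6382c65, (rheb0810cc63b001d8.shift 0 2)] (by decide +kernel))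
noncomputable def rha8e4d7d840b8ef96 : CRef := CRef.mk (Pat.mk 0x1000000018000000380000000800000000 0xc0000000c0000000c0000001c000000180000003c0000000f00000004 6 6) 0 0 (step_sound _ 131 [(rh0ef6c71ce89c1c36.shift 2 0), rh322e79f034282812, (rh7b9fbdf6d2d059e4.shift 2 1)] (by decide +kernel))
noncomputable def rh32031ef595e5cbab : CRef := CRef.mk (Pat.mk 0x1800000038000000000000000000000000 0x80000000800000038000000ff0000000f0000000400000004 6 8) 0 0 (step_sound _ 102 [rh673fec6b1f99f329, (rhf48373e13d2bc128.shift 3 3)] (by decide +kernel))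
noncomputable def rh62ba860b38e48a06 : CRef := CRef.mk (Pat.mk 0x4000000020000001a0000001a00000000 0x10000000f0000001f0000000a0000001a0000001a00000010 6 5) 0 0 (step_sound _ 129 [(rh2f68792b6b779e96.shift 1 1), rh5583c2d238de57c4] (by decide +kernel))
noncomputable def rhbbefed8bee248a32 : CRef := CRef.mk (Pat.mk 0x1e00000016000000100000000000000000 0x30000001e0000001e000000370000000600000006 6 6) 0 0 (step_sound _ 161 [(rh3244c3cc8379b070.shift 0 4), rhf999ac580b0e0004] (by decide +kernel))
noncomputable def rh87e41c7388369d7a : CRef := CRef.mk (Pat.mk 0x80000001e00000012000000100000000000000000 0xc0000003e0000001e000000370000000600000002 6 6) 0 0 (step_sound _ 98 [(rh18965a982d73c794.shift 1 3), rhb5380065117b14df] (by decide +kernel))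
noncomputable def rh478adaa2b93b3f8d : CRef := CRef.mk (Pat.mk 0x380000002000000000 0x8000000080000000f0000007e0000003700000004 6 7) 0 0 (step_sound _ 66 [(rh0de499e0455c9c14.shift 0 1), (rh21460d2d48a35cb8.shift 1 0), (rh775ca1963e850b80.shift 0 1), (rhd1d05263fabc0227.shift 0 1)] (by decide +kernel))
noncomputable def rhd3a45fa5ff022cfc : CRef := CRef.mk (Pat.mk 0x20000000780000000000000000 0x8000000080000001f0000007c000000f80000001000000010 6 8) 0 0 (step_sound _ 99 [(rh3244c3cc8379b070.shift 2 2), rhc0e8648a4a67a989] (by decide +kernel))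
noncomputable def rhc6558bd0b1119bd2 : CRef := CRef.mk (Pat.mk 0x1e000000000000002000000000 0xe00000007e000000670000002000000020 6 8) 0 0 (step_sound _ 65 [(rh8116c2858c2672d6.shift 1 0), (rheb0810cc63b001d8.shift 0 2)] (by decide +kernel))
noncomputable def rh5191de6b07f8a63b : CRef := CRef.mk (Pat.mk 0x2000000060000000200000000000000000000000000000000 0x1000000070000000700000006000000060000000600000003000000070000000700000004 6 3) 0 0 (step_sound _ 97 [(rh5a860b5057e1e4c5.shift 0 3), rh8a1bd34420cccc7f, (rha707fb719e87fe6e.shift 1 2)] (by decide +kernel))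
noncomputable def rh42b8b17b8abd5dad : CRef := CRef.mk (Pat.mk 0x1e000000000000002000000000 0xe70000007e000000600000002000000020 6 8) 0 0 (step_sound _ 129 [(rh3244c3cc8379b070.shift 0 3), (rh8a7a13525ae4a5c5.shift 1 0)] (by decide +kernel))
noncomputable def rh683a3844c09d4089 : CRef := CRef.mk (Pat.mk 0xf0000000800000008000000000000000000000000 0x180000000f0000000c0000000c0000001c0000001c00000010 6 5) 0 0 (step_sound _ 195 [(rh33e738c4ed385b9f.shift 0 5), (rh89cf5152879421f3.shift 2 0)] (by decide +kernel))
noncomputable def rhe65802a23c5fff7a : CRef := CRef.mk (Pat.mk 0x580000005000000040 0xd8000000ff00000067 6 8) 0 0 (step_sound _ 37 [rhd833bfa7bc0730a9, (rhf48373e13d2bc128.shift 3 1)] (by decide +kernel))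
noncomputable def rh2dace04af8ee8809 : CRef := CRef.mk (Pat.mk 0xb0000000c00000008 0x140000001c0000001c000000180000000f0000000c0000000c 6 5) 0 0 (step_sound _ 99 [(rh32431e66bbf434a4.shift 2 0), (rh42ab489a1be3958e.shift 2 0), (rh976a48eb1c80a12f.shift 2 0), rhddcd04bb31546311] (by decide +kernel))
noncomputable def rhd3d6cf0b5f88ad49 : CRef := CRef.mk (Pat.mk 0x2000000060000001a00000000000000000000000000000000 0x6000000060000001e00000003000000070000000700000004 6 5) 0 0 (step_sound _ 97 [(rh3820f35d5e705bec.shift 1 0), (rh5710f30ba40ee3ec.shift 0 2), rh8a1bd34420cccc7f, (rh91a545eb3be094e3.shift 0 1)] (by decide +kernel))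
noncomputable def rhe95ad851c40ef2f8 : CRef := CRef.mk (Pat.mk 0x40000001e000000080000000000000000 0x70000001e0000003f0000000300000003 6 6) 0 0 (step_sound _ 129 [(rh3244c3cc8379b070.shift 0 3), rh70e772a26670f58d] (by decide +kernel))
noncomputable def rh7992607b0bbc71fc : CRef := CRef.mk (Pat.mk 0x7800000020000000000000003800000000 0x800000078000000fc0000000f0000003e00000007 6 8) 0 0 (step_sound _ 102 [rh9e575f61cd2f7b5e, (rhe25b0a99195a5d59.shift 3 3)] (by decide +kernel))
noncomputable def rh10e3074efe589034 : CRef := CRef.mk (Pat.mk 0x1e00000000 0xe00000007e000000e7 6 8) 0 0 (step_sound _ 1 [rheb0810cc63b001d8, (rhf2b3bcf1454375d8.shift 1 0)] (by decide +kernel))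
noncomputable def rhcbb85c38ff781794 : CRef := CRef.mk (Pat.mk 0x1e000000000000002000000000 0xe00000007e000000370000002000000020 6 8) 0 0 (step_sound _ 65 [(rh55451f5fb35982bd.shift 1 0), (rheb0810cc63b001d8.shift 0 2)] (by decide +kernel))
noncomputable def rh554009a2f490582e : CRef := CRef.mk (Pat.mk 0x7000000040 0x70000007e000000e7 6 8) 0 0 (step_sound _ 35 [rh36eba2a3de447758, (rhe25b0a99195a5d59.shift 3 0)] (by decide +kernel))
noncomputable def rh47992774edf9829f : CRef := CRef.mk (Pat.mk 0x2000000020000000200000002000000000000000000000000 0x100000003000000030000000200000002000000070000000700000005 6 3) 0 0 (step_sound _ 192 [(rh50fbb5868c909700.shift 0 3), rhbba7d23481996066] (by decide +kernel))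
noncomputable def rh9dde4bdaf9dec30c : CRef := CRef.mk (Pat.mk 0x1000000010000000500000001000000000 0x80000003c000000ff000000700000001000000010 6 8) 0 0 (step_sound _ 131 [(rh50fbb5868c909700.shift 3 1), rh87b9817942837c09] (by decide +kernel))
noncomputable def rhb4d78cd0e58cc17c : CRef := CRef.mk (Pat.mk 0x2000000020000000200000002000000000000000000000000 0x6000000060000000600000003000000070000000700000004 6 3) 0 0 (step_sound _ 64 [(rh79877ebd3ef475dd.shift 0 2), rhb4cf3585329d41ef] (by decide +kernel))
noncomputable def rh95311890f436bcdc : CRef := CRef.mk (Pat.mk 0x2000000020000000200000002000000000000000000000000 0x400000006000000060000000200000002000000070000000700000005 6 3) 0 0 (step_sound _ 194 [(rh2f68792b6b779e96.shift 1 3), rh984bfc6de6c2c524] (by decide +kernel))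
noncomputable def rh66ee4e4e1313f0fc : CRef := CRef.mk (Pat.mk 0x2000000020000000200000002 0x4000000070000000700000003000000060000000600000006 6 3) 0 0 (step_sound _ 128 [rh90b558dcae53cbf1, rhffd04209dc8ea796] (by decide +kernel))
noncomputable def rhff6b27c9612d7353 : CRef := CRef.mk (Pat.mk 0x20000000200000002000000020000000000000000 0x200000002000000060000000600000006000000070000000300000003 6 3) 0 0 (step_sound _ 32 [(rh79877ebd3ef475dd.shift 0 1), rha89e52a919ed9a7b] (by decide +kernel))
noncomputable def rhcadfe49164deda00 : CRef := CRef.mk (Pat.mk 0x30000000800000008000000080000000800000000 0x140000001e0000001b0000000800000008000000180000001800000010 6 5) 0 0 (step_sound _ 36 [(rh55afc6a59410cf00.shift 3 0), (rhaa8a09a2b85da4ae.shift 0 1)] (by decide +kernel))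
noncomputable def rhb76be5733554430a : CRef := CRef.mk (Pat.mk 0x4000000000000000f00000008000000000000000000000000 0x40000001c0000000f000000080000001c0000001c00000014 6 5) 0 0 (step_sound _ 163 [(rh33e738c4ed385b9f.shift 0 4), (rhc05d451ce3dd5e48.shift 2 0)] (by decide +kernel))
noncomputable def rh381e6a8bbeedc876 : CRef := CRef.mk (Pat.mk 0x3c00000000 0x70000007f0000003e 6 7) 0 0 (step_sound _ 2 [rh3bb4a8298ce306a8, (rheb0810cc63b001d8.shift 1 0)] (by decide +kernel))
noncomputable def rh04797e9e06425c4e : CRef := CRef.mk (Pat.mk 0x7800000000 0xe0000007e00000077 6 7) 0 0 (step_sound _ 66 [(rh3f8766e6ecb455ce.shift 2 1), rh8ceb03631decf9ab] (by decide +kernel))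
noncomputable def rh15b856e33c69f807 : CRef := CRef.mk (Pat.mk 0x7800000000 0xe70000007e00000007 6 8) 0 0 (step_sound _ 70 [(rh33e738c4ed385b9f.shift 3 1), rh551591afa7e9bd9a] (by decide +kernel))
noncomputable def rh43000f16a4e76173 : CRef := CRef.mk (Pat.mk 0x2000000020000000200000002000000000000000000000000 0x3000000030000000300000003000000070000000700000004 6 3) 0 0 (step_sound _ 64 [(rh79877ebd3ef475dd.shift 0 2), rhafce214f40257ff7] (by decide +kernel))
noncomputable def rh7200610e03d3f78c : CRef := CRef.mk (Pat.mk 0x1000000010000000100000001800000000 0x1000000010000000ff000000fe00000027 6 8) 0 0 (step_sound _ 37 [rh1b65335f7cd3b248, (rh55afc6a59410cf00.shift 4 0)] (by decide +kernel))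
noncomputable def rh4cae674e8fd8dc57 : CRef := CRef.mk (Pat.mk 0x2000000020000000200000002000000000000000000000000 0x100000007000000070000000600000002000000060000000600000004 6 3) 0 0 (step_sound _ 192 [(rh50fbb5868c909700.shift 0 3), rhf435f65ca384ce7a] (by decide +kernel))
noncomputable def rhcaeb492376c707d4 : CRef := CRef.mk (Pat.mk 0x2000000020000000200000002000000000000000000000000 0x100000007000000070000000600000002000000030000000300000001 6 3) 0 0 (step_sound _ 192 [rh374ae440e8011597, (rh50fbb5868c909700.shift 0 3)] (by decide +kernel))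
noncomputable def rh6ca87dfeb9514c80 : CRef := CRef.mk (Pat.mk 0x1e0000000200000000000000000000000000000000 0x600000006000000070000001e0000000600000007000000070000000700000001 6 5) 0 0 (step_sound _ 193 [(rh3244c3cc8379b070.shift 0 5), rhdb37315225a71076] (by decide +kernel))
noncomputable def rh31c46e51df3ea16f : CRef := CRef.mk (Pat.mk 0x2000000030000000200000002 0x500000007000000070000000300000003000000030000000300000002 6 3) 0 0 (step_sound _ 129 [(rh32431e66bbf434a4.shift 0 1), rh3ca48e2a6d60153d, (rh976a48eb1c80a12f.shift 0 1), rhded9635978cce9d0] (by decide +kernel))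
noncomputable def rha1ebdc37587112bb : CRef := CRef.mk (Pat.mk 0x2000000030000000200000002 0x100000007000000070000000600000007000000030000000300000002 6 3) 0 0 (step_sound _ 129 [(rh42ab489a1be3958e.shift 0 1), (rh44f453b84f013105.shift 1 0), (rh976a48eb1c80a12f.shift 0 1)] (by decide +kernel))
noncomputable def rh271fbbbbca267337 : CRef := CRef.mk (Pat.mk 0x20000001a00000002 0xe30000007e000000e6 6 8) 0 0 (step_sound _ 34 [(rh3244c3cc8379b070.shift 0 1), (rh3d54e7f933686048.shift 1 0)] (by decide +kernel))
noncomputable def rh5db979ee817d2c0a : CRef := CRef.mk (Pat.mk 0x40000000400000014000000000000000e00000000 0x40000001400000014000000370000003e00000070 6 7) 0 0 (step_sound _ 65 [rha918b73f4640c244, (rheea67dfebd0f8008.shift 1 1)] (by decide +kernel))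
noncomputable def rh70a6c51c91dc0a2a : CRef := CRef.mk (Pat.mk 0x8000000080000000e000000040000000000000000 0x8000000f80000007e000000f70000001000000010 6 8) 0 0 (step_sound _ 100 [(rh352b7f91eba0c81f.shift 1 2), (rhaf9f2efc81a8312b.shift 0 2), (rhd132b680030c88e0.shift 1 0)] (by decide +kernel))
noncomputable def rh23b67fb1d8ca04b8 : CRef := CRef.mk (Pat.mk 0x80000000c0000000b00000000000000000000000000000000 0x80000000c0000000f0000001c0000001c0000001c00000010 6 5) 0 0 (step_sound _ 99 [(rh5f11ee373cbffcaa.shift 0 2), (rh6eff4158bb400f47.shift 2 1), (rh89cf5152879421f3.shift 2 0), (rha4a12d84bf1ba206.shift 0 1)] (by decide +kernel))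
noncomputable def rh6287b81491833f3f : CRef := CRef.mk (Pat.mk 0xe00000002 0xe00000007e000000e7 6 8) 0 0 (step_sound _ 36 [rheb0810cc63b001d8, (rhf2b3bcf1454375d8.shift 1 0)] (by decide +kernel))
noncomputable def rh9d56380813efe596 : CRef := CRef.mk (Pat.mk 0x20000000000000001c000000000000000000000000 0x2000000020000000670000007e000000ef0000004000000040 6 8) 0 0 (step_sound _ 101 [(rh06db8ceda6269a47.shift 1 2), (rh3837f5226872a3ae.shift 2 0), (rh592c7139d2c44767.shift 0 2)] (by decide +kernel))
noncomputable def rh598c96e05d977516 : CRef := CRef.mk (Pat.mk 0x7800000000 0xe0000007e00000077 6 7) 0 0 (step_sound _ 66 [(rh3f8766e6ecb455ce.shift 2 1), rh4b137110577800fb] (by decide +kernel))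
noncomputable def rh708c3bc8fe2f3084 : CRef := CRef.mk (Pat.mk 0x7800000000 0x70000007e000000e7 6 8) 0 0 (step_sound _ 6 [rh88c620441a3a17ea, (rhe25b0a99195a5d59.shift 3 0)] (by decide +kernel))
noncomputable def rhafeb22b5357bd16b : CRef := CRef.mk (Pat.mk 0x1e00000002000000000000000000000000 0x2000000070000001e0000003e000000070000000700000002 6 6) 0 0 (step_sound _ 161 [(rh3244c3cc8379b070.shift 0 4), rha2f798832db21f6b] (by decide +kernel))
noncomputable def rh773e292ad7481f2c : CRef := CRef.mk (Pat.mk 0xf000000020 0x1f000000fe000000e7 6 8) 0 0 (step_sound _ 35 [rh3918eeb6c53434d8, (rha03f6e28ea70fc7d.shift 2 0), (rhd5eb272e07a4e288.shift 2 1)] (by decide +kernel))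
noncomputable def rh8ed8782856cb3c98 : CRef := CRef.mk (Pat.mk 0x20000000f0000000c 0x1e0000001e0000001b0000000f0000000c 6 5) 0 0 (step_sound _ 67 [(rh33e738c4ed385b9f.shift 0 1), rh6ca67182749e37ae] (by decide +kernel))
noncomputable def rhf1ea61247e21eb5e : CRef := CRef.mk (Pat.mk 0x20000000600000016000000000000000000000000 0x30000000300000006000000060000001e000000030000000300000003 6 5) 0 0 (step_sound _ 193 [rh0e947cffb3ce913d, (rh2145e1d24b96a57e.shift 1 3)] (by decide +kernel))
noncomputable def rh615d2cd5c799b5dc : CRef := CRef.mk (Pat.mk 0x70000000a0 0xe0000007e000000f7 6 8) 0 0 (step_sound _ 35 [rh2efad3051cff7df1, (rh96851dee118c1ba3.shift 3 0)] (by decide +kernel))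
noncomputable def rh7c1f90fdbfb68d3f : CRef := CRef.mk (Pat.mk 0xc000000000000000c0000000400000000 0xc0000000c000000080000001f0000007c00000010 6 7) 0 0 (step_sound _ 99 [(rh5c5e593799055d58.shift 2 1), rh6a7842d1b9fdbc66] (by decide +kernel))
noncomputable def rh5a6d86c5fc390ff8 : CRef := CRef.mk (Pat.mk 0x1000000010000000100000001800000000 0x1000000010000000ff0000007e00000027 6 8) 0 0 (step_sound _ 37 [(rh55afc6a59410cf00.shift 4 0), rhdc3c2da57ffd9e9b] (by decide +kernel))
noncomputable def rh54a27df1ab7049d7 : CRef := CRef.mk (Pat.mk 0x18000000100000001000000010 0x270000007e000000ff0000001000000010 6 8) 0 0 (step_sound _ 101 [(rh2f68792b6b779e96.shift 4 0), (rhc8dbae6d14db7fac.shift 0 2)] (by decide +kernel))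
noncomputable def rh9661cc2097120241 : CRef := CRef.mk (Pat.mk 0x80000000c0000000800000000000000000000000000000000 0x140000007c0000001f00000008000000180000001c0000001c00000014 6 7) 0 0 (step_sound _ 99 [(rh0a6888916bcef86b.shift 2 0), (rh6c59ce14113da07f.shift 3 1), (rhdf8b9aa233deec1e.shift 0 3), (rhe286c75f2739cce2.shift 2 2)] (by decide +kernel))
noncomputable def rh8d8bfe45b7d5275a : CRef := CRef.mk (Pat.mk 0x2000000020000000200000002000000000000000000000000 0x6000000060000000600000003000000070000000700000004 6 3) 0 0 (step_sound _ 64 [(rh79877ebd3ef475dd.shift 0 2), rhb38faaee8bdfa7c0] (by decide +kernel))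
noncomputable def rhe84e00c98653ad0c : CRef := CRef.mk (Pat.mk 0x2000000020000000200000002000000000000000000000000 0x3000000030000000300000006000000070000000700000001 6 3) 0 0 (step_sound _ 66 [rha822df604b29e217, (rhd3458b32566d63f7.shift 1 2)] (by decide +kernel))
noncomputable def rhf638b916c4e37446 : CRef := CRef.mk (Pat.mk 0x800000018000000080000000000000000 0x140000003f0000007f000000080000000800000008 6 7) 0 0 (step_sound _ 35 [(rh215fef6ef21eb5a3.shift 0 1), rh5ee4dc8825dcefa0, (rha707fb719e87fe6e.shift 3 0)] (by decide +kernel))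
noncomputable def rhb4cd9b48f1a797b9 : CRef := CRef.mk (Pat.mk 0x800000008000000080000001000000000 0x140000003c0000000f000000080000001800000018 6 6) 0 0 (step_sound _ 35 [(rh55afc6a59410cf00.shift 3 0), rh5ee4dc8825dcefa0] (by decide +kernel))
noncomputable def rhfdf65b4fc421f840 : CRef := CRef.mk (Pat.mk 0x38000000000000001000000010 0x670000003e000000170000001000000010 6 7) 0 0 (step_sound _ 133 [(rh04253f50b6dd0619.shift 4 0), (rhb12ffaec36122c99.shift 0 2)] (by decide +kernel))
noncomputable def rh32ae5b24c8e351c8 : CRef := CRef.mk (Pat.mk 0x1e000000000000000800000008 0x4000000070000001e000000030000000f0000001f 6 5) 0 0 (step_sound _ 129 [(rh3244c3cc8379b070.shift 0 3), rh71f9f76d8614bf89] (by decide +kernel))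
noncomputable def rha3167923c324c8e4 : CRef := CRef.mk (Pat.mk 0x1800000000000000080000000800000008 0xef0000007e000000f8000000080000000800000008 6 8) 0 0 (step_sound _ 130 [(rh175cead9898869a5.shift 0 3), (rh990f63a9b2e2f427.shift 2 0), (rhd74d37817ec9d4e4.shift 1 1), (rhe81f6c93ba574c46.shift 1 0)] (by decide +kernel))
noncomputable def rh138c3774b73e0afc : CRef := CRef.mk (Pat.mk 0x7800000000 0x770000007e0000000e 6 7) 0 0 (step_sound _ 2 [(rh80fcd6d0a18cb2dd.shift 2 0), rh8fcf2ee879e273f8] (by decide +kernel))
noncomputable def rh5d1227060f3fea36 : CRef := CRef.mk (Pat.mk 0x100000001e000000080000000000000000 0x170000007e000000ec0000000800000008 6 8) 0 0 (step_sound _ 3 [(rh9e3edb185cc347de.shift 3 0), (rheb1f803d27c1c9bf.shift 0 2)] (by decide +kernel))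
noncomputable def rh4e7a636fbda8d70c : CRef := CRef.mk (Pat.mk 0x100000001e0000001000000000 0x80000003800000038000000380000001f0000001e0000001800000010 6 6) 0 0 (step_sound _ 97 [(rh3244c3cc8379b070.shift 0 2), (rhc854326e817b158e.shift 1 0)] (by decide +kernel))
noncomputable def rh45f730bcf36fcf64 : CRef := CRef.mk (Pat.mk 0x1e00000000 0xe70000007e000000e0 6 8) 0 0 (step_sound _ 65 [(rh167fff566cb27b75.shift 1 0), (rh3244c3cc8379b070.shift 0 1)] (by decide +kernel))
noncomputable def rhd955a0402bd7b38f : CRef := CRef.mk (Pat.mk 0x3c00000000 0x3c000000ff000000e0 6 8) 0 0 (step_sound _ 6 [rh92a5617064d4a0b4, (rh96851dee118c1ba3.shift 2 0)] (by decide +kernel))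
noncomputable def rh985294ffbed587a6 : CRef := CRef.mk (Pat.mk 0x300000003000000020000000000000000 0x600000006000000060000000300000003000000030000000300000003 6 3) 0 0 (step_sound _ 33 [rh7b1f1fb55310c477, rhbe6a11bbb961c2b9] (by decide +kernel))
noncomputable def rh112b4676ef5294ef : CRef := CRef.mk (Pat.mk 0x100000005000000000000000200000002000000000000000000000000 0x100000007000000060000000200000002000000070000000700000005 6 3) 0 0 (step_sound _ 161 [rhc94dfb5f501cb051, (rhcfdf45280693d3da.shift 0 3)] (by decide +kernel))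
noncomputable def rh56430c3573e3e889 : CRef := CRef.mk (Pat.mk 0x1000000010000000100000001800000000 0x1000000010000000ff000000fe00000027 6 8) 0 0 (step_sound _ 37 [(rh55afc6a59410cf00.shift 4 0), rh6425d54bb08a4dcc] (by decide +kernel))
noncomputable def rh2927f090bc03b1bb : CRef := CRef.mk (Pat.mk 0xc0000000c0000000800000000 0x140000001c0000001c000000180000000c0000000f0000007c00000010 6 7) 0 0 (step_sound _ 131 [(rh32431e66bbf434a4.shift 2 1), (rh5fa50b509d4ce753.shift 2 1), rhaa4d9de99c4ea825] (by decide +kernel))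
noncomputable def rhd1e3f323bf24a77c : CRef := CRef.mk (Pat.mk 0x2000000000000000300000003000000000000000000000000 0x600000006000000060000000300000003000000060000000600000006 6 3) 0 0 (step_sound _ 161 [(rh5c5e593799055d58.shift 0 3), rh82c6aec0c6f8e399] (by decide +kernel))
noncomputable def rh921a8f8cd2437502 : CRef := CRef.mk (Pat.mk 0x2000000030000000600000000 0x500000007000000070000000200000002000000030000000700000004 6 3) 0 0 (step_sound _ 129 [(rh32431e66bbf434a4.shift 0 1), (rh55afc6a59410cf00.shift 1 0)] (by decide +kernel))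
noncomputable def rh1b384705e8792192 : CRef := CRef.mk (Pat.mk 0x1e00000002000000000000000000000000 0x400000006000000070000001e00000006000000070000000700000005 6 5) 0 0 (step_sound _ 161 [rh0637989806576062, (rh3244c3cc8379b070.shift 0 4)] (by decide +kernel))
noncomputable def rhcf21fdfa8a0c3634 : CRef := CRef.mk (Pat.mk 0x200000002000000020000000a000000080000000000000000 0x12000000120000003b0000001e0000000c0000000800000008 6 6) 0 0 (step_sound _ 98 [(rh55afc6a59410cf00.shift 1 2), rh967a45ef8206f4a8] (by decide +kernel))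
noncomputable def rhecd5758827546546 : CRef := CRef.mk (Pat.mk 0x8000000080000002800000008 0x1000000018000000180000000f0000007c00000018 6 7) 0 0 (step_sound _ 132 [rh2fa0c5cf956b84bd, (rhbaefcd01e0a8bca3.shift 3 0)] (by decide +kernel))
noncomputable def rh6037ce7dfec98b94 : CRef := CRef.mk (Pat.mk 0x1e00000000000000000000000e 0x330000001e00000008000000780000001f 6 7) 0 0 (step_sound _ 132 [(rh33e738c4ed385b9f.shift 1 3), rh9cb7d86fecc7a4e8] (by decide +kernel))
noncomputable def rh376cd2cdb08827d9 : CRef := CRef.mk (Pat.mk 0x1600000002 0x730000003e00000073 6 7) 0 0 (step_sound _ 35 [rh44f90fdc8b134754, rheb0810cc63b001d8] (by decide +kernel))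
noncomputable def rh45eb2f6ec4380654 : CRef := CRef.mk (Pat.mk 0x200000002000000100000001a0000000000000000 0x10000000300000003000000320000001f0000000700000001 6 6) 0 0 (step_sound _ 66 [rh241154339d0cd161, (rh33e738c4ed385b9f.shift 1 2)] (by decide +kernel))
noncomputable def rhc850b49d039efae1 : CRef := CRef.mk (Pat.mk 0x2000000020000000200000002000000000000000000000000 0x100000003000000030000000200000002000000070000000700000005 6 3) 0 0 (step_sound _ 192 [(rh50fbb5868c909700.shift 0 3), rhc05d451ce3dd5e48] (by decide +kernel))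
noncomputable def rh193da7fc9e1674f1 : CRef := CRef.mk (Pat.mk 0x200000002000000020000000200000000 0x500000007000000070000000200000002000000030000000300000001 6 3) 0 0 (step_sound _ 32 [rh932754581e0f4330, (rhb77bfac3e9efecea.shift 0 1)] (by decide +kernel))
noncomputable def rh5dcc2a46b0481258 : CRef := CRef.mk (Pat.mk 0x1e00000010000000100000000000000000 0x40000001f0000001f000000330000000200000002 6 6) 0 0 (step_sound _ 99 [rha6c7f2962be4f617, (rhb739f4f82bb681b4.shift 0 3)] (by decide +kernel))
noncomputable def rhf98fa66b1765731a : CRef := CRef.mk (Pat.mk 0x3000000060000000200000000000000000000000000000000 0x100000003000000060000000600000003000000070000000700000004 6 3) 0 0 (step_sound _ 97 [(rh50fbb5868c909700.shift 0 3), rh8a1bd34420cccc7f] (by decide +kernel))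
noncomputable def rh2fdbac22792bf021 : CRef := CRef.mk (Pat.mk 0x10000000600000002000000020000000a0000000800000000 0x1000000130000001e000000120000007a0000001f0000000c00000008 6 7) 0 0 (step_sound _ 164 [(rh3cffad1d01f3c270.shift 0 3), rhafb8d3ab270a144a] (by decide +kernel))
noncomputable def rh648e4b160e405460 : CRef := CRef.mk (Pat.mk 0x400000004000000020000000200000000000000000000000000000000 0x400000006000000060000000200000002000000070000000700000005 6 3) 0 0 (step_sound _ 97 [(rh1006c02ae4212ff0.shift 1 3), rhc94dfb5f501cb051] (by decide +kernel))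
noncomputable def rhbe341911786ce8aa : CRef := CRef.mk (Pat.mk 0x600000012000000020000000a0000000800000000 0x1000000130000001f000000120000001a0000001a0000000800000008 6 5) 0 0 (step_sound _ 192 [rh999a9fb8540a6aea, (rhffd04209dc8ea796.shift 0 2)] (by decide +kernel))
noncomputable def rh9200a2f39b422b7f : CRef := CRef.mk (Pat.mk 0x1c000000080000000000000010 0x63000000ff0000007c0000001000000010 6 8) 0 0 (step_sound _ 68 [(rh3c3e23a02e82b2ed.shift 0 2), (rh6292bd8784ece55f.shift 1 2), rha49298ecdbecd313, (rhb33c6c3f599de8c2.shift 2 0)] (by decide +kernel))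
noncomputable def rhb5a9ec1ce9de0cd6 : CRef := CRef.mk (Pat.mk 0xe00000004000000040000000400000000 0x300000003f0000003f0000000c0000000c00000008 6 6) 0 0 (step_sound _ 35 [(rh55afc6a59410cf00.shift 2 0), (rhcd6dc254042c6b89.shift 0 1)] (by decide +kernel))
noncomputable def rh0ab83fb9a9ff267c : CRef := CRef.mk (Pat.mk 0x100000001a00000002 0x38000000ff000000e6 6 8) 0 0 (step_sound _ 34 [(rh33e738c4ed385b9f.shift 1 1), rhc90f784d7ec4cdda] (by decide +kernel))
noncomputable def rha2e96c709e94c430 : CRef := CRef.mk (Pat.mk 0x10000000100000007000000050000000000000000 0x9000000090000001d0000001f000000070000000400000004 6 5) 0 0 (step_sound _ 65 [(rh2145e1d24b96a57e.shift 0 2), rh4d9b034736f6e019] (by decide +kernel))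
noncomputable def rh5b0cd6b53b0c31a6 : CRef := CRef.mk (Pat.mk 0x4000000040000001c00000018 0x300000003c000000370000001f00000018 6 6) 0 0 (step_sound _ 33 [rh09183f8d23f37687, rhb739f4f82bb681b4] (by decide +kernel))
noncomputable def rh34f7c757bdcc945e : CRef := CRef.mk (Pat.mk 0x400000002000000030000000200000000000000000000000000000000 0x400000006000000030000000300000006000000070000000700000001 6 3) 0 0 (step_sound _ 97 [rh4ed972033d0a12ff, (rhbaefcd01e0a8bca3.shift 1 3)] (by decide +kernel))
noncomputable def rh6e563605f7708df3 : CRef := CRef.mk (Pat.mk 0x20000000f0000000200000000000000000 0x3f000000fe0000002e0000002000000020 6 8) 0 0 (step_sound _ 99 [(rh0cb2afbfc104e1f8.shift 1 0), (rh1f9701c4cf497514.shift 0 2), (rh775ca1963e850b80.shift 1 2), (rhd5eb272e07a4e288.shift 2 3)] (by decide +kernel))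
noncomputable def rh2b264ec59419670e : CRef := CRef.mk (Pat.mk 0x20000000f000000000 0x3f000000fe0000000e 6 8) 0 0 (step_sound _ 35 [(rh0c928d324d409faa.shift 1 0), rh1f9701c4cf497514, (rh775ca1963e850b80.shift 1 0), (rhd5eb272e07a4e288.shift 2 1)] (by decide +kernel))
noncomputable def rhea957d83ddc76f10 : CRef := CRef.mk (Pat.mk 0x6000000020000000a0000000a0000000800000000 0x1000000130000001f0000001a0000001a0000000a0000000800000008 6 5) 0 0 (step_sound _ 192 [rh99d4ebcd002df7da, (rhffd04209dc8ea796.shift 0 2)] (by decide +kernel))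
noncomputable def rh88a353cb60e0d045 : CRef := CRef.mk (Pat.mk 0x18000000080000000a0000000800000000 0xc0000000c0000000c00000018000000180000000f0000000c00000008 6 5) 0 0 (step_sound _ 100 [(rh552e50e5cab5e814.shift 0 1), (rh71222050f2c63a3a.shift 3 0)] (by decide +kernel))
noncomputable def rh15c2321f8ed670ce : CRef := CRef.mk (Pat.mk 0xa000000020000000200000002 0x740000003e000000730000000200000002 6 7) 0 0 (step_sound _ 98 [(rh2f68792b6b779e96.shift 1 0), (rhfa35e196e150edb4.shift 0 2)] (by decide +kernel))
noncomputable def rh48ea389700101016 : CRef := CRef.mk (Pat.mk 0x2000000020000000700000000 0x500000007000000070000000200000002000000030000000700000004 6 3) 0 0 (step_sound _ 129 [(rh55afc6a59410cf00.shift 1 0), (rh9fb9dc683e09b5f3.shift 0 1)] (by decide +kernel))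
noncomputable def rhe8cabce1919c5509 : CRef := CRef.mk (Pat.mk 0x200000007000000080 0x370000007e000000ce 6 8) 0 0 (step_sound _ 35 [rh1f9701c4cf497514, (rh96851dee118c1ba3.shift 3 0)] (by decide +kernel))
noncomputable def rh5695a6493ccc73ed : CRef := CRef.mk (Pat.mk 0x20000000f0000000200000000000000000 0x3f000000fe0000002e0000002000000020 6 8) 0 0 (step_sound _ 99 [(rh0cb2afbfc104e1f8.shift 1 0), (rh1f9701c4cf497514.shift 0 2), (rh592c7139d2c44767.shift 1 2), (rhd5eb272e07a4e288.shift 2 3)] (by decide +kernel))
noncomputable def rh545d427da79a9ec8 : CRef := CRef.mk (Pat.mk 0x4000000020000000a0000000a0000000800000008 0x1000000070000001f0000001a0000001a0000000a0000000800000008 6 5) 0 0 (step_sound _ 161 [rh16708cf612f85e37, (rh2f68792b6b779e96.shift 1 2)] (by decide +kernel))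
noncomputable def rhd4cf0502293283e6 : CRef := CRef.mk (Pat.mk 0x6000000020000000a0000000a0000000a00000008 0x1e0000003b0000001a0000000b0000000f0000000c 6 6) 0 0 (step_sound _ 34 [(rh55afc6a59410cf00.shift 1 0), rh6b8bf5948ebd2178] (by decide +kernel))
noncomputable def rhc1458d9a4fa93203 : CRef := CRef.mk (Pat.mk 0x1000000120000000200000002 0x3d0000001f0000003a0000000200000002 6 6) 0 0 (step_sound _ 97 [rh50fbb5868c909700, rhbeba8672de0831a1] (by decide +kernel))
noncomputable def rh613e10745af1c384 : CRef := CRef.mk (Pat.mk 0x20000000a0000000a0000000a00000008 0x1000000130000001f0000001a0000000a0000000e0000000c 6 5) 0 0 (step_sound _ 34 [(rh55afc6a59410cf00.shift 1 0), rh93606bc2a0cc4aff] (by decide +kernel))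
noncomputable def rh86bae7f0611d3438 : CRef := CRef.mk (Pat.mk 0x4000000040000001400000004 0xc0000000c0000000c000000070000003e0000000c 6 6) 0 0 (step_sound _ 131 [rhb6858d5f7c4eef59, (rhbaefcd01e0a8bca3.shift 2 0)] (by decide +kernel))
noncomputable def rh804763794ba1b259 : CRef := CRef.mk (Pat.mk 0x4000000040000004000000038000000080000000000000000 0x40000000c000000e8000000ff000000380000001000000010 6 8) 0 0 (step_sound _ 68 [(rh8284118167888cf9.shift 3 2), rhc640019649c42175] (by decide +kernel))
noncomputable def rh3e2e82686979b72f : CRef := CRef.mk (Pat.mk 0x800000007000000010 0xc70000007e0000003e 6 8) 0 0 (step_sound _ 35 [(rh428265de8cd3cd2d.shift 3 1), rhd1ff8027c4c86c76] (by decide +kernel))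
noncomputable def rh0da0aba8333b1d3b : CRef := CRef.mk (Pat.mk 0x4000000120000000600000002 0x4000000740000003e0000007700000002 6 7) 0 0 (step_sound _ 66 [(rh185c6e3748bd1404.shift 0 1), (rh5c5e593799055d58.shift 1 0)] (by decide +kernel))
noncomputable def rh684af8dcf862805e : CRef := CRef.mk (Pat.mk 0x70000000800000005000000060000001000000000 0x2f000000780000003f000000160000001000000010 6 7) 0 0 (step_sound _ 132 [rh5c6a51ac01f0fb5c, (rhd6e447e81774439e.shift 0 4)] (by decide +kernel))
noncomputable def rhadec87ca519a3ac3 : CRef := CRef.mk (Pat.mk 0x180000003800000000 0xf8000000ff00000007 6 8) 0 0 (step_sound _ 38 [rh81eabc3f853e2700, (rhf48373e13d2bc128.shift 3 1)] (by decide +kernel))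
noncomputable def rh5dfdd745c29c0539 : CRef := CRef.mk (Pat.mk 0x20000000a000000000000000c0000000400000000 0xe0000000e0000000c0000000f0000003c00000010 6 6) 0 0 (step_sound _ 130 [rh21ac22ab7b811b03, (rh2613c889e411427e.shift 1 1)] (by decide +kernel))
noncomputable def rh031ca0d8b5abff66 : CRef := CRef.mk (Pat.mk 0x70000000a0 0xe0000007e000000f7 6 8) 0 0 (step_sound _ 35 [(rh96851dee118c1ba3.shift 3 0), rheaad777ed634577b] (by decide +kernel))
noncomputable def rh9d5d9575d745afbf : CRef := CRef.mk (Pat.mk 0x38000000140000000000000000 0x200000002000000070000003e000000360000000400000004 6 6) 0 0 (step_sound _ 98 [(rheb0810cc63b001d8.shift 1 2), rhf4e4690e1d4c3fc6] (by decide +kernel))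
noncomputable def rh7c446a5779c6be66 : CRef := CRef.mk (Pat.mk 0xf000000020 0xe000000fe0000003f 6 8) 0 0 (step_sound _ 35 [rh2efad3051cff7df1, (rh70543c5e7e75eabe.shift 1 0), (rh775ca1963e850b80.shift 1 0), (rheae1728ff4a56756.shift 2 0)] (by decide +kernel))
noncomputable def rhbff89f04f36f67c5 : CRef := CRef.mk (Pat.mk 0x800000007000000020 0xc70000007e00000067 6 8) 0 0 (step_sound _ 35 [rh3918eeb6c53434d8, (rh428265de8cd3cd2d.shift 3 1)] (by decide +kernel))
noncomputable def rh20605efe443fc5c1 : CRef := CRef.mk (Pat.mk 0x100000005000000000000000200000002000000000000000000000000 0x100000007000000060000000200000002000000070000000700000005 6 3) 0 0 (step_sound _ 161 [rh984bfc6de6c2c524, (rhcfdf45280693d3da.shift 0 3)] (by decide +kernel))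
noncomputable def rh62ccd7692aaf66f8 : CRef := CRef.mk (Pat.mk 0x800000008000000080000001800000000 0x800000008000000ff000000ff000001e4 6 9) 0 0 (step_sound _ 34 [(rh932754581e0f4330.shift 2 0), rhe67022869c8c461c] (by decide +kernel))
noncomputable def rh0da2a71655c6a894 : CRef := CRef.mk (Pat.mk 0x2000000020000000200000002000000000000000000000000 0x400000007000000070000000300000002000000030000000300000001 6 3) 0 0 (step_sound _ 194 [rh1725eba4bd36066a, (rh2f68792b6b779e96.shift 1 3)] (by decide +kernel))
noncomputable def rh5253e6def0624eae : CRef := CRef.mk (Pat.mk 0x80000000c0000000c000000000000000000000000 0x140000007e0000007f0000000c000000180000001800000018 6 7) 0 0 (step_sound _ 67 [(rh0e92bd01241e1bdc.shift 0 2), (rh424f754c311038b5.shift 1 1), (rh6c59ce14113da07f.shift 3 0), (rh820d4e04d5dcd02e.shift 2 0)] (by decide +kernel))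
noncomputable def rhd42884f2021f624d : CRef := CRef.mk (Pat.mk 0x80000000800000008000000180000000000000000 0x80000001c0000001f0000007c000000180000000800000008 6 7) 0 0 (step_sound _ 100 [rh095ae1d3bc5cade4, (rh2145e1d24b96a57e.shift 3 2)] (by decide +kernel))
noncomputable def rhe6139ee3783d91c7 : CRef := CRef.mk (Pat.mk 0x1c000000000000000000000020000000000000001c00000000 0x7c000000600000006000000020000000e70000007e000000f0 6 8) 0 0 (step_sound _ 37 [rh0d378fd9e8917c5a, (rh3fc3a7fb6866dcd4.shift 2 0), (rh5ad63a5e72d50837.shift 2 0)] (by decide +kernel))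
noncomputable def rh183e0d909544af91 : CRef := CRef.mk (Pat.mk 0x40000000400000004000000000000000e00000000 0x40000000400000004000000770000003e00000070 6 7) 0 0 (step_sound _ 65 [rh9c94213f6896c74a, (rheea67dfebd0f8008.shift 1 1)] (by decide +kernel))
noncomputable def rh9e077aa9b986abf1 : CRef := CRef.mk (Pat.mk 0x8000000000000000e000000000000000000000000 0x800000008000000f80000007f000000fe0000001400000004 6 8) 0 0 (step_sound _ 100 [(rh4d7d70d053228994.shift 0 2), (rh9abf3184422a6047.shift 1 1), (rha93a5dd541ab8209.shift 1 2), (rhc16bc16d5650b821.shift 1 0)] (by decide +kernel))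
noncomputable def rh79c296c9604ce03e : CRef := CRef.mk (Pat.mk 0x8000000080000000e0000000400000000 0x8000000f80000007e000000f700000010 6 8) 0 0 (step_sound _ 68 [(rh352b7f91eba0c81f.shift 1 1), (rh3fc3a7fb6866dcd4.shift 1 1), (rh625dde73e665edc8.shift 1 0), (rhaf9f2efc81a8312b.shift 0 1)] (by decide +kernel))
noncomputable def rhf747e75c56839347 : CRef := CRef.mk (Pat.mk 0x1000000010000000500000001800000000 0x1000000010000000770000003e00000027 6 7) 0 0 (step_sound _ 37 [rh551591afa7e9bd9a, (rh55afc6a59410cf00.shift 4 0)] (by decide +kernel))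
noncomputable def rh66fb1fc096df5a4a : CRef := CRef.mk (Pat.mk 0x38000000040000001000000070 0x70000003e000000060000003e00000074 6 7) 0 0 (step_sound _ 98 [rha861011ee1927254, (rheb0810cc63b001d8.shift 1 2)] (by decide +kernel))
noncomputable def rhcc38aedec3fd8171 : CRef := CRef.mk (Pat.mk 0x60000001e000000020000000200000000 0x300000003000000030000003e0000001e000000060000000300000001 6 6) 0 0 (step_sound _ 132 [(rh33e738c4ed385b9f.shift 1 3), rh5ffb111d46ce21f9] (by decide +kernel))
noncomputable def rh367bf2d234260c9c : CRef := CRef.mk (Pat.mk 0x20000000f000000040 0x3f000000fe00000067 6 8) 0 0 (step_sound _ 35 [(rh0392a73861bbdc19.shift 1 0), rh88c620441a3a17ea, (rhd1d05263fabc0227.shift 1 0), (rhd5eb272e07a4e288.shift 2 1)] (by decide +kernel))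
noncomputable def rhb571f2abe18c03ed : CRef := CRef.mk (Pat.mk 0x20000000f000000040 0x37000000fe0000007f 6 8) 0 0 (step_sound _ 35 [(rh0de499e0455c9c14.shift 1 0), rh3b2b05f77630fe70, rh88c620441a3a17ea, (rheae1728ff4a56756.shift 2 0)] (by decide +kernel))
noncomputable def rh4e5c9341c1e92d3c : CRef := CRef.mk (Pat.mk 0xf000000020 0xf000000fe0000003f 6 8) 0 0 (step_sound _ 35 [rh2efad3051cff7df1, (rh70543c5e7e75eabe.shift 1 0), (rh775ca1963e850b80.shift 1 0), rh8aa80d8d90d3223c, (rheae1728ff4a56756.shift 2 0)] (by decide +kernel))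
noncomputable def rh047c0c3b0047a487 : CRef := CRef.mk (Pat.mk 0x2000000030000000200000002 0x500000007000000070000000300000003000000030000000300000002 6 3) 0 0 (step_sound _ 129 [(rh32431e66bbf434a4.shift 0 1), rh3ca48e2a6d60153d, (rha77f215723363df0.shift 0 1), rhded9635978cce9d0] (by decide +kernel))
noncomputable def rh7d2b606e35c1758a : CRef := CRef.mk (Pat.mk 0x20000000200000002000000020000000200000002 0x50000000700000007000000020000000600000006000000060000000200000002 6 3) 0 0 (step_sound _ 98 [(rh14e0829dc73b6804.shift 0 2), (rh2f68792b6b779e96.shift 1 0)] (by decide +kernel))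
noncomputable def rh56b40fbd20b015cd : CRef := CRef.mk (Pat.mk 0x1000000010000000180000001000000010 0x3000000030000000380000001f000000780000001000000010 6 7) 0 0 (step_sound _ 99 [(rh50fbb5868c909700.shift 3 0), (rheb1807f0915f3067.shift 0 1)] (by decide +kernel))
noncomputable def rh174e78dabbc7879b : CRef := CRef.mk (Pat.mk 0x1f0000000000000010000000000000000000000000 0x80000001f0000001800000010000000380000003800000028 6 6) 0 0 (step_sound _ 132 [(rh56259dd1390eee46.shift 3 0), (rh96851dee118c1ba3.shift 0 4)] (by decide +kernel))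
noncomputable def rhdda18f14314c6e63 : CRef := CRef.mk (Pat.mk 0x400000007000000000 0xe70000007e00000007 6 8) 0 0 (step_sound _ 35 [(rh33e738c4ed385b9f.shift 3 1), rh551591afa7e9bd9a] (by decide +kernel))
noncomputable def rh7d2e18f625b814cc : CRef := CRef.mk (Pat.mk 0xa0000001c0000000000000000 0x1200000012000000370000001e0000003c0000000c00000004 6 6) 0 0 (step_sound _ 98 [rh06d79c612b4d2019, (rhf48373e13d2bc128.shift 1 2)] (by decide +kernel))
noncomputable def rh5fa3defda748b1e9 : CRef := CRef.mk (Pat.mk 0x10000000180000001800000008 0xc0000000f0000007f000000380000001800000018 6 7) 0 0 (step_sound _ 99 [(rh3e595262c1b737ad.shift 3 0), (rh7b9fbdf6d2d059e4.shift 2 0), rhc647a25a08ddf0ec, rhe2228a62b296fa97] (by decide +kernel))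
noncomputable def rh9bd07e460a9db576 : CRef := CRef.mk (Pat.mk 0x78000000080000000000000000 0x200000002000000077000000ff000000180000001000000010 6 8) 0 0 (step_sound _ 68 [(rh18965a982d73c794.shift 3 2), rh2ab2e32022af7fa9] (by decide +kernel))
noncomputable def rh4b2e091729371a05 : CRef := CRef.mk (Pat.mk 0x1e00000002000000000000000000000000 0x600000006000000070000001e00000006000000070000000700000005 6 5) 0 0 (step_sound _ 161 [(rh3244c3cc8379b070.shift 0 4), rh66d8a35d318c3215] (by decide +kernel))
noncomputable def rh9729c3cd7faf54ff : CRef := CRef.mk (Pat.mk 0xf800000000 0x38000000fe000000e7 6 8) 0 0 (step_sound _ 6 [rh9f06256b9143186d, (rhe25b0a99195a5d59.shift 3 0)] (by decide +kernel))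
noncomputable def rhb7e0a190ee9f337a : CRef := CRef.mk (Pat.mk 0x1e00000000 0xee0000007e00000007 6 8) 0 0 (step_sound _ 1 [(rhc083815ec94cd2b2.shift 1 0), rheb0810cc63b001d8] (by decide +kernel))
noncomputable def rhf68a4186d962c6c1 : CRef := CRef.mk (Pat.mk 0x40000000f000000010000000000000000 0x40000001f0000001f0000001e0000000a 6 5) 0 0 (step_sound _ 65 [(rh18965a982d73c794.shift 0 2), rh7c46d848178e4ccf] (by decide +kernel))
noncomputable def rh6cdba2873fc242a9 : CRef := CRef.mk (Pat.mk 0x7800000000 0xe000000ff0000003c 6 8) 0 0 (step_sound _ 3 [rhba8820896bf02178, (rheb0810cc63b001d8.shift 2 0)] (by decide +kernel))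
noncomputable def rha04f4e915986deeb : CRef := CRef.mk (Pat.mk 0xe000000000000001400000000 0x200000002000000770000003e000000340000001400000014 6 7) 0 0 (step_sound _ 129 [(rh95a80f84f48ac358.shift 1 0), rhe2f93f751a1b2a86] (by decide +kernel))
noncomputable def rhf817b6b59bdf06de : CRef := CRef.mk (Pat.mk 0x1e000000000000002000000000 0xe00000007e000000670000002000000020 6 8) 0 0 (step_sound _ 65 [(rh20d9a8adabb97e42.shift 1 0), (rheb0810cc63b001d8.shift 0 2)] (by decide +kernel))
noncomputable def rh965860148329302d : CRef := CRef.mk (Pat.mk 0x38000000000000000000000000 0x4000000770000007e0000000f0000000800000008 6 7) 0 0 (step_sound _ 98 [(rh4c622fddc53a5f99.shift 0 3), (rh9e97bba44c1b13e4.shift 0 2), (rhafa5a7051d37b143.shift 1 0)] (by decide +kernel))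
noncomputable def rh0f504d42397edf01 : CRef := CRef.mk (Pat.mk 0x3c000000000000001000000000 0x8000000380000003f000000170000001000000010 6 6) 0 0 (step_sound _ 65 [rh7879daa890e4a1ab, (rh80fcd6d0a18cb2dd.shift 1 2)] (by decide +kernel))
noncomputable def rh2a535ce68d5cfc5d : CRef := CRef.mk (Pat.mk 0x1e000000000000002000000000 0xe70000007e000000600000002000000020 6 8) 0 0 (step_sound _ 129 [(rh1e8e6803c5e9654f.shift 1 0), (rh3244c3cc8379b070.shift 0 3)] (by decide +kernel))
noncomputable def rhc2a413918de61f33 : CRef := CRef.mk (Pat.mk 0x30000000200000002000000000000000000000000 0x5000000070000000200000002000000070000000700000005 6 3) 0 0 (step_sound _ 65 [(rh50fbb5868c909700.shift 0 2), rhda5b5ea9190c0809] (by decide +kernel))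
noncomputable def rh40a2621ff666e043 : CRef := CRef.mk (Pat.mk 0x600000006000000040000001400000000 0x80000003f0000003e000000340000001400000010 6 6) 0 0 (step_sound _ 131 [(rh2f68792b6b779e96.shift 2 1), rhd7cbc5daea640744] (by decide +kernel))
noncomputable def rhb74085b2bf8cf106 : CRef := CRef.mk (Pat.mk 0x2000000030000000200000002 0x50000000700000007000000070000001e000000030000000300000002 6 5) 0 0 (step_sound _ 129 [rh1775efe41f56ac70, (rh32431e66bbf434a4.shift 0 1), (rh44f453b84f013105.shift 1 0), (rh769be3fe24eee174.shift 0 1), (rha77f215723363df0.shift 0 1), (rhc85cc95794737cf7.shift 0 1)] (by decide +kernel))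
noncomputable def rh8a4e7bac66134d3d : CRef := CRef.mk (Pat.mk 0x80000000e000000040000001400000000 0x2000000eb0000007e000000f60000001400000010 6 8) 0 0 (step_sound _ 100 [(rh2bbc4934553ffbfd.shift 1 0), (rh352b7f91eba0c81f.shift 1 2), (rhed9a93d9f6a3fb5f.shift 0 1)] (by decide +kernel))
noncomputable def rh191e5ff85276f8e6 : CRef := CRef.mk (Pat.mk 0x1f800000000 0x77000001fe00000007 6 9) 0 0 (step_sound _ 69 [(rh3244c3cc8379b070.shift 4 1), rhb12ffaec36122c99] (by decide +kernel))
noncomputable def rh2eb57940aae23bfe : CRef := CRef.mk (Pat.mk 0xe0000000100000002000000000000000000000000 0x40000001e0000000300000002000000070000000700000005 6 5) 0 0 (step_sound _ 129 [(rh18965a982d73c794.shift 0 4), rh1b9022be4f7af407] (by decide +kernel))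
noncomputable def rh258db8532d6d1246 : CRef := CRef.mk (Pat.mk 0x4000000078000000000000002000000000 0x4e0000007e000000370000002000000020 6 7) 0 0 (step_sound _ 69 [(rh2efad3051cff7df1.shift 0 2), (rh71222050f2c63a3a.shift 5 0)] (by decide +kernel))
noncomputable def rhe6eba247eb01e4f0 : CRef := CRef.mk (Pat.mk 0xe000000020000002000000000 0xe00000007e000000670000002000000020 6 8) 0 0 (step_sound _ 100 [(rh20d9a8adabb97e42.shift 1 0), (rheb0810cc63b001d8.shift 0 2)] (by decide +kernel))
noncomputable def rhee9c6f5faab711bb : CRef := CRef.mk (Pat.mk 0x80000001c000000040000001400000000 0x60000000f0000001c0000001f0000003600000012 6 6) 0 0 (step_sound _ 68 [rh2e1c78a2c1bba219, (rh7b1f1fb55310c477.shift 3 0)] (by decide +kernel))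
noncomputable def rh35fa82e424499a24 : CRef := CRef.mk (Pat.mk 0x20000001e0000000200000000 0x500000007000000070000003e0000001e0000000600000002 6 6) 0 0 (step_sound _ 100 [(rh33e738c4ed385b9f.shift 1 2), rh37173402736aee97] (by decide +kernel))
noncomputable def rh90a2c362701866ab : CRef := CRef.mk (Pat.mk 0xe000000010000001000000000 0x2000000020000000ee0000007e000000f30000001000000010 6 8) 0 0 (step_sound _ 100 [(rh30d4c68134598f9f.shift 1 0), (rh80fcd6d0a18cb2dd.shift 0 2)] (by decide +kernel))
noncomputable def rh737646c86de76cd0 : CRef := CRef.mk (Pat.mk 0x20000001c00000004000000000000003000000020 0x30000001e00000004000000040000003e00000077 6 7) 0 0 (step_sound _ 129 [(rh3244c3cc8379b070.shift 0 4), rh50fae245f40c9f94] (by decide +kernel))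
noncomputable def rh7c8425ce529ccc65 : CRef := CRef.mk (Pat.mk 0x200000006000000120000001000000000 0x60000000600000006000000060000001e0000003700000007 6 6) 0 0 (step_sound _ 66 [(rh3e595262c1b737ad.shift 1 1), rh779f8441d0cbb854, rh987b83cff2edc5a1, (rhc2c7bae8f445c890.shift 1 0)] (by decide +kernel))
noncomputable def rh6a690b10e3d8f396 : CRef := CRef.mk (Pat.mk 0x38000000100000000000000040 0x1c7000000fe000000f70000004000000040 6 9) 0 0 (step_sound _ 98 [(rh66c438da7fa185e0.shift 2 0), (rh775ca1963e850b80.shift 0 2), (rha03f6e28ea70fc7d.shift 1 2)] (by decide +kernel))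
noncomputable def rh72d39716cade0253 : CRef := CRef.mk (Pat.mk 0x800000007000000000000000000000001 0x1b0000001f0000003b0000000100000001 6 6) 0 0 (step_sound _ 99 [(rh33e738c4ed385b9f.shift 0 3), rh70d9e7d50114c1f5] (by decide +kernel))
noncomputable def rh8235b9011e7ea27b : CRef := CRef.mk (Pat.mk 0x1c00000002000000000000000800000000 0x10000000300000001e0000003b000000180000000800000008 6 6) 0 0 (step_sound _ 129 [(rh6028d697c7d1366a.shift 1 0), (rheb0810cc63b001d8.shift 0 3)] (by decide +kernel))
noncomputable def rh9be8a2e4d8571366 : CRef := CRef.mk (Pat.mk 0xc00000008000000080000000c 0x130000003f0000003f0000000c0000000c 6 6) 0 0 (step_sound _ 100 [(rh2f68792b6b779e96.shift 3 0), rhe19d6cc7d82d9345] (by decide +kernel))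
noncomputable def rh03e51a76ac91cc9f : CRef := CRef.mk (Pat.mk 0x100000001000000020000000200000000000000000000000000000000 0x100000003000000030000000200000002000000070000000700000005 6 3) 0 0 (step_sound _ 97 [rhbba7d23481996066, (rhcfdf45280693d3da.shift 0 3)] (by decide +kernel))
noncomputable def rhc60c902c512f9617 : CRef := CRef.mk (Pat.mk 0x1c000000020000000000000002 0xe0000007e000000e30000000200000002 6 8) 0 0 (step_sound _ 97 [(rh1194550c4fe3ddb3.shift 1 0), (rheb0810cc63b001d8.shift 0 2)] (by decide +kernel))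
noncomputable def rhb51a0b72ef8cff65 : CRef := CRef.mk (Pat.mk 0x4000000060000000400000000 0xa0000000e0000000e0000003e00000007000000060000000600000006 6 6) 0 0 (step_sound _ 130 [(rh03dfdf12d5937476.shift 1 0), (rh32431e66bbf434a4.shift 1 1), rhe1bcd80b5c7d4f4c] (by decide +kernel))
noncomputable def rheeb3dca0b086ad42 : CRef := CRef.mk (Pat.mk 0x7000000080000000000000001 0x3b0000001f0000001b0000000100000001 6 6) 0 0 (step_sound _ 99 [rh9988c8a3e1154f5e, (rhe25b0a99195a5d59.shift 0 2)] (by decide +kernel))
noncomputable def rhe6287d96d1a4a02a : CRef := CRef.mk (Pat.mk 0xf00000000 0x380000003f00000077 6 7) 0 0 (step_sound _ 68 [(rh428265de8cd3cd2d.shift 0 1), rhbdce4ae460fd80ce] (by decide +kernel))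
noncomputable def rh31e071f369ae2115 : CRef := CRef.mk (Pat.mk 0x400000006000000060000000200000000 0x30000000b0000003f00000007000000060000000600000004 6 6) 0 0 (step_sound _ 129 [(rh7b9fbdf6d2d059e4.shift 0 1), rh8d4c9e5ff6df67f0, (rhd4b4beefcd67f51e.shift 1 0)] (by decide +kernel))
noncomputable def rh3bd5926ff800185e : CRef := CRef.mk (Pat.mk 0xf000000000000000000000002 0x400000004000000ee0000007f000000fe0000000a0000000a 6 8) 0 0 (step_sound _ 100 [(rh4ad5fc38f1b69f65.shift 0 2), (rh8c96748594fc20e8.shift 1 0), rhd1a97122f8cd285a] (by decide +kernel))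
noncomputable def rhdefd8930e733b1b4 : CRef := CRef.mk (Pat.mk 0x6000000020000000000000002000000000000000000000000 0x400000006000000060000000200000002000000070000000700000005 6 3) 0 0 (step_sound _ 129 [(rh2f68792b6b779e96.shift 1 3), rhc94dfb5f501cb051] (by decide +kernel))
noncomputable def rh5d09caedbe0c5c29 : CRef := CRef.mk (Pat.mk 0x40000000c000000060000000200000008 0x40000003c0000007e0000007b00000008 6 7) 0 0 (step_sound _ 67 [(rh45ed11d09d1b6d53.shift 0 1), (rh9e07f76261b05888.shift 2 0)] (by decide +kernel))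
noncomputable def rhbdcb0de41185cd44 : CRef := CRef.mk (Pat.mk 0x200000002000000070000000100000000 0x40000000600000006000000070000001f0000001d 6 5) 0 0 (step_sound _ 33 [rh806a30ccd3d3e25c, rh932754581e0f4330] (by decide +kernel))
noncomputable def rhc148a8f25cdeeb08 : CRef := CRef.mk (Pat.mk 0xf0000000c00000000 0x140000001c0000001c000000180000000f0000000c00000004 6 5) 0 0 (step_sound _ 99 [(rh32431e66bbf434a4.shift 2 0), (rh33e738c4ed385b9f.shift 0 2)] (by decide +kernel))
noncomputable def rhdbace12c6a0c947e : CRef := CRef.mk (Pat.mk 0x1c00000006000000000000000a00000000 0x100000001c0000003e0000007f0000000a0000000a 6 7) 0 0 (step_sound _ 65 [rh115cf847aef171e1, (rh71222050f2c63a3a.shift 1 0)] (by decide +kernel))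
noncomputable def rh9849e7a3b9fff88d : CRef := CRef.mk (Pat.mk 0x800000008000000180000000400000000 0x40000000c0000001f000000780000000c0000000c 6 7) 0 0 (step_sound _ 35 [rh30c6e0d541037d9b, (rh932754581e0f4330.shift 2 0)] (by decide +kernel))
noncomputable def rh7eb55b12c74c9b68 : CRef := CRef.mk (Pat.mk 0x40000001e0000000200000000 0x300000003000000030000003f0000001e0000000600000004 6 6) 0 0 (step_sound _ 97 [(rh3244c3cc8379b070.shift 0 2), rh9099705d7a86edc0] (by decide +kernel))
noncomputable def rh1e581fcebcca7a34 : CRef := CRef.mk (Pat.mk 0x20000000e00000000 0xe70000007e000000e0 6 8) 0 0 (step_sound _ 36 [(rh167fff566cb27b75.shift 1 0), (rh3244c3cc8379b070.shift 0 1)] (by decide +kernel))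
noncomputable def rhcdfba260e5024b09 : CRef := CRef.mk (Pat.mk 0x400000004000000020000000000000002000000000000000000000000 0x400000006000000060000000200000002000000070000000700000005 6 3) 0 0 (step_sound _ 129 [(rh1006c02ae4212ff0.shift 1 3), rh984bfc6de6c2c524] (by decide +kernel))
noncomputable def rhec43871de1216a7b : CRef := CRef.mk (Pat.mk 0x800000018000000040000000000000014 0x800000008000000380000001f000000340000001400000014 6 6) 0 0 (step_sound _ 98 [rh443e4216a1860251, (rh9e3edb185cc347de.shift 2 0)] (by decide +kernel))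
noncomputable def rhccb0eb046a7db929 : CRef := CRef.mk (Pat.mk 0x40000000c00000002000000000000000a 0x400000004000000040000001f0000007a0000000a0000000a 6 7) 0 0 (step_sound _ 97 [(rh9e3edb185cc347de.shift 1 0), rhe8f0f8a164b0bb2b] (by decide +kernel))
noncomputable def rh5bf0a798af4e8525 : CRef := CRef.mk (Pat.mk 0x1c0000001e00000000 0x1800000018000000380000001f0000001e00000030 6 6) 0 0 (step_sound _ 65 [(rh3244c3cc8379b070.shift 0 1), (rh4fca681c74044791.shift 1 0)] (by decide +kernel))
noncomputable def rh172bc5bfea6c05ab : CRef := CRef.mk (Pat.mk 0x2000000020000000e0000000600000000 0xd0000001f0000001b0000000e0000000600000002 6 5) 0 0 (step_sound _ 128 [rh47de101abd5cf2f5, (rh50fbb5868c909700.shift 0 1)] (by decide +kernel))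
noncomputable def rh3f335929625f1de5 : CRef := CRef.mk (Pat.mk 0x1000000010000000100000003800000000 0xc0000001f000000380000001c000000f800000010 6 8) 0 0 (step_sound _ 131 [rh03524f5aea6bdef1, (rh50fbb5868c909700.shift 3 1)] (by decide +kernel))
noncomputable def rhf188ebdbf9b398c4 : CRef := CRef.mk (Pat.mk 0x4000000040000000c0000000e00000000 0xa0000000e0000000c0000000f0000007e00000070 6 7) 0 0 (step_sound _ 131 [rh293eb18b0a1cc816, (rh2f68792b6b779e96.shift 2 1)] (by decide +kernel))
noncomputable def rh4a0a4c05c024ef72 : CRef := CRef.mk (Pat.mk 0xc0000001c00000004 0x200000002000000770000007f0000001c00000004 6 7) 0 0 (step_sound _ 65 [rh170da8a4bd4dc1c7, (rhb739f4f82bb681b4.shift 0 1)] (by decide +kernel))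
noncomputable def rhceb1821ac8636730 : CRef := CRef.mk (Pat.mk 0x4000000160000001a 0x30000000300000003f0000001e0000001b 6 6) 0 0 (step_sound _ 35 [rh8b10c04bde622b78, rheb0810cc63b001d8] (by decide +kernel))
noncomputable def rhbd4c773563fdbad3 : CRef := CRef.mk (Pat.mk 0x4000000040000000c0000000c00000000 0x180000007c0000001f0000000c0000000c00000004 6 7) 0 0 (step_sound _ 131 [(rh2f68792b6b779e96.shift 2 1), rh3873507d7bab030b] (by decide +kernel))
noncomputable def rh95aa721f5ed8f162 : CRef := CRef.mk (Pat.mk 0x1800000008000000080000000c 0x70000003f0000003f0000000c0000000c 6 6) 0 0 (step_sound _ 98 [(rh50fbb5868c909700.shift 2 0), rhe19d6cc7d82d9345] (by decide +kernel))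
noncomputable def rh7ec372de7fdf51d0 : CRef := CRef.mk (Pat.mk 0x8000000080000000c0000000c 0x160000003f0000003f0000000c0000000c 6 6) 0 0 (step_sound _ 98 [(rh50fbb5868c909700.shift 2 0), rhd73706dea72a3ef0] (by decide +kernel))
noncomputable def rha35fac8b85f01e5c : CRef := CRef.mk (Pat.mk 0x400000004000000040000000200000000 0xa0000003e00000007000000040000000600000006 6 6) 0 0 (step_sound _ 34 [(rh932754581e0f4330.shift 1 0), rhe1bcd80b5c7d4f4c] (by decide +kernel))
noncomputable def rh9559e243a2f035f1 : CRef := CRef.mk (Pat.mk 0x2000000020000000f00000004 0x1c0000001e0000001b0000000f0000001c 6 5) 0 0 (step_sound _ 3 [rh56c0fcad27f29c3c, rhe25b0a99195a5d59] (by decide +kernel))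
noncomputable def rh557f6e96bd45a802 : CRef := CRef.mk (Pat.mk 0x8000000080000000e0000001000000000 0x140000007c0000000e0000000f0000001800000008 6 7) 0 0 (step_sound _ 35 [(rhb739f4f82bb681b4.shift 0 1), (rhe1bcd80b5c7d4f4c.shift 1 0)] (by decide +kernel))
noncomputable def rh4f28e2de1d947202 : CRef := CRef.mk (Pat.mk 0x200000003800000050 0x2000000020000000270000003e00000077 6 7) 0 0 (step_sound _ 101 [rh36eba2a3de447758, (rh5c5e593799055d58.shift 4 0)] (by decide +kernel))
noncomputable def rh92d83d536b9e4ae3 : CRef := CRef.mk (Pat.mk 0x1800000010000000300000003800000000 0x40000001f0000003e0000003c000000f800000010 6 8) 0 0 (step_sound _ 99 [(rh4e5dae0dca50c227.shift 0 1), (rh7b1f1fb55310c477.shift 3 0)] (by decide +kernel))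
noncomputable def rh0008a39afba678e7 : CRef := CRef.mk (Pat.mk 0x3800000000000000000000001000000000 0x1000000030000000770000003e00000070000000300000001000000010 6 7) 0 0 (step_sound _ 130 [(rh0d378fd9e8917c5a.shift 0 3), (rh2fa8a6cd8a03c75c.shift 1 2), (rh6028d697c7d1366a.shift 2 0), (rhec877ae179387301.shift 0 1), (rhf9fc252bb8290774.shift 1 1)] (by decide +kernel))
noncomputable def rhde8a0914f3a9d056 : CRef := CRef.mk (Pat.mk 0xe00000002000000000000000a 0x400000004000000040000001f0000007a0000000a0000000a 6 7) 0 0 (step_sound _ 130 [(rh9e3edb185cc347de.shift 1 0), rhe8f0f8a164b0bb2b] (by decide +kernel))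
noncomputable def rhf72f87784b67e5f8 : CRef := CRef.mk (Pat.mk 0x200000007000000050 0x2000000020000000700000007e000000d7 6 8) 0 0 (step_sound _ 101 [(rh5c5e593799055d58.shift 4 0), rh975c5019df2add56] (by decide +kernel))
noncomputable def rh701e8c8f82c23353 : CRef := CRef.mk (Pat.mk 0x80000001c00000004 0x800000008000000ff0000007f000000e4 6 8) 0 0 (step_sound _ 99 [rh5385f96c5ff769a4, (rh5c5e593799055d58.shift 2 0)] (by decide +kernel))
noncomputable def rh615bdbae854bd84e : CRef := CRef.mk (Pat.mk 0x40000001e00000008 0x30000000300000003f0000001e00000038 6 6) 0 0 (step_sound _ 65 [(rh3244c3cc8379b070.shift 0 1), (rhd2e7d1d9db1cff3b.shift 1 0)] (by decide +kernel))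
noncomputable def rh2e4d0c579375f434 : CRef := CRef.mk (Pat.mk 0x100000001e000000000000000000000008 0x10000000300000001f0000003f000000080000000800000008 6 6) 0 0 (step_sound _ 67 [(rh837222a0dd15540c.shift 0 2), (rh9e3edb185cc347de.shift 3 0)] (by decide +kernel))
noncomputable def rh2b7878d881e0bf6a : CRef := CRef.mk (Pat.mk 0x1e000000020000000000000008 0x400000004000000070000003f0000003a0000000800000008 6 6) 0 0 (step_sound _ 129 [(rh3244c3cc8379b070.shift 0 3), rhdc80e08ad786a8fe] (by decide +kernel))
noncomputable def rh2453c5c0fd32822d : CRef := CRef.mk (Pat.mk 0x1c000000040000000000000014 0x800000008000000380000001f000000340000001400000014 6 6) 0 0 (step_sound _ 131 [rh443e4216a1860251, (rh9e3edb185cc347de.shift 2 0)] (by decide +kernel))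
noncomputable def rh56fd73e6ab161f47 : CRef := CRef.mk (Pat.mk 0x1c000000040000000000000004 0x1e7000000fe000001ec0000000400000004 6 9) 0 0 (step_sound _ 101 [(rh3fc3a7fb6866dcd4.shift 2 2), rh9c9bdd729c643b84, (rhd584a578337d0023.shift 2 2), (rhf2b3bcf1454375d8.shift 2 2), (rhf3baec4a0a3dd35e.shift 2 2)] (by decide +kernel))
noncomputable def rh6cbd5beace1956bf : CRef := CRef.mk (Pat.mk 0x38000000080000000000000008 0xe6000000ff000000380000000800000008 6 8) 0 0 (step_sound _ 98 [(rh0da3f8d18d3a0dfd.shift 1 0), (rh429d551bffc08aea.shift 0 2)] (by decide +kernel))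
noncomputable def rhc0f460b769314fdb : CRef := CRef.mk (Pat.mk 0x1c000000040000000000000004 0x1000000010000000330000001f0000003c0000000c00000004 6 6) 0 0 (step_sound _ 97 [rh0da3f8d18d3a0dfd, (rha4cf9251629f1722.shift 0 1)] (by decide +kernel))
noncomputable def rh9c1c083df63911c4 : CRef := CRef.mk (Pat.mk 0x1c000000040000000000000004 0x730000007f0000003c0000000400000004 6 7) 0 0 (step_sound _ 97 [rh0da3f8d18d3a0dfd, (rhd542320a7a4dc2c4.shift 0 2)] (by decide +kernel))
noncomputable def rh5a1ae4ad1173e744 : CRef := CRef.mk (Pat.mk 0x1c00000004 0x1e7000000fe000001fc 6 9) 0 0 (step_sound _ 37 [rh0d378fd9e8917c5a, (rhd584a578337d0023.shift 2 0), (rhf2b3bcf1454375d8.shift 2 0)] (by decide +kernel))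
noncomputable def rh0cab727b8509a5ae : CRef := CRef.mk (Pat.mk 0x700000001000000000000000400000000 0x8000000780000003f0000007f0000000c0000000400000004 6 7) 0 0 (step_sound _ 131 [(rh3fc3a7fb6866dcd4.shift 0 3), rh6028d697c7d1366a, (rhd584a578337d0023.shift 0 3), (rhf2b3bcf1454375d8.shift 0 3), (rhf3baec4a0a3dd35e.shift 0 3)] (by decide +kernel))
noncomputable def rhf517786b5316d8b7 : CRef := CRef.mk (Pat.mk 0x1c0000000600000000 0xa0000000a0000003b0000001f0000003600000014 6 6) 0 0 (step_sound _ 65 [rhbdb8dfd08861fbf7, rhdf99670cc890a965] (by decide +kernel))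
noncomputable def rh8d33df7ee954b6ed : CRef := CRef.mk (Pat.mk 0x40000000f00000000 0xfc0000007f00000070 6 8) 0 0 (step_sound _ 36 [(rh3fc3a7fb6866dcd4.shift 1 0), (rh9890f9d77740bbed.shift 0 1), rh9c71485ed59a17cd, (rhf5fa5e48e0784de2.shift 1 0)] (by decide +kernel))
noncomputable def rh8c9e20945c8f5d94 : CRef := CRef.mk (Pat.mk 0x1000000038000000000000002000000000 0x170000003e000000670000002000000020 6 7) 0 0 (step_sound _ 69 [(rh3918eeb6c53434d8.shift 0 2), (rh7b1f1fb55310c477.shift 4 0)] (by decide +kernel))
noncomputable def rhab0747539d2c5f4b : CRef := CRef.mk (Pat.mk 0x200000007000000000 0x1fe000001fe0000038f 6 10) 0 0 (step_sound _ 35 [(rh096767d96a1b3292.shift 3 0), (rh592c7139d2c44767.shift 1 0), rhb103f40a53fe1424] (by decide +kernel))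
noncomputable def rh77424619898a0c29 : CRef := CRef.mk (Pat.mk 0x1000000018000000200000002000000000 0x170000003e000000670000002000000020 6 7) 0 0 (step_sound _ 101 [(rh3918eeb6c53434d8.shift 0 2), (rh7b1f1fb55310c477.shift 4 0)] (by decide +kernel))
noncomputable def rhfda4a7ace6c09651 : CRef := CRef.mk (Pat.mk 0x100000001e0000000e00000000 0x14000000340000001f0000001e0000000e0000000a 6 6) 0 0 (step_sound _ 132 [(rh5c5e593799055d58.shift 3 1), rhc81b9213dd57af00] (by decide +kernel))
noncomputable def rh3c004dd0a2e87afb : CRef := CRef.mk (Pat.mk 0xe0000000600000000 0x800000008000000380000003f0000003600000010 6 6) 0 0 (step_sound _ 68 [(rh18965a982d73c794.shift 1 1), rhdf99670cc890a965] (by decide +kernel))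
noncomputable def rhf8c141f7bfe6b660 : CRef := CRef.mk (Pat.mk 0x180000001e00000010 0x1800000038000000380000001f0000001e00000013 6 6) 0 0 (step_sound _ 131 [rh0bed0287ab662de5, (rh6f1cbe15c631ee70.shift 3 0)] (by decide +kernel))
noncomputable def rh5461ba6a2a32d252 : CRef := CRef.mk (Pat.mk 0xe000000070000000000000008 0x10000000f0000000f0000003e0000000f000000070000000d00000008 6 6) 0 0 (step_sound _ 161 [(rh6ecdfec06e7e2472.shift 0 1), rh8d442d3dde2754bf, (rh9b32778d424b58d6.shift 0 1), (rhda6cc5da102e1723.shift 1 1)] (by decide +kernel))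
noncomputable def rhfc63ac286d878ff9 : CRef := CRef.mk (Pat.mk 0x1e0000000c00000000 0x600000006000000070000001e0000000f0000000a 6 5) 0 0 (step_sound _ 33 [rhd4c5f5d135b8d7bb, (rheb0810cc63b001d8.shift 0 1)] (by decide +kernel))
noncomputable def rh19bc6b196a7d72e2 : CRef := CRef.mk (Pat.mk 0x4000000060000000600000004 0xa0000003f0000003e0000000700000004 6 6) 0 0 (step_sound _ 97 [rh3e07fa29f3ba9ea5, (rh50fbb5868c909700.shift 1 0)] (by decide +kernel))
noncomputable def rhc985de7fe99e34c0 : CRef := CRef.mk (Pat.mk 0x20000001e0000000600000000 0x7000000070000003e0000001e0000000600000002 6 6) 0 0 (step_sound _ 129 [(rh2145e1d24b96a57e.shift 1 1), rh5969a5623c7aae07] (by decide +kernel))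
noncomputable def rh017a505fc3227b67 : CRef := CRef.mk (Pat.mk 0x20000001e0000000600000000 0x6000000070000003e0000001f0000000600000002 6 6) 0 0 (step_sound _ 129 [(rh2145e1d24b96a57e.shift 1 1), rh78ba7a524f498efd] (by decide +kernel))
noncomputable def rhbf194e80aba347a5 : CRef := CRef.mk (Pat.mk 0x100000001e0000000c00000000 0x12000000330000001f0000001e0000000c00000008 6 6) 0 0 (step_sound _ 132 [(rh5c5e593799055d58.shift 3 1), rhd1f76d1ac1ee7058] (by decide +kernel))
noncomputable def rh26632cd3e2240348 : CRef := CRef.mk (Pat.mk 0x10000000100000001e0000000c00000000 0xe0000001f0000001b0000001e0000000c00000008 6 5) 0 0 (step_sound _ 99 [(rh71222050f2c63a3a.shift 3 0), (rhf55ddd618a6af679.shift 0 1)] (by decide +kernel))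
noncomputable def rh09f15fd6be8b7aaf : CRef := CRef.mk (Pat.mk 0x80000000d0000000c 0xc0000000f0000007c0000000f0000000c 6 7) 0 0 (step_sound _ 99 [(rh5c5e593799055d58.shift 2 0), rh91673d678c20a35c] (by decide +kernel))
noncomputable def rhe80bfe3e16a83ae4 : CRef := CRef.mk (Pat.mk 0x100000001a0000000e00000000 0x600000006000000370000001e0000000e0000000a 6 6) 0 0 (step_sound _ 66 [(rh33e738c4ed385b9f.shift 1 2), rhd4c5f5d135b8d7bb] (by decide +kernel))
noncomputable def rhb5a4df103f91c93d : CRef := CRef.mk (Pat.mk 0x50000000e00000000 0xef0000007e00000070 6 8) 0 0 (step_sound _ 36 [(rh3f8766e6ecb455ce.shift 0 1), (rhf5fa5e48e0784de2.shift 1 0)] (by decide +kernel))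
noncomputable def rh261cde0ba1df544b : CRef := CRef.mk (Pat.mk 0x120000001e00000000 0x200000002000000330000001e0000003f00000004 6 6) 0 0 (step_sound _ 66 [rhe17393c2e89e05d7, (rhf48373e13d2bc128.shift 1 1)] (by decide +kernel))
noncomputable def rhb541d9f3c5eef20f : CRef := CRef.mk (Pat.mk 0x180000000e000000000000001000000000 0x1000000010000000300000001f0000003e000000380000001000000010 6 6) 0 0 (step_sound _ 100 [(rh2bbc4934553ffbfd.shift 1 0), (rh6f9b955097eeb2e4.shift 0 2)] (by decide +kernel))
noncomputable def rh46901184ab64b2ef : CRef := CRef.mk (Pat.mk 0xc00000006000000000000000200000000 0x200000002000000030000003f0000003e000000070000000200000002 6 6) 0 0 (step_sound _ 65 [(rh683a198c27c1520d.shift 0 1), (rh71222050f2c63a3a.shift 1 0)] (by decide +kernel))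
noncomputable def rh08d368efc4fb01cd : CRef := CRef.mk (Pat.mk 0x180000000c000000000000001400000000 0x2000000020000001f0000001f000000360000001400000014 6 6) 0 0 (step_sound _ 97 [(rh53b3c253cb0c65f4.shift 0 3), rh6761e93124b44f25] (by decide +kernel))
noncomputable def rh7986821c4b81857a : CRef := CRef.mk (Pat.mk 0x380000000c000000000000001400000000 0x400000004000000760000003f0000001c0000001c0000001400000004 6 7) 0 0 (step_sound _ 66 [(rh0642e641d788f3d2.shift 0 1), (rh71222050f2c63a3a.shift 2 0)] (by decide +kernel))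
noncomputable def rh7e32e48d45e385e5 : CRef := CRef.mk (Pat.mk 0x800000008000000380000001000000000 0x140000003c0000000f000000380000001e0000000c 6 6) 0 0 (step_sound _ 35 [rh5ee4dc8825dcefa0, (rhf5094ad2a427d4d3.shift 1 0)] (by decide +kernel))
noncomputable def rh39ec3db8102276c3 : CRef := CRef.mk (Pat.mk 0x1e00000004000000000000001000000000 0x1000000010000000300000001e0000003f000000380000001000000010 6 6) 0 0 (step_sound _ 97 [(rh11c82640b10bf789.shift 1 0), (rheb0810cc63b001d8.shift 0 3)] (by decide +kernel))
noncomputable def rhc6aff915896e2c4e : CRef := CRef.mk (Pat.mk 0x38000000140000000000000000 0x200000002000000070000003e000000360000000400000004 6 6) 0 0 (step_sound _ 98 [rh871a46ab094339cb, (rheb0810cc63b001d8.shift 1 2)] (by decide +kernel))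
noncomputable def rh96121bf27e17b5ab : CRef := CRef.mk (Pat.mk 0x3000000020000000000000002000000000000000000000000 0x100000003000000030000000200000002000000070000000700000005 6 3) 0 0 (step_sound _ 129 [(rh50fbb5868c909700.shift 0 3), rhc05d451ce3dd5e48] (by decide +kernel))
noncomputable def rh08cccd64415f3926 : CRef := CRef.mk (Pat.mk 0x1a000000040000000000000004 0x1000000010000000330000001f0000003c0000000c00000004 6 6) 0 0 (step_sound _ 98 [rh0da3f8d18d3a0dfd, (rha4cf9251629f1722.shift 0 1)] (by decide +kernel))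
noncomputable def rh68996b7b5a9f9d1c : CRef := CRef.mk (Pat.mk 0x6000000060000001e00000006 0x390000003f000000360000001e0000000e 6 6) 0 0 (step_sound _ 96 [(rh0d70932cd0c8369c.shift 1 0), rh50fbb5868c909700] (by decide +kernel))
noncomputable def rh112c09d3237b6ac5 : CRef := CRef.mk (Pat.mk 0x80000000c000000040000000000000010 0xfc000000ff000001f60000001000000010 6 9) 0 0 (step_sound _ 100 [(rh352b7f91eba0c81f.shift 1 2), (rh9f356e2f3196e57a.shift 1 2), rha32499dd13d8c04a, (rhd01d3ea7be1268a4.shift 1 0)] (by decide +kernel))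
noncomputable def rh93dada6cc3ed2a8c : CRef := CRef.mk (Pat.mk 0x1c00000018 0xe0000000ff0000001f 6 8) 0 0 (step_sound _ 33 [rh9115c4bb33f193b6, rhb739f4f82bb681b4] (by decide +kernel))
noncomputable def rhbb6b18950c79e955 : CRef := CRef.mk (Pat.mk 0xf00000004000000000000000000000008 0xc0000000c0000001c0000000f0000001c000000080000000800000008 6 5) 0 0 (step_sound _ 99 [rhd50742801d3d3b45, (rhe25b0a99195a5d59.shift 0 3)] (by decide +kernel))
noncomputable def rha14478d91faf3ae3 : CRef := CRef.mk (Pat.mk 0x1c00000018 0xe7000000ff00000018 6 8) 0 0 (step_sound _ 33 [rh36095876875a1ad2, rhb739f4f82bb681b4] (by decide +kernel))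
noncomputable def rh23323923877ea645 : CRef := CRef.mk (Pat.mk 0x80000001e00000004 0xa0000000f0000003f0000001e00000004 6 6) 0 0 (step_sound _ 99 [(rh5c5e593799055d58.shift 2 0), rhb5026552920bacb8] (by decide +kernel))
noncomputable def rheacf19618d651185 : CRef := CRef.mk (Pat.mk 0x8000000080000001e00000004 0x20000000f0000003f0000001e00000007 6 6) 0 0 (step_sound _ 68 [(rh33e738c4ed385b9f.shift 1 1), rhcdd17ebd18286808] (by decide +kernel))
noncomputable def rh9fb657e6481dfcdc : CRef := CRef.mk (Pat.mk 0x40000000e00000002 0xec0000007e00000073 6 8) 0 0 (step_sound _ 36 [rheb0810cc63b001d8, (rhf5fa5e48e0784de2.shift 1 0)] (by decide +kernel))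
noncomputable def rhafb9feb93c0a9425 : CRef := CRef.mk (Pat.mk 0x400000006000000020000000800000000 0x10000000100000003c0000003f0000007f0000000800000008 6 7) 0 0 (step_sound _ 99 [rh08061ce37c0b8068, rh1a6590498224160a, (rhb02f9c2bd63f56db.shift 0 2)] (by decide +kernel))
noncomputable def rh10236321c675d474 : CRef := CRef.mk (Pat.mk 0x2000000060000001a00000000000000000000000000000000 0x400000006000000060000001a0000000f000000070000000700000005 6 5) 0 0 (step_sound _ 97 [rh1b9022be4f7af407, (rh6eff4158bb400f47.shift 0 1), (rha707fb719e87fe6e.shift 1 2), (rhd630af2e39ca770f.shift 0 2)] (by decide +kernel))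
noncomputable def rh41b813ae66f111d8 : CRef := CRef.mk (Pat.mk 0x1e00000018000000000000000000000000 0x4000000040000003e0000001f000000070000000200000002 6 6) 0 0 (step_sound _ 97 [rh5e097eb24f5b8367, (rheb0810cc63b001d8.shift 0 3)] (by decide +kernel))
noncomputable def rh9954101f0efffb9e : CRef := CRef.mk (Pat.mk 0x600000006000000020000000000000000 0x300000003000000030000000600000006000000030000000300000003 6 3) 0 0 (step_sound _ 33 [rh0ef6c71ce89c1c36, (rh71222050f2c63a3a.shift 1 0)] (by decide +kernel))
noncomputable def rhfd0e586ce45ed5f0 : CRef := CRef.mk (Pat.mk 0x1c00000008000000080000000800000000 0x30000003f0000003f0000000c0000000c00000004 6 6) 0 0 (step_sound _ 34 [(rh932754581e0f4330.shift 2 0), (rhe19d6cc7d82d9345.shift 0 1)] (by decide +kernel))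
noncomputable def rh939b0e537699a05e : CRef := CRef.mk (Pat.mk 0x40000001e000000080000002000000000 0x70000001e0000003f0000003300000002 6 6) 0 0 (step_sound _ 65 [rhe7ad9dc5dd4bed17, (rheb0810cc63b001d8.shift 0 2)] (by decide +kernel))
noncomputable def rhcf21ecda606592f8 : CRef := CRef.mk (Pat.mk 0x1c000000000000004000000000 0x1f0000000fe000000ef0000004000000040 6 9) 0 0 (step_sound _ 101 [(rh42d32bf970c9c157.shift 1 2), (rh9e97bba44c1b13e4.shift 0 2), (rha93a5dd541ab8209.shift 2 2), (rhff137c455409f0e3.shift 2 0)] (by decide +kernel))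
noncomputable def rh039146757e23a175 : CRef := CRef.mk (Pat.mk 0x1e000000180000000800000000 0x20000000a0000000b0000001e0000001f0000003c00000010 6 6) 0 0 (step_sound _ 65 [rhd745503fb613ef82, (rheb0810cc63b001d8.shift 0 2)] (by decide +kernel))
noncomputable def rha866c51301bf0130 : CRef := CRef.mk (Pat.mk 0xf00000000 0x380000003f00000077 6 7) 0 0 (step_sound _ 68 [(rh428265de8cd3cd2d.shift 0 1), rhad25ddd26c6147ab] (by decide +kernel))
noncomputable def rhcdfcb474973a5786 : CRef := CRef.mk (Pat.mk 0xc0000001800000000 0xe0000007e00000077 6 7) 0 0 (step_sound _ 37 [rh8ceb03631decf9ab, (rhf48373e13d2bc128.shift 2 1)] (by decide +kernel))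
noncomputable def rhd1ae51dd049cce10 : CRef := CRef.mk (Pat.mk 0x10000000200000002000000020000000000000000 0x40000000600000007000000070000000600000006000000060000000200000002 6 3) 0 0 (step_sound _ 161 [(rh18cc9f880821f0ab.shift 1 0), (rh50fbb5868c909700.shift 0 2)] (by decide +kernel))
noncomputable def rhc930c156d83d0a77 : CRef := CRef.mk (Pat.mk 0x200000002000000060000000000000000 0x40000000600000006000000060000000700000007000000070000000300000001 6 3) 0 0 (step_sound _ 161 [(rh33e98d0e97205a3e.shift 0 2), (rh73f605273a09a9d0.shift 1 2), (rh7b60db5db6f7d331.shift 0 1), rhcab3157f7bdcba3e] (by decide +kernel))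
noncomputable def rh6db58fc4ffb5458e : CRef := CRef.mk (Pat.mk 0x200000002000000060000000000000000 0x50000000700000007000000070000000600000006000000070000000300000001 6 3) 0 0 (step_sound _ 161 [(rh5bd4bc0c2c48140c.shift 0 2), (rh73f605273a09a9d0.shift 1 2), (rhba97f7f4ade5e136.shift 0 2), rhcab3157f7bdcba3e] (by decide +kernel))
noncomputable def rh65e7cfa0e725f940 : CRef := CRef.mk (Pat.mk 0x200000002000000060000000000000000 0x10000000700000007000000060000000700000007000000070000000300000001 6 3) 0 0 (step_sound _ 161 [(rh73f605273a09a9d0.shift 1 2), (rhaf349dd7709502bf.shift 0 2), rhcab3157f7bdcba3e] (by decide +kernel))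
noncomputable def rhc7f400d74b127350 : CRef := CRef.mk (Pat.mk 0x38000000100000000c00000008 0x1c4000000ff000001fe0000000c00000008 6 9) 0 0 (step_sound _ 67 [(rh352b7f91eba0c81f.shift 2 2), (rh4dc133ee0ba1420a.shift 1 2), (rh53cccbb248b8ab65.shift 1 0), rhca405e350c462817] (by decide +kernel))
noncomputable def rh9a75bbdded1be211 : CRef := CRef.mk (Pat.mk 0x3800000000000000000000006000000040 0x70000003e00000067000000200000006000000040 6 7) 0 0 (step_sound _ 101 [(rhc92c11e8da6c894f.shift 0 3), (rhff0f29cb645b05f7.shift 5 0)] (by decide +kernel))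
noncomputable def rha0ccb72343d5fe86 : CRef := CRef.mk (Pat.mk 0x4000000040000001c000000000000002000000000 0x4000000e40000007e000000770000002200000022 6 8) 0 0 (step_sound _ 97 [rh1e8d6e1ef30e2d92, (rhff137c455409f0e3.shift 1 0)] (by decide +kernel))
noncomputable def rhf2d2d0a5099213cb : CRef := CRef.mk (Pat.mk 0x1000000010000000780000000000000000 0xc0000000c0000001f0000003c000000780000001800000008 6 7) 0 0 (step_sound _ 99 [(rh3244c3cc8379b070.shift 2 2), rh9934c278d52f9079] (by decide +kernel))
noncomputable def rh0949a8241bb3b8b9 : CRef := CRef.mk (Pat.mk 0x40000000e000000180000002000000000 0xe7000000fe0000001f0000003300000002 6 8) 0 0 (step_sound _ 100 [rh3810f46837bebff9, (rh5a05909f84352d1f.shift 0 1), (rh9115c4bb33f193b6.shift 0 2), (rhe3060b190bc0bc78.shift 0 3)] (by decide +kernel))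
noncomputable def rha8c591e8c7effe8c : CRef := CRef.mk (Pat.mk 0xb0000000c00000008 0x140000001c0000001c000000180000000f0000000c0000000c 6 5) 0 0 (step_sound _ 99 [(rh32431e66bbf434a4.shift 2 0), rha1364968fa11515d, rhddcd04bb31546311] (by decide +kernel))
noncomputable def rhcb28190bac0fc28e : CRef := CRef.mk (Pat.mk 0xe000000040000000000000004 0x730000003e000000740000000400000004 6 7) 0 0 (step_sound _ 129 [(rh4a0cb3a9508b05dd.shift 0 2), (rh9e07f76261b05888.shift 1 0)] (by decide +kernel))
noncomputable def rhd6e9327be8e67ba6 : CRef := CRef.mk (Pat.mk 0x20000001e000000140000000000000010 0xa0000000f0000003e0000001e000000140000001000000010 6 6) 0 0 (step_sound _ 131 [(rh5ecaee9efe4ee338.shift 0 2), (rh9e07f76261b05888.shift 3 0)] (by decide +kernel))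
noncomputable def rh394e80a462af5b2f : CRef := CRef.mk (Pat.mk 0x1e00000000 0xe70000007e000000e0 6 8) 0 0 (step_sound _ 65 [(rh0786c19de25163c7.shift 1 0), (rh3244c3cc8379b070.shift 0 1)] (by decide +kernel))
noncomputable def rh0eb609a31f059828 : CRef := CRef.mk (Pat.mk 0x80000000e000000040000000000000010 0xf80000007e000000f70000001000000010 6 8) 0 0 (step_sound _ 100 [(rh3fc3a7fb6866dcd4.shift 1 2), (rhaf9f2efc81a8312b.shift 0 2), (rhdb89fb63ff941e36.shift 1 0), (rhfa35e196e150edb4.shift 1 2)] (by decide +kernel))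
noncomputable def rhcdeeee30b5ae227a : CRef := CRef.mk (Pat.mk 0x1c00000008 0x1f0000000fe000001ef 6 9) 0 0 (step_sound _ 37 [(rh3fc3a7fb6866dcd4.shift 2 0), rh7654d7b92c96fe12, (rhaf9f2efc81a8312b.shift 1 0), (rhfa35e196e150edb4.shift 2 0)] (by decide +kernel))
noncomputable def rh6e58a0bd8960d1a6 : CRef := CRef.mk (Pat.mk 0xe000000000000000000000010 0x7f0000003f000000700000001000000010 6 7) 0 0 (step_sound _ 100 [rhaf3a0c6b30898709, (rhb18e6c78a554867d.shift 0 3), (rhe401600d466b97cd.shift 0 2), rhea2ba495190a41d9] (by decide +kernel))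
noncomputable def rh78660c5996feb7cd : CRef := CRef.mk (Pat.mk 0x120000001e0000000a00000000 0x160000003f0000001e0000001e0000000e00000006 6 6) 0 0 (step_sound _ 132 [(rh5c5e593799055d58.shift 3 1), rhe45dd2b38264961f] (by decide +kernel))
noncomputable def rh6587dac249355e45 : CRef := CRef.mk (Pat.mk 0xc00000008000000180000001800000000 0xc0000000e0000001f0000001f00000007 6 5) 0 0 (step_sound _ 34 [rh0f98f872afc8859e, (rh932754581e0f4330.shift 2 0)] (by decide +kernel))
noncomputable def rhf0de6c8aa2cd780d : CRef := CRef.mk (Pat.mk 0x800000008000000180000001800000000 0x40000000c0000000c0000001c0000001f0000000f 6 5) 0 0 (step_sound _ 130 [(rh50fbb5868c909700.shift 2 1), rh9d657a319ec62884] (by decide +kernel))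
noncomputable def rh81e6a49f359d83b3 : CRef := CRef.mk (Pat.mk 0x800000008000000180000001800000000 0x140000001f0000007c000000180000001800000008 6 7) 0 0 (step_sound _ 132 [(rh2f68792b6b779e96.shift 3 1), rhe09f32ff8ec20c09] (by decide +kernel))
noncomputable def rh8e3f3393eb4acc90 : CRef := CRef.mk (Pat.mk 0x800000008000000180000001000000000 0x140000003c0000000f000000380000001f0000000c 6 6) 0 0 (step_sound _ 35 [rh5ee4dc8825dcefa0, rh6fae963f33cfdfd7] (by decide +kernel))
noncomputable def rhd71c70b35e3e9b0e : CRef := CRef.mk (Pat.mk 0xc000000040000000c0000000c 0x120000007f0000003f0000000c0000000c 6 7) 0 0 (step_sound _ 97 [(rh50fbb5868c909700.shift 1 0), rh640c5ac187e4b622] (by decide +kernel))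
noncomputable def rhe5e7278886a4eb25 : CRef := CRef.mk (Pat.mk 0x10000000e000000000000002000000000 0xe30000007e000000700000002000000020 6 8) 0 0 (step_sound _ 100 [(rh3f8766e6ecb455ce.shift 0 3), (rhff137c455409f0e3.shift 1 0)] (by decide +kernel))
noncomputable def rh39a5fc9fbe775ba1 : CRef := CRef.mk (Pat.mk 0x1800000070000000000000004000000000 0x2000000020000000780000007f000000ef0000004000000040 6 8) 0 0 (step_sound _ 99 [(rh00c1a02c588da1b0.shift 3 0), (rh185f35b8bd8ec37f.shift 1 2), (rh5b460b71d8952ca9.shift 0 2), (rh9f6be1258f06c13a.shift 2 0), (rhcef93a29c93c96c9.shift 0 2)] (by decide +kernel))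
noncomputable def rh3861b505b4ef0eb0 : CRef := CRef.mk (Pat.mk 0xe000000180000000000000020 0x340000003c000000ff000000fe0000001b0000003200000030 6 8) 0 0 (step_sound _ 100 [(rh36095876875a1ad2.shift 0 2), (rh3d37fac41a298d1a.shift 3 0), (rh44dd78dd79fc4e0b.shift 0 1)] (by decide +kernel))
noncomputable def rhc9f2a621b3995582 : CRef := CRef.mk (Pat.mk 0xe000000180000000000000028 0x2000000028000000f8000000fe0000001f0000003800000038 6 8) 0 0 (step_sound _ 100 [(rh63bb75a038171f49.shift 1 0), (rh9115c4bb33f193b6.shift 0 2), (rhbb7d1d4d2314f280.shift 3 0), (rhceec69a66e13077c.shift 1 0)] (by decide +kernel))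
noncomputable def rh7a59a6a566c7f120 : CRef := CRef.mk (Pat.mk 0xc0000000c0000000e00000008 0x2000000130000001f0000003f0000000e00000008 6 6) 0 0 (step_sound _ 68 [(rh18965a982d73c794.shift 1 1), rhc1418a9f225cae75] (by decide +kernel))
noncomputable def rhd1528521a4a2f359 : CRef := CRef.mk (Pat.mk 0x380000001c0000001000000000 0x2200000022000000770000003f0000001c0000001400000004 6 7) 0 0 (step_sound _ 98 [(rh49606a42a30c7ac4.shift 2 1), rhaed54c24fb91f24a] (by decide +kernel))
noncomputable def rha5b9eb9647a4db41 : CRef := CRef.mk (Pat.mk 0x20000000600000006000000000000000000000000 0x600000006000000060000000600000006000000030000000300000003 6 3) 0 0 (step_sound _ 193 [(rh2145e1d24b96a57e.shift 1 3), rhb1c562e40ee61608] (by decide +kernel))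
noncomputable def rh73da6960e7937a09 : CRef := CRef.mk (Pat.mk 0xe0000000600000004 0x2000000730000003e0000007600000004 6 7) 0 0 (step_sound _ 97 [(rh2145e1d24b96a57e.shift 1 0), (rh9c94213f6896c74a.shift 0 1)] (by decide +kernel))
noncomputable def rh0c3b3bf078f4b123 : CRef := CRef.mk (Pat.mk 0x180000000e000000180000001000000000 0x30000000340000001f0000001e0000001f0000003300000022 6 6) 0 0 (step_sound _ 100 [rh1128095e46e23146, (rha2b37da49d51aaf0.shift 0 2), rhc1307820daa2ac22] (by decide +kernel))
noncomputable def rhf8c8b70d21e8317b : CRef := CRef.mk (Pat.mk 0x80000000c00000038000000100000000000000000 0x40000000c0000000c0000003e000000770000000600000002 6 7) 0 0 (step_sound _ 98 [(rh9c40a739b57d6d20.shift 1 1), (rha03f6e28ea70fc7d.shift 1 2), rhf8430021531fa0bc] (by decide +kernel))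
noncomputable def rh1f093de53970941d : CRef := CRef.mk (Pat.mk 0x2000000060000000c000000140000000000000000 0x80000000b0000007e0000003f0000001c0000001000000010 6 7) 0 0 (step_sound _ 100 [rh99ab77534332cb56, (rhf48373e13d2bc128.shift 1 3)] (by decide +kernel))
noncomputable def rhc794fbc1c29a23e2 : CRef := CRef.mk (Pat.mk 0x1c000000080000002000000000 0x1000000010000001f0000000fe000001ef0000002000000020 6 9) 0 0 (step_sound _ 101 [(rh00c1a02c588da1b0.shift 2 0), (rh352b7f91eba0c81f.shift 2 2), (rh3fc3a7fb6866dcd4.shift 2 2), (rh7654d7b92c96fe12.shift 0 2)] (by decide +kernel))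
noncomputable def rhef1f5d926b045a67 : CRef := CRef.mk (Pat.mk 0x800000018000000100000005000000000 0x2000000020000001ff0000007c000000fe0000005000000040 6 9) 0 0 (step_sound _ 101 [(rh23e6605cc8d1a6a0.shift 1 0), (rh5266926b0536d92e.shift 2 1), (rha9fbfd4bb8cf890b.shift 0 3), (rhed36f541567aa280.shift 2 0)] (by decide +kernel))
noncomputable def rhc0c55197dfa34199 : CRef := CRef.mk (Pat.mk 0x2000000020000000b000000020000000800000000 0x10000000120000001a0000001b0000001f0000000c00000008 6 5) 0 0 (step_sound _ 66 [(rh55afc6a59410cf00.shift 1 1), rhbdf85ea51b311ca1] (by decide +kernel))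
noncomputable def rhdc692b1e23a4285d : CRef := CRef.mk (Pat.mk 0x1c0000001800000000 0x400000004000000070000003f0000001b00000002 6 6) 0 0 (step_sound _ 65 [rh21460d2d48a35cb8, (rhb739f4f82bb681b4.shift 0 1)] (by decide +kernel))
noncomputable def rhf76fb4f39d076bb4 : CRef := CRef.mk (Pat.mk 0xc0000000700000006000000040000001000000000 0x200000003c000000370000003e0000003c0000001800000010 6 6) 0 0 (step_sound _ 68 [rh1f13ccc4b6919105, (rh6a56790be92093bf.shift 1 1)] (by decide +kernel))
noncomputable def rhc850ef9393baf884 : CRef := CRef.mk (Pat.mk 0x6000000030000000200000000000000000000000000000000 0x400000006000000030000000300000006000000070000000700000001 6 3) 0 0 (step_sound _ 97 [(rh2f68792b6b779e96.shift 1 3), rhbaff7ec0fcc038ba] (by decide +kernel))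
noncomputable def rh6c87c5511eb589fc : CRef := CRef.mk (Pat.mk 0xb0000000c00000008 0x140000001c0000001c0000001e0000000b0000000c0000000c 6 5) 0 0 (step_sound _ 99 [(rh32431e66bbf434a4.shift 2 0), (rh769be3fe24eee174.shift 2 0), rha78afc937ca94db4, (rhd2c74283b7b6e6b8.shift 2 0)] (by decide +kernel))
noncomputable def rhdbf4b4bf8295a2f0 : CRef := CRef.mk (Pat.mk 0x80000000f0000000000000004 0x140000001c0000001c000000080000000f0000001c00000004 6 5) 0 0 (step_sound _ 35 [(rhb77bfac3e9efecea.shift 2 0), (rhe25b0a99195a5d59.shift 0 1)] (by decide +kernel))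
noncomputable def rhf5ee445178e6ace5 : CRef := CRef.mk (Pat.mk 0x100000007000000000000000800000000 0x14000000140000007f0000003f000000780000000800000008 6 7) 0 0 (step_sound _ 99 [rh00c1a02c588da1b0, (rh167fff566cb27b75.shift 0 2), rh1bc2b81e7d13c3fe, rh4b4ad80ec7facee3] (by decide +kernel))
noncomputable def rh459a846e13271890 : CRef := CRef.mk (Pat.mk 0x200000002000000000000000500000000 0x500000007000000070000000200000002000000060000000700000005 6 3) 0 0 (step_sound _ 65 [rh2818863d77d69ed0, (rhba97f7f4ade5e136.shift 0 1)] (by decide +kernel))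
noncomputable def rh7e8fb9fb3378508f : CRef := CRef.mk (Pat.mk 0x1c000000000000004000000000 0x1c7000000fe000000e70000004000000040 6 9) 0 0 (step_sound _ 101 [(rh592c7139d2c44767.shift 0 2), (rhff137c455409f0e3.shift 2 0)] (by decide +kernel))
noncomputable def rhf8f333fb0f48c526 : CRef := CRef.mk (Pat.mk 0x800000018000000000000005000000000 0x20000000ef0000007e000000ef0000007000000050 6 8) 0 0 (step_sound _ 101 [(rh23e6605cc8d1a6a0.shift 1 0), (rh48cfe19d95e60fa3.shift 1 2), rh5839cc99f978e997, (rhb9af475e7a52204a.shift 1 2), (rhed36f541567aa280.shift 2 0)] (by decide +kernel))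
noncomputable def rh18e67e1502989bb6 : CRef := CRef.mk (Pat.mk 0x700000002000000020 0x40000000cf0000007e000000ef00000020 6 8) 0 0 (step_sound _ 67 [(rh3918eeb6c53434d8.shift 0 1), (rh592c7139d2c44767.shift 1 1), (rhbbda3e5cf400e6dd.shift 3 0)] (by decide +kernel))
noncomputable def rh87a6be49fed7a747 : CRef := CRef.mk (Pat.mk 0x700000004000000000000001400000000 0x780000003f0000003c0000001c0000001c00000014 6 7) 0 0 (step_sound _ 131 [(rh63bb75a038171f49.shift 0 1), (rh66c438da7fa185e0.shift 0 1), rhad58962ad5671817, rhca00b155e850b35d] (by decide +kernel))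
noncomputable def rh56242b2463d35484 : CRef := CRef.mk (Pat.mk 0xf000000040000000000000010 0x180000001c0000001c0000000f0000001c0000001800000018 6 5) 0 0 (step_sound _ 67 [(rh3d37fac41a298d1a.shift 2 0), (rhe25b0a99195a5d59.shift 0 2)] (by decide +kernel))
noncomputable def rh9d3f99fd4a85f332 : CRef := CRef.mk (Pat.mk 0x40000000700000002000000000000000a00000000 0x60000000600000006000000070000001e0000000c0000000e0000000a 6 5) 0 0 (step_sound _ 194 [rh1b7eaa8b0132fa7d, (rh5c5e593799055d58.shift 1 3)] (by decide +kernel))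
noncomputable def rh7befe625dd3a230b : CRef := CRef.mk (Pat.mk 0xe00000018000000000000002800000000 0x700000003e0000001f000000300000003800000028 6 7) 0 0 (step_sound _ 132 [rh2794e15859327051, (rh3b00e9e9432b8f40.shift 0 3), (rh996a252bb6676df7.shift 1 0)] (by decide +kernel))
noncomputable def rh7f7021bf59afe605 : CRef := CRef.mk (Pat.mk 0x40000001800000000 0x1cf000000fe000001f7 6 9) 0 0 (step_sound _ 37 [(rh167fff566cb27b75.shift 2 0), (rh4df35fbc131eb4ae.shift 0 1), rh8ceb03631decf9ab] (by decide +kernel))
noncomputable def rh38f08f57ceb3f67e : CRef := CRef.mk (Pat.mk 0x40000001800000000 0x1ff000000fe000001c7 6 9) 0 0 (step_sound _ 37 [(rh167fff566cb27b75.shift 2 0), (rh4df35fbc131eb4ae.shift 0 1), rhd98a7adcdf503a83] (by decide +kernel))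
noncomputable def rh0ebf403d5040d21a : CRef := CRef.mk (Pat.mk 0x10000000e000000000000000800000000 0x4000000040000000f0000001f000000380000000800000008 6 6) 0 0 (step_sound _ 100 [rh054dec82cfa47828, (rh3f8766e6ecb455ce.shift 0 3)] (by decide +kernel))
noncomputable def rhc324a2ca59128f3e : CRef := CRef.mk (Pat.mk 0x20000001c0000000000000000 0x1000000010000000330000001f0000003800000008 6 6) 0 0 (step_sound _ 65 [(rh3244c3cc8379b070.shift 0 2), rha4cf9251629f1722] (by decide +kernel))
noncomputable def rh720fd51c18c195f2 : CRef := CRef.mk (Pat.mk 0xe0000001c000000000000001000000000 0x14000000370000003e0000001c000000180000001800000010 6 6) 0 0 (step_sound _ 4 [(rh2613c889e411427e.shift 3 0), rheafe5eb93221ef2e] (by decide +kernel))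
noncomputable def rh01ef127f423122a8 : CRef := CRef.mk (Pat.mk 0x1c0000001800000000 0x400000004000000070000003f0000001b00000002 6 6) 0 0 (step_sound _ 65 [rh44dd78dd79fc4e0b, (rhb739f4f82bb681b4.shift 0 1)] (by decide +kernel))
noncomputable def rh31ae38a86d43f11a : CRef := CRef.mk (Pat.mk 0x2000000030000000200000004 0x400000007000000070000000300000003000000030000000600000004 6 3) 0 0 (step_sound _ 129 [(rh69f0587a21bb077f.shift 0 1), (rhd3458b32566d63f7.shift 1 0)] (by decide +kernel))
noncomputable def rh6814aacdcb476980 : CRef := CRef.mk (Pat.mk 0x800000030000000000000005000000000 0x20000000ef0000007e000000ef0000007000000050 6 8) 0 0 (step_sound _ 99 [(rh23e6605cc8d1a6a0.shift 1 0), (rh48cfe19d95e60fa3.shift 1 2), rh5839cc99f978e997, (rhb9af475e7a52204a.shift 1 2), (rhed36f541567aa280.shift 2 0)] (by decide +kernel))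
noncomputable def rh33c0d143527c3000 : CRef := CRef.mk (Pat.mk 0x1e00000018000000000000002800000000 0x200000002000000030000001e0000001f000000340000003800000028 6 6) 0 0 (step_sound _ 97 [rh2b23394b6d2f5f0e, (rheb0810cc63b001d8.shift 0 3)] (by decide +kernel))
noncomputable def rhe2655fd156947b4e : CRef := CRef.mk (Pat.mk 0xe0000000c0000000000000010 0x10000000380000003e0000000f0000001800000018 6 6) 0 0 (step_sound _ 100 [(rh4dc133ee0ba1420a.shift 0 2), (rhd82838cc02270304.shift 1 0), rhded4ca1a9039843f] (by decide +kernel))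
noncomputable def rh70650bf695bb2144 : CRef := CRef.mk (Pat.mk 0x400000018000000000000002000000000 0x10000001fe000000fe000001f70000002000000020 6 9) 0 0 (step_sound _ 101 [(rh167fff566cb27b75.shift 2 2), (rh8ceb03631decf9ab.shift 0 2), (rha2c11a6700dd436f.shift 1 0)] (by decide +kernel))
noncomputable def rh19fd69f5fe4a3fd9 : CRef := CRef.mk (Pat.mk 0xe000000040000001000000000 0x10000000300000003f0000003f0000001800000008 6 6) 0 0 (step_sound _ 100 [rh0837bf74ccc9ef48, (rhaf9f2efc81a8312b.shift 0 2)] (by decide +kernel))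
noncomputable def rh3d6bc458fa6dc5b2 : CRef := CRef.mk (Pat.mk 0x40000000c0000000400000018000000000000000000000000 0x40000000c0000003c0000001f00000018000000100000001000000010 6 6) 0 0 (step_sound _ 131 [(rh2145e1d24b96a57e.shift 2 3), rhca18530d0c5826a6] (by decide +kernel))
noncomputable def rh237c76b462de98f7 : CRef := CRef.mk (Pat.mk 0x40000000400000006000000020000000800000000 0x40000007c0000003f0000007b0000000800000008 6 7) 0 0 (step_sound _ 99 [(rh352b7f91eba0c81f.shift 0 2), (rh3b5346b2e316d790.shift 2 0), rhf97d6b5e6e25a95d] (by decide +kernel))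
noncomputable def rhd739756e6a847ab0 : CRef := CRef.mk (Pat.mk 0x80000000c000000000000001400000000 0x2000000060000000f0000003c0000000c0000001c0000001c 6 6) 0 0 (step_sound _ 66 [(rh71222050f2c63a3a.shift 2 0), rh9cb9ad886e31bed1] (by decide +kernel))
noncomputable def rheef28b9391eb94b2 : CRef := CRef.mk (Pat.mk 0x400000006000000000000000200000000 0x1000000070000000700000006000000060000000600000006 6 3) 0 0 (step_sound _ 65 [(rh71222050f2c63a3a.shift 1 0), rh9fdf4b366b1cf3c3] (by decide +kernel))
noncomputable def rhe0f3df1c6efaec8e : CRef := CRef.mk (Pat.mk 0x1c000000000000001000000000 0x2800000028000000ff0000007e000000100000001000000010 6 8) 0 0 (step_sound _ 101 [(rh24bf37d8527c05cd.shift 1 0), (rh4c622fddc53a5f99.shift 0 3), (rhb18e6c78a554867d.shift 1 3), (rhb705031692dfe65f.shift 2 0)] (by decide +kernel))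
noncomputable def rhe8dbc29e18a5d730 : CRef := CRef.mk (Pat.mk 0x3c00000000 0x3e0000007f00000007 6 7) 0 0 (step_sound _ 66 [(rh3244c3cc8379b070.shift 1 1), rhd25a9475adb4a3f0] (by decide +kernel))
noncomputable def rhe4094e015e1deb92 : CRef := CRef.mk (Pat.mk 0x20000001e0000000000000000 0x2000000030000003e0000003f0000000400000004 6 6) 0 0 (step_sound _ 98 [rha783ca2d6203dd2c, (rhf48373e13d2bc128.shift 1 2)] (by decide +kernel))
noncomputable def rh10b9c8cdfe6c2114 : CRef := CRef.mk (Pat.mk 0x3800000000000000200000000000000000 0x30000000700000003e00000077000000300000003000000020 6 7) 0 0 (step_sound _ 130 [(rh0837bf74ccc9ef48.shift 1 1), (rh4b4ad80ec7facee3.shift 2 1), (rh9e97bba44c1b13e4.shift 0 3), (rheb100aab8ed4573d.shift 1 0)] (by decide +kernel))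
noncomputable def rh85920e6f292dc8fe : CRef := CRef.mk (Pat.mk 0x38000000000000002800000000 0x240000006e0000003e0000007f0000003800000018 6 7) 0 0 (step_sound _ 98 [(rh0837bf74ccc9ef48.shift 1 0), (rh185f35b8bd8ec37f.shift 0 2), (rhd0f2e39b54bcbf0d.shift 1 0)] (by decide +kernel))
noncomputable def rhd4d6bd0801aca29c : CRef := CRef.mk (Pat.mk 0x1c000000000000001400000000 0x10000000330000003f0000003f0000001c0000000c 6 6) 0 0 (step_sound _ 97 [rh0837bf74ccc9ef48, rh6de94a1805bc67e2] (by decide +kernel))
noncomputable def rh0386a6bf77289b72 : CRef := CRef.mk (Pat.mk 0x40000000c000000040000001400000000 0x180000003c0000000f0000000c0000001c00000018 6 6) 0 0 (step_sound _ 131 [(rh2f68792b6b779e96.shift 2 1), rh79ea95e000807b70] (by decide +kernel))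
noncomputable def rhfb657409fbb16679 : CRef := CRef.mk (Pat.mk 0x200000002000000020000000200000000 0x700000007000000070000000300000003000000030000000200000002 6 3) 0 0 (step_sound _ 161 [rh2778abb7d7c839bf, (rh3ca48e2a6d60153d.shift 0 1), (rhc85cc95794737cf7.shift 0 2)] (by decide +kernel))
noncomputable def rhff4bed93a55221e9 : CRef := CRef.mk (Pat.mk 0x40000000400000004000000140000000000000000 0x400000006000000070000003f0000001c0000000c00000004 6 6) 0 0 (step_sound _ 67 [(rh55afc6a59410cf00.shift 2 1), rh72188b9ba8e7fdaf] (by decide +kernel))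
noncomputable def rh50fa3c6f09d00c13 : CRef := CRef.mk (Pat.mk 0x6000000020000000200000000 0x1000000070000000700000006000000060000000600000006 6 3) 0 0 (step_sound _ 130 [(rh71222050f2c63a3a.shift 1 0), rh9fdf4b366b1cf3c3] (by decide +kernel))
noncomputable def rhc6499eeca57f533a : CRef := CRef.mk (Pat.mk 0x1c00000008 0x1e0000000fe000001ff 6 9) 0 0 (step_sound _ 37 [rh185f35b8bd8ec37f, (rh352b7f91eba0c81f.shift 2 0), (rhaf9f2efc81a8312b.shift 1 0), (rhdbe30b89b8872db3.shift 2 0)] (by decide +kernel))
noncomputable def rhc51caf03b5f99c45 : CRef := CRef.mk (Pat.mk 0x700000002000000020 0x4000000040000000cf0000007e0000006f00000020 6 8) 0 0 (step_sound _ 67 [(rh3918eeb6c53434d8.shift 0 1), (rh775ca1963e850b80.shift 1 1), (rh94246470f0e6fdf7.shift 3 0)] (by decide +kernel))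
noncomputable def rh26e33a847ca2ed68 : CRef := CRef.mk (Pat.mk 0x400000004000000050000000600000000 0x400000004000000770000003e00000078 6 7) 0 0 (step_sound _ 35 [rh0786c19de25163c7, (rh55afc6a59410cf00.shift 2 0)] (by decide +kernel))
noncomputable def rh54680695116c84db : CRef := CRef.mk (Pat.mk 0x80000000f8000000000000004000000000 0x87000000fe000000670000004000000040 6 8) 0 0 (step_sound _ 70 [(rh36eba2a3de447758.shift 0 2), (rh71222050f2c63a3a.shift 6 0)] (by decide +kernel))
noncomputable def rh7ad82e5e8d3f9d02 : CRef := CRef.mk (Pat.mk 0x1e00000004 0x730000007e000000ec 6 8) 0 0 (step_sound _ 65 [(rh3244c3cc8379b070.shift 0 1), (rhdbe30b89b8872db3.shift 1 0)] (by decide +kernel))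
noncomputable def rha6cbcd11f918f69d : CRef := CRef.mk (Pat.mk 0x7000000040 0x1f000000fe0000007f 6 8) 0 0 (step_sound _ 35 [(rh0de499e0455c9c14.shift 1 0), (rh47c07cd0cc865f65.shift 2 0), (rh775ca1963e850b80.shift 1 0), rh88c620441a3a17ea, (rhd1d05263fabc0227.shift 1 0)] (by decide +kernel))
noncomputable def rhfffcc3b8afe84516 : CRef := CRef.mk (Pat.mk 0x20000000e000000160000001000000000 0xc0000000e0000000e0000001e0000003700000006 6 6) 0 0 (step_sound _ 34 [(rh7b1f1fb55310c477.shift 1 0), rh9928b4a2261f5f8e] (by decide +kernel))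
noncomputable def rhf938f68fcb666a39 : CRef := CRef.mk (Pat.mk 0x28000000200000002000000000 0x1000000010000000370000003e000000670000002000000020 6 7) 0 0 (step_sound _ 100 [(rh3918eeb6c53434d8.shift 0 2), (rhb1a251d9bff81766.shift 4 0)] (by decide +kernel))
noncomputable def rhace475a8c2ca34aa : CRef := CRef.mk (Pat.mk 0x20000000e00000002 0xe30000007e000000e6 6 8) 0 0 (step_sound _ 36 [(rh3244c3cc8379b070.shift 0 1), (rh3d54e7f933686048.shift 1 0)] (by decide +kernel))
noncomputable def rhf5c641a25b1aa4da : CRef := CRef.mk (Pat.mk 0x280000002800000028000000200000002000000000 0x5000000070000000700000002f000000fc00000038000000300000002000000020 6 8) 0 0 (step_sound _ 197 [(rh1741680720c097b4.shift 4 3), (rh771d065bdc85bf2d.shift 4 2), rh8c34028495549b24, (rhde24d9cffc396911.shift 2 2)] (by decide +kernel))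
noncomputable def rh13c3e9798d92554f : CRef := CRef.mk (Pat.mk 0x6000000050000000400000004 0x780000003e000000770000000400000004 6 7) 0 0 (step_sound _ 99 [(rh2f68792b6b779e96.shift 2 0), (rhf2b3bcf1454375d8.shift 0 2)] (by decide +kernel))
noncomputable def rhad247eb3373f4ddc : CRef := CRef.mk (Pat.mk 0xf000000020 0x1f000000fe0000006f 6 8) 0 0 (step_sound _ 35 [rh3918eeb6c53434d8, (rh775ca1963e850b80.shift 1 0), (rhd5eb272e07a4e288.shift 2 1), (rhfcb55d5dc3b78d1f.shift 1 0)] (by decide +kernel))
noncomputable def rh12ede8e9f54410a0 : CRef := CRef.mk (Pat.mk 0x400000007000000040 0xc70000007e00000067 6 8) 0 0 (step_sound _ 35 [(rh33e738c4ed385b9f.shift 3 1), rh88c620441a3a17ea] (by decide +kernel))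
noncomputable def rhbf803a3abd86bf2e : CRef := CRef.mk (Pat.mk 0x1000000014000000140000001c 0x2800000038000000760000007f0000001c 6 7) 0 0 (step_sound _ 101 [(rh2f68792b6b779e96.shift 4 0), rhfa73212a9c324ac2] (by decide +kernel))
noncomputable def rha5c5af91b3280ddd : CRef := CRef.mk (Pat.mk 0x38000000080000002800000000 0x1000000010000000f70000007e000000780000002800000020 6 8) 0 0 (step_sound _ 69 [(rh1c912726d79010c0.shift 0 2), (rh274052baa202580c.shift 3 0), (rhed5eaf5283335fff.shift 2 0)] (by decide +kernel))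
noncomputable def rhde6380c7d0dbe181 : CRef := CRef.mk (Pat.mk 0x28000000200000002000000000 0x10000000770000003e000000770000002000000020 6 7) 0 0 (step_sound _ 100 [(rh1c912726d79010c0.shift 0 2), (rh3918eeb6c53434d8.shift 0 2), (rh7b24c4ccc068b0b2.shift 4 0)] (by decide +kernel))
noncomputable def rh47cc8c896ef8b20e : CRef := CRef.mk (Pat.mk 0x28000000200000002000000020 0x170000003e000000670000002000000020 6 7) 0 0 (step_sound _ 100 [(rh3918eeb6c53434d8.shift 0 2), (rh50fbb5868c909700.shift 4 0)] (by decide +kernel))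
noncomputable def rhbed40c11c983f953 : CRef := CRef.mk (Pat.mk 0xe0000002000000000 0x400000004000000070000003e0000003300000002 6 6) 0 0 (step_sound _ 68 [rh21460d2d48a35cb8, (rh96851dee118c1ba3.shift 1 1)] (by decide +kernel))
noncomputable def rh16994f33d7a3fc36 : CRef := CRef.mk (Pat.mk 0x70000000180000005000000000 0x48000000cf0000007f000000f80000007000000020 6 8) 0 0 (step_sound _ 99 [(rh04adde65229dd8ca.shift 0 2), (rh0837bf74ccc9ef48.shift 2 0), (rh309fd0c3d364cd61.shift 2 1)] (by decide +kernel))
noncomputable def rh5017d284c18e05b8 : CRef := CRef.mk (Pat.mk 0xc0000001a 0xe0000000ff0000001f 6 8) 0 0 (step_sound _ 33 [rhb428d2fad45065ca, rhb739f4f82bb681b4] (by decide +kernel))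
noncomputable def rhe16948f0ddbd3cef : CRef := CRef.mk (Pat.mk 0x80000000a000000080000000a00000000 0xc0000000c0000000f0000003c0000000e00000006 6 6) 0 0 (step_sound _ 34 [(rh932754581e0f4330.shift 2 0), rhd7b534ee9560bf73] (by decide +kernel))
noncomputable def rh716f496a6f55b076 : CRef := CRef.mk (Pat.mk 0x2000000060000000200000001 0x500000007000000070000000200000002000000060000000700000001 6 3) 0 0 (step_sound _ 129 [(rh14e0829dc73b6804.shift 0 1), rh79877ebd3ef475dd] (by decide +kernel))
noncomputable def rh07ba56e210b48f89 : CRef := CRef.mk (Pat.mk 0x28000000200000002000000000 0x10000000370000003e000001f70000002000000020 6 9) 0 0 (step_sound _ 100 [(rh7b24c4ccc068b0b2.shift 4 0), (rhc21a95c499b3efdb.shift 2 2), (rhc92c11e8da6c894f.shift 0 2)] (by decide +kernel))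
noncomputable def rh5579856b848a2cdf : CRef := CRef.mk (Pat.mk 0xc0000000400000005000000000000000000000000 0x40000000c0000003e000000070000001e0000000e00000008 6 6) 0 0 (step_sound _ 66 [(rh8c3839f9b9075f23.shift 2 0), (rh934b7b499abbb98b.shift 0 1), (rhb435343cd2d734b7.shift 0 1)] (by decide +kernel))
noncomputable def rh32ff24a6c80a0563 : CRef := CRef.mk (Pat.mk 0xe000000100000000a0000000000000000 0xc0000000f000000180000000e0000003c00000014 6 6) 0 0 (step_sound _ 99 [(rh9914f509b9c412d1.shift 1 0), (rhb739f4f82bb681b4.shift 0 3)] (by decide +kernel))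
noncomputable def rh3a00b09c29522a3f : CRef := CRef.mk (Pat.mk 0x100000001e000000000000000a00000000 0xc0000001c0000001f0000000c0000000e0000000e 6 5) 0 0 (step_sound _ 67 [(rh71222050f2c63a3a.shift 3 0), rhb2ca76bdaa5cb453] (by decide +kernel))
noncomputable def rh021693bda831e090 : CRef := CRef.mk (Pat.mk 0x3800000000000000200000000000000000 0x10000000370000003e00000077000000200000002000000020 6 7) 0 0 (step_sound _ 130 [(rh185f35b8bd8ec37f.shift 0 3), (rh592c7139d2c44767.shift 0 3), (rh6a49bc54697967bc.shift 1 1), (rheb100aab8ed4573d.shift 1 0)] (by decide +kernel))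
noncomputable def rhdf608f1428508d5a : CRef := CRef.mk (Pat.mk 0x1a000000000000000800000000 0x40000007f0000003f0000001c0000000800000008 6 7) 0 0 (step_sound _ 98 [rhadc0edfe7a5300a5, (rhb18e6c78a554867d.shift 0 3), rhe3b266185d7259e4] (by decide +kernel))
noncomputable def rh436a20f3636baa42 : CRef := CRef.mk (Pat.mk 0x80000000e000000080000000a00000000 0x60000000f0000003e0000000c0000000e00000006 6 6) 0 0 (step_sound _ 130 [rh367329fa3e0cc135, (rh50fbb5868c909700.shift 2 1)] (by decide +kernel))
noncomputable def rh1726a00b0a8befd0 : CRef := CRef.mk (Pat.mk 0x200000002000000020000000200000000 0x500000007000000070000000200000002000000030000000300000001 6 3) 0 0 (step_sound _ 32 [rh932754581e0f4330, (rh9fb9dc683e09b5f3.shift 0 1)] (by decide +kernel))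
noncomputable def rha8ab159894e8bb16 : CRef := CRef.mk (Pat.mk 0x80000000e000000080000000a00000000 0xa0000000f0000003e0000000c0000000e00000006 6 6) 0 0 (step_sound _ 34 [rh859c9ee6ad8bc40f, (rh932754581e0f4330.shift 2 0)] (by decide +kernel))
noncomputable def rh8c2640c009b1e3a1 : CRef := CRef.mk (Pat.mk 0x40000000c0000001c00000000 0x1c0000003c0000000f0000000c0000001c00000010 6 6) 0 0 (step_sound _ 130 [(rh2145e1d24b96a57e.shift 2 1), rhefddf76ae3f6b005] (by decide +kernel))
noncomputable def rhe98fd16c4771a217 : CRef := CRef.mk (Pat.mk 0x3c00000000 0x3c000000ff00000007 6 8) 0 0 (step_sound _ 1 [(rh80fcd6d0a18cb2dd.shift 1 0), rhe37fe716e6715002] (by decide +kernel))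
noncomputable def rh39423d01016a0ed7 : CRef := CRef.mk (Pat.mk 0xe000000000000000a000000000000000000000000 0x80000001f0000007c0000000e0000003c0000001c00000014 6 7) 0 0 (step_sound _ 131 [(rh8ee80cc30e93a344.shift 0 4), (rhc21a95c499b3efdb.shift 0 4), (rhe6bb7469ca7a5510.shift 1 0)] (by decide +kernel))
noncomputable def rh7d6764a98cb57205 : CRef := CRef.mk (Pat.mk 0x1e00000010000000140000000000000000 0x100000001f000000180000001c0000007800000038 6 7) 0 0 (step_sound _ 99 [(rhb739f4f82bb681b4.shift 0 3), (rhd27d079d843ea4ee.shift 2 0)] (by decide +kernel))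
noncomputable def rhb4950f4716863f45 : CRef := CRef.mk (Pat.mk 0xf000000000000000a000000000000000000000000 0xa0000000f0000001c0000000e0000003c0000001c00000014 6 6) 0 0 (step_sound _ 131 [(rh6af6011101c780ed.shift 1 0), (rhe25b0a99195a5d59.shift 0 4)] (by decide +kernel))
noncomputable def rh857dd560c3c1238f : CRef := CRef.mk (Pat.mk 0x1e00000010000000140000000000000000 0x40000001f000000180000001c0000007800000038 6 7) 0 0 (step_sound _ 99 [(rh8f2c1515ae91bebc.shift 2 0), (rhb739f4f82bb681b4.shift 0 3)] (by decide +kernel))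
noncomputable def rhaccf78fa08b7e89c : CRef := CRef.mk (Pat.mk 0x30000000600000000000000000000001e00000000 0x20000000330000003e00000010000000380000001e00000008 6 6) 0 0 (step_sound _ 132 [(rh2fe78cc5ca4405d8.shift 0 4), (rhb9e7dc16cdb19528.shift 1 0)] (by decide +kernel))
noncomputable def rh6e991067f38f31fe : CRef := CRef.mk (Pat.mk 0x2000000020000001e00000000 0x5000000070000000700000003000000030000003e0000001e00000003 6 6) 0 0 (step_sound _ 129 [rh2517e74d35111a0d, rh5543c963b98768aa, (rh5bd4bc0c2c48140c.shift 0 1), (rhba97f7f4ade5e136.shift 0 1)] (by decide +kernel))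
noncomputable def rh4cd6e515882e4161 : CRef := CRef.mk (Pat.mk 0x2000000020000001e00000000 0x50000000f0000003e0000001e00000003 6 6) 0 0 (step_sound _ 1 [rhc3022ec33709db8f, rheb0810cc63b001d8] (by decide +kernel))
noncomputable def rhd98f850c0bd2fe54 : CRef := CRef.mk (Pat.mk 0x8000000080000001800000000 0x140000001c0000003c0000000f000000180000001800000008 6 6) 0 0 (step_sound _ 131 [(rh5bd4bc0c2c48140c.shift 2 1), rh5ee4dc8825dcefa0, (rh73f605273a09a9d0.shift 3 1)] (by decide +kernel))
noncomputable def rh8294d25b35cfc6b7 : CRef := CRef.mk (Pat.mk 0xc00000004000000040000000c 0x320000003f0000003f0000000c0000000c 6 6) 0 0 (step_sound _ 97 [(rh50fbb5868c909700.shift 1 0), rhcd6dc254042c6b89] (by decide +kernel))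
noncomputable def rha203b9a7d67110b7 : CRef := CRef.mk (Pat.mk 0x70000000000000005000000000000000000000000 0xa0000000e0000001f0000000700000006000000070000001e0000000e0000000a 6 5) 0 0 (step_sound _ 130 [(rh0a6888916bcef86b.shift 1 0), (rh1e95203857609f80.shift 0 2), rh6af6011101c780ed, (rh7b24c4ccc068b0b2.shift 1 2)] (by decide +kernel))
noncomputable def rhcd79e8c9c13ae031 : CRef := CRef.mk (Pat.mk 0xf000000000000000800000000 0x40000000c0000001c0000000f0000001c0000000c00000004 6 5) 0 0 (step_sound _ 67 [rh1bb94d8bd52411a4, (rhe25b0a99195a5d59.shift 0 2)] (by decide +kernel))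
noncomputable def rhc7a10bd75613c8bb : CRef := CRef.mk (Pat.mk 0x180000001c0000000000000000 0x10000000300000001f0000003f0000000800000008 6 6) 0 0 (step_sound _ 65 [(rh53b3c253cb0c65f4.shift 0 2), rhd2705a941542c9fb] (by decide +kernel))
noncomputable def rh1ef94ac22f50e3da : CRef := CRef.mk (Pat.mk 0xa0000000800000008000000080000000000000000 0x10000000180000001f0000000c00000008000000180000001800000010 6 5) 0 0 (step_sound _ 196 [(rhbaefcd01e0a8bca3.shift 3 2), rhc495326e2c857e32] (by decide +kernel))
noncomputable def rh191d72d0921af821 : CRef := CRef.mk (Pat.mk 0x1000000014000000100000001400000000 0x18000000380000001f000000180000001c0000000c 6 6) 0 0 (step_sound _ 131 [(rh50fbb5868c909700.shift 3 1), rh9d6135dd3cfb3781] (by decide +kernel))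
noncomputable def rh35edc746726d60de : CRef := CRef.mk (Pat.mk 0x38000000200000002000000020 0x4e0000007e000000370000002000000020 6 7) 0 0 (step_sound _ 102 [(rh2efad3051cff7df1.shift 0 2), (rh2f68792b6b779e96.shift 5 0)] (by decide +kernel))
noncomputable def rhe20588eaf211e6c5 : CRef := CRef.mk (Pat.mk 0x1400000010000000100000001000000000 0x2f0000003f00000018000000100000001000000010 6 6) 0 0 (step_sound _ 131 [(rh50fbb5868c909700.shift 3 1), rhc858f8d11360d2e7] (by decide +kernel))
noncomputable def rh49759b6975f15643 : CRef := CRef.mk (Pat.mk 0x2000000020000000200000002000000000000000000000000 0x400000006000000060000000200000002000000070000000700000005 6 3) 0 0 (step_sound _ 194 [(rh2f68792b6b779e96.shift 1 3), rhc94dfb5f501cb051] (by decide +kernel))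
noncomputable def rh76a3494d58f0b603 : CRef := CRef.mk (Pat.mk 0x1e00000010 0xe7000000fe000001d8 6 9) 0 0 (step_sound _ 65 [(rh08169a5fee178f5a.shift 1 0), (rh3244c3cc8379b070.shift 0 1)] (by decide +kernel))
noncomputable def rh964e01d5ed09a4e1 : CRef := CRef.mk (Pat.mk 0x28000000200000002000000020 0x170000003e000000670000002000000020 6 7) 0 0 (step_sound _ 100 [(rh50fbb5868c909700.shift 4 0), (rhc92c11e8da6c894f.shift 0 2)] (by decide +kernel))
noncomputable def rh140d865419277d44 : CRef := CRef.mk (Pat.mk 0x4000000040000000000000003c000000000000005000000000 0x4000000060000000370000003e000000200000007000000050 6 7) 0 0 (step_sound _ 129 [(rh3f8766e6ecb455ce.shift 1 3), rh83a8f53c1a249159] (by decide +kernel))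
noncomputable def rh1e2f98e5639c71ae : CRef := CRef.mk (Pat.mk 0x2000000000000000480000007e0000000000000000 0x2800000078000000580000007f000000d600000010 6 8) 0 0 (step_sound _ 38 [rhb9b294994ad8bf69, (rhe25b0a99195a5d59.shift 3 1)] (by decide +kernel))
noncomputable def rhdd163a199659991c : CRef := CRef.mk (Pat.mk 0x2000000000000000080000001c000000020000002800000000 0x300000003000000030000000180000001f000000130000003800000028 6 6) 0 0 (step_sound _ 97 [(rheb0810cc63b001d8.shift 0 2), rhfd22cdbdb168281d] (by decide +kernel))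
noncomputable def rh47b19588419f3a01 : CRef := CRef.mk (Pat.mk 0x2000000000000000000000001f000000000000002800000000 0x280000003800000038000000180000001f000000100000003800000028 6 6) 0 0 (step_sound _ 132 [(rh428265de8cd3cd2d.shift 0 3), (rhf69c63467b787520.shift 3 0)] (by decide +kernel))
noncomputable def rha010cafaab1688ae : CRef := CRef.mk (Pat.mk 0x380000000000000000000000040000003c00000000 0x780000001f00000004000000040000003e00000007 6 7) 0 0 (step_sound _ 1 [rh2571ab4fa8a64ee5, (rh80fcd6d0a18cb2dd.shift 1 0)] (by decide +kernel))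
noncomputable def rhb808e2d513940836 : CRef := CRef.mk (Pat.mk 0x300000003000000010000000040000003c00000000 0x2000000020000000700000003e00000014000000040000003e00000007 6 7) 0 0 (step_sound _ 197 [rh45a5b0a4a6b5c548, (rh5c5e593799055d58.shift 4 3)] (by decide +kernel))
noncomputable def rhd1a8912e9898eed7 : CRef := CRef.mk (Pat.mk 0x7000000000000000220000003f00000001 0x7e000000ee000000220000003f00000061 6 8) 0 0 (step_sound _ 5 [(rhe25b0a99195a5d59.shift 2 0), rhf187c1a9aea2f083] (by decide +kernel))
noncomputable def rhedbce0dd904f9344 : CRef := CRef.mk (Pat.mk 0x3800000000000000000000001e00000000 0xe70000007e000000e7000000000000001e00000030 6 8) 0 0 (step_sound _ 4 [(rh1f6ff5d3352e2267.shift 0 3), (rhe25b0a99195a5d59.shift 1 0)] (by decide +kernel))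
noncomputable def rhf7943763ae823400 : CRef := CRef.mk (Pat.mk 0x400000007000000000 0xe70000007e00000007 6 8) 0 0 (step_sound _ 35 [(rh33e738c4ed385b9f.shift 3 1), rh5e601430b8bc2e39] (by decide +kernel))
noncomputable def rh17a8ec1caf1b21f3 : CRef := CRef.mk (Pat.mk 0x120000001e00000004 0x70000000f0000001e0000001e00000007 6 5) 0 0 (step_sound _ 1 [rh6abf4ace4533cac2, rheb0810cc63b001d8] (by decide +kernel))
noncomputable def rh44b4106e35987343 : CRef := CRef.mk (Pat.mk 0x100000001e000000000000000000000004 0x18000000ff000000e60000000400000004 6 8) 0 0 (step_sound _ 131 [(rh4b6a8b0d2c7b0db2.shift 1 0), (rh53b3c253cb0c65f4.shift 0 3)] (by decide +kernel))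
noncomputable def rh45e2e532c77fdfcf : CRef := CRef.mk (Pat.mk 0x20000001e00000004 0xa0000000f0000003e0000001f00000004 6 6) 0 0 (step_sound _ 68 [(rh33e738c4ed385b9f.shift 1 1), rhb5a4406f7da0ab49] (by decide +kernel))
noncomputable def rh5e0ac8b51e5bef38 : CRef := CRef.mk (Pat.mk 0x1e000000000000000000000004 0x3c000000ff000000060000000400000004 6 8) 0 0 (step_sound _ 132 [(rh33e738c4ed385b9f.shift 1 3), rh7a40480ff9e3b42a] (by decide +kernel))
noncomputable def rh1388a08177d81093 : CRef := CRef.mk (Pat.mk 0x400000000000000020000001c00000000 0x50000000700000007000000030000001e00000003 6 5) 0 0 (step_sound _ 33 [(rh3244c3cc8379b070.shift 0 1), rh87d7e43c37047d58] (by decide +kernel))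
noncomputable def rh3b1e1cfc12ff5756 : CRef := CRef.mk (Pat.mk 0x1800000000000000160000001e00000000 0x380000001f00000017000000160000001e00000034 6 6) 0 0 (step_sound _ 163 [(rh2613c889e411427e.shift 3 1), rh90da1670b6450773] (by decide +kernel))
noncomputable def rh76ae77c02a000a93 : CRef := CRef.mk (Pat.mk 0xf000000000000000000000003c 0x198000000f000000020000000370000003e 6 9) 0 0 (step_sound _ 132 [(rh3244c3cc8379b070.shift 3 3), rhe0b0220c081a7f12] (by decide +kernel))
noncomputable def rh70be19010a87bac8 : CRef := CRef.mk (Pat.mk 0x200000006000000000000000000000007800000000 0x200000006000000040000000670000007e00000007 6 7) 0 0 (step_sound _ 70 [(rh2613c889e411427e.shift 5 1), rh551591afa7e9bd9a] (by decide +kernel))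
noncomputable def rh1174b72dd57574e3 : CRef := CRef.mk (Pat.mk 0x6800000000000000000000001f00000000 0x140000003c0000006c00000008000000180000001f00000010 6 7) 0 0 (step_sound _ 67 [(rh33e738c4ed385b9f.shift 0 1), (rhca76e516b6749727.shift 2 0)] (by decide +kernel))
noncomputable def rhb0b4250a903be6f6 : CRef := CRef.mk (Pat.mk 0xd000000000000000000000003c00000000 0x20000000f000000018000000370000003e00000020 6 8) 0 0 (step_sound _ 65 [(rh3f8766e6ecb455ce.shift 1 1), rhef2cc9d0b5113d20] (by decide +kernel))
noncomputable def rhf39cb4d3b22fdf88 : CRef := CRef.mk (Pat.mk 0x6800000040 0xf0000007e000000cf 6 8) 0 0 (step_sound _ 36 [rh943c9a14b5422bad, (rhe25b0a99195a5d59.shift 3 0)] (by decide +kernel))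
noncomputable def rh132224b2333f091b : CRef := CRef.mk (Pat.mk 0x7800000000 0x7e0000007e00000007 6 7) 0 0 (step_sound _ 66 [(rh3f8766e6ecb455ce.shift 2 1), rh8b282e61cb6df183] (by decide +kernel))
noncomputable def rh2ab7efde740748d7 : CRef := CRef.mk (Pat.mk 0x100000007000000080000000000000000 0x10000000100000003b0000001f000000180000000800000008 6 6) 0 0 (step_sound _ 99 [rh4e5819726101ea31, (rhe25b0a99195a5d59.shift 0 2)] (by decide +kernel))
noncomputable def rhf31f5dd6213b27a8 : CRef := CRef.mk (Pat.mk 0x100000000000000040000001e000000000000000500000000 0x50000000700000007000000060000003e000000020000000700000005 6 6) 0 0 (step_sound _ 129 [rh3abd679f6b6c590b, (rhf48373e13d2bc128.shift 1 3)] (by decide +kernel))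
noncomputable def rhe5e045494a593db9 : CRef := CRef.mk (Pat.mk 0x1000000000000002200000032000000100000000500000000 0x500000007000000070000002200000032000000120000001700000015 6 6) 0 0 (step_sound _ 4 [rh3abd679f6b6c590b, (rh9e3edb185cc347de.shift 4 0)] (by decide +kernel))
noncomputable def rh7c813fcdcfe43884 : CRef := CRef.mk (Pat.mk 0x38000000000000001000000010 0x670000003e000000170000001000000010 6 7) 0 0 (step_sound _ 133 [(rh04253f50b6dd0619.shift 4 0), (rha4e887c2a2a0f60b.shift 0 2)] (by decide +kernel))
noncomputable def rhb99c9284a229395b : CRef := CRef.mk (Pat.mk 0x3800000000000000080000007800000000 0x70000003e0000000f00000008000000780000000c 6 7) 0 0 (step_sound _ 3 [rh10100dc1fdea7457, (rheb0810cc63b001d8.shift 2 0)] (by decide +kernel))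
noncomputable def rhcb9c9b99670e1770 : CRef := CRef.mk (Pat.mk 0x38000000000000002000000020 0x170000003e000000670000002000000020 6 7) 0 0 (step_sound _ 69 [(rh50fbb5868c909700.shift 4 0), (rhc92c11e8da6c894f.shift 0 2)] (by decide +kernel))
noncomputable def rh37fce8d89d87d5f3 : CRef := CRef.mk (Pat.mk 0xe000000000000000200000002 0x740000003e000000730000000200000002 6 7) 0 0 (step_sound _ 65 [(rh2f68792b6b779e96.shift 1 0), (rh352b7f91eba0c81f.shift 0 2)] (by decide +kernel))
noncomputable def rh55a0927ffbbcbd8a : CRef := CRef.mk (Pat.mk 0x400000000000000000000001e00000000 0x50000000700000007000000030000001e00000003 6 5) 0 0 (step_sound _ 65 [(rh3244c3cc8379b070.shift 0 1), rh87d7e43c37047d58] (by decide +kernel))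
noncomputable def rhc502ee1281b087a9 : CRef := CRef.mk (Pat.mk 0x400000000000000000000001c00000002 0x50000000700000007000000030000001e00000003 6 5) 0 0 (step_sound _ 33 [rhac248eecb726bbdf, rheb0810cc63b001d8] (by decide +kernel))
noncomputable def rhdbb91694e91b4dc4 : CRef := CRef.mk (Pat.mk 0x300000002000000100000000e00000000 0x8000000080000001f0000001e000000300000003e00000070 6 7) 0 0 (step_sound _ 36 [(rh33e738c4ed385b9f.shift 1 1), rh993b837a9c136234] (by decide +kernel))
noncomputable def rh86934ff0f9bce3c7 : CRef := CRef.mk (Pat.mk 0x200000000000000000000000f00000001 0x200000002000000730000003f00000071 6 7) 0 0 (step_sound _ 65 [rh4a0cb3a9508b05dd, rhee230b994cc8b773] (by decide +kernel))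
noncomputable def rh8c20e3ab95af63c3 : CRef := CRef.mk (Pat.mk 0x600000002000000000000001800000010 0x700000003f0000007f000000080000001800000010 6 7) 0 0 (step_sound _ 131 [(rhdc1641106d7e5aa2.shift 0 3), rheec62919d3850800, (rhfa35e196e150edb4.shift 0 3)] (by decide +kernel))
noncomputable def rh09594f775d4e9d7f : CRef := CRef.mk (Pat.mk 0x18000000100000001000000010 0x270000007e000000ff0000001000000010 6 8) 0 0 (step_sound _ 101 [(rh2f68792b6b779e96.shift 4 0), (rh32b3845586fb9d70.shift 0 2)] (by decide +kernel))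
noncomputable def rh3d2de33eaf30b5d9 : CRef := CRef.mk (Pat.mk 0x280000002000000004000000fc00000000 0x70000003e0000007400000004000000fc00000018 6 8) 0 0 (step_sound _ 3 [(rh80fcd6d0a18cb2dd.shift 3 0), rhf4086ca640064869] (by decide +kernel))
noncomputable def rhb6dbc95deddfb630 : CRef := CRef.mk (Pat.mk 0x800000020000000000000007800000000 0x40000000f0000007c0000000c0000007800000010 6 7) 0 0 (step_sound _ 67 [(rh3244c3cc8379b070.shift 2 1), rh7b08a4c39dc77b69] (by decide +kernel))
noncomputable def rh4366f52edb0e2cba : CRef := CRef.mk (Pat.mk 0x200000000000000000000001e00000000 0x5000000070000000700000002000000030000001e00000004 6 5) 0 0 (step_sound _ 65 [(rh3244c3cc8379b070.shift 0 1), rhc531e8994caba2c3] (by decide +kernel))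
noncomputable def rh614e722d2cf9a5a3 : CRef := CRef.mk (Pat.mk 0x20000001e00000002 0x5000000070000000f0000003e0000001e00000006 6 6) 0 0 (step_sound _ 68 [rh2f11f04fb95c45ac, (rh33e738c4ed385b9f.shift 1 1)] (by decide +kernel))
noncomputable def rh249ad7131d54cb23 : CRef := CRef.mk (Pat.mk 0x700000004000000100000001800000000 0x280000003c000000370000003e000000100000001800000008 6 6) 0 0 (step_sound _ 100 [(rh320032c1d3748103.shift 1 0), (rh68691964b29f233d.shift 0 3), (rhe55a3c34d84202cd.shift 1 0)] (by decide +kernel))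
noncomputable def rh6b0c83873ce8cb7b : CRef := CRef.mk (Pat.mk 0x2800000020000000040000001c00000002 0x70000003e00000074000000040000001e00000003 6 7) 0 0 (step_sound _ 33 [rh5832dbaa64efadf8, rheb0810cc63b001d8] (by decide +kernel))
noncomputable def rh53933f5bd11c1ec6 : CRef := CRef.mk (Pat.mk 0x70000000000000000000000100000001c00000020 0x380000001f0000003800000010000000100000003c00000060 6 7) 0 0 (step_sound _ 37 [rhaad35a75847f9102, (rhe25b0a99195a5d59.shift 2 0)] (by decide +kernel))
noncomputable def rh2bd1b8f0808c429e : CRef := CRef.mk (Pat.mk 0x280000000c000000000000006000000040 0x70000003e0000007e000000200000006000000040 6 7) 0 0 (step_sound _ 101 [(rh0fe98425d8288b4b.shift 0 3), (rhff0f29cb645b05f7.shift 5 0)] (by decide +kernel))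
noncomputable def rh0998c897bc24ad2b : CRef := CRef.mk (Pat.mk 0xc0000000000000042000000c200000082 0x40000007e0000007700000042000000c200000082 6 8) 0 0 (step_sound _ 97 [rh765820bcb17c9fdc, (rhbaefcd01e0a8bca3.shift 1 0)] (by decide +kernel))
noncomputable def rh91d7e89670e3608f : CRef := CRef.mk (Pat.mk 0x300000002000000100000000e00000000 0x8000000080000001f0000001e000000300000003e00000070 6 7) 0 0 (step_sound _ 36 [(rh33e738c4ed385b9f.shift 1 1), rh364713d5b5db3f03] (by decide +kernel))
noncomputable def rh0e15a09e6f52da8c : CRef := CRef.mk (Pat.mk 0xc000000080000000000000008 0xff0000007e000000e80000000800000008 6 8) 0 0 (step_sound _ 100 [(rh1c37177b4d6b0603.shift 1 0), (rh40abba5547ad5bff.shift 1 0), (rhcd042805d4311913.shift 0 2), (rhd1f9989d6034576a.shift 2 0)] (by decide +kernel))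
noncomputable def rh53a9a00350741803 : CRef := CRef.mk (Pat.mk 0x3000000020000000040000003800000008 0x70000003e00000074000000060000003c00000008 6 7) 0 0 (step_sound _ 34 [(rh3244c3cc8379b070.shift 1 1), rhcab49626fabbcd16] (by decide +kernel))
noncomputable def rhc8ce06981b3a3aaa : CRef := CRef.mk (Pat.mk 0x1800000010000000000000003c 0x380000001f00000034000000160000003c 6 6) 0 0 (step_sound _ 131 [(rh9e07f76261b05888.shift 3 0), rha19078ac5da53725] (by decide +kernel))
noncomputable def rhafbff738e23dbab4 : CRef := CRef.mk (Pat.mk 0x4000000040000000c000000040000000000000008 0x3a0000003e0000000f0000000c0000000c0000000800000008 6 6) 0 0 (step_sound _ 67 [(rh9e07f76261b05888.shift 2 0), (rhd49a209860dedbee.shift 0 2)] (by decide +kernel))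
noncomputable def rh9459e2fc5f65a4e9 : CRef := CRef.mk (Pat.mk 0x2000000020000000600000000 0x500000007000000070000000700000007000000060000000600000002 6 3) 0 0 (step_sound _ 129 [rh00c644645561e9be, (rh5bd4bc0c2c48140c.shift 0 1), (rh73f605273a09a9d0.shift 1 1), (rhba97f7f4ade5e136.shift 0 1), (rhc85cc95794737cf7.shift 0 1)] (by decide +kernel))
noncomputable def rhcc32bc9f3876d575 : CRef := CRef.mk (Pat.mk 0x400000000000000080000000700000000 0x140000001c0000001c000000180000000f00000018 6 5) 0 0 (step_sound _ 35 [(rh33e738c4ed385b9f.shift 0 1), rh71a92610e0a296f1] (by decide +kernel))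
noncomputable def rh131512d5988f1408 : CRef := CRef.mk (Pat.mk 0xe0000001800000000 0x1400000014000000370000003e0000001b0000000a 6 6) 0 0 (step_sound _ 68 [rh21460d2d48a35cb8, (rh5ba2d67652840f34.shift 1 0)] (by decide +kernel))
noncomputable def rh8cd74396e66505b6 : CRef := CRef.mk (Pat.mk 0x800000008000000180000001000000000 0x740000007c0000001e000000780000001f00000004 6 7) 0 0 (step_sound _ 35 [rh6fae963f33cfdfd7, (rha71afc656c87d410.shift 1 0), (rhd49a209860dedbee.shift 1 1)] (by decide +kernel))
noncomputable def rhf15e1b000680bab5 : CRef := CRef.mk (Pat.mk 0x20000001e0000000200000000 0x500000007000000070000003e0000001e0000000600000002 6 6) 0 0 (step_sound _ 100 [(rh33e738c4ed385b9f.shift 1 2), rhd4ae410c9c1703c4] (by decide +kernel))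
noncomputable def rh40f56ec5f549e861 : CRef := CRef.mk (Pat.mk 0x100000001e00000018 0x380000003c0000001f0000001e00000018 6 6) 0 0 (step_sound _ 100 [rh2a249a8dd58b8c53, (rh5c5e593799055d58.shift 3 0)] (by decide +kernel))
noncomputable def rhc19d035be0caf1a8 : CRef := CRef.mk (Pat.mk 0xc00000002000000020000000a00000002 0x390000001f0000001b0000000a0000000a00000002 6 6) 0 0 (step_sound _ 128 [(rh344ab62162079df8.shift 0 1), rhffd04209dc8ea796] (by decide +kernel))
noncomputable def rh95b9b74370ecc6ae : CRef := CRef.mk (Pat.mk 0xd000000020000000200000022 0x390000003f000000720000002200000022 6 7) 0 0 (step_sound _ 97 [rh50fbb5868c909700, rh88f6fb53112a4e1d] (by decide +kernel))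
noncomputable def rh6a655174d1637fe8 : CRef := CRef.mk (Pat.mk 0x200000000000000000000001f00000001 0x200000002000000e60000007f000000e1 6 8) 0 0 (step_sound _ 65 [(rh0786c19de25163c7.shift 1 0), rhee230b994cc8b773] (by decide +kernel))
noncomputable def rh773b1c89a0295a9b : CRef := CRef.mk (Pat.mk 0x1600000000000000100000001800000000 0x770000003e00000030000000100000001800000008 6 7) 0 0 (step_sound _ 100 [(rh932754581e0f4330.shift 3 0), (rha6d342d8a59d0fee.shift 0 3)] (by decide +kernel))
noncomputable def rhb143c7a3e93df405 : CRef := CRef.mk (Pat.mk 0xf00000000 0x770000003f00000038 6 7) 0 0 (step_sound _ 4 [rh96851dee118c1ba3, rhef4876f9e7eb0bda] (by decide +kernel))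
noncomputable def rh32d7cf23a59045fa : CRef := CRef.mk (Pat.mk 0x5800000000000000000000007c00000000 0x2000000078000000c0000000c70000007e00000020 6 8) 0 0 (step_sound _ 65 [(rh3f8766e6ecb455ce.shift 1 1), rh8027285a58b329fe] (by decide +kernel))
noncomputable def rhc58e08a26fdb3804 : CRef := CRef.mk (Pat.mk 0x1600000000000000200000003c00000000 0x770000003e00000020000000200000007c000000e0 6 8) 0 0 (step_sound _ 6 [(rh96851dee118c1ba3.shift 2 0), rhac313dc5296f50fb] (by decide +kernel))
noncomputable def rha6fcbe714320cd55 : CRef := CRef.mk (Pat.mk 0x800000000000000000000000f00000000 0x140000001c0000001c00000008000000180000000f00000004 6 5) 0 0 (step_sound _ 67 [(rh33e738c4ed385b9f.shift 0 1), (rh3533d4ae0e68498c.shift 2 0)] (by decide +kernel))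
noncomputable def rh37bdd0d54b185fd9 : CRef := CRef.mk (Pat.mk 0xb00000000000000000000000f00000000 0x140000001e0000001b00000008000000180000000f00000004 6 5) 0 0 (step_sound _ 67 [(rh33e738c4ed385b9f.shift 0 1), rhc0fc249f4916f1ee] (by decide +kernel))
noncomputable def rhdf7be087198d2c22 : CRef := CRef.mk (Pat.mk 0x100000001e00000010 0x2000000038000000380000003c0000001f0000001e00000018 6 6) 0 0 (step_sound _ 65 [(rh3244c3cc8379b070.shift 0 1), (rhe06a0b5280207583.shift 1 0)] (by decide +kernel))
noncomputable def rh6a89284147fdbba9 : CRef := CRef.mk (Pat.mk 0x1e000000020000000000000000 0x50000000700000007000000070000001e000000060000000600000006 6 5) 0 0 (step_sound _ 129 [(rh3244c3cc8379b070.shift 0 3), rh946cb4faf99012cf] (by decide +kernel))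
noncomputable def rh9cf6d7c30a17419d : CRef := CRef.mk (Pat.mk 0x120000001e00000002 0x50000000f0000000f0000001e0000001e00000036 6 6) 0 0 (step_sound _ 4 [rh20d506bc59acd5b1, (rhe25b0a99195a5d59.shift 1 0)] (by decide +kernel))
noncomputable def rhb4c8c3c59baecd16 : CRef := CRef.mk (Pat.mk 0x800000000000000000000003800000000 0x140000001c0000001c000000080000000f0000007c00000010 6 7) 0 0 (step_sound _ 67 [(rha9fbfd4bb8cf890b.shift 0 1), (rhc531e8994caba2c3.shift 2 0)] (by decide +kernel))
noncomputable def rh1c57b2de72b7f2cc : CRef := CRef.mk (Pat.mk 0x2800000020000000000000018000000100 0x1ff000000fe000001f7000000800000018000000100 6 9) 0 0 (step_sound _ 132 [(rh22d326bdf3fdc35e.shift 0 3), (rha0ae8adeb1dbcf8d.shift 0 3), (rhe6ac26d16131d3e2.shift 3 0)] (by decide +kernel))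
noncomputable def rha07b1e66fa2f5839 : CRef := CRef.mk (Pat.mk 0x10000000100000003800000008 0x40000001e0000007f0000003e0000000f 6 7) 0 0 (step_sound _ 34 [rh775ca1963e850b80, (rhb5026552920bacb8.shift 1 0), (rhec46bd5500c722c9.shift 1 1)] (by decide +kernel))
noncomputable def rhabf507d18231341f : CRef := CRef.mk (Pat.mk 0x10000000100000001800000018 0x2c0000007f0000003e0000001800000018 6 7) 0 0 (step_sound _ 99 [(rh50fbb5868c909700.shift 3 0), rh69bd079d6dc81f1f] (by decide +kernel))
noncomputable def rhf6739fa35f3ab1e2 : CRef := CRef.mk (Pat.mk 0x80000001c00000004 0x1ff000000fe000001cc 6 9) 0 0 (step_sound _ 37 [(rh3d54e7f933686048.shift 2 0), (rh61325f73ebf98108.shift 0 1), (rhe3060b190bc0bc78.shift 1 1)] (by decide +kernel))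
noncomputable def rhcf7bdda9aa4949e8 : CRef := CRef.mk (Pat.mk 0x6000000100000001000000010 0x280000007f0000003e000000300000001000000010 6 7) 0 0 (step_sound _ 100 [(rh3c8f4260c625d1ca.shift 1 0), (rha6d342d8a59d0fee.shift 0 2), (rhc85cc95794737cf7.shift 3 0), (rheca207e390c8f755.shift 1 0)] (by decide +kernel))
noncomputable def rh8151d02265b504f8 : CRef := CRef.mk (Pat.mk 0x40000000f00000008 0x80000001c0000007c0000001e0000000f0000000c 6 7) 0 0 (step_sound _ 67 [(rh12f7e27315511712.shift 1 0), (rh33e738c4ed385b9f.shift 0 1)] (by decide +kernel))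
noncomputable def rh307d9ad73e17dd02 : CRef := CRef.mk (Pat.mk 0x600000002000000100000001c00000020 0x700000003e00000017000000100000003c00000060 6 7) 0 0 (step_sound _ 37 [rh3ae91b05ca5144cf, (rhe25b0a99195a5d59.shift 2 0)] (by decide +kernel))
noncomputable def rha6831e1c99143fa1 : CRef := CRef.mk (Pat.mk 0x20000001e00000006 0x70000000f0000003e0000001e00000006 6 6) 0 0 (step_sound _ 97 [rh174fd337b9b543db, (rh2145e1d24b96a57e.shift 1 0)] (by decide +kernel))
noncomputable def rhd8df6aa09bea8ca8 : CRef := CRef.mk (Pat.mk 0x800000000000000000000000f00000000 0x140000001c0000001c00000008000000180000000f00000004 6 5) 0 0 (step_sound _ 67 [(rh33e738c4ed385b9f.shift 0 1), (rh51f3d73fa267b352.shift 2 0)] (by decide +kernel))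
noncomputable def rh697682f290203ad5 : CRef := CRef.mk (Pat.mk 0x2000000020000000600000000 0x500000007000000070000000200000002000000060000000600000004 6 3) 0 0 (step_sound _ 129 [(rh55afc6a59410cf00.shift 1 0), (rhba97f7f4ade5e136.shift 0 1)] (by decide +kernel))
noncomputable def rh808877f63fc0ddbf : CRef := CRef.mk (Pat.mk 0x20000001e00000002 0x100000007000000070000000f0000003e0000001e00000006 6 6) 0 0 (step_sound _ 68 [(rh33e738c4ed385b9f.shift 1 1), rh859e42baed3427f8] (by decide +kernel))
noncomputable def rhd42b26e2f2de4f7f : CRef := CRef.mk (Pat.mk 0x1000000000000000000000007c00000002 0x280000003800000038000000100000001c0000007f00000023 6 7) 0 0 (step_sound _ 68 [rh6706206e08ecae9d, (rhc531e8994caba2c3.shift 3 0)] (by decide +kernel))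
noncomputable def rhcca34e0e8c012be5 : CRef := CRef.mk (Pat.mk 0x1000000000000000000000003f00000000 0x28000000380000003800000010000000180000003f00000020 6 6) 0 0 (step_sound _ 68 [(rh428265de8cd3cd2d.shift 0 1), (rhc531e8994caba2c3.shift 3 0)] (by decide +kernel))
noncomputable def rhb574c322456fcf47 : CRef := CRef.mk (Pat.mk 0x80000000c000000200000003000000000 0x5000000070000000780000003f000000200000003000000010 6 7) 0 0 (step_sound _ 133 [rh264dfd2478cf8f9a, (rh3533d4ae0e68498c.shift 4 0), (rhcadd85ff2a73e8c7.shift 0 3), (rhfd56af203115b4a4.shift 2 0)] (by decide +kernel))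
noncomputable def rh6444517a3539f63e : CRef := CRef.mk (Pat.mk 0xc000000080000000800000008 0x1f0000000fe000000ff0000000800000008 6 9) 0 0 (step_sound _ 100 [(rh2f68792b6b779e96.shift 3 0), (rhf426a5667e8bf21f.shift 0 2)] (by decide +kernel))
noncomputable def rha9d17e2c6cf0d374 : CRef := CRef.mk (Pat.mk 0x200000000000000000000001e00000000 0x5000000070000000700000002000000030000001e00000004 6 5) 0 0 (step_sound _ 65 [(rh3244c3cc8379b070.shift 0 1), rhcf2a8f121bc4ac1e] (by decide +kernel))
noncomputable def rh375fde0967782dcd : CRef := CRef.mk (Pat.mk 0xc000000080000000800000008 0xf00000007f000000ff0000000800000008 6 8) 0 0 (step_sound _ 100 [(rh2f68792b6b779e96.shift 3 0), (rh41d875a8badd1540.shift 0 2)] (by decide +kernel))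
noncomputable def rh8fe46d04008547ec : CRef := CRef.mk (Pat.mk 0x40000001c0000000c 0x3e0000003e000000170000001c0000000c 6 6) 0 0 (step_sound _ 98 [(rh2145e1d24b96a57e.shift 2 0), rh38e6fa4856be7ddd] (by decide +kernel))
noncomputable def rh8392262c0f893fd6 : CRef := CRef.mk (Pat.mk 0xc000000040000000c0000000c 0x720000003e0000007f0000000c0000000c 6 7) 0 0 (step_sound _ 97 [rh353f414aa29365ab, (rh50fbb5868c909700.shift 1 0)] (by decide +kernel))
noncomputable def rh475d20015d4b5843 : CRef := CRef.mk (Pat.mk 0xc0000000f00000000 0x1c0000001c0000007c0000000e0000000f00000018 6 7) 0 0 (step_sound _ 3 [(rh4554f2167dbd9261.shift 1 0), rhe25b0a99195a5d59] (by decide +kernel))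
noncomputable def rhd71d19839ba0f2e7 : CRef := CRef.mk (Pat.mk 0x700000006000000000000000200000000 0xe0000000e0000001e0000000700000006000000040000000600000006 6 5) 0 0 (step_sound _ 66 [(rhd26de151fd4e6459.shift 0 2), (rhe437f081bfcdb831.shift 1 0)] (by decide +kernel))
noncomputable def rh495a39b8a06d7922 : CRef := CRef.mk (Pat.mk 0x40000000c0000000c 0x3e0000003e0000000f0000000c0000000c 6 6) 0 0 (step_sound _ 98 [(rh2145e1d24b96a57e.shift 2 0), rhd49a209860dedbee] (by decide +kernel))
noncomputable def rh4eb5a0e17122336a : CRef := CRef.mk (Pat.mk 0x78000000000000000000000004 0xc70000007e0000000e0000000400000004 6 8) 0 0 (step_sound _ 134 [(rh33e738c4ed385b9f.shift 3 3), rh6e5be26515f78d83] (by decide +kernel))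
noncomputable def rh992b3bf526add8cb : CRef := CRef.mk (Pat.mk 0x1000000000000000120000001e00000002 0x10000001f0000001f0000000f0000001e0000001e00000002 6 5) 0 0 (step_sound _ 97 [rh1741680720c097b4, rh2379b52c3793a6e4, rh2b9c51e3095f0a58, rh35c5f1c53251aa1b, rhc32c9d24f54e57bf] (by decide +kernel))
noncomputable def rh8b185f132db395bd : CRef := CRef.mk (Pat.mk 0x8000000080000000f00000000 0x40000001c0000001c000000180000000c0000000f00000018 6 5) 0 0 (step_sound _ 3 [(rh42ab489a1be3958e.shift 2 0), rhe25b0a99195a5d59] (by decide +kernel))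
noncomputable def rh3e02934abb025dd6 : CRef := CRef.mk (Pat.mk 0x300000001800000000000000000000001e00000000 0x1000000330000001f00000002000000070000001e00000004 6 6) 0 0 (step_sound _ 129 [(rh24ae073cf30720c4.shift 1 4), rh286616274c97b242] (by decide +kernel))
noncomputable def rh59d5f1dbb0efc9f2 : CRef := CRef.mk (Pat.mk 0x180000003000000010000000000000001e000000000000000000000000 0x40000001e000000360000001e000000070000001e000000040000000400000004 6 6) 0 0 (step_sound _ 129 [(rh3244c3cc8379b070.shift 0 3), (rh7449bf9e4a6c0815.shift 1 0)] (by decide +kernel))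
noncomputable def rhb77800470236b514 : CRef := CRef.mk (Pat.mk 0x10000000100000001e00000000 0x280000003c0000001f0000001e00000030 6 6) 0 0 (step_sound _ 4 [rh2a249a8dd58b8c53, (rhe25b0a99195a5d59.shift 1 0)] (by decide +kernel))
noncomputable def rh9659743c2de3e0a8 : CRef := CRef.mk (Pat.mk 0x18000000100000001000000014 0x27000000fe000000fe0000001400000014 6 8) 0 0 (step_sound _ 101 [rh1039c260b97c2de5, (rh2f68792b6b779e96.shift 4 0)] (by decide +kernel))
noncomputable def rh9b78d4173d9d709a : CRef := CRef.mk (Pat.mk 0x8000000080000000f00000000 0x100000001c0000001c0000000c0000000c0000000f00000018 6 5) 0 0 (step_sound _ 3 [(rh69f0587a21bb077f.shift 2 0), rhe25b0a99195a5d59] (by decide +kernel))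
noncomputable def rh791e8b6afce31c27 : CRef := CRef.mk (Pat.mk 0xf000000000000000800000000 0x40000000c0000001c0000000f0000001c0000000c00000004 6 5) 0 0 (step_sound _ 131 [(rh33e738c4ed385b9f.shift 0 3), rh9c4dd2b9cd02904a] (by decide +kernel))
noncomputable def rh0e9da63fecc8976c : CRef := CRef.mk (Pat.mk 0x7800000000 0x3c000000ff0000000e 6 8) 0 0 (step_sound _ 67 [(rh3244c3cc8379b070.shift 2 1), rh59c238fb0cb9f9a7] (by decide +kernel))
noncomputable def rh7365d2958ee5740e : CRef := CRef.mk (Pat.mk 0x80000000f0000000000000004 0x140000001c0000001c000000080000000f0000001c00000004 6 5) 0 0 (step_sound _ 35 [(rh9fb9dc683e09b5f3.shift 2 0), (rhe25b0a99195a5d59.shift 0 1)] (by decide +kernel))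
noncomputable def rh532b59a28090fcbf : CRef := CRef.mk (Pat.mk 0x100000001e0000000000000000 0x10000000300000001f0000003f0000000800000008 6 6) 0 0 (step_sound _ 99 [(rh53b3c253cb0c65f4.shift 0 2), rhd2705a941542c9fb] (by decide +kernel))
noncomputable def rh2300f02e5a5d5cf0 : CRef := CRef.mk (Pat.mk 0x38000000000000002000000000 0x30000000700000003e000000770000003000000030 6 7) 0 0 (step_sound _ 98 [(rh9e29fb7c6bb32015.shift 1 0), (rh9e97bba44c1b13e4.shift 0 2), (rh9f6be1258f06c13a.shift 1 0), (rhd45e3ae46e6d7252.shift 2 0)] (by decide +kernel))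
noncomputable def rhe4f34ca69f33b4db : CRef := CRef.mk (Pat.mk 0x7c00000000 0x1c0000000fe000001c7 6 9) 0 0 (step_sound _ 1 [rh2bc051806401517c, (rh80fcd6d0a18cb2dd.shift 1 0)] (by decide +kernel))
noncomputable def rh6059e180a2ba3b20 : CRef := CRef.mk (Pat.mk 0x38000000000000002000000000 0x10000000fe0000007e000000770000002000000020 6 8) 0 0 (step_sound _ 98 [(rh09d9f2ed3f61f767.shift 1 0), (rh43a01e9b17b0abd4.shift 1 0), (rh9e97bba44c1b13e4.shift 0 2), (rhd45e3ae46e6d7252.shift 2 0), (rhfcffa0a9e99c8fd4.shift 2 0)] (by decide +kernel))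
noncomputable def rh0fe041574cf34992 : CRef := CRef.mk (Pat.mk 0x40000003c000000000000002000000000 0x5c0000007e000000370000002000000020 6 7) 0 0 (step_sound _ 102 [rh37e837b1622529d4, (rh3f8766e6ecb455ce.shift 2 3)] (by decide +kernel))
noncomputable def rh57e407a00bdc4987 : CRef := CRef.mk (Pat.mk 0x100000001e0000000000000000 0x10000000300000001f0000003f0000000800000008 6 6) 0 0 (step_sound _ 97 [(rh3244c3cc8379b070.shift 0 2), rhd74aaba2aa668255] (by decide +kernel))
noncomputable def rhef00fd3705be924f : CRef := CRef.mk (Pat.mk 0x380000000000000020000000000000000000000000 0x20000000700000003e0000007700000030000000300000003000000010 6 7) 0 0 (step_sound _ 162 [(rh12ea4c871ce22297.shift 2 0), (rh9e29fb7c6bb32015.shift 1 2), (rh9e97bba44c1b13e4.shift 0 4), (rheb100aab8ed4573d.shift 1 1)] (by decide +kernel))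
noncomputable def rha1fbe9dd839a6753 : CRef := CRef.mk (Pat.mk 0x80000000f00000004 0xec0000007f0000003e 6 8) 0 0 (step_sound _ 4 [rh96851dee118c1ba3, (rhbd476fd441a68dd1.shift 1 0)] (by decide +kernel))
noncomputable def rh1e03d0a7e450b91b : CRef := CRef.mk (Pat.mk 0x2800000020000000200000003000000000 0x2f0000003e00000077000000300000003000000020 6 7) 0 0 (step_sound _ 132 [(rhc1204ec8d4bdea3f.shift 3 0), (rhc92c11e8da6c894f.shift 0 3)] (by decide +kernel))
noncomputable def rhc4e793c930f1e4be : CRef := CRef.mk (Pat.mk 0x2800000020000000200000002000000020 0x70000003e00000077000000200000002000000020 6 7) 0 0 (step_sound _ 132 [(rhc92c11e8da6c894f.shift 0 3), (rhffd04209dc8ea796.shift 4 0)] (by decide +kernel))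
noncomputable def rhd498ef7c4bf35194 : CRef := CRef.mk (Pat.mk 0x80000000a000000080000000a00000000 0x40000000c0000000c000000080000001f0000007c0000000e00000004 6 7) 0 0 (step_sound _ 34 [(rh932754581e0f4330.shift 2 0), (rheb3daef5432dab69.shift 0 1)] (by decide +kernel))
noncomputable def rhb3ac2cd916378a50 : CRef := CRef.mk (Pat.mk 0x400000004000000050000000400000000 0xc0000000c0000003e000000070000000600000006 6 6) 0 0 (step_sound _ 33 [(rh932754581e0f4330.shift 1 0), rh9d5fff8b1ef83da7] (by decide +kernel))
noncomputable def rhcb3d8e05fa637d3a : CRef := CRef.mk (Pat.mk 0x3000000028000000200000002000000000 0x70000007e000001ef000000200000002000000020 6 9) 0 0 (step_sound _ 131 [(rh2820ca9a6c4f41b4.shift 0 3), (rh3918eeb6c53434d8.shift 0 3), (rh8ee80cc30e93a344.shift 2 3), (rha78b56add5e71b64.shift 2 0)] (by decide +kernel))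
noncomputable def rhfb193166effa8b50 : CRef := CRef.mk (Pat.mk 0x3000000028000000200000002000000020 0x70000007e000001ef000000200000002000000020 6 9) 0 0 (step_sound _ 131 [(rh151655600199b49f.shift 2 0), (rh2820ca9a6c4f41b4.shift 0 3), (rh3918eeb6c53434d8.shift 0 3), (rh8ee80cc30e93a344.shift 2 3)] (by decide +kernel))
noncomputable def rhdcc00c779b13b2ba : CRef := CRef.mk (Pat.mk 0x200000002000000020000000700000000 0x4000000060000000e0000007f0000003f00000038 6 7) 0 0 (step_sound _ 130 [rh06f3b51e96e7edd5, (rh2f68792b6b779e96.shift 1 1)] (by decide +kernel))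
noncomputable def rh15c607a47babf996 : CRef := CRef.mk (Pat.mk 0x400000013000000120000001200000000 0x20000000340000003e00000013000000320000003200000020 6 6) 0 0 (step_sound _ 129 [rh2b2b86ef427286c4, (rh2f68792b6b779e96.shift 1 1)] (by decide +kernel))
noncomputable def rhecf3680bb57b3285 : CRef := CRef.mk (Pat.mk 0x1000000012000000120000000200000002 0x200000003000000030000000110000001b0000001e0000000a00000002 6 6) 0 0 (step_sound _ 96 [rh50fbb5868c909700, (rh58e8379ea5a58738.shift 0 1)] (by decide +kernel))
noncomputable def rhe8afeb153ce6f4b7 : CRef := CRef.mk (Pat.mk 0x10000000130000001200000000 0x8000000180000001800000010000000330000003e00000028 6 6) 0 0 (step_sound _ 35 [(rh5419adcd928dba20.shift 0 1), (rh8bf99f042330a7dc.shift 3 0)] (by decide +kernel))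
noncomputable def rh71dc08d2db2b3514 : CRef := CRef.mk (Pat.mk 0xe00000004000000040000000400000000 0x700000003f0000007e0000000c0000000c00000008 6 7) 0 0 (step_sound _ 35 [(rh55afc6a59410cf00.shift 2 0), (rhfa81a7b8fcbd16fd.shift 0 1)] (by decide +kernel))
noncomputable def rhda134fc7a00268a1 : CRef := CRef.mk (Pat.mk 0x700000002000000020000000200000000 0x380000001f0000003f0000000e0000000600000004 6 6) 0 0 (step_sound _ 34 [(rh55afc6a59410cf00.shift 1 0), (rhb1837f8a141831e4.shift 0 1)] (by decide +kernel))
noncomputable def rhbda6eb6509751717 : CRef := CRef.mk (Pat.mk 0x12000000020000000200000002 0x740000003e000000730000000200000002 6 7) 0 0 (step_sound _ 98 [(rh185c6e3748bd1404.shift 0 2), (rh2f68792b6b779e96.shift 1 0)] (by decide +kernel))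
noncomputable def rh5df3466004e4398d : CRef := CRef.mk (Pat.mk 0x4000000120000000200000002 0x3d0000001f0000003a0000000200000002 6 6) 0 0 (step_sound _ 97 [rh29063726aee96931, (rh2f68792b6b779e96.shift 1 0)] (by decide +kernel))
noncomputable def rha3455a172de451a9 : CRef := CRef.mk (Pat.mk 0x160000000200000010000000000000000000000000 0x80000001e0000003b00000010000000180000001800000008 6 6) 0 0 (step_sound _ 163 [(rh12ea4c871ce22297.shift 1 0), (rheb0810cc63b001d8.shift 0 4)] (by decide +kernel))
noncomputable def rhc2034d656568cc12 : CRef := CRef.mk (Pat.mk 0x2000000020000000200000002 0x4000000070000000700000003000000060000000600000006 6 3) 0 0 (step_sound _ 128 [rhf3c18d8cfe33c40d, rhffd04209dc8ea796] (by decide +kernel))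
noncomputable def rh56a953e0e3e05276 : CRef := CRef.mk (Pat.mk 0x3000000120000000200000002000000000000000000000000 0x30000001e0000000600000003000000070000000700000004 6 5) 0 0 (step_sound _ 162 [(rh2fe78cc5ca4405d8.shift 0 5), rh5bb331872301d326] (by decide +kernel))
noncomputable def rh8613857741dc5b91 : CRef := CRef.mk (Pat.mk 0x60000000200000010000000100000000000000010000000000000000000000000 0x80000003e0000003b00000030000000300000003000000030000000380000003800000028 6 6) 0 0 (step_sound _ 132 [(rh56ced706d36c493a.shift 0 2), (rh6c59ce14113da07f.shift 4 1), (rh8975b466e00e8695.shift 3 0), (rhc2900996fa1d6026.shift 1 3)] (by decide +kernel))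
noncomputable def rh330468c08919f344 : CRef := CRef.mk (Pat.mk 0x80000000b000000000000000000000000 0x140000001c0000001c000000180000001f0000001c0000001c00000014 6 5) 0 0 (step_sound _ 67 [(rh0640759f80205b45.shift 2 0), (rh9548c07d1d1f2a1b.shift 0 1), (rha212750c0b8667e8.shift 2 0), (rhabf575676fe0ef70.shift 0 2)] (by decide +kernel))
noncomputable def rh75d94fa6ea7c8dcc : CRef := CRef.mk (Pat.mk 0x100000001000000002000000160000000000000000 0x200000003000000030000000130000003e0000003800000020 6 6) 0 0 (step_sound _ 67 [(rh3244c3cc8379b070.shift 0 2), (rh8f10321d8da605d3.shift 3 0)] (by decide +kernel))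
noncomputable def rha087c6594f4bfb59 : CRef := CRef.mk (Pat.mk 0x200000002000000020000000200000000 0x500000007000000070000000200000002000000060000000600000004 6 3) 0 0 (step_sound _ 34 [(rh1148744b53f3df58.shift 0 1), (rh55afc6a59410cf00.shift 1 0)] (by decide +kernel))
noncomputable def rhd1151e7944233db6 : CRef := CRef.mk (Pat.mk 0x10000000120000001200000002000000060000000000000000 0x1000000010000000120000001a0000001a0000001f0000000b00000001 6 5) 0 0 (step_sound _ 32 [rh03133acaef57be18, (rh79877ebd3ef475dd.shift 0 1)] (by decide +kernel))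
noncomputable def rhe7e4e27bde330cf4 : CRef := CRef.mk (Pat.mk 0x60000000200000010000000100000000000000000 0x20000000780000003e0000007b00000030000000380000003800000028 6 7) 0 0 (step_sound _ 164 [(rh2425f70e2f5fab7e.shift 0 2), (rh29e07b8822e3047d.shift 0 2), (rh95d444d144773104.shift 3 0), rhd70eea991e03b13e] (by decide +kernel))
noncomputable def rh17b9da613afda83f : CRef := CRef.mk (Pat.mk 0x580000004c00000000000000400000000800000000 0x80000000c0000000d8000000cf000000c0000000e0000000f800000020 6 8) 0 0 (step_sound _ 129 [(rh53b3c253cb0c65f4.shift 0 4), (rhab40878ca0a1f5fd.shift 3 0)] (by decide +kernel))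
noncomputable def rhfb02e98065f814ed : CRef := CRef.mk (Pat.mk 0x2000000020000000600000006 0x1d0000001f0000003f0000000600000006 6 6) 0 0 (step_sound _ 98 [(rh2f68792b6b779e96.shift 1 0), rh631b363e4219a7d3] (by decide +kernel))
noncomputable def rhd66ed75619ca3da7 : CRef := CRef.mk (Pat.mk 0x40000000400000004000000000000000000000000 0x600000006000000060000003c0000000f0000000e0000000a 6 6) 0 0 (step_sound _ 66 [(rh7133a7a78d762f91.shift 0 1), (rh8ff3dde5b1c639e0.shift 1 0), (rhc4526fc8abf298b6.shift 1 0)] (by decide +kernel))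
noncomputable def rh24542dabb139441d : CRef := CRef.mk (Pat.mk 0x100000001600000000000000030000000600000000 0x380000001e00000030000000330000003e00000020 6 6) 0 0 (step_sound _ 131 [(rh33e738c4ed385b9f.shift 1 4), rh69394a2d9259cae4] (by decide +kernel))
noncomputable def rh7beb16b4b7321bb5 : CRef := CRef.mk (Pat.mk 0x8000000080000000b00000000 0x140000001c0000001c00000008000000180000000f00000004 6 5) 0 0 (step_sound _ 34 [(rh32431e66bbf434a4.shift 2 0), (rh33e738c4ed385b9f.shift 0 1)] (by decide +kernel))
noncomputable def rhf17adb0b40c847fd : CRef := CRef.mk (Pat.mk 0x10000000120000001200000002000000010000000000000000 0x300000001e0000003600000002000000070000000700000004 6 6) 0 0 (step_sound _ 65 [(rh932754581e0f4330.shift 0 1), (rhfac25dc95a824135.shift 1 0)] (by decide +kernel))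
noncomputable def rhdcde04c5f10e3768 : CRef := CRef.mk (Pat.mk 0xf0000000800000000000000000000000000000000 0x40000000c0000001c0000000f0000000c0000001c0000001c0000001c00000004 6 5) 0 0 (step_sound _ 195 [(rh33e738c4ed385b9f.shift 0 5), (rhc25f8aa01b06f1a9.shift 2 0)] (by decide +kernel))
noncomputable def rh521fe7a1168248cc : CRef := CRef.mk (Pat.mk 0x1000000012000000020000000300000006 0x340000001e0000003a0000001b0000001e 6 6) 0 0 (step_sound _ 98 [(rh2f68792b6b779e96.shift 1 0), rh9fd77d6e179bb3bc] (by decide +kernel))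
noncomputable def rh79bf807a6ecb53c9 : CRef := CRef.mk (Pat.mk 0x80000000900000009000000010000000100000001 0x10000000180000001f0000000b000000190000001900000011 6 5) 0 0 (step_sound _ 129 [rha00f4d7cbb2d30d4, rhbaefcd01e0a8bca3] (by decide +kernel))
noncomputable def rh151d788bf535e008 : CRef := CRef.mk (Pat.mk 0x80000000900000009000000010000000100000001 0x100000001800000018000000080000001f0000001b000000110000000100000001 6 5) 0 0 (step_sound _ 129 [rhbaefcd01e0a8bca3, (rhc8825735424913d5.shift 0 2)] (by decide +kernel))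
noncomputable def rh42c8dabea78e6889 : CRef := CRef.mk (Pat.mk 0xf0000000800000008000000000000000000000000 0x180000001f00000008000000080000001c0000001c00000014 6 5) 0 0 (step_sound _ 196 [(rh428265de8cd3cd2d.shift 0 5), (rhc94dfb5f501cb051.shift 2 0)] (by decide +kernel))
noncomputable def rh56fdcb92456568d0 : CRef := CRef.mk (Pat.mk 0x200000002000000020000000700000000 0x4000000060000000e0000003f0000001f00000038 6 6) 0 0 (step_sound _ 130 [(rh2f68792b6b779e96.shift 1 1), rhd718be26e79597b9] (by decide +kernel))
noncomputable def rh9c530b28cfd7eb0a : CRef := CRef.mk (Pat.mk 0x400000004000000040000000e00000000 0x80000000c0000000c0000007e0000003f00000070 6 7) 0 0 (step_sound _ 131 [(rh2f68792b6b779e96.shift 2 1), rh6b0059bcc4abe2cc] (by decide +kernel))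
noncomputable def rh5c78959f44856e3d : CRef := CRef.mk (Pat.mk 0x160000000200000010000000000000000000000000 0x80000001e0000003b00000010000000300000003000000020 6 6) 0 0 (step_sound _ 163 [(rhe84c35e83a304151.shift 1 0), (rheb0810cc63b001d8.shift 0 4)] (by decide +kernel))
noncomputable def rh2ad69f4354f7bada : CRef := CRef.mk (Pat.mk 0x200000002000000030000000700000000 0x4000000060000000e0000001f0000001f00000018 6 5) 0 0 (step_sound _ 35 [rh7001b7fbb066251c, (rhf48373e13d2bc128.shift 0 1)] (by decide +kernel))
noncomputable def rh9217f265ebd46b9c : CRef := CRef.mk (Pat.mk 0x120000000b00000003000000020000000000000000 0x100000001e0000001b0000000b0000001e0000001c00000014 6 5) 0 0 (step_sound _ 67 [rh1a1d0fa3d69ccd3b, (rh6a56790be92093bf.shift 0 1), rha58212e5762a9868] (by decide +kernel))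
noncomputable def rh46b7fd914cf3f609 : CRef := CRef.mk (Pat.mk 0x20000001200000002000000020000000200000002 0x730000003e00000076000000020000000200000002 6 7) 0 0 (step_sound _ 130 [(rh0038940d621ebc25.shift 0 3), (rhbaefcd01e0a8bca3.shift 1 0)] (by decide +kernel))
noncomputable def rhe29b6255c56db4f2 : CRef := CRef.mk (Pat.mk 0x20000000000000002000000010000000000000000 0x50000000700000007000000060000000600000007000000070000000700000004 6 3) 0 0 (step_sound _ 129 [(rh7e07cd48c5ac7541.shift 0 1), rhb38faaee8bdfa7c0, (rhe16036ff578a11df.shift 0 2), (rhf4b53f8ba1873014.shift 0 1)] (by decide +kernel))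
noncomputable def rh67f0916ed90b8a7e : CRef := CRef.mk (Pat.mk 0x200000002000000020000000200000000 0x3000000070000000700000006000000060000000600000002 6 3) 0 0 (step_sound _ 130 [(rh2f68792b6b779e96.shift 1 1), rhe6ca4594ccbb85c7] (by decide +kernel))
noncomputable def rh73823590e1fc1ea0 : CRef := CRef.mk (Pat.mk 0x2000000020000001200000003 0x5000000070000000700000002000000020000001e00000007 6 5) 0 0 (step_sound _ 34 [rh14e0829dc73b6804, rh361cc68994bd8a63] (by decide +kernel))
noncomputable def rhc2d38a69b00a9b0b : CRef := CRef.mk (Pat.mk 0x200000002000000020000000a00000000 0x200000002000000730000003e00000074 6 7) 0 0 (step_sound _ 34 [rh4a0cb3a9508b05dd, (rh55afc6a59410cf00.shift 1 0)] (by decide +kernel))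
noncomputable def rh419c1df1c0e446e7 : CRef := CRef.mk (Pat.mk 0x60000000e0000000a0000000000000000 0x60000000f0000007a0000001e0000000e 6 7) 0 0 (step_sound _ 33 [(rh71222050f2c63a3a.shift 1 0), rhcd83fa72fbdc12c6] (by decide +kernel))
noncomputable def rhf1b34483fd962739 : CRef := CRef.mk (Pat.mk 0x120000000200000012000000120000000000000000 0xc0000001e0000001b00000012000000320000003000000020 6 6) 0 0 (step_sound _ 162 [(rh2f68792b6b779e96.shift 1 2), rhd70eea991e03b13e] (by decide +kernel))
noncomputable def rh01f0954cfc9839a6 : CRef := CRef.mk (Pat.mk 0x12000000020000001200000012 0x740000003e000000630000003200000012 6 7) 0 0 (step_sound _ 98 [rh29e07b8822e3047d, (rh2f68792b6b779e96.shift 1 0)] (by decide +kernel))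
noncomputable def rh0346534b6d09535f : CRef := CRef.mk (Pat.mk 0x12000000020000000200000002 0x740000003e000000730000000200000002 6 7) 0 0 (step_sound _ 98 [(rh2f68792b6b779e96.shift 1 0), (rh6609aaed429e3652.shift 0 2)] (by decide +kernel))
noncomputable def rh75e73ae4d0984481 : CRef := CRef.mk (Pat.mk 0x200000000c000000050000000000000000 0x20000000700000003e000000770000001000000010 6 7) 0 0 (step_sound _ 100 [(rh3e6404e642728526.shift 0 2), (rh834ef1c974e4840e.shift 1 0), (rh9c0ab0af19c4d8a6.shift 0 2), (rhee0891bc88ee3f94.shift 1 2)] (by decide +kernel))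
noncomputable def rh7e375d4b2545e977 : CRef := CRef.mk (Pat.mk 0x2000000020000001200000004 0x200000002000000730000003e00000074 6 7) 0 0 (step_sound _ 34 [(rh2145e1d24b96a57e.shift 1 0), rh91964a127ffb2d17] (by decide +kernel))
noncomputable def rhaded46532ef4ca57 : CRef := CRef.mk (Pat.mk 0x200000002000000020000001200000000 0x200000002000000730000003e00000074 6 7) 0 0 (step_sound _ 34 [(rh55afc6a59410cf00.shift 1 0), rh91964a127ffb2d17] (by decide +kernel))
noncomputable def rh47e138d2afbbcce2 : CRef := CRef.mk (Pat.mk 0x3000000060000001000000000000000100000000000000000 0x20000000330000003e0000003000000038000000380000003800000008 6 6) 0 0 (step_sound _ 164 [(rh2fe78cc5ca4405d8.shift 0 5), (rh636d9388fc8640b0.shift 3 0)] (by decide +kernel))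
noncomputable def rh163fc6ac2326ae0e : CRef := CRef.mk (Pat.mk 0x60000000200000018000000080000000000000000 0x700000003e0000007b00000018000000080000000800000008 6 7) 0 0 (step_sound _ 164 [(rh16cbd58a1619e6a8.shift 3 0), (rh185c6e3748bd1404.shift 0 4), (rh4d477abd4f690b79.shift 0 2), rh80cc27999209e7f7] (by decide +kernel))
noncomputable def rhc49c0119ce193b33 : CRef := CRef.mk (Pat.mk 0x1800000002000000000000000f00000000 0x780000001f000000080000001f00000038 6 7) 0 0 (step_sound _ 4 [rh462fbc0203d832cd, rh96851dee118c1ba3] (by decide +kernel))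
noncomputable def rh49030c95c852c62d : CRef := CRef.mk (Pat.mk 0x1200000002000000020000000200000002 0x700000003e00000077000000020000000200000002 6 7) 0 0 (step_sound _ 130 [(rh185c6e3748bd1404.shift 0 3), (rhbaefcd01e0a8bca3.shift 1 0)] (by decide +kernel))
noncomputable def rh48b09cbb4e35957f : CRef := CRef.mk (Pat.mk 0x200000012000000020000000200000000 0x40000000600000006000000730000003e000000770000000300000001 6 7) 0 0 (step_sound _ 98 [(rh185c6e3748bd1404.shift 0 2), (rh91964a127ffb2d17.shift 0 2), rhdd474ad759fb06b7] (by decide +kernel))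
noncomputable def rh7bc6e4f859c6bd36 : CRef := CRef.mk (Pat.mk 0xe000000020000001a000000020000000000000000 0x780000003f0000003a0000001a0000001b0000001100000010 6 7) 0 0 (step_sound _ 32 [rh5fff2289c216dcae, (rh79877ebd3ef475dd.shift 0 1)] (by decide +kernel))
noncomputable def rh57e38a646e20dd21 : CRef := CRef.mk (Pat.mk 0xf00000008000000000000000000000000 0xc0000000c0000001c0000000f0000000c0000001c0000001c00000014 6 5) 0 0 (step_sound _ 163 [(rh33e738c4ed385b9f.shift 0 4), (rh840822eea913cb57.shift 2 0)] (by decide +kernel))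
noncomputable def rhd18a17d1af6d5d32 : CRef := CRef.mk (Pat.mk 0x6000000030000001a000000020000000000000000 0x100000001e0000001b0000001a0000000f0000000900000008 6 5) 0 0 (step_sound _ 64 [rh3239134304b7c639, (rh932754581e0f4330.shift 0 1)] (by decide +kernel))
noncomputable def rh86e7919891ccb30d : CRef := CRef.mk (Pat.mk 0x180000004c00000008000000480000004000000000 0x80000000f8000000cf00000048000000d8000000d000000080 6 8) 0 0 (step_sound _ 166 [(rh361cc68994bd8a63.shift 2 4), rh74b4806feb5ae38b] (by decide +kernel))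
noncomputable def rh6d619afd3ce2adf2 : CRef := CRef.mk (Pat.mk 0xf0000000800000000000000000000000000000000 0xc0000000c0000001c0000000f0000000c0000001c0000001c0000001c00000010 6 5) 0 0 (step_sound _ 195 [(rh33e738c4ed385b9f.shift 0 5), (rhcee9b75cc742dcf4.shift 2 0)] (by decide +kernel))
noncomputable def rh6b92c15602f74c07 : CRef := CRef.mk (Pat.mk 0x60000000e0000000a000000020000000000000000 0x60000000e0000003b0000001e0000003c00000010 6 6) 0 0 (step_sound _ 67 [rh3fc3b62c3315836b, (rh7b1f1fb55310c477.shift 2 1)] (by decide +kernel))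
noncomputable def rh3f31dc9eccec79a1 : CRef := CRef.mk (Pat.mk 0x20000000000000002000000030000000000000000 0x10000000700000007000000060000000600000007000000070000000600000004 6 3) 0 0 (step_sound _ 129 [(rh6c59ce14113da07f.shift 1 0), (rh9a369cb82ea472da.shift 0 2), (rhe16036ff578a11df.shift 0 2)] (by decide +kernel))
noncomputable def rhf0d2c8aa52026c23 : CRef := CRef.mk (Pat.mk 0x60000000300000010000000180000000000000000 0x200000003e0000003300000010000000380000003800000020 6 6) 0 0 (step_sound _ 164 [(rh0f15e236e035fb8f.shift 3 0), (rh361cc68994bd8a63.shift 0 4)] (by decide +kernel))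
noncomputable def rhdaacc2a17cb26e8e : CRef := CRef.mk (Pat.mk 0x600000003000000120000000a0000000000000000 0x100000001e0000001b0000001a0000000f0000000900000008 6 5) 0 0 (step_sound _ 64 [(rh932754581e0f4330.shift 0 1), rhc9301660fe3d40c1] (by decide +kernel))
noncomputable def rha41c3715f4a5cef5 : CRef := CRef.mk (Pat.mk 0x20000000000000002000000010000000000000000 0x50000000700000007000000060000000600000007000000070000000700000004 6 3) 0 0 (step_sound _ 129 [rhb38faaee8bdfa7c0, (rhb77bfac3e9efecea.shift 0 2), (rhf702e0fea5f10cea.shift 0 1)] (by decide +kernel))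
noncomputable def rh119c9bac1cdd6c73 : CRef := CRef.mk (Pat.mk 0x200000003000000020000000200000000 0x600000006000000070000000300000003000000030000000300000001 6 3) 0 0 (step_sound _ 128 [(rh50fbb5868c909700.shift 0 1), rhbe6a11bbb961c2b9] (by decide +kernel))
noncomputable def rh0d1a70b3093c31d6 : CRef := CRef.mk (Pat.mk 0x6000000030000000000000010000000180000001000000000000000000000000000000000 0x1e0000001b0000001800000018000000180000001800000018000000380000003800000028 6 6) 0 0 (step_sound _ 100 [(rh13222180952fb8f8.shift 0 2), (rh56259dd1390eee46.shift 3 0), (rhe286c75f2739cce2.shift 3 2)] (by decide +kernel))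
noncomputable def rh815167629469a56f : CRef := CRef.mk (Pat.mk 0x200000002000000020000001200000002 0x200000002000000720000003e00000077 6 7) 0 0 (step_sound _ 34 [(rh55afc6a59410cf00.shift 1 0), rh6609aaed429e3652] (by decide +kernel))
noncomputable def rh5a634c360f901c77 : CRef := CRef.mk (Pat.mk 0x2000000060000000200000002 0x500000007000000070000000700000003000000060000000600000002 6 3) 0 0 (step_sound _ 129 [(rh14e0829dc73b6804.shift 0 1), (rh14f80659e6313cc6.shift 1 1), rh3ca48e2a6d60153d] (by decide +kernel))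
noncomputable def rh1be062c6dc3ea416 : CRef := CRef.mk (Pat.mk 0x170000000000000010000000000000000000000000 0x380000001f0000003800000010000000300000003000000020 6 6) 0 0 (step_sound _ 163 [(rh4ad5fc38f1b69f65.shift 0 4), (rh9890f9d77740bbed.shift 0 5), (rhe84c35e83a304151.shift 1 0)] (by decide +kernel))
noncomputable def rh1a77390c8dd58c37 : CRef := CRef.mk (Pat.mk 0x1000000120000001200000012000000000000000000000000 0x10000000b0000001e0000001a00000012000000300000003000000020 6 6) 0 0 (step_sound _ 193 [(rh50fbb5868c909700.shift 0 3), rh87f79538d95ea4d3] (by decide +kernel))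
noncomputable def rh4090af3d4df4bf92 : CRef := CRef.mk (Pat.mk 0x800000008000000080000000100000001000000010000000200000000 0x140000001c0000001c0000000c000000080000001d0000001d000000150000000300000002 6 5) 0 0 (step_sound _ 32 [rh55afc6a59410cf00, (rhc5e89a5691ea14f2.shift 2 2)] (by decide +kernel))
noncomputable def rh89859a14f02c326a : CRef := CRef.mk (Pat.mk 0x800000008000000080000000100000001000000010000000200000000 0x10000000180000001800000018000000180000001d0000001d000000150000000300000002 6 5) 0 0 (step_sound _ 32 [rh55afc6a59410cf00, (rhd60a9635b04b5467.shift 2 2)] (by decide +kernel))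
noncomputable def rh0b75154094b6d2b7 : CRef := CRef.mk (Pat.mk 0x60000001300000000000000100000000000000000 0x20000000300000003e0000003300000038000000380000003800000008 6 6) 0 0 (step_sound _ 164 [(rh361cc68994bd8a63.shift 0 4), (rh636d9388fc8640b0.shift 3 0)] (by decide +kernel))
noncomputable def rhc3d72f20f5111753 : CRef := CRef.mk (Pat.mk 0x11000000120000001200000002 0x750000003f0000001a0000001200000012 6 7) 0 0 (step_sound _ 97 [rh50fbb5868c909700, rh9956ca1857426ab3] (by decide +kernel))
noncomputable def rhb93294096953f793 : CRef := CRef.mk (Pat.mk 0x8000000080000000800000008000000010000000000000000 0x10000000180000001800000008000000080000001f0000001c00000010 6 5) 0 0 (step_sound _ 196 [(rh2f68792b6b779e96.shift 3 3), rhb980912dad07f5ce] (by decide +kernel))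
noncomputable def rh10ab67654ace9693 : CRef := CRef.mk (Pat.mk 0x60000001300000012000000120000000200000000 0x200000003e0000003300000012000000360000001e00000008 6 6) 0 0 (step_sound _ 164 [(rh361cc68994bd8a63.shift 0 4), (rh6ccadc4073877750.shift 1 0)] (by decide +kernel))
noncomputable def rh235deda90e08f6c5 : CRef := CRef.mk (Pat.mk 0x170000001000000010000000000000000000000000 0x80000001f0000001800000010000000380000003800000028 6 6) 0 0 (step_sound _ 163 [(rh0a6888916bcef86b.shift 3 0), (rh96851dee118c1ba3.shift 0 4)] (by decide +kernel))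
noncomputable def rh1862e488ae703781 : CRef := CRef.mk (Pat.mk 0x700000003000000020000000200000000 0x180000001f0000001f0000000e0000000600000004 6 5) 0 0 (step_sound _ 131 [(rh18965a982d73c794.shift 0 3), rhd8b25ed50b8b8ca9] (by decide +kernel))
noncomputable def rh6ac98ce2730a5712 : CRef := CRef.mk (Pat.mk 0x7000000040000000400000004 0x780000003f0000003e0000000400000004 6 7) 0 0 (step_sound _ 99 [(rh2f68792b6b779e96.shift 2 0), (rhe8ab71c4076c7ec8.shift 0 2)] (by decide +kernel))
noncomputable def rh2ae4d641ca8d1b0c : CRef := CRef.mk (Pat.mk 0x8000000080000000800000001000000010000000100000001 0x40000000c0000000c0000000c0000001a0000001f0000001d0000001500000001 6 5) 0 0 (step_sound _ 97 [(rh168fed7625321222.shift 2 1), rh2f68792b6b779e96] (by decide +kernel))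
noncomputable def rhb67df7084eb6b0ac : CRef := CRef.mk (Pat.mk 0x1700000010000000100000000200000000 0x300000001f00000018000000380000003e00000008 6 6) 0 0 (step_sound _ 131 [(rh4e17dff0dc8287a5.shift 1 0), (rh96851dee118c1ba3.shift 0 3)] (by decide +kernel))
noncomputable def rh9b0bf9e153e28aba : CRef := CRef.mk (Pat.mk 0x800000008000000080000000d00000000 0x1000000018000000180000001c000000ff00000070 6 8) 0 0 (step_sound _ 68 [(rh24ae073cf30720c4.shift 0 1), (rhff509b783c9e6633.shift 2 0)] (by decide +kernel))
noncomputable def rh6a5c7933344b5d99 : CRef := CRef.mk (Pat.mk 0x700000002000000020000000600000000 0x380000001f0000003f0000000e0000000700000001 6 6) 0 0 (step_sound _ 32 [rh932754581e0f4330, (rhb1837f8a141831e4.shift 0 1)] (by decide +kernel))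
noncomputable def rhd82de6c0a48ea27d : CRef := CRef.mk (Pat.mk 0x300000002000000020000000200000000 0x200000002000000020000000300000007000000070000000700000003 6 3) 0 0 (step_sound _ 96 [rh3b9610df1e219827, rh7b1f1fb55310c477] (by decide +kernel))
noncomputable def rhe302078265218a3d : CRef := CRef.mk (Pat.mk 0x2000000020000001e00000012 0x1d0000001f0000003a0000001e00000012 6 6) 0 0 (step_sound _ 68 [(rh33e738c4ed385b9f.shift 1 1), rhc931f0ec84961597] (by decide +kernel))
noncomputable def rh501c78500e3bb6f5 : CRef := CRef.mk (Pat.mk 0xf000000000000001800000002 0x380000001f00000008000000780000001f 6 7) 0 0 (step_sound _ 132 [(rh428265de8cd3cd2d.shift 0 3), rh6bc21048280b85ef] (by decide +kernel))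
noncomputable def rhe99ba229c1c454c7 : CRef := CRef.mk (Pat.mk 0xf00000000000000180000000200000000 0x80000001f00000038000000380000001f00000008 6 6) 0 0 (step_sound _ 100 [rh3d2eea24107e386a, (rh96851dee118c1ba3.shift 0 3)] (by decide +kernel))
noncomputable def rhd9afdadc14b783df : CRef := CRef.mk (Pat.mk 0x7000000000000001a00000002 0x180000001f000000780000003e00000076 6 7) 0 0 (step_sound _ 34 [rh7ec1d765b790e642, (rhd584a578337d0023.shift 1 0), (rhf3baec4a0a3dd35e.shift 1 0)] (by decide +kernel))
noncomputable def rheabc8f856d22bbf7 : CRef := CRef.mk (Pat.mk 0x200000002000000020000001200000002 0x200000002000000720000003e00000077 6 7) 0 0 (step_sound _ 34 [rh185c6e3748bd1404, (rh55afc6a59410cf00.shift 1 0)] (by decide +kernel))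
noncomputable def rhe8357d4ba109c381 : CRef := CRef.mk (Pat.mk 0x1e0000001000000000000000070000000000000000 0x800000018000000380000001e00000018000000380000003f0000003800000020 6 6) 0 0 (step_sound _ 196 [(rh33e738c4ed385b9f.shift 1 5), rh494e4785cebceccf] (by decide +kernel))
noncomputable def rh4ee84d7f73540b6b : CRef := CRef.mk (Pat.mk 0x300000003000000020000000000000000 0x600000006000000060000000300000003000000060000000600000006 6 3) 0 0 (step_sound _ 33 [rh1adc8391535f5fb2, rh7b1f1fb55310c477] (by decide +kernel))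
noncomputable def rhe100d2fd6058bfe1 : CRef := CRef.mk (Pat.mk 0x100000001e0000001000000000 0x280000003800000038000000100000001f0000001800000008 6 6) 0 0 (step_sound _ 35 [(rh68a777751bfeafdf.shift 3 0), (rhb739f4f82bb681b4.shift 0 1)] (by decide +kernel))
noncomputable def rhd82bbd56f80856ff : CRef := CRef.mk (Pat.mk 0x1c00000001000000100000000000000000 0x380000001e00000033000000300000003000000020 6 6) 0 0 (step_sound _ 129 [(rh1d11e28e2554764f.shift 1 0), (rh80fcd6d0a18cb2dd.shift 0 3)] (by decide +kernel))
noncomputable def rhc1810b87469274ec : CRef := CRef.mk (Pat.mk 0x3000000020000000e000000080000000800000000 0x1b0000007e0000000f000000780000001800000010 6 7) 0 0 (step_sound _ 68 [rhb49d77442ec6bff9, (rhb739f4f82bb681b4.shift 0 2)] (by decide +kernel))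
noncomputable def rh4b15ccc2ccf4865c : CRef := CRef.mk (Pat.mk 0x1e0000000200000002000000020000000000000000 0x700000003e0000007200000002000000030000000300000001 6 7) 0 0 (step_sound _ 32 [rh52e0055e0df1b087, (rh79877ebd3ef475dd.shift 0 1)] (by decide +kernel))
noncomputable def rh9ce8b780a638052a : CRef := CRef.mk (Pat.mk 0xe0000001200000002000000060000000100000000 0x380000003e00000032000000120000001e0000000300000001 6 6) 0 0 (step_sound _ 33 [rh932754581e0f4330, (rhdf6e05ec907ec232.shift 0 1)] (by decide +kernel))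
noncomputable def rh5b95fd2252035401 : CRef := CRef.mk (Pat.mk 0xe0000001200000002000000060000000100000000 0x8000000080000000f0000001a0000001a0000001e0000001300000001 6 5) 0 0 (step_sound _ 33 [rh932754581e0f4330, (rhd9c0e8c590af7fe9.shift 0 1)] (by decide +kernel))
noncomputable def rh5d95e5f755993db9 : CRef := CRef.mk (Pat.mk 0x200000002000000020000000c00000000 0x2000000020000003a0000001f0000003d 6 6) 0 0 (step_sound _ 33 [(rh55afc6a59410cf00.shift 1 0), rh8ab1f3ada911ff43] (by decide +kernel))
noncomputable def rh57b34333248453b1 : CRef := CRef.mk (Pat.mk 0xf0000000a000000020000000c00000000 0x180000000f0000000a000000fa0000007f000000f3 6 8) 0 0 (step_sound _ 36 [rh0bc4112634237754, rh6a9b2a315b8d3f69, rh96b0624c8f941877, rhe4b19869b6b07514] (by decide +kernel))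
noncomputable def rh3e93cca6a6ef2dc1 : CRef := CRef.mk (Pat.mk 0x18000000100000001000000010 0x270000007e000000ff0000001000000010 6 8) 0 0 (step_sound _ 101 [(rh2f68792b6b779e96.shift 4 0), (rhd384bfdbad88efb0.shift 0 2)] (by decide +kernel))
noncomputable def rh91a2298d1796b84e : CRef := CRef.mk (Pat.mk 0x1000000010000000300000003000000000 0x1000000010000000770000003e0000000f 6 7) 0 0 (step_sound _ 35 [(rh932754581e0f4330.shift 3 0), rhb12ffaec36122c99] (by decide +kernel))
noncomputable def rhd45a6b92c1b7bdf5 : CRef := CRef.mk (Pat.mk 0x8000000180000000800000000 0x140000001c0000001c0000000c000000080000007c0000001f00000014 6 7) 0 0 (step_sound _ 131 [(rh14e0829dc73b6804.shift 2 1), (rh771d065bdc85bf2d.shift 2 0), (rhd4b4beefcd67f51e.shift 3 0), rhfea49f007ffffe7c] (by decide +kernel))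
noncomputable def rh6cc90b92cddb9f0d : CRef := CRef.mk (Pat.mk 0x1c00000002 0xf70000007e000000e3 6 8) 0 0 (step_sound _ 33 [rh947c596ba3b456b8, rheb0810cc63b001d8] (by decide +kernel))
noncomputable def rh3647b3883113e6f4 : CRef := CRef.mk (Pat.mk 0x100000001e00000010000000100000000000000000 0x1000000010000000130000001e00000018000000380000003000000030 6 6) 0 0 (step_sound _ 161 [(rh3244c3cc8379b070.shift 0 4), (rh8ff71bc284510f75.shift 3 0)] (by decide +kernel))
noncomputable def rhe0f138f850aa1df6 : CRef := CRef.mk (Pat.mk 0x80000000a0000001e0000000400000000 0x160000001f0000003a0000001e0000000c00000008 6 6) 0 0 (step_sound _ 100 [(rh33e738c4ed385b9f.shift 1 2), rh77737083ccd34321] (by decide +kernel))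
noncomputable def rh007c765085d47e8d : CRef := CRef.mk (Pat.mk 0xf00000002 0xfc0000007f000000e6 6 8) 0 0 (step_sound _ 36 [rh31e351ef79ee1ce8, (rh9890f9d77740bbed.shift 0 1), (rhf2b3bcf1454375d8.shift 1 0)] (by decide +kernel))
noncomputable def rh884afd10ccf552b1 : CRef := CRef.mk (Pat.mk 0xf000000020000000000000000 0x400000004000000ec0000007f000000fe0000000800000008 6 8) 0 0 (step_sound _ 100 [(rh4ad5fc38f1b69f65.shift 0 2), rhd7405c554617588f, (rhf2b3bcf1454375d8.shift 1 2), (rhf3baec4a0a3dd35e.shift 1 2)] (by decide +kernel))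
noncomputable def rh39f1381c08ac239b : CRef := CRef.mk (Pat.mk 0xf000000090000000000000000 0xc0000001c0000000f0000000f0000001c0000001c 6 5) 0 0 (step_sound _ 131 [(rh33e738c4ed385b9f.shift 0 3), rh763cf08b0e5d4187] (by decide +kernel))
noncomputable def rh44153a3ae3933d6c : CRef := CRef.mk (Pat.mk 0x3800000018000000400000004000000000 0xc7000000ff00000078000000c0000000c000000080 6 8) 0 0 (step_sound _ 130 [(rh83ea62faa312801a.shift 2 0), (rhad5d8fc3675c15dd.shift 0 3), (rhba89ab7cb81bcc90.shift 0 3)] (by decide +kernel))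
noncomputable def rh999cda61a8dbd098 : CRef := CRef.mk (Pat.mk 0x8000000180000003800000028 0x2000000020000000f0000000ff0000003f0000003800000028 6 8) 0 0 (step_sound _ 100 [(rh5c5e593799055d58.shift 3 0), rhbef1d0ab64eae675] (by decide +kernel))
noncomputable def rhbc4f8ebcf5492090 : CRef := CRef.mk (Pat.mk 0x100000002000000020000000a00000002 0x4000000070000000700000002000000070000001e00000003 6 5) 0 0 (step_sound _ 129 [(rh50fbb5868c909700.shift 0 1), rh8263c8ed2043969d] (by decide +kernel))
noncomputable def rhe3b027f559fbf010 : CRef := CRef.mk (Pat.mk 0x100000002000000020000000a0000000b00000000 0x10000001b0000001e0000001f0000007e0000001b00000010 6 7) 0 0 (step_sound _ 68 [rh3fbde0f9cbd67029, (rhb2a0b9ccfb5cecd5.shift 0 1)] (by decide +kernel))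
noncomputable def rhbb13a8986bf3641e : CRef := CRef.mk (Pat.mk 0x400000002000000020000000a00000002 0x1000000070000000700000002000000070000001e00000003 6 5) 0 0 (step_sound _ 129 [(rh2f68792b6b779e96.shift 1 1), rhbe0a810db62bd328] (by decide +kernel))
noncomputable def rhe5f06f945d7ae178 : CRef := CRef.mk (Pat.mk 0x4000000060000001c0000001800000000 0x1a0000003b0000003e0000001e0000001c0000001800000010 6 6) 0 0 (step_sound _ 131 [(rh034c2291f2766f19.shift 2 0), (rhb262cf03e94eb268.shift 1 1), (rhda6cc5da102e1723.shift 3 0), (rhdbb15021fb420664.shift 0 1)] (by decide +kernel))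
noncomputable def rhfeee64f8c5865b9c : CRef := CRef.mk (Pat.mk 0x140000001e00000010 0x3800000038000000380000001e0000001f00000010 6 6) 0 0 (step_sound _ 67 [(rh53b3c253cb0c65f4.shift 0 1), (rheb6e87d1ac4ed29d.shift 1 0)] (by decide +kernel))
noncomputable def rhae8208cac26a29fc : CRef := CRef.mk (Pat.mk 0xe00000004000000100000001000000000 0x300000007f0000003e000000300000003000000020 6 7) 0 0 (step_sound _ 100 [(rh25d80fb3e0f10f48.shift 1 0), (rh7344b4efa7925350.shift 0 3), rha7872d55da7de645] (by decide +kernel))
noncomputable def rhb78743b183109b0a : CRef := CRef.mk (Pat.mk 0x100000002000000020000000a00000008 0x4000000070000000700000002000000070000000f00000018 6 5) 0 0 (step_sound _ 129 [(rh50fbb5868c909700.shift 0 1), rhf765dfa5923e588c] (by decide +kernel))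
noncomputable def rh6ce41048fbc73320 : CRef := CRef.mk (Pat.mk 0x400000002000000020000000a00000008 0x1000000070000000700000002000000070000000f00000018 6 5) 0 0 (step_sound _ 129 [(rh2f68792b6b779e96.shift 1 1), rhe64073fd19d2ffee] (by decide +kernel))
noncomputable def rhea4ef8cbb178c0f7 : CRef := CRef.mk (Pat.mk 0x10000000140000001000000014 0x2f0000003e000000160000001400000014 6 6) 0 0 (step_sound _ 99 [(rh50fbb5868c909700.shift 3 0), rhf13f8bf34654c2fd] (by decide +kernel))
noncomputable def rhf37ec18cbcf87fc9 : CRef := CRef.mk (Pat.mk 0x6000000050000000400000004 0x780000003e000000770000000400000004 6 7) 0 0 (step_sound _ 99 [(rh2f68792b6b779e96.shift 2 0), (rh3d54e7f933686048.shift 0 2)] (by decide +kernel))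
noncomputable def rhc3042aa4759624de : CRef := CRef.mk (Pat.mk 0x30000000c0 0x70000007e000000e7 6 8) 0 0 (step_sound _ 35 [rh88c620441a3a17ea, (rhd6e447e81774439e.shift 3 0)] (by decide +kernel))
noncomputable def rh32d6ffa39281fb31 : CRef := CRef.mk (Pat.mk 0xf00000008000000000000000000000000 0xc0000000c0000001c0000000f0000000c0000001c0000001c00000014 6 5) 0 0 (step_sound _ 163 [(rh0d610cc74cba3ac6.shift 2 0), (rh33e738c4ed385b9f.shift 0 4)] (by decide +kernel))
noncomputable def rh156927a79b723172 : CRef := CRef.mk (Pat.mk 0x2000000180000000a 0xfe0000007f000000fb 6 8) 0 0 (step_sound _ 34 [rh048783a900402b25, (rh0786c19de25163c7.shift 1 0), rh2e073d59c97b9182, rh50cd11c9ca068ca2] (by decide +kernel))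
noncomputable def rhe4909b58bb712816 : CRef := CRef.mk (Pat.mk 0x20000000e00000001 0xe60000007e000000e3 6 8) 0 0 (step_sound _ 36 [(rh167fff566cb27b75.shift 1 0), rh80fcd6d0a18cb2dd] (by decide +kernel))
noncomputable def rhc3121d2a1c4abeda : CRef := CRef.mk (Pat.mk 0x1000000020000000300000002000000000000000000000000 0x200000003000000030000000300000003000000070000000600000006 6 3) 0 0 (step_sound _ 65 [rh8ff71bc284510f75, (rhffd04209dc8ea796.shift 0 2)] (by decide +kernel))
noncomputable def rhe60b7cbaea893af9 : CRef := CRef.mk (Pat.mk 0x3f00000000 0x1dc000000ff000001c0 6 9) 0 0 (step_sound _ 67 [(rh33e738c4ed385b9f.shift 0 1), (rh9c94213f6896c74a.shift 2 0)] (by decide +kernel))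
noncomputable def rhab2ade96d5bfcd84 : CRef := CRef.mk (Pat.mk 0x20000000040000003800000010 0x280000007c0000003f0000003800000010 6 7) 0 0 (step_sound _ 133 [(rh3c88ce959c0e423f.shift 4 0), rh8d9f0dd292eb3251] (by decide +kernel))
noncomputable def rh8a46e4c06823543f : CRef := CRef.mk (Pat.mk 0x10000000160000001c0000000800000000 0x20000000f0000001e000000360000001c0000007800000020 6 7) 0 0 (step_sound _ 36 [(rh42afa1af9fffa0e1.shift 2 0), (rh91fe432aab4bfe4d.shift 0 1)] (by decide +kernel))
noncomputable def rh5753d7dd6d6c863b : CRef := CRef.mk (Pat.mk 0x10000000060000001c00000008 0x2000000370000001e0000001e0000001c00000008 6 6) 0 0 (step_sound _ 132 [(rh3c88ce959c0e423f.shift 3 0), rhf125d87754eb2c4f] (by decide +kernel))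
noncomputable def rh2e2245e92d55fb3a : CRef := CRef.mk (Pat.mk 0x400000004000000070000000200000000 0xa0000000f0000003c000000070000001e0000000c 6 6) 0 0 (step_sound _ 34 [rh424f754c311038b5, rh42afa1af9fffa0e1] (by decide +kernel))
noncomputable def rh7dc4d4070a7f1d57 : CRef := CRef.mk (Pat.mk 0x10000000060000000c00000008 0x2000000370000003e0000000e0000000c00000008 6 6) 0 0 (step_sound _ 98 [rh1c27d27764d9265b, (rh2145e1d24b96a57e.shift 2 0)] (by decide +kernel))
noncomputable def rh6f754c6cd41bc177 : CRef := CRef.mk (Pat.mk 0x8000000030000000e0000000400000000 0x120000001e0000000f0000000e0000003c00000010 6 6) 0 0 (step_sound _ 129 [(rh2145e1d24b96a57e.shift 1 1), rh69f4dff798bbef93] (by decide +kernel))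
noncomputable def rh8ff5fe930dd74c90 : CRef := CRef.mk (Pat.mk 0x400000000000000070000000200000000 0xc0000000c0000003e000000070000001e0000000c 6 6) 0 0 (step_sound _ 98 [(rh5c5e593799055d58.shift 1 1), rh65fe875887d278e9] (by decide +kernel))
noncomputable def rh4ec520720b14dd94 : CRef := CRef.mk (Pat.mk 0x90000000f0000000400000000 0x1c0000001c0000000f0000000f0000001c00000008 6 5) 0 0 (step_sound _ 35 [rh2d61ad9262a30000, (rhe25b0a99195a5d59.shift 0 1)] (by decide +kernel))
noncomputable def rhf3b0bfa7bbc618fd : CRef := CRef.mk (Pat.mk 0x10000000120000001c0000000800000000 0xc0000001e0000007f0000001c0000007800000030 6 7) 0 0 (step_sound _ 36 [(rh42afa1af9fffa0e1.shift 2 0), rhab84cf9e95b83dc4] (by decide +kernel))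
noncomputable def rh137cd5c3bbeacac7 : CRef := CRef.mk (Pat.mk 0x20000000040000003800000010 0x10000000380000007c0000001f0000003800000030 6 7) 0 0 (step_sound _ 67 [rh376b08d695d5e724, (rh751243aba3a4638a.shift 2 0), (rhc02b3aee7ab87ee1.shift 0 1)] (by decide +kernel))
noncomputable def rhe12725b6cddb7872 : CRef := CRef.mk (Pat.mk 0x1c0000000a000000180000000800000000 0xe00000007e000000fb000000180000001800000010 6 8) 0 0 (step_sound _ 129 [(rh98d78962294e869a.shift 1 0), (rheb0810cc63b001d8.shift 0 3)] (by decide +kernel))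
noncomputable def rh6fa27c949f3fa255 : CRef := CRef.mk (Pat.mk 0x20000001800000002 0xe70000007e000000e3 6 8) 0 0 (step_sound _ 34 [(rh0786c19de25163c7.shift 1 0), rhcb763b151dc90fdc] (by decide +kernel))
noncomputable def rhe3f612f8f5dcfdf1 : CRef := CRef.mk (Pat.mk 0x20000000e00000000 0xe70000007e000000e0 6 8) 0 0 (step_sound _ 36 [(rh0786c19de25163c7.shift 1 0), (rh3244c3cc8379b070.shift 0 1)] (by decide +kernel))
noncomputable def rh990423569c72ea1f : CRef := CRef.mk (Pat.mk 0x8000000380000003000000020 0x6000000060000001ff0000003c0000003000000020 6 9) 0 0 (step_sound _ 101 [(rh1eeec04e73117746.shift 3 0), (rh260b6e19684bf479.shift 0 1), (rhdab32775f5c78fcf.shift 2 0), (rhff7d63dcb3cf9f74.shift 2 2)] (by decide +kernel))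
noncomputable def rh8aa0f211686350a1 : CRef := CRef.mk (Pat.mk 0x2000000020000000600000002 0x500000007000000070000000300000003000000070000000600000002 6 3) 0 0 (step_sound _ 129 [rh3ca48e2a6d60153d, (rhba97f7f4ade5e136.shift 0 1), rhcdb6af858653d20d] (by decide +kernel))
noncomputable def rhcdf73cadbdb48da9 : CRef := CRef.mk (Pat.mk 0x20000001e0000000a 0x14000000340000003e0000003f0000000a 6 6) 0 0 (step_sound _ 66 [rhd5193fc6940023d6, (rhf48373e13d2bc128.shift 1 1)] (by decide +kernel))
noncomputable def rhfa6c5e7a888a0cd1 : CRef := CRef.mk (Pat.mk 0x7000000018 0xe70000007f0000001c 6 8) 0 0 (step_sound _ 35 [rha58ddf8813c4b875, (rheb0810cc63b001d8.shift 2 0)] (by decide +kernel))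
noncomputable def rhe9bbe17dae195b2d : CRef := CRef.mk (Pat.mk 0x20000000f000000020 0x10000000100000003f000000fe0000002e 6 8) 0 0 (step_sound _ 35 [(rh1c99d91256a542ce.shift 1 0), rh1f9701c4cf497514, (rh775ca1963e850b80.shift 1 0), (rhd5eb272e07a4e288.shift 2 1)] (by decide +kernel))
noncomputable def rha3ca31245c50bdd9 : CRef := CRef.mk (Pat.mk 0x600000004000000340000001400000000 0x180000001f0000003e000000f40000003600000022 6 8) 0 0 (step_sound _ 131 [(rh2f68792b6b779e96.shift 2 1), rhccec183971aead5f] (by decide +kernel))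
noncomputable def rha74ca15d7d50da74 : CRef := CRef.mk (Pat.mk 0x10000000200000002000000020000001a00000002 0x30000000300000006000000060000001f0000007a00000002 6 7) 0 0 (step_sound _ 98 [(rh123a22857a929cd9.shift 0 1), (rh2f68792b6b779e96.shift 1 0)] (by decide +kernel))
noncomputable def rh64d13e30b1434ce1 : CRef := CRef.mk (Pat.mk 0x40000000a0000000a00000018 0x170000001e0000000b0000000f00000019 6 5) 0 0 (step_sound _ 99 [rh352eccb41ea76a43, (rh50fbb5868c909700.shift 2 0)] (by decide +kernel))
noncomputable def rh61b40d7ddef7f60a : CRef := CRef.mk (Pat.mk 0x20000000a000000180000000800000000 0x100000001c0000001c0000000f0000003e000000380000001800000010 6 6) 0 0 (step_sound _ 131 [(rh4e963a2ca4ae7037.shift 0 1), (rh64bc0dab78a08b48.shift 2 1), (rhd4b4beefcd67f51e.shift 3 0)] (by decide +kernel))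
noncomputable def rhf6efddc07831bc81 : CRef := CRef.mk (Pat.mk 0x1800000010000000d00000005000000000 0x670000007e000000f7000000d0000000d000000080 6 8) 0 0 (step_sound _ 133 [(rh2f68792b6b779e96.shift 4 1), rhcf6df40c947ae6b5] (by decide +kernel))
noncomputable def rh71ab08d7ee9301e4 : CRef := CRef.mk (Pat.mk 0x3800000010000000100000001000000000 0x70000007e0000007f000000180000001800000008 6 7) 0 0 (step_sound _ 35 [(rh61a1a2beadbe7714.shift 0 1), (rh932754581e0f4330.shift 3 0)] (by decide +kernel))
noncomputable def rh79513ce3843936b9 : CRef := CRef.mk (Pat.mk 0x30000000100000001000000010 0xf000000fe000000ff0000001000000010 6 8) 0 0 (step_sound _ 99 [(rh50fbb5868c909700.shift 3 0), (rha0862759400c3387.shift 0 2)] (by decide +kernel))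
noncomputable def rheebb48a03a3eec5a : CRef := CRef.mk (Pat.mk 0x200000002000000020000000200000018 0x4000000060000000600000002000000060000001f00000078 6 7) 0 0 (step_sound _ 162 [rh0aa659a4b10c9a8a, (rhbaefcd01e0a8bca3.shift 1 1)] (by decide +kernel))
noncomputable def rh3abf20406e03c374 : CRef := CRef.mk (Pat.mk 0x80000000800000008000000600000000800000000 0x140000001c0000001c0000000c0000000c000000380000007f000001ec0000000c00000004 6 9) 0 0 (step_sound _ 195 [(rh1abbfc1b610408c3.shift 0 2), (rh449b125e432019b6.shift 2 0), (rh5f3c1ec18308a201.shift 2 2)] (by decide +kernel))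
noncomputable def rh18a8efa221e72e64 : CRef := CRef.mk (Pat.mk 0x7000000030000000000000000 0x40000001c0000001f0000001f0000001800000018 6 5) 0 0 (step_sound _ 99 [(rh18965a982d73c794.shift 0 2), rhba719ba7a8fe514a] (by decide +kernel))
noncomputable def rh718ce84867c4bc47 : CRef := CRef.mk (Pat.mk 0x80000000f00000000000000000000000000000000 0xc0000000c0000000c0000000f0000001c0000001c0000001c00000014 6 5) 0 0 (step_sound _ 99 [(rh0d610cc74cba3ac6.shift 2 0), (rhe25b0a99195a5d59.shift 0 3)] (by decide +kernel))
noncomputable def rhca9122a6bf90113c : CRef := CRef.mk (Pat.mk 0x2000000030000000200000002 0x100000007000000070000000700000003000000030000000200000002 6 3) 0 0 (step_sound _ 129 [rh3ca48e2a6d60153d, (rh42ab489a1be3958e.shift 0 1), rh5b8ed3f93df90ce5, (rhc85cc95794737cf7.shift 0 1)] (by decide +kernel))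
noncomputable def rhff57cb668796cf94 : CRef := CRef.mk (Pat.mk 0x200000008000000180000000800000000 0x100000001c0000001c0000000f0000007c000000180000001800000010 6 7) 0 0 (step_sound _ 131 [(rh39bac26a3afdee51.shift 0 1), (rh64bc0dab78a08b48.shift 2 1), (rhd4b4beefcd67f51e.shift 3 0)] (by decide +kernel))
noncomputable def rh17d72857cb19cd62 : CRef := CRef.mk (Pat.mk 0x1000000018000000c00000000800000008 0x770000007e000000c70000000c00000008 6 8) 0 0 (step_sound _ 101 [rh85707b31bbc3ae61, (rhd6e447e81774439e.shift 3 2)] (by decide +kernel))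
noncomputable def rh272de0190cd0d37d : CRef := CRef.mk (Pat.mk 0x1e00000000000000040000000000000000 0x70000001e00000003000000070000000700000001 6 5) 0 0 (step_sound _ 161 [(rh3244c3cc8379b070.shift 0 4), rh5defc817e8b095fa] (by decide +kernel))
noncomputable def rh3237f10bff6e21ec : CRef := CRef.mk (Pat.mk 0x1000000038000000000000000800000000 0x4000000770000003e0000000f0000000800000008 6 7) 0 0 (step_sound _ 67 [(rh71222050f2c63a3a.shift 3 0), (rhfbfbbdfd65bc3555.shift 0 1)] (by decide +kernel))
noncomputable def rh8cb96321975a6872 : CRef := CRef.mk (Pat.mk 0xa0000001e00000002 0x10000000300000003000000030000003e0000001e00000006 6 6) 0 0 (step_sound _ 68 [(rh33e738c4ed385b9f.shift 1 1), rh9c16b34c18d1aaff] (by decide +kernel))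
noncomputable def rh5e60ede20b4bb1ea : CRef := CRef.mk (Pat.mk 0x400000006000000300000001600000000 0x160000001e0000003f000000370000003700000021 6 6) 0 0 (step_sound _ 100 [rh6ea466dffd500dc0, (rhc10214bf3fe8094a.shift 1 2)] (by decide +kernel))
noncomputable def rh2b856cb44e4e309f : CRef := CRef.mk (Pat.mk 0x1000000010000000100000001000000000 0x280000007c0000001f000000100000001000000010 6 7) 0 0 (step_sound _ 131 [(rh50fbb5868c909700.shift 3 1), rhe57a2f0072bd44af] (by decide +kernel))
noncomputable def rhcdd603b961b2a176 : CRef := CRef.mk (Pat.mk 0x20000001e0000000000000004 0x50000000700000007000000020000001e0000000700000004 6 5) 0 0 (step_sound _ 33 [rh1148744b53f3df58, (rheb0810cc63b001d8.shift 0 1)] (by decide +kernel))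
noncomputable def rh3f8e6f8e66beb5a9 : CRef := CRef.mk (Pat.mk 0x1e00000002000000000000000000000000 0x600000006000000070000001e00000006000000070000000700000005 6 5) 0 0 (step_sound _ 161 [(rh3244c3cc8379b070.shift 0 4), rh39b326e89ae96813] (by decide +kernel))
noncomputable def rh0b4449bb610ff627 : CRef := CRef.mk (Pat.mk 0x18000000380000000000000010 0x800000008000000080000001f0000003f0000001400000010 6 6) 0 0 (step_sound _ 131 [(rh4d329a3c71e2b19c.shift 0 1), (rh9e07f76261b05888.shift 3 0)] (by decide +kernel))
noncomputable def rhe1514fa092c190c5 : CRef := CRef.mk (Pat.mk 0x18000000080000001800000038 0x640000007c0000001f0000007e00000038 6 7) 0 0 (step_sound _ 34 [rh425de0a4611acc8e, (rhb739f4f82bb681b4.shift 1 0)] (by decide +kernel))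
noncomputable def rhbb7213d4724395ac : CRef := CRef.mk (Pat.mk 0x180000001c0000000000000000 0x3000000030000001f0000001f0000000700000004 6 5) 0 0 (step_sound _ 65 [rh3f38de6b95fe6c30, (rh53b3c253cb0c65f4.shift 0 2)] (by decide +kernel))
noncomputable def rh5219cade83af4278 : CRef := CRef.mk (Pat.mk 0x20000000700000000000000010 0x2000000028000000ef0000007e0000003f00000010 6 8) 0 0 (step_sound _ 67 [(rh55c4ed4acec0f063.shift 1 1), (rh82f6cf61a959c131.shift 2 0), (rhb12ffaec36122c99.shift 0 1), (rhec46bd5500c722c9.shift 2 2)] (by decide +kernel))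
noncomputable def rh6fe3533b466b2991 : CRef := CRef.mk (Pat.mk 0x1c00000018000000080000000800000000 0x30000001f0000001f0000000e0000000c00000004 6 5) 0 0 (step_sound _ 129 [rh157256972d1e8796, (rhb739f4f82bb681b4.shift 0 3)] (by decide +kernel))
noncomputable def rhec4c3a03451814c9 : CRef := CRef.mk (Pat.mk 0x18000000180000000000000018 0x80000000800000018000000380000001f0000001c00000018 6 6) 0 0 (step_sound _ 35 [(rh2f68792b6b779e96.shift 3 0), rhc5de389ce0cd865a] (by decide +kernel))
noncomputable def rhee7d813acc868ebf : CRef := CRef.mk (Pat.mk 0x70000000200000000000000010 0xf0000007e000000fe0000001800000010 6 8) 0 0 (step_sound _ 99 [(rh25efc5d5a6c022ff.shift 2 0), (rh775ca1963e850b80.shift 1 2), (rh8aa80d8d90d3223c.shift 0 2), (rha03f6e28ea70fc7d.shift 2 2), (rhcfeedd951c119579.shift 2 0)] (by decide +kernel))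
noncomputable def rh4f91499b6dced39a : CRef := CRef.mk (Pat.mk 0x200000012000000120000001a00000002 0x30000000300000007000000360000001f0000001a00000002 6 6) 0 0 (step_sound _ 160 [rhc44c34062d108ca2, (rhffd04209dc8ea796.shift 0 1)] (by decide +kernel))
noncomputable def rh3160267e33ffc081 : CRef := CRef.mk (Pat.mk 0x1000000002000000180000000800000000 0x18000000780000001f000000180000001800000010 6 7) 0 0 (step_sound _ 99 [(rh08df213f91b14149.shift 0 1), (rh4dec404a6c0e229a.shift 3 0), rh8c71f81ac5ab9626] (by decide +kernel))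
noncomputable def rh97e22ee2b403a57f : CRef := CRef.mk (Pat.mk 0x1600000002 0xe00000007e000000e7 6 8) 0 0 (step_sound _ 35 [(rh3d54e7f933686048.shift 1 0), rheb0810cc63b001d8] (by decide +kernel))
noncomputable def rhca8622791fda63ce : CRef := CRef.mk (Pat.mk 0x70000000200000002000000020000001800000008 0x3a0000001f0000003a0000003e0000001f0000001800000008 6 6) 0 0 (step_sound _ 132 [rha0b9bdabe07a1148, (rhc44aa952c63836fd.shift 0 4), rhd7e064419ac75b43] (by decide +kernel))
noncomputable def rh7b29530c110a38a0 : CRef := CRef.mk (Pat.mk 0x2000000020000000a0000001a0000000a00000000 0x60000001e0000001f0000001b0000000f0000001a0000001a00000010 6 5) 0 0 (step_sound _ 131 [(rhad5f467b00db3efe.shift 0 1), (rhd4b4beefcd67f51e.shift 3 0), (rhf23e9c8bd0dda92b.shift 1 1)] (by decide +kernel))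
noncomputable def rh653a8b3dd9d9a8b9 : CRef := CRef.mk (Pat.mk 0x600000002000000020000000a0000001800000008 0x390000001f0000003a0000001a0000001a0000001800000008 6 6) 0 0 (step_sound _ 160 [(rh50fbb5868c909700.shift 0 2), rh7dc4bd2f943cd3d3] (by decide +kernel))
noncomputable def rh25f7222d8a562c34 : CRef := CRef.mk (Pat.mk 0x1000000008000000280000006800000000 0x30000000780000002f0000007c0000006800000040 6 7) 0 0 (step_sound _ 133 [(rh184c7d6def5da868.shift 2 0), (rhc4d2c33a0e38dbc2.shift 0 1), (rhc5351dabd90740aa.shift 4 0)] (by decide +kernel))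
noncomputable def rh67c35e90c7817e06 : CRef := CRef.mk (Pat.mk 0x4000000020000000a0000001a0000000a00000000 0x140000001e0000003b0000001a0000001a0000001b00000001 6 6) 0 0 (step_sound _ 161 [(rh2f68792b6b779e96.shift 1 2), rh515c0b8e13fe7160] (by decide +kernel))
noncomputable def rh7bf23a8bae572535 : CRef := CRef.mk (Pat.mk 0x800000008000000680000002800000000 0x40000006c000001ff0000007c000000680000006800000040 6 9) 0 0 (step_sound _ 101 [(rh4e6f88d76e1542f1.shift 2 0), (rh59531d51c052d5f9.shift 2 0), (rh7430a052bcb4bacd.shift 0 1)] (by decide +kernel))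
noncomputable def rh87b452bafedd8830 : CRef := CRef.mk (Pat.mk 0x30000000100000005000000050 0xcf000000fe000000f70000005000000050 6 8) 0 0 (step_sound _ 99 [(rh50fbb5868c909700.shift 3 0), rha66a45e9edea8906] (by decide +kernel))
noncomputable def rh182ca0c96ca2f548 : CRef := CRef.mk (Pat.mk 0x3000000070000000000000000 0x18000000180000001f0000001f0000001c00000004 6 5) 0 0 (step_sound _ 67 [rh245928b0a8b00d1d, (rhf48373e13d2bc128.shift 0 2)] (by decide +kernel))
noncomputable def rh980e539dadfc7579 : CRef := CRef.mk (Pat.mk 0x1a00000018 0xe7000000fe00000038 6 8) 0 0 (step_sound _ 34 [rh36095876875a1ad2, (rhe25b0a99195a5d59.shift 1 0)] (by decide +kernel))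
noncomputable def rha068555654cd13ea : CRef := CRef.mk (Pat.mk 0x200000002000000030000000300000000 0x40000000600000006000000070000001f0000001e 6 5) 0 0 (step_sound _ 34 [(rh55afc6a59410cf00.shift 1 0), rh58a9dcc95751c294] (by decide +kernel))
noncomputable def rh1e8ecd1aa28a9661 : CRef := CRef.mk (Pat.mk 0xf00000002000000030000000300000000 0xf0000001e0000001b0000001f0000001c 6 5) 0 0 (step_sound _ 99 [rh787c9f16af116b87, (rhe25b0a99195a5d59.shift 0 3)] (by decide +kernel))
noncomputable def rh0cc5b3d2b5c1fce5 : CRef := CRef.mk (Pat.mk 0xf0000000040000000000000004 0x7000000fe000001c60000000400000004 6 9) 0 0 (step_sound _ 71 [rh64b7d0d4da30c3ad, (rhe25b0a99195a5d59.shift 4 2)] (by decide +kernel))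
noncomputable def rheda9fcd4453cf563 : CRef := CRef.mk (Pat.mk 0x70000000040000002000000024 0xc70000007e000000260000002400000024 6 8) 0 0 (step_sound _ 134 [(rh04253f50b6dd0619.shift 5 0), rhb7f0cbd15ac78bb4] (by decide +kernel))
noncomputable def rhf6483a3496e885af : CRef := CRef.mk (Pat.mk 0x30000000340000002000000004 0x40000001c7000001fe000001f60000002400000004 6 9) 0 0 (step_sound _ 99 [(rh710860539a4c4362.shift 1 2), rhee37d230d297e9fd, (rhf0ba7ee5f5e5d123.shift 3 1)] (by decide +kernel))
noncomputable def rh48063cd66fe129bd : CRef := CRef.mk (Pat.mk 0x60000001c00000008 0x30000000300000003e0000001f00000038 6 6) 0 0 (step_sound _ 33 [(rh5f26c28b8010d14d.shift 1 0), rh89541de5a22835bc, rha03f6e28ea70fc7d, rhc4a4df455b95b496] (by decide +kernel))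
noncomputable def rh820a0c32cf59c004 : CRef := CRef.mk (Pat.mk 0xe000000180000001000000000 0xf7000000fe0000001f0000003000000020 6 8) 0 0 (step_sound _ 100 [rh194b467550bfb614, (rh36095876875a1ad2.shift 0 2), (rhc31b6f966e0d7e89.shift 0 1)] (by decide +kernel))
noncomputable def rh6d332dc183066cb8 : CRef := CRef.mk (Pat.mk 0x80000000e000000180000001000000000 0x2000000020000000fc000000fe0000001f0000003000000020 6 8) 0 0 (step_sound _ 100 [rh194b467550bfb614, (rh329833e8e1a2aac2.shift 2 1), (rh9115c4bb33f193b6.shift 0 2), (rhc31b6f966e0d7e89.shift 0 1), (rhde939a7b51e734f8.shift 2 1)] (by decide +kernel))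
noncomputable def rh30b1045e318f0560 : CRef := CRef.mk (Pat.mk 0x3800000018 0xe7000000ff00000018 6 8) 0 0 (step_sound _ 38 [(rh18965a982d73c794.shift 3 0), rha58ddf8813c4b875] (by decide +kernel))
noncomputable def rh1bafd0a8e7f7c30a : CRef := CRef.mk (Pat.mk 0x380000001800000030 0xc0000000c0000000f0000003f0000001f00000030 6 6) 0 0 (step_sound _ 131 [rh122d01633f3fd493, (rh6f1cbe15c631ee70.shift 3 0)] (by decide +kernel))
noncomputable def rh52d9468ba1fd2695 : CRef := CRef.mk (Pat.mk 0x180000003000000028 0x1c0000001c0000001f000000380000007f000001e8 6 9) 0 0 (step_sound _ 35 [rh74297ec47b574ce4, (rh8ee80cc30e93a344.shift 2 0), rhb49dd4c1c654d6df] (by decide +kernel))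
noncomputable def rh2352f424c86d8ed6 : CRef := CRef.mk (Pat.mk 0xa0000001e00000008 0x600000016000000370000001e0000003e00000008 6 6) 0 0 (step_sound _ 66 [rh6a42ab6f33b816f2, (rhf48373e13d2bc128.shift 1 1)] (by decide +kernel))
noncomputable def rhf5cba49d9ea8fd5e : CRef := CRef.mk (Pat.mk 0x4000000060000001c00000008 0x12000000130000003e000000fe0000001f00000008 6 8) 0 0 (step_sound _ 68 [rh1ca17702e595763b, rhc4aee0ebd1246d59, (rhc7fbeba8b6af5dd2.shift 1 0), (rhff7d63dcb3cf9f74.shift 1 1)] (by decide +kernel))
noncomputable def rh7400e4eb06ef86ae : CRef := CRef.mk (Pat.mk 0x4000000060000001c0000000800000000 0x20000001b0000003e000000360000001f0000007800000020 6 7) 0 0 (step_sound _ 100 [(rh1ca17702e595763b.shift 0 1), (rh5dec5e73a267a1c4.shift 0 1), (rh88bc171a9b2f08d3.shift 1 0)] (by decide +kernel))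
noncomputable def rhaedbfd33bdf5c35c : CRef := CRef.mk (Pat.mk 0x4000000060000001c0000000800000000 0x20000003b0000003f0000003e0000001c0000007800000030 6 7) 0 0 (step_sound _ 132 [(rh6236c5ee0a5a0ab4.shift 0 1), (rh69f4dff798bbef93.shift 1 0), (rh6e695a1545c963e7.shift 0 1), (rh8b6638b1049ebf20.shift 1 0), (rha3353cd3fe4ed8c2.shift 1 1), (rha7629e526a82f635.shift 0 1)] (by decide +kernel))
noncomputable def rh6d9b0fe6b9052f09 : CRef := CRef.mk (Pat.mk 0x20000003200000018000000000000000000000000 0x10000000300000003000000330000001f000000070000000700000005 6 6) 0 0 (step_sound _ 97 [(rh24ae073cf30720c4.shift 1 3), rhe95a2e51b0ee5fdb] (by decide +kernel))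
noncomputable def rhc2e8fbd03da3fbc0 : CRef := CRef.mk (Pat.mk 0xe0000001800000014 0x2000000e7000000fe0000001f00000034 6 8) 0 0 (step_sound _ 68 [rh1e635b8b083a169d, (rh36095876875a1ad2.shift 0 1), (rh9115c4bb33f193b6.shift 0 1)] (by decide +kernel))
noncomputable def rhe9d8eb3627931ab4 : CRef := CRef.mk (Pat.mk 0x8000000000000000e0000001800000014 0x380000003a000000f3000000fe0000001f00000034 6 8) 0 0 (step_sound _ 68 [rh1e635b8b083a169d, (rh4d8d614e03a7f6ad.shift 1 1), (rh9115c4bb33f193b6.shift 0 1), (rhde939a7b51e734f8.shift 2 0)] (by decide +kernel))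
noncomputable def rh2168ac475500b457 : CRef := CRef.mk (Pat.mk 0x180000001c000000180000001000000000 0x30000000300000001f0000001e0000001f0000003000000020 6 6) 0 0 (step_sound _ 164 [(rh5c5e593799055d58.shift 3 2), rh74804295b2f507ec] (by decide +kernel))
noncomputable def rh10c8e318484dc850 : CRef := CRef.mk (Pat.mk 0x80000000e000000180000001400000000 0x10000000330000003f0000003e0000001f0000003400000020 6 6) 0 0 (step_sound _ 100 [rh194b467550bfb614, (rh38b2ba8923e3c1fc.shift 0 1), (rh8ebf9530de0f8ca7.shift 0 2), (rhc31b6f966e0d7e89.shift 0 1), (rhf4c3280c0a7d3b31.shift 0 1)] (by decide +kernel))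
noncomputable def rh849c73f5d210389b : CRef := CRef.mk (Pat.mk 0x80000000e00000001 0xec0000007e00000073 6 8) 0 0 (step_sound _ 36 [rh80fcd6d0a18cb2dd, (rh84d1614f5efa9132.shift 1 0)] (by decide +kernel))
noncomputable def rhbd7eac49f5f61dc9 : CRef := CRef.mk (Pat.mk 0x1e0000000200000004 0x50000000700000007000000030000001e0000000600000004 6 5) 0 0 (step_sound _ 97 [(rh3244c3cc8379b070.shift 0 2), rhba97f7f4ade5e136] (by decide +kernel))
noncomputable def rh5fa7c67df0189e20 : CRef := CRef.mk (Pat.mk 0x2000000004000000380000001000000000 0x380000007c0000001f000000380000003000000020 6 7) 0 0 (step_sound _ 99 [(rh328d79551216c3a2.shift 0 1), (rh538f0c901abb768b.shift 2 0), (rhc02b3aee7ab87ee1.shift 0 2), (rhda6245e74943428a.shift 1 0)] (by decide +kernel))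
noncomputable def rh20213d30d66d08b7 : CRef := CRef.mk (Pat.mk 0x2000000180000000a 0xe70000007f000000fb 6 8) 0 0 (step_sound _ 34 [(rh0786c19de25163c7.shift 1 0), rhcb763b151dc90fdc, rhd526f9b20c752965] (by decide +kernel))
noncomputable def rh0f85868eef7d22a3 : CRef := CRef.mk (Pat.mk 0xa0000000a0000001800000008 0x140000001c0000001c000000180000001e0000003b0000001800000008 6 6) 0 0 (step_sound _ 131 [(rh44f453b84f013105.shift 3 0), (rh73f605273a09a9d0.shift 3 1), rh9e2ed3f70650ed9a, (rhba97f7f4ade5e136.shift 2 1)] (by decide +kernel))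
noncomputable def rh095222b233a14ac4 : CRef := CRef.mk (Pat.mk 0x1c0000001000000000 0x200000002000000030000003e0000003700000004 6 6) 0 0 (step_sound _ 65 [rh3a69dc315759d1b4, (rhe25b0a99195a5d59.shift 1 1)] (by decide +kernel))
noncomputable def rh2807d2ca846dbe75 : CRef := CRef.mk (Pat.mk 0x700000004000000000 0x8000000080000000f000000fe0000007f00000010 6 8) 0 0 (step_sound _ 67 [(rh0de499e0455c9c14.shift 1 1), (rh36eba2a3de447758.shift 0 1), (rh3a69dc315759d1b4.shift 2 0), (rhd1d05263fabc0227.shift 1 1)] (by decide +kernel))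
noncomputable def rhb97a988fd842842d : CRef := CRef.mk (Pat.mk 0x20000000a0000001a 0xe6000000ff0000001b 6 8) 0 0 (step_sound _ 34 [rh1b662fd3373a2cc8, rhb739f4f82bb681b4] (by decide +kernel))
noncomputable def rh8dfa78814e62a564 : CRef := CRef.mk (Pat.mk 0x30000000000000003000000010000000000000000 0x7000000070000000600000003000000070000000600000004 6 3) 0 0 (step_sound _ 129 [(rh5c5e593799055d58.shift 0 2), rhca84076cba0116c5] (by decide +kernel))
noncomputable def rhbb388591183b747a : CRef := CRef.mk (Pat.mk 0x1a00000002 0xe00000007e000000e7 6 8) 0 0 (step_sound _ 34 [(rh3d54e7f933686048.shift 1 0), rheb0810cc63b001d8] (by decide +kernel))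
noncomputable def rha3ac5577c3a5727f : CRef := CRef.mk (Pat.mk 0x2000000020000001b0000000800000000 0x180000007f0000003f0000001b0000001800000010 6 7) 0 0 (step_sound _ 99 [rh3677d5ec93b46a6b, rh4e6f88d76e1542f1, rh90c5c82dcaf9d6dc, (rhb4dc27738f3ce342.shift 0 2)] (by decide +kernel))
noncomputable def rh1638608b4e3af5ca : CRef := CRef.mk (Pat.mk 0x8000000080000001800000008000000200000000000000000 0x80000001800000018000000180000003c0000001f00000004 6 6) 0 0 (step_sound _ 68 [rh1f3784cbd64b82f8, (rhd3458b32566d63f7.shift 3 2)] (by decide +kernel))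
noncomputable def rh3204b907d25dc6c5 : CRef := CRef.mk (Pat.mk 0x20000001e00000000000000000000000000000000 0x600000006000000060000001e00000007000000070000000700000005 6 5) 0 0 (step_sound _ 97 [rh39b326e89ae96813, (rheb0810cc63b001d8.shift 0 3)] (by decide +kernel))
noncomputable def rh5422471cc7cd921e : CRef := CRef.mk (Pat.mk 0x6000000020000000e000000020 0x1e0000007e000000ff000000e000000020 6 8) 0 0 (step_sound _ 100 [(rh50fbb5868c909700.shift 4 0), (rh852836e5273ad296.shift 0 1)] (by decide +kernel))
noncomputable def rha261118844bb14b9 : CRef := CRef.mk (Pat.mk 0x8000000180000000800000008 0x140000001c0000001c000000180000001f0000007c0000001800000008 6 7) 0 0 (step_sound _ 131 [(rh14f80659e6313cc6.shift 3 1), (rh1b856df2901efff2.shift 0 1), (rh44f453b84f013105.shift 3 0), (rh8599f462953abc6e.shift 3 1)] (by decide +kernel))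
noncomputable def rh77729e3b3642c3ef : CRef := CRef.mk (Pat.mk 0x8000000180000002800000008 0x100000001f0000007f000001e800000008 6 9) 0 0 (step_sound _ 69 [(rh8ee80cc30e93a344.shift 2 1), rhecb650d43d01c272, (rhfafe3c6a86a63237.shift 1 0)] (by decide +kernel))
noncomputable def rh42351e738d6c2289 : CRef := CRef.mk (Pat.mk 0x8000000080000001800000008 0x140000001c0000001c0000000c0000001f000000780000001800000008 6 7) 0 0 (step_sound _ 131 [rh20b5665afeaabef8, (rh3ca48e2a6d60153d.shift 2 0), (rhba97f7f4ade5e136.shift 2 1)] (by decide +kernel))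
noncomputable def rhae682b69deb3d960 : CRef := CRef.mk (Pat.mk 0x200000002000000020000000200000000 0x700000007000000070000000600000006000000060000000200000002 6 3) 0 0 (step_sound _ 161 [rh2c8d9f772b3bf7e8, (rh44f453b84f013105.shift 1 1), (rhc85cc95794737cf7.shift 0 2)] (by decide +kernel))
noncomputable def rh4d44e82656d97880 : CRef := CRef.mk (Pat.mk 0x80000000b0000000e000000000000000000000000 0x1c0000003f0000000e0000007c0000001800000018 6 7) 0 0 (step_sound _ 130 [(rh33e738c4ed385b9f.shift 0 4), (rhfb9512eef385eda6.shift 1 0)] (by decide +kernel))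
noncomputable def rh745690ae3bfb145d : CRef := CRef.mk (Pat.mk 0x1000000008000000080000000800000003 0x40000001c0000001c000000080000000c0000001e00000013 6 5) 0 0 (step_sound _ 131 [(rh2f68792b6b779e96.shift 3 1), rhe0e7b737b991cbdf] (by decide +kernel))
noncomputable def rhcc885ce58dbf0f1b : CRef := CRef.mk (Pat.mk 0x40000001c00000014 0x2000000030000003f0000001f00000034 6 6) 0 0 (step_sound _ 33 [rh5b7425dd68103d17, (rhe25b0a99195a5d59.shift 1 0)] (by decide +kernel))
noncomputable def rhd4bb8652d9d84b90 : CRef := CRef.mk (Pat.mk 0x38000000100000000000000008 0x70000003e0000007f0000000c00000008 6 7) 0 0 (step_sound _ 98 [(rh775ca1963e850b80.shift 0 2), (rha03f6e28ea70fc7d.shift 1 2), (rhcfeedd951c119579.shift 1 0)] (by decide +kernel))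
noncomputable def rh5b46ea2c8c4a4e17 : CRef := CRef.mk (Pat.mk 0x40000001c0000000400000000 0x6000000070000003f0000001f0000000700000002 6 6) 0 0 (step_sound _ 65 [rh19ccc014c0420082, (rh5b7425dd68103d17.shift 0 1), rhb91b7df0d06c1d96] (by decide +kernel))
noncomputable def rhff31e365e951982f : CRef := CRef.mk (Pat.mk 0x18000000080000001c000000180000000c 0x2000000078000000ee000000fc000000180000000f 6 8) 0 0 (step_sound _ 1 [rh53b3c253cb0c65f4, (rh9ec57da85927c23a.shift 1 1)] (by decide +kernel))
noncomputable def rh5096c6d467774a2a : CRef := CRef.mk (Pat.mk 0x100000000800000018000000380000000c 0x3000000030000000ee000000fe000000380000000f 6 8) 0 0 (step_sound _ 66 [rh97e85c5887c41c3d, (rhb739f4f82bb681b4.shift 1 1)] (by decide +kernel))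
noncomputable def rhe15231563d8a9ed3 : CRef := CRef.mk (Pat.mk 0x4000000080000001e00000000 0x50000000f0000003b0000001e00000003 6 6) 0 0 (step_sound _ 68 [(rh33e738c4ed385b9f.shift 1 1), rhacab6bca61020398] (by decide +kernel))
noncomputable def rh981da095d1d353ed : CRef := CRef.mk (Pat.mk 0x1000000070000000400000004 0x8000000080000007f0000003f0000007c00000004 6 7) 0 0 (step_sound _ 67 [(rh167fff566cb27b75.shift 0 1), (rh2aac33c566332a8c.shift 0 1), rh49606a42a30c7ac4] (by decide +kernel))
noncomputable def rh24f2f6c861012611 : CRef := CRef.mk (Pat.mk 0x3000000120000000e00000008 0x60000001e00000013000000360000003e00000008 6 6) 0 0 (step_sound _ 36 [(rh33e738c4ed385b9f.shift 1 1), rh87fb97f4ef2e871d] (by decide +kernel))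
noncomputable def rh43c05946097dac52 : CRef := CRef.mk (Pat.mk 0x18000000080000002800000008 0x40000007c0000007f0000007c00000008 6 7) 0 0 (step_sound _ 98 [(rh50fbb5868c909700.shift 2 0), (rh75dbe8d35bdac275.shift 0 1)] (by decide +kernel))
noncomputable def rhfcbbf2745ad20858 : CRef := CRef.mk (Pat.mk 0x400000002000000020000000a 0x1000000070000000700000002000000070000001f 6 5) 0 0 (step_sound _ 97 [(rh2f68792b6b779e96.shift 1 0), rhe3c73f82d8ddddbc] (by decide +kernel))
noncomputable def rh56bede76cac4230e : CRef := CRef.mk (Pat.mk 0x20000000600000002000000020000000a00000008 0x1000000030000001e00000012000000370000001e00000008 6 6) 0 0 (step_sound _ 160 [(rh50fbb5868c909700.shift 0 2), rhbc07c21257320e5e] (by decide +kernel))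
noncomputable def rh10ee02911e5c110a : CRef := CRef.mk (Pat.mk 0x30000000600000002000000020000000a00000008 0x130000001e0000001a0000007e0000001f00000008 6 7) 0 0 (step_sound _ 132 [(rh2fe78cc5ca4405d8.shift 0 4), rh3a3f8b4c171f7bd9] (by decide +kernel))
noncomputable def rh4aa30b6b1a1b55f2 : CRef := CRef.mk (Pat.mk 0x100000002000000020000000a 0x4000000070000000700000002000000070000001f 6 5) 0 0 (step_sound _ 97 [rh2dfa15f2cafed264, rh50fbb5868c909700] (by decide +kernel))
noncomputable def rh60085b405ab89a28 : CRef := CRef.mk (Pat.mk 0x200000003000000020000000700000008 0x40000001e000000130000003a0000001f00000018 6 6) 0 0 (step_sound _ 130 [(rh2f68792b6b779e96.shift 1 1), rhb714e7117b5950b4] (by decide +kernel))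
noncomputable def rhd9f94664d222f011 : CRef := CRef.mk (Pat.mk 0x2000000030000000c0 0x670000007e000000c7 6 8) 0 0 (step_sound _ 35 [rhb12ffaec36122c99, (rhd6e447e81774439e.shift 3 0)] (by decide +kernel))
noncomputable def rhdfe8c6387df09594 : CRef := CRef.mk (Pat.mk 0xb0000000c00000008 0x100000001c0000001c0000001c0000000f0000000c00000008 6 5) 0 0 (step_sound _ 99 [(rh1741680720c097b4.shift 2 0), rh65848b46e3dc871b, (rh69f0587a21bb077f.shift 2 0), rhddcd04bb31546311] (by decide +kernel))
noncomputable def rheca135f545528d0d : CRef := CRef.mk (Pat.mk 0x38000000100000000000000000 0x4000000070000007e0000003f0000000800000008 6 7) 0 0 (step_sound _ 98 [(rh4f8edb321cf5b49d.shift 0 2), (rhafa5a7051d37b143.shift 1 0), (rhfcb55d5dc3b78d1f.shift 0 2)] (by decide +kernel))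
noncomputable def rh005b9b98208e1201 : CRef := CRef.mk (Pat.mk 0x1e000000180000000a00000000 0xc0000000c0000001e0000001f0000003b00000010 6 6) 0 0 (step_sound _ 65 [rh7fbfe45dc9e11a97, (rheb0810cc63b001d8.shift 0 2)] (by decide +kernel))
noncomputable def rh6287ec5fcea77cda : CRef := CRef.mk (Pat.mk 0x700000004000000050 0x80000000f000000fe0000007f000000d0 6 8) 0 0 (step_sound _ 67 [(rh7bc3824673bba745.shift 2 0), (rh88c620441a3a17ea.shift 0 1), (rh9aa138e5ed752369.shift 2 0), (rhd1d05263fabc0227.shift 1 1)] (by decide +kernel))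
noncomputable def rh6a488e55913b8bec : CRef := CRef.mk (Pat.mk 0xc0000000e000000080000000200000000 0xc0000007e0000007f0000003300000010 6 7) 0 0 (step_sound _ 100 [(rh0cb6a409506b34ea.shift 1 2), (rh300eedc557b86950.shift 1 2), (rh8a88abf038d31fd2.shift 0 2), rhda76e559c36b4764] (by decide +kernel))
noncomputable def rha45bacf169746c15 : CRef := CRef.mk (Pat.mk 0x2000000030000000200000002 0x500000007000000070000000300000003000000030000000300000002 6 3) 0 0 (step_sound _ 129 [(rh32431e66bbf434a4.shift 0 1), rh3ca48e2a6d60153d, rh45410035e9d8a2d6] (by decide +kernel))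
noncomputable def rh9d3b09f3b7b4cf97 : CRef := CRef.mk (Pat.mk 0x100000001c0000001000000014 0xa0000001b0000003f0000001700000014 6 6) 0 0 (step_sound _ 99 [(rh50fbb5868c909700.shift 3 0), rh71d73ab43afd0bf9] (by decide +kernel))
noncomputable def rh99fd05cdff5fd7c0 : CRef := CRef.mk (Pat.mk 0x1e00000010 0xe0000000ff0000001f 6 8) 0 0 (step_sound _ 3 [rh9115c4bb33f193b6, rhb739f4f82bb681b4] (by decide +kernel))
noncomputable def rhc910f9225fe461be : CRef := CRef.mk (Pat.mk 0x200000003200000012000000020000000200000000 0x200000003200000012000000170000003e00000074 6 7) 0 0 (step_sound _ 36 [rh2c8944b345c0ad1f, (rh9e3edb185cc347de.shift 4 1)] (by decide +kernel))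
noncomputable def rh63ed930e762323ed : CRef := CRef.mk (Pat.mk 0xe00000002000000020000000200000000 0xf90000007f000000e6000000060000000600000004 6 8) 0 0 (step_sound _ 132 [(rh50b5135431ad0103.shift 0 1), rh70083afbf2722603, (rhd584a578337d0023.shift 1 3), (rhf2b3bcf1454375d8.shift 1 3)] (by decide +kernel))
noncomputable def rh821ceb63185686e5 : CRef := CRef.mk (Pat.mk 0xe00000002000000020000000200000000 0x190000000f0000001e0000000e0000000600000004 6 5) 0 0 (step_sound _ 128 [(rh50fbb5868c909700.shift 0 1), rhd8b25ed50b8b8ca9] (by decide +kernel))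
noncomputable def rh5ebc5a567ffaf164 : CRef := CRef.mk (Pat.mk 0x400000002000000020000000a0000000200000000 0x1000000070000000700000002000000060000001e0000000300000001 6 5) 0 0 (step_sound _ 161 [(rh2f68792b6b779e96.shift 1 2), rh488f421d513f7a70] (by decide +kernel))
noncomputable def rh0d9aad02c21b2ded : CRef := CRef.mk (Pat.mk 0x2000000020000000a00000003 0x4000000070000000700000003000000060000001e00000003 6 5) 0 0 (step_sound _ 34 [rh18965a982d73c794, rh64bc0dab78a08b48] (by decide +kernel))
noncomputable def rh008eb9ca590fa030 : CRef := CRef.mk (Pat.mk 0x400000002000000120000000a0000000200000000 0x600000006000000030000003e0000001e0000000300000001 6 6) 0 0 (step_sound _ 32 [rh932754581e0f4330, (rhe8ce80c5674c7c75.shift 0 1)] (by decide +kernel))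
noncomputable def rh9eaf948f91031b60 : CRef := CRef.mk (Pat.mk 0x200000012000000180000000800000000 0x180000001b0000001e0000003c000000f800000030 6 8) 0 0 (step_sound _ 132 [(rh5c5e593799055d58.shift 3 1), rhccf65f1405b139b7] (by decide +kernel))
noncomputable def rh772cfa6a575bdf5d : CRef := CRef.mk (Pat.mk 0x1000000090000000d00000005 0x1e0000001f0000001b0000000d0000000d 6 5) 0 0 (step_sound _ 99 [(rh5c5e593799055d58.shift 2 0), rh8f4f31112772f34b] (by decide +kernel))
noncomputable def rha78bd1eb589ccb77 : CRef := CRef.mk (Pat.mk 0x800000004000000060000000600000000 0x80000003c0000003f0000003600000014 6 6) 0 0 (step_sound _ 99 [(rh71222050f2c63a3a.shift 2 0), rh78d7dae515f1d71e] (by decide +kernel))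
noncomputable def rh2b05b642004fac39 : CRef := CRef.mk (Pat.mk 0x400000004000000060000000600000000 0x400000004000000770000003e00000078 6 7) 0 0 (step_sound _ 35 [(rh55afc6a59410cf00.shift 2 0), rh9c94213f6896c74a] (by decide +kernel))
noncomputable def rh73356946dc9821bc : CRef := CRef.mk (Pat.mk 0x10000000e00000004 0xe30000007e0000007c 6 8) 0 0 (step_sound _ 36 [(rh3f8766e6ecb455ce.shift 0 1), (rhb8de41a89a9d4634.shift 1 0)] (by decide +kernel))
noncomputable def rh1706798966dc514f : CRef := CRef.mk (Pat.mk 0x16000000020000001000000010 0x730000003e000000630000003000000010 6 7) 0 0 (step_sound _ 99 [rhc1488b67e5ce5d2f, (rheb0810cc63b001d8.shift 0 2)] (by decide +kernel))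
noncomputable def rha46aa1b0a4ad6a82 : CRef := CRef.mk (Pat.mk 0x80000000800000008000000180000000800000000 0x80000000c0000001f00000078000000180000000c00000004 6 7) 0 0 (step_sound _ 34 [(rh932754581e0f4330.shift 2 0), (rhab48aa6b621925e5.shift 0 1)] (by decide +kernel))
noncomputable def rh77f2622c01fa4f19 : CRef := CRef.mk (Pat.mk 0x20000000300000002000000020000001e00000008 0x4000000060000001b0000001e000000320000001e00000038 6 6) 0 0 (step_sound _ 162 [rh18110531906e1246, (rh2f68792b6b779e96.shift 1 2)] (by decide +kernel))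
noncomputable def rhed089e533d29058f : CRef := CRef.mk (Pat.mk 0x20000000e00000002 0xe60000007e000000e3 6 8) 0 0 (step_sound _ 36 [(rh0786c19de25163c7.shift 1 0), rheb0810cc63b001d8] (by decide +kernel))
noncomputable def rh7ef73296965dca89 : CRef := CRef.mk (Pat.mk 0x30000000100000005000000050 0xcf000000fe000000f70000005000000050 6 8) 0 0 (step_sound _ 99 [(rh50fbb5868c909700.shift 3 0), rh815f84b9bd9d4e24] (by decide +kernel))
noncomputable def rhfc7bbd8988f3a12f : CRef := CRef.mk (Pat.mk 0x200000002000000020000000a00000008 0x1000000030000000300000002000000060000001f00000078 6 7) 0 0 (step_sound _ 160 [rhe842cedfed0156ad, (rhffd04209dc8ea796.shift 0 1)] (by decide +kernel))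
noncomputable def rh1a6b9e2dcaa3dfa2 : CRef := CRef.mk (Pat.mk 0x200000002000000020000000a00000008 0x4000000060000000600000002000000060000001f00000078 6 7) 0 0 (step_sound _ 162 [rh7b379377a13479aa, (rhbaefcd01e0a8bca3.shift 1 1)] (by decide +kernel))
noncomputable def rhbcc8caa6032809dc : CRef := CRef.mk (Pat.mk 0x2000000120000001e0000000800000000 0x180000003b0000001e0000001e0000003800000010 6 6) 0 0 (step_sound _ 36 [rha5a5394e43132d78, (rhe25b0a99195a5d59.shift 1 1)] (by decide +kernel))
noncomputable def rh338074c23ab46efe : CRef := CRef.mk (Pat.mk 0x60000000e00000008 0x1000000010000000380000003e0000003f00000008 6 6) 0 0 (step_sound _ 36 [rha6eccc19e45aa954, (rhf48373e13d2bc128.shift 1 1)] (by decide +kernel))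
noncomputable def rhdca83205f85fc235 : CRef := CRef.mk (Pat.mk 0x70000000200000008000000080 0x18f000001fe000001ef0000008000000080 6 9) 0 0 (step_sound _ 99 [(rh3918eeb6c53434d8.shift 0 2), (rh4f8edb321cf5b49d.shift 1 2), (rh775ca1963e850b80.shift 1 2), (rha3bc93d59a5021b5.shift 3 0)] (by decide +kernel))
noncomputable def rh27668036ef8cfe30 : CRef := CRef.mk (Pat.mk 0x30000000100000007000000010 0xf000000fe0000003e0000007000000010 6 8) 0 0 (step_sound _ 66 [(rh075211c3608a5a57.shift 1 1), (rh65268541442490ca.shift 2 0), (rhedf3a755fe019897.shift 1 2), rhf38f9b555022e2b2] (by decide +kernel))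
noncomputable def rh0845c696443da834 : CRef := CRef.mk (Pat.mk 0x2000000030000000600000002 0x100000003000000070000000600000007000000070000000600000002 6 3) 0 0 (step_sound _ 130 [(rh27ff5b232d61e098.shift 0 1), (rhbaefcd01e0a8bca3.shift 1 0)] (by decide +kernel))
noncomputable def rh0a5fa27a725643d1 : CRef := CRef.mk (Pat.mk 0x80000002800000028 0xf0000007e000000ef 6 8) 0 0 (step_sound _ 36 [(rh0e7026a0a3f6e059.shift 2 0), rh2820ca9a6c4f41b4, rh3918eeb6c53434d8, (rhd9106766b9ff53c0.shift 2 0)] (by decide +kernel))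
noncomputable def rh410562924614aa92 : CRef := CRef.mk (Pat.mk 0x7000000020000000200000002000000000 0xe000000fe0000007f000000300000003000000010 6 8) 0 0 (step_sound _ 36 [(rh46e6db74c8fa4b2a.shift 0 1), (rh932754581e0f4330.shift 4 0)] (by decide +kernel))
noncomputable def rhad562696acd1db6f : CRef := CRef.mk (Pat.mk 0xe00000002 0xe00000007e000000e7 6 8) 0 0 (step_sound _ 36 [(rh3d54e7f933686048.shift 1 0), rheb0810cc63b001d8] (by decide +kernel))
noncomputable def rh537493fa63bde2ed : CRef := CRef.mk (Pat.mk 0x800000008000000180000001c00000000 0x40000000c0000000e0000001f0000001f00000003 6 5) 0 0 (step_sound _ 33 [rh167b5bb3db469598, (rh53b3c253cb0c65f4.shift 0 1)] (by decide +kernel))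
noncomputable def rhb12e96c3e207f19f : CRef := CRef.mk (Pat.mk 0x10000000180000001e000000000000000000000000 0x370000001f0000001e000000030000000200000002 6 6) 0 0 (step_sound _ 129 [(rh3244c3cc8379b070.shift 0 3), rh3a72e63076b5408d] (by decide +kernel))
noncomputable def rh9d807638d325f784 : CRef := CRef.mk (Pat.mk 0x100000001c0000001000000040 0x1000000010000000100000001c0000007f0000006f 6 7) 0 0 (step_sound _ 35 [(rh503dd4575245365b.shift 3 0), rh9375360a0dc5aa71] (by decide +kernel))
noncomputable def rh029af04a046f0a53 : CRef := CRef.mk (Pat.mk 0x200000003800000080 0x370000007e000000ce 6 8) 0 0 (step_sound _ 38 [rh1f9701c4cf497514, (rh96851dee118c1ba3.shift 3 0)] (by decide +kernel))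
noncomputable def rhb7fd16c784376ff1 : CRef := CRef.mk (Pat.mk 0x400000007000000100 0x7f000003fe00000187 6 10) 0 0 (step_sound _ 35 [(rh0089e8c85240cd2b.shift 2 0), rh551591afa7e9bd9a, (rh7fb660bc21ce4329.shift 1 1), (rhaf61538b68a500a8.shift 2 0)] (by decide +kernel))
noncomputable def rh8180e95f64eccbc4 : CRef := CRef.mk (Pat.mk 0x100000001c00000040 0x1c000000ff00000067 6 8) 0 0 (step_sound _ 37 [(rh96851dee118c1ba3.shift 2 0), rhec0f150ffdda098a] (by decide +kernel))
noncomputable def rh332fc90e2c699cd5 : CRef := CRef.mk (Pat.mk 0xe0000002000000000 0x400000004000000070000003e0000003300000002 6 6) 0 0 (step_sound _ 68 [rh43dc67402634d54f, (rh96851dee118c1ba3.shift 1 1)] (by decide +kernel))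
noncomputable def rhcf9d132135d3ddfa : CRef := CRef.mk (Pat.mk 0x1e000000020000000000000000 0x50000000700000007000000070000001e000000060000000600000006 6 5) 0 0 (step_sound _ 129 [(rh3244c3cc8379b070.shift 0 3), rhd01417a01441fe52] (by decide +kernel))
noncomputable def rh1f1f004581965fd1 : CRef := CRef.mk (Pat.mk 0x1800000010000000180000001c00000000 0x240000003f0000001f000000180000001c00000004 6 6) 0 0 (step_sound _ 99 [(rh6aa3e7e8646654a4.shift 0 1), (rh932754581e0f4330.shift 2 0)] (by decide +kernel))
noncomputable def rhe8e128cdab9358aa : CRef := CRef.mk (Pat.mk 0x20000001e000000000000000000000000 0x1000000070000000700000007000000060000001e000000070000000600000006 6 5) 0 0 (step_sound _ 65 [rhe1eb557f23d03012, (rheb0810cc63b001d8.shift 0 2)] (by decide +kernel))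
noncomputable def rh1ac654600d04c553 : CRef := CRef.mk (Pat.mk 0x3c000000000000002800000024 0x30000003e000000070000003e00000066 6 7) 0 0 (step_sound _ 65 [(rh80fcd6d0a18cb2dd.shift 1 2), rhe07f614196cf4edb] (by decide +kernel))
noncomputable def rhb09a08074a79ccdd : CRef := CRef.mk (Pat.mk 0x30000000100000003800000018 0xe0000003e000000f70000003f00000018 6 8) 0 0 (step_sound _ 99 [(rh50fbb5868c909700.shift 3 0), rhbd48fc2439c2c778] (by decide +kernel))
noncomputable def rhcaaf3b590f0c2ed6 : CRef := CRef.mk (Pat.mk 0x38000000000000002000000020 0x170000003e000000670000002000000020 6 7) 0 0 (step_sound _ 69 [(rh3918eeb6c53434d8.shift 0 2), (rh50fbb5868c909700.shift 4 0)] (by decide +kernel))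
noncomputable def rh79b910961aa09fed : CRef := CRef.mk (Pat.mk 0x8000000080000000800000000 0x140000001c0000001f00000038000000180000001800000018 6 6) 0 0 (step_sound _ 131 [(rh25208373db83e521.shift 3 0), rh2726962e49a46af1, (rh5abfc4c9d959be03.shift 2 0), (rhc85cc95794737cf7.shift 2 1)] (by decide +kernel))
noncomputable def rh1f34efedaafb3af9 : CRef := CRef.mk (Pat.mk 0x4000000020000000200000006 0x1000000030000000700000006000000030000000700000007 6 3) 0 0 (step_sound _ 97 [(rh2f68792b6b779e96.shift 1 0), rhaf349dd7709502bf] (by decide +kernel))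
noncomputable def rh89033204c3ca616c : CRef := CRef.mk (Pat.mk 0x8000000040000000e0000001c00000010 0x340000003c000000770000007e0000001c00000010 6 7) 0 0 (step_sound _ 68 [(rh7b1f2bd04e3db55f.shift 2 0), (rh87f0adef0757ea10.shift 0 1), (rhc3a62e1d6ae06e0b.shift 1 0), (rhe3060b190bc0bc78.shift 0 2)] (by decide +kernel))
noncomputable def rhb2bdda74075a6d32 : CRef := CRef.mk (Pat.mk 0x8000000040000000c0000001800000010 0x3800000038000000770000003f0000001800000010 6 7) 0 0 (step_sound _ 65 [rh8530d1918b3f789d, (rhb739f4f82bb681b4.shift 0 1)] (by decide +kernel))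
noncomputable def rh62290136342671f0 : CRef := CRef.mk (Pat.mk 0x1000000020000000200000003 0x4000000060000000700000003000000060000000700000007 6 3) 0 0 (step_sound _ 97 [rh50fbb5868c909700, rhcde0c31690b9466d] (by decide +kernel))
noncomputable def rhbc5aa0d58952bc85 : CRef := CRef.mk (Pat.mk 0x10000000380000001c 0x6000000060000007f0000003f0000001c 6 7) 0 0 (step_sound _ 34 [rh34517e326ddb5b25, (rh98d92ab9dd718be9.shift 1 0), rhba89ab7cb81bcc90] (by decide +kernel))
noncomputable def rh48ab4475e89f065c : CRef := CRef.mk (Pat.mk 0x80000001e0000000c 0xe0000000f0000003b0000001e0000000c 6 6) 0 0 (step_sound _ 65 [(rh3244c3cc8379b070.shift 0 1), rh593fa144f6ebe23e] (by decide +kernel))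
noncomputable def rh0b92932e1a9dd358 : CRef := CRef.mk (Pat.mk 0x180000003800000018 0x4000000060000007f0000003f0000001e 6 7) 0 0 (step_sound _ 34 [rh34517e326ddb5b25, (rhae3a86fa299b4a58.shift 1 0), rhba89ab7cb81bcc90] (by decide +kernel))
noncomputable def rh1c695ca2e0bb1035 : CRef := CRef.mk (Pat.mk 0x800000008000000080000000000000008 0x1c0000001c0000003c0000000f0000001c0000001c0000001800000008 6 6) 0 0 (step_sound _ 163 [(rh25208373db83e521.shift 3 1), (rh5abfc4c9d959be03.shift 2 1), (rh5ee4dc8825dcefa0.shift 0 1), (rh812afb51762f5f43.shift 2 0)] (by decide +kernel))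
noncomputable def rh7bfd0b1f6ca0954d : CRef := CRef.mk (Pat.mk 0x1c00000002000000080000000c00000000 0x30000001e000000030000001f0000000f00000001 6 5) 0 0 (step_sound _ 129 [rh1ddec4e30dd9809f, (rheb0810cc63b001d8.shift 0 3)] (by decide +kernel))
noncomputable def rhe4a99ebe2f7d2849 : CRef := CRef.mk (Pat.mk 0x18000000100000001000000010 0x27000000fe000000ff0000001000000010 6 8) 0 0 (step_sound _ 101 [(rh2f68792b6b779e96.shift 4 0), (rha0862759400c3387.shift 0 2)] (by decide +kernel))
noncomputable def rhb349f7f7b6c0c222 : CRef := CRef.mk (Pat.mk 0x100000000800000008000000080000000800000008 0x10000000180000000c0000000f0000007c0000001800000008 6 7) 0 0 (step_sound _ 98 [(rh50fbb5868c909700.shift 2 0), (rhdebe940eb59afb65.shift 0 1)] (by decide +kernel))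
noncomputable def rh32dba896b2437b9f : CRef := CRef.mk (Pat.mk 0x7000000020000000200000002000000000 0xf0000007e000000fe000000380000003000000010 6 8) 0 0 (step_sound _ 36 [(rh6467a4adad8185f6.shift 0 1), (rh932754581e0f4330.shift 4 0)] (by decide +kernel))
noncomputable def rh6c0545ee52ca7761 : CRef := CRef.mk (Pat.mk 0x8000000080000000c0000000c 0x170000001f0000007c0000000f0000000c 6 7) 0 0 (step_sound _ 98 [rh411efc0b58d8b649, (rh50fbb5868c909700.shift 2 0)] (by decide +kernel))
noncomputable def rh1f23471e1f37f73b : CRef := CRef.mk (Pat.mk 0xe00000002 0x730000003e00000073 6 7) 0 0 (step_sound _ 36 [rhb71c7e7a31ed093c, rheb0810cc63b001d8] (by decide +kernel))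
noncomputable def rhfc68626c63a22f58 : CRef := CRef.mk (Pat.mk 0x30000000200000002000000020 0x4f000001fe000001fe0000002000000020 6 9) 0 0 (step_sound _ 102 [(rh2f68792b6b779e96.shift 5 0), (rh40fc232e12ee4fd4.shift 0 2)] (by decide +kernel))
noncomputable def rh7bec080ee37e9213 : CRef := CRef.mk (Pat.mk 0x1a0000001e0000000000000000 0x600000006000000070000001e0000001e0000000700000002 6 5) 0 0 (step_sound _ 33 [rhad3dacbbd1c20b27, (rheb0810cc63b001d8.shift 0 1)] (by decide +kernel))
noncomputable def rh79504e3359aa3ae3 : CRef := CRef.mk (Pat.mk 0x180000001c0000000c 0x1f0000001f0000001c0000001c0000000c 6 5) 0 0 (step_sound _ 99 [(rh5c5e593799055d58.shift 2 0), rhd444fbf007a660e7] (by decide +kernel))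
noncomputable def rhd2a8b93d19ea5e8d : CRef := CRef.mk (Pat.mk 0x80000001c000000000000001000000010 0xff0000007e000000e80000001800000010 6 8) 0 0 (step_sound _ 67 [(rh64743f2f54677fb5.shift 0 2), (rhbe0e43a3bc50a43f.shift 3 0)] (by decide +kernel))
noncomputable def rhea6a4b23f7632a1b : CRef := CRef.mk (Pat.mk 0x80000001c00000004 0x800000008000000ff0000007e000000e4 6 8) 0 0 (step_sound _ 99 [(rh5c5e593799055d58.shift 2 0), rh64743f2f54677fb5] (by decide +kernel))
noncomputable def rh0d44f139a23bc0cb : CRef := CRef.mk (Pat.mk 0x180000000e00000020 0x200000002000000030000001f0000003e00000034 6 6) 0 0 (step_sound _ 36 [rh331d4a807f97bfca, (rh96851dee118c1ba3.shift 1 0)] (by decide +kernel))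
noncomputable def rh35fe13560c5f630b : CRef := CRef.mk (Pat.mk 0x40000000c0000000c0000001000000010 0x18000000780000001f0000000c0000000c0000001800000010 6 7) 0 0 (step_sound _ 131 [(rh3a9c11e3db78542d.shift 0 2), (rhbe0e43a3bc50a43f.shift 3 0)] (by decide +kernel))
noncomputable def rhe62dad4106b3ff88 : CRef := CRef.mk (Pat.mk 0x180000001c00000000 0x200000002000000030000001f0000003f00000004 6 6) 0 0 (step_sound _ 33 [rh331d4a807f97bfca, (rh53b3c253cb0c65f4.shift 0 1)] (by decide +kernel))
noncomputable def rhfbc7abfae4ffc46c : CRef := CRef.mk (Pat.mk 0x180000001c0000000000000000 0x4000000040000001f0000003f0000000300000002 6 6) 0 0 (step_sound _ 65 [rh43dc67402634d54f, (rh53b3c253cb0c65f4.shift 0 2)] (by decide +kernel))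
noncomputable def rh3e272846154dff99 : CRef := CRef.mk (Pat.mk 0x180000001c0000000000000000 0x2000000020000001b0000003f0000000700000004 6 6) 0 0 (step_sound _ 65 [rh3a69dc315759d1b4, (rh53b3c253cb0c65f4.shift 0 2)] (by decide +kernel))
noncomputable def rh2bb478337dc9a574 : CRef := CRef.mk (Pat.mk 0x1e000000020000000000000000 0x50000000700000007000000070000001e000000060000000600000004 6 5) 0 0 (step_sound _ 129 [(rh3244c3cc8379b070.shift 0 3), rhcdd0bf8123cb24b0] (by decide +kernel))
noncomputable def rh07defb2d87ef6c68 : CRef := CRef.mk (Pat.mk 0x3c00000002000000200000002000000000 0x630000003e00000063000000600000006000000040 6 7) 0 0 (step_sound _ 129 [rhcd65ba9709a478a6, (rheb0810cc63b001d8.shift 0 3)] (by decide +kernel))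
noncomputable def rhcb6ad570d8dfdbb6 : CRef := CRef.mk (Pat.mk 0x30000000a000000020000000a0000000800000000 0x1b0000001e0000000b0000001e0000003800000010 6 6) 0 0 (step_sound _ 132 [rh41469e92b6667460, (rh5419adcd928dba20.shift 0 4)] (by decide +kernel))
noncomputable def rh262e222f7a85cd8f : CRef := CRef.mk (Pat.mk 0x7c00000010 0xc70000007f000000dc 6 8) 0 0 (step_sound _ 6 [rh8890875f1ee577b3, (rhe25b0a99195a5d59.shift 3 0)] (by decide +kernel))
noncomputable def rh91582111bb639861 : CRef := CRef.mk (Pat.mk 0xf800000020 0x18e000000fe00000037 6 9) 0 0 (step_sound _ 71 [rh2efad3051cff7df1, (rh33e738c4ed385b9f.shift 4 1)] (by decide +kernel))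
noncomputable def rhbc5e7df2ab7afb13 : CRef := CRef.mk (Pat.mk 0x70000000a000000020000000a0000000200000000 0x180000000f0000001a0000007b0000003e0000007300000001 6 7) 0 0 (step_sound _ 68 [rh5710f30ba40ee3ec, (rh92804a1c675173ab.shift 0 1), (rhec661ea22c70261a.shift 0 1)] (by decide +kernel))
noncomputable def rhfca14a4734ddf968 : CRef := CRef.mk (Pat.mk 0x1e000000020000000a000000020000000000000000 0x80000001e0000007a0000003e000000730000003100000020 6 7) 0 0 (step_sound _ 100 [(rh5710f30ba40ee3ec.shift 0 1), (rhdacff0e0b97ba728.shift 0 2), (rhe84c35e83a304151.shift 1 0)] (by decide +kernel))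
noncomputable def rh970ba958c78af444 : CRef := CRef.mk (Pat.mk 0x10000000a000000020000000a 0x3d0000001f0000001a0000000a0000000a 6 6) 0 0 (step_sound _ 97 [rh237fff640997e358, rh50fbb5868c909700] (by decide +kernel))
noncomputable def rhe8d69ee8b04cfa92 : CRef := CRef.mk (Pat.mk 0x18000000020000000a0000000a 0xe70000007f000000eb0000000a0000000a 6 8) 0 0 (step_sound _ 98 [rh1da0b1a9875f0c00, rh85432018c7d7e334, (rhf928882f0fa84b63.shift 1 0)] (by decide +kernel))
noncomputable def rhf5777614e90e6e75 : CRef := CRef.mk (Pat.mk 0xf00000004000000060000000200000000 0xf0000001c0000000e0000003e0000003c 6 6) 0 0 (step_sound _ 99 [(rhd575de2d44b7fb32.shift 1 0), (rhe25b0a99195a5d59.shift 0 3)] (by decide +kernel))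
noncomputable def rhfceef0193f945d8d : CRef := CRef.mk (Pat.mk 0x30000000000000003000000010000000000000000 0x5000000070000000700000003000000070000000600000004 6 3) 0 0 (step_sound _ 65 [rh532bc91b445cede3, rhcf0708db7b2e0874, (rhda6cc5da102e1723.shift 0 1), (rhdb2909ac5c854515.shift 0 2)] (by decide +kernel))
noncomputable def rh97e13e5632dbd1ea : CRef := CRef.mk (Pat.mk 0x1e000000020000000a0000001200000000 0x600000003e000000720000003e0000001300000001 6 7) 0 0 (step_sound _ 101 [rh954d236c1be4dd65, (rh96851dee118c1ba3.shift 1 3)] (by decide +kernel))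
noncomputable def rh5cdda1bdaf151aee : CRef := CRef.mk (Pat.mk 0x30000000800000008000000000000001800000000 0x140000001e0000001b0000000800000008000000180000001800000010 6 5) 0 0 (step_sound _ 67 [(rh55afc6a59410cf00.shift 3 0), (rhaa8a09a2b85da4ae.shift 0 1)] (by decide +kernel))
noncomputable def rh170a81d1ac99a386 : CRef := CRef.mk (Pat.mk 0x80000000700000000000000000000000400000000 0x180000000f000000180000001c0000001c00000014 6 5) 0 0 (step_sound _ 131 [rh1add32ffe2dfe2e6, (rh33e738c4ed385b9f.shift 0 4)] (by decide +kernel))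
noncomputable def rhadd570ecb99b15d2 : CRef := CRef.mk (Pat.mk 0x200000002000000000000000600000000 0x500000007000000070000000200000002000000060000000600000004 6 3) 0 0 (step_sound _ 65 [(rh55afc6a59410cf00.shift 1 0), (rhba97f7f4ade5e136.shift 0 1)] (by decide +kernel))
noncomputable def rhe4795f5428ac9029 : CRef := CRef.mk (Pat.mk 0x80000000a000000020000000a00000002 0x3d0000001f0000000b0000000a0000000a00000002 6 6) 0 0 (step_sound _ 128 [(rhf3b3b9c529362382.shift 0 1), rhffd04209dc8ea796] (by decide +kernel))
noncomputable def rh53c9cc5df98e7fd9 : CRef := CRef.mk (Pat.mk 0xc000000000000000c0000000400000000 0x1c0000001f000000380000000c0000000c00000008 6 6) 0 0 (step_sound _ 99 [rh01d4e63a6e395e69, (rh5c5e593799055d58.shift 2 1)] (by decide +kernel))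
noncomputable def rh0a14b3c3948953e5 : CRef := CRef.mk (Pat.mk 0x200000002000000030000000700000000 0x4000000060000001e0000001b0000001f0000000a 6 5) 0 0 (step_sound _ 35 [rhaa1e1ecb861571c4, (rhf48373e13d2bc128.shift 0 1)] (by decide +kernel))
noncomputable def rh332e1fa1ea7b7d45 : CRef := CRef.mk (Pat.mk 0xa0000001c00000000 0x1000000010000000770000007f0000001c00000008 6 7) 0 0 (step_sound _ 66 [(rhb739f4f82bb681b4.shift 0 1), rhf7ca9a20620bd109] (by decide +kernel))
noncomputable def rhbbba4cc567a99095 : CRef := CRef.mk (Pat.mk 0x10000000e0000000000000000 0x8000000080000003b0000001f0000003000000010 6 6) 0 0 (step_sound _ 68 [rh3bc20d0d8c73da06, (rh3f8766e6ecb455ce.shift 0 2)] (by decide +kernel))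
noncomputable def rh235062dea8794790 : CRef := CRef.mk (Pat.mk 0x20000000c000000000000000400000004 0x730000003e000000740000000400000004 6 7) 0 0 (step_sound _ 97 [(rh2613c889e411427e.shift 1 0), (rh4a0cb3a9508b05dd.shift 0 2)] (by decide +kernel))
noncomputable def rhe06bc8231e0f7ce3 : CRef := CRef.mk (Pat.mk 0x1000000010000000020000000a00000008 0x1000000030000000730000003e00000078 6 7) 0 0 (step_sound _ 36 [(rh3c88ce959c0e423f.shift 3 0), rh9868f44c31664a05] (by decide +kernel))
noncomputable def rh2922235ba0cdac25 : CRef := CRef.mk (Pat.mk 0x80000000c0000000900000000000000000000000000000000 0xc0000000c0000000f0000001e0000001c0000001c00000014 6 5) 0 0 (step_sound _ 99 [(rh01483ff9cba2f6ac.shift 2 0), (rh0a6888916bcef86b.shift 2 0), (rh5c651669912fbab1.shift 2 1), (rh7d38be138711e964.shift 0 2)] (by decide +kernel))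
noncomputable def rhfb743ec0ea2bcf47 : CRef := CRef.mk (Pat.mk 0x20000001e0000000200000000 0x10000000300000007000000070000003e0000001e0000000600000006 6 6) 0 0 (step_sound _ 100 [(rh33e738c4ed385b9f.shift 1 2), rhab1e9a388e2af6b5] (by decide +kernel))
noncomputable def rh4ee24c8c3be77869 : CRef := CRef.mk (Pat.mk 0x7800000000 0xe00000007e00000077 6 8) 0 0 (step_sound _ 70 [(rh33e738c4ed385b9f.shift 3 1), rhb61ade19d028b468] (by decide +kernel))
noncomputable def rh7b8eb38ab5b637c8 : CRef := CRef.mk (Pat.mk 0x20000000600000002000000100000000000000000 0x6000000060000000600000006000000060000001f0000000700000001 6 5) 0 0 (step_sound _ 65 [(rh7ab09f375cd5d482.shift 1 2), (rha707fb719e87fe6e.shift 1 1), rhb5e6a98109a9b5ea] (by decide +kernel))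
noncomputable def rh4c1da394ff107098 : CRef := CRef.mk (Pat.mk 0x30000000c0 0x70000007e000000e7 6 8) 0 0 (step_sound _ 35 [rh36eba2a3de447758, (rhd6e447e81774439e.shift 3 0)] (by decide +kernel))
noncomputable def rh0e955ed1b259b640 : CRef := CRef.mk (Pat.mk 0x180000000a000000180000001800000000 0x40000001f0000001b0000001c000000f800000020 6 8) 0 0 (step_sound _ 130 [(rh50fbb5868c909700.shift 2 1), rh8a66c70e99060d28] (by decide +kernel))
noncomputable def rh06492cc5cdc11bb8 : CRef := CRef.mk (Pat.mk 0xa000000180000000800000000 0x140000001c0000003c0000000f000000180000001800000010 6 6) 0 0 (step_sound _ 98 [(rh20a0bdb31b813615.shift 1 0), (rhb739f4f82bb681b4.shift 0 2)] (by decide +kernel))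
noncomputable def rh360d7defbd9dbc9c : CRef := CRef.mk (Pat.mk 0x50000000c0000000400000000 0xa0000000e0000000e0000001e0000000f0000003c0000000c00000008 6 6) 0 0 (step_sound _ 130 [(rh03354fd015c4947c.shift 0 1), (rh1741680720c097b4.shift 1 1), (rh35c5f1c53251aa1b.shift 1 1), (rh64bc0dab78a08b48.shift 1 1), (rhd4b4beefcd67f51e.shift 2 0)] (by decide +kernel))
noncomputable def rh85b7d3560b3cc9c9 : CRef := CRef.mk (Pat.mk 0xa000000180000000800000000 0x100000001c0000001c0000001f0000003b000000180000001800000010 6 6) 0 0 (step_sound _ 131 [(rh018f2ebb4d91ad9d.shift 0 1), (rh64bc0dab78a08b48.shift 2 1), (rhd4b4beefcd67f51e.shift 3 0)] (by decide +kernel))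
noncomputable def rh39e1723b36eb24f3 : CRef := CRef.mk (Pat.mk 0x6000000180000000800000000 0x140000001c0000003c0000000f000000180000001800000010 6 6) 0 0 (step_sound _ 99 [(rh20a0bdb31b813615.shift 1 0), (rhb739f4f82bb681b4.shift 0 2)] (by decide +kernel))
noncomputable def rh53c0f5596aef39da : CRef := CRef.mk (Pat.mk 0xc000000050000000c0000000400000000 0x120000001f0000003f0000000c0000000c00000008 6 6) 0 0 (step_sound _ 129 [(rh50fbb5868c909700.shift 1 1), rhe7c2a9d3be385c54] (by decide +kernel))
noncomputable def rh80b0d3629d5a06b4 : CRef := CRef.mk (Pat.mk 0x80000000e0000000000000000 0x140000001c0000001c000000180000000f0000003c0000001c 6 6) 0 0 (step_sound _ 35 [rh878c03cc42e824bf, (rhc90d14536b0e2c99.shift 1 0), (rhcf86d050071af9b3.shift 0 1)] (by decide +kernel))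
noncomputable def rh0451ef6fb10ba0d2 : CRef := CRef.mk (Pat.mk 0x18000000100000001c0000001400000000 0x70000001f0000001c0000001c0000001c00000018 6 5) 0 0 (step_sound _ 99 [(rh7b1f1fb55310c477.shift 3 0), rhd26eb82db38c1cb9] (by decide +kernel))
noncomputable def rh038de9f6952c0fd9 : CRef := CRef.mk (Pat.mk 0x2000000020000000300000000 0x500000007000000070000000200000002000000030000000300000001 6 3) 0 0 (step_sound _ 129 [rh932754581e0f4330, (rh9fb9dc683e09b5f3.shift 0 1)] (by decide +kernel))
noncomputable def rh1b1afed5a1347ef8 : CRef := CRef.mk (Pat.mk 0x40000000400000007000000000000000000000000 0xa0000000f0000003e000000070000003e0000000c00000008 6 6) 0 0 (step_sound _ 66 [(rh8ff3dde5b1c639e0.shift 1 0), (rhb0c6196f710d9a93.shift 0 1), (rhf149b0c20b930719.shift 0 1)] (by decide +kernel))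
noncomputable def rh6f4e94b00731db18 : CRef := CRef.mk (Pat.mk 0xe0000000c0000000400000000 0x60000000e0000000f0000003e0000000c0000000c00000008 6 6) 0 0 (step_sound _ 131 [(rh5c5e593799055d58.shift 2 1), rh6f46c8c7545a9c5a] (by decide +kernel))
noncomputable def rhbc943c395f4eac73 : CRef := CRef.mk (Pat.mk 0x1e000000120000000000000000 0x400000004000000ee000000ff0000001a0000000800000008 6 8) 0 0 (step_sound _ 67 [(rhb1c911ea4890cab0.shift 1 0), (rhb739f4f82bb681b4.shift 0 2)] (by decide +kernel))
noncomputable def rhff86615c147b72d2 : CRef := CRef.mk (Pat.mk 0x70000000c0000000400000000 0xa0000000e0000001e000000070000003c0000000c00000008 6 6) 0 0 (step_sound _ 68 [rh20a0bdb31b813615, (rhf48373e13d2bc128.shift 1 2)] (by decide +kernel))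
noncomputable def rhf863e0ba8a56c0f4 : CRef := CRef.mk (Pat.mk 0x10000001c00000004 0xe30000007e0000007c 6 8) 0 0 (step_sound _ 33 [(rh3f8766e6ecb455ce.shift 0 1), (rhb8de41a89a9d4634.shift 1 0)] (by decide +kernel))
noncomputable def rh241f16e0e9789477 : CRef := CRef.mk (Pat.mk 0x10000000e00000004 0xe30000007e000000e6 6 8) 0 0 (step_sound _ 36 [(rh352b7f91eba0c81f.shift 1 0), (rh3f8766e6ecb455ce.shift 0 1)] (by decide +kernel))
noncomputable def rh5a281f6b25f3c6cc : CRef := CRef.mk (Pat.mk 0xc000000050000000400000004 0x720000003e000000770000000400000004 6 7) 0 0 (step_sound _ 97 [(rh50fbb5868c909700.shift 1 0), (rhf2b3bcf1454375d8.shift 0 2)] (by decide +kernel))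
noncomputable def rh0aa071f715596e8c : CRef := CRef.mk (Pat.mk 0x20000000080000000c0000001000000010 0x140000001c0000001f0000007c0000000c0000000c0000001800000010 6 7) 0 0 (step_sound _ 131 [(rh97a9719e5c1a9b46.shift 0 2), (rhbe0e43a3bc50a43f.shift 3 0)] (by decide +kernel))
noncomputable def rh6533d2979f96f7ed : CRef := CRef.mk (Pat.mk 0x1c0000003400000006 0xa0000000e0000000f0000001c000000f600000006 6 8) 0 0 (step_sound _ 38 [rh5c15b439721bff2f, (rhf48373e13d2bc128.shift 3 1)] (by decide +kernel))
noncomputable def rh12eed7c5ebcee98e : CRef := CRef.mk (Pat.mk 0x1000000012000000180000000800000000 0x2e0000003f000000fb0000003c0000001800000010 6 8) 0 0 (step_sound _ 36 [(rh2917d85608816fec.shift 0 1), (rh4754eb9e03911ec2.shift 2 0), rh571913d8bec9001e, rha21ba809ddf0db48, (rhab3c3f3ae8c9664f.shift 2 0)] (by decide +kernel))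
noncomputable def rha93ab7185fa684e6 : CRef := CRef.mk (Pat.mk 0x1000000012000000180000000800000000 0xc0000001f0000001b0000001c000000f800000030 6 8) 0 0 (step_sound _ 36 [(rh36d4d92ef3dad5f8.shift 2 0), rha21ba809ddf0db48] (by decide +kernel))
noncomputable def rhfbe583ebb68a97e9 : CRef := CRef.mk (Pat.mk 0x180000000b0000000900000000 0xc0000000c0000000c000000180000001b0000001f00000014 6 5) 0 0 (step_sound _ 131 [rh5045a7dd3c2710bf, (rh5abfc4c9d959be03.shift 2 0), rhd1437b8d9579c1d5] (by decide +kernel))
noncomputable def rh97e5c234d74b2ba9 : CRef := CRef.mk (Pat.mk 0x1c00000006000000020000000000000000 0x8000000080000001c0000007f0000007e0000001000000010 6 7) 0 0 (step_sound _ 99 [(rh53b3c253cb0c65f4.shift 0 3), (rh6a8c38e4a89118a3.shift 1 0)] (by decide +kernel))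
noncomputable def rh4cfe5a1044d8ace1 : CRef := CRef.mk (Pat.mk 0xf000000030000000000000000 0xc0000001c0000000f0000001f0000001c0000001c 6 5) 0 0 (step_sound _ 67 [(rhe25b0a99195a5d59.shift 0 2), rhfe0c69b4a9db9a64] (by decide +kernel))
noncomputable def rh880e067ff91082cc : CRef := CRef.mk (Pat.mk 0x100000001600000000000000000000000000000000 0x10000000300000001f00000038000000180000000800000008 6 6) 0 0 (step_sound _ 131 [(rh33e738c4ed385b9f.shift 1 4), rh3a0b09fe1f516022] (by decide +kernel))
noncomputable def rh23b2dcbe0c3fb5c6 : CRef := CRef.mk (Pat.mk 0x140000001600000002000000000000000000000000 0x10000000160000003f0000003e000000180000000800000008 6 6) 0 0 (step_sound _ 131 [rh3a0b09fe1f516022, (rh7b030ba967bf927e.shift 1 3)] (by decide +kernel))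
noncomputable def rhef1971fd0fe45a2e : CRef := CRef.mk (Pat.mk 0x400000004000000060000000e00000000 0x80000000c0000000c0000003e0000003f00000030 6 6) 0 0 (step_sound _ 36 [rh68dfd07eb134e91c, (rhf48373e13d2bc128.shift 1 1)] (by decide +kernel))
noncomputable def rh1c274868b21f9e7f : CRef := CRef.mk (Pat.mk 0x80000000b00000009000000000000000000000000 0x40000000c0000000c000000080000001b0000001f0000001c0000000400000004 6 5) 0 0 (step_sound _ 98 [(rh281c6819542c66e6.shift 2 0), (rhed94a3f3b1c12c87.shift 0 3), (rhf0561682bb684ebc.shift 2 2)] (by decide +kernel))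
noncomputable def rhf96a633c18c19ba9 : CRef := CRef.mk (Pat.mk 0x1e00000000000000000000000000000000 0x10000000300000001f00000038000000180000000800000008 6 6) 0 0 (step_sound _ 164 [(rh33e738c4ed385b9f.shift 1 4), rh3a0b09fe1f516022] (by decide +kernel))
noncomputable def rh319c9b5c6246543b : CRef := CRef.mk (Pat.mk 0x40000000e000000000000000000000000 0x80000003e0000007f000000700000001000000010 6 7) 0 0 (step_sound _ 132 [rh373528e2a88da97e, (rh6e96e90a79333766.shift 1 2), (rh7dcd5319f4f71bec.shift 0 3)] (by decide +kernel))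
noncomputable def rh4ee5a66b093bb3e4 : CRef := CRef.mk (Pat.mk 0x6000000070000000100000000 0x60000000e0000003e0000001f000000070000000500000004 6 6) 0 0 (step_sound _ 161 [rhdd09290f7b9a6b86, (rhee230b994cc8b773.shift 0 1)] (by decide +kernel))
noncomputable def rh49eecd2cd376859f : CRef := CRef.mk (Pat.mk 0x40000000c0000000e0000000000000000 0x18000000180000001c0000000c0000000f0000001800000018 6 5) 0 0 (step_sound _ 35 [rh5c7a728efd46786b, (rh7b1f1fb55310c477.shift 2 0)] (by decide +kernel))
noncomputable def rhe4188ec8c15484d5 : CRef := CRef.mk (Pat.mk 0xe0000000f0000000100000000 0xa0000007e0000000f0000000f0000000500000004 6 7) 0 0 (step_sound _ 129 [rh217b08859d1b3da1, (rh5c5e593799055d58.shift 0 1)] (by decide +kernel))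
noncomputable def rh4475e34ed71719c1 : CRef := CRef.mk (Pat.mk 0x20000000600000007000000000000000000000000 0x60000001f0000003f0000003c0000000c00000008 6 6) 0 0 (step_sound _ 131 [(rh18965a982d73c794.shift 0 3), rhe7a5ce759d0851aa] (by decide +kernel))
noncomputable def rh8a52b81181d81eff : CRef := CRef.mk (Pat.mk 0x1000000010000000180000000800000000 0xc0000001f000000380000001c000000f800000030 6 8) 0 0 (step_sound _ 36 [(rh36d4d92ef3dad5f8.shift 2 0), rha06847d8752fa06c] (by decide +kernel))
noncomputable def rh55699bf0f5f3c263 : CRef := CRef.mk (Pat.mk 0x80000000f000000010000000000000000 0xc0000000c0000000f0000001f0000001c0000001c 6 5) 0 0 (step_sound _ 67 [rh763cf08b0e5d4187, (rhe25b0a99195a5d59.shift 0 2)] (by decide +kernel))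
noncomputable def rh36b0d54def552c22 : CRef := CRef.mk (Pat.mk 0x1e0000000600000000 0x50000000700000007000000030000001e0000000600000004 6 5) 0 0 (step_sound _ 97 [(rh3244c3cc8379b070.shift 0 2), rhfb9fb48a5e63ed80] (by decide +kernel))
noncomputable def rh523d5ece08c0fe65 : CRef := CRef.mk (Pat.mk 0x18000000040000000000000004 0x1c7000000fe000001ce0000000400000004 6 9) 0 0 (step_sound _ 101 [(rh3d54e7f933686048.shift 2 2), rhee37d230d297e9fd] (by decide +kernel))
noncomputable def rhedb5257a62f09c47 : CRef := CRef.mk (Pat.mk 0xc00000003 0xe00000007e000000e7 6 8) 0 0 (step_sound _ 36 [(rh3d54e7f933686048.shift 1 0), rhca9569cc80abfe76] (by decide +kernel))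
noncomputable def rhf6e41a57c738b51c : CRef := CRef.mk (Pat.mk 0xa000000080000000800000000 0x1000000018000000780000001f000000780000001800000010 6 7) 0 0 (step_sound _ 131 [(rh0363d47a46978688.shift 0 1), (rhced6d86d2069808b.shift 3 0), rhdc8c05ba9d0622cf] (by decide +kernel))
noncomputable def rh01d66ee7c5a2ea88 : CRef := CRef.mk (Pat.mk 0x4000000040000001c000000380000000000000000 0x180000003c0000000f0000001c0000003f0000000600000004 6 6) 0 0 (step_sound _ 66 [(rh031a926e4a883687.shift 1 0), (rha24da5e2cde976c0.shift 0 1), (rhf5094ad2a427d4d3.shift 0 1)] (by decide +kernel))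
noncomputable def rhc1ebf07c9057cd37 : CRef := CRef.mk (Pat.mk 0xf00000004 0x700000007f000000fc 6 8) 0 0 (step_sound _ 36 [rh27f28fc6ea159c6b, (rh3fc3a7fb6866dcd4.shift 1 0), rh4ad5fc38f1b69f65, (rhda98f5cded33c272.shift 1 0)] (by decide +kernel))
noncomputable def rh495ee03c2b930070 : CRef := CRef.mk (Pat.mk 0xc000000050000000400000004 0x720000003e000000770000000400000004 6 7) 0 0 (step_sound _ 97 [(rh3d54e7f933686048.shift 0 2), (rh50fbb5868c909700.shift 1 0)] (by decide +kernel))
noncomputable def rhde2f8cc27a89e79b : CRef := CRef.mk (Pat.mk 0x1e0000000200000004 0x50000000700000007000000030000001e0000000600000004 6 5) 0 0 (step_sound _ 97 [rh1148744b53f3df58, (rh3244c3cc8379b070.shift 0 2)] (by decide +kernel))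
noncomputable def rh09b087e92d8009b4 : CRef := CRef.mk (Pat.mk 0x200000002000000070000000e00000000 0xc0000003e0000003e000000070000000e00000008 6 6) 0 0 (step_sound _ 130 [rh252cb171b47bf1e3, (rh2f68792b6b779e96.shift 1 1)] (by decide +kernel))
noncomputable def rh7d892b8fecd0c242 : CRef := CRef.mk (Pat.mk 0x400000004000000040000000400000000 0xa0000003e00000007000000040000000600000006 6 6) 0 0 (step_sound _ 129 [(rh50fbb5868c909700.shift 1 1), rhfd5d85378354752d] (by decide +kernel))
noncomputable def rhea8024f69d23ee02 : CRef := CRef.mk (Pat.mk 0x10000000e00000004 0x730000007e000000ec 6 8) 0 0 (step_sound _ 36 [(rh3f8766e6ecb455ce.shift 0 1), (rhdbe30b89b8872db3.shift 1 0)] (by decide +kernel))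
noncomputable def rh91305f23903fd15a : CRef := CRef.mk (Pat.mk 0x8000000080000001800000018 0x34000000ff0000003c0000001800000018 6 8) 0 0 (step_sound _ 100 [(rh2f68792b6b779e96.shift 3 0), rh5bea1c72dfb63883] (by decide +kernel))
noncomputable def rh4bb421ab34673329 : CRef := CRef.mk (Pat.mk 0xc0000002800000020 0x7c0000007e00000067 6 7) 0 0 (step_sound _ 36 [(rhf48373e13d2bc128.shift 2 1), rhfc8f187c9dfd416e] (by decide +kernel))
noncomputable def rh0767978f87992373 : CRef := CRef.mk (Pat.mk 0x3000000030000000200000006 0x1c0000001f0000001f0000000e00000006 6 5) 0 0 (step_sound _ 98 [(rh2f68792b6b779e96.shift 1 0), rhf5c9064e93a8e5d4] (by decide +kernel))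
noncomputable def rh98669df90e0605b3 : CRef := CRef.mk (Pat.mk 0x80000000f000000000000000000000000 0x140000001c0000001c0000000c0000000f0000001c0000000c0000000c 6 5) 0 0 (step_sound _ 67 [(rh31b679a2a3cca353.shift 2 0), (rhe25b0a99195a5d59.shift 0 2)] (by decide +kernel))
noncomputable def rh3ac5d3c87f64171d : CRef := CRef.mk (Pat.mk 0x1000000080000000b0000000a00000008 0x40000001f0000001d000000190000000b0000000a00000008 6 5) 0 0 (step_sound _ 132 [(rh70609e0125eacac1.shift 0 1), (rhbaefcd01e0a8bca3.shift 3 0)] (by decide +kernel))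
noncomputable def rhc5e67171cca8dab0 : CRef := CRef.mk (Pat.mk 0x8000000090000000b0000000a 0x100000001c0000001f0000000d000000090000000b0000000a 6 5) 0 0 (step_sound _ 130 [rh4d813bfaa3e78a80, (rhffd04209dc8ea796.shift 2 0)] (by decide +kernel))
noncomputable def rhc7e7d47b3bc451f4 : CRef := CRef.mk (Pat.mk 0x90000000b0000000a00000008 0x40000001f0000001d000000190000000b0000000a00000008 6 5) 0 0 (step_sound _ 132 [(rhbaefcd01e0a8bca3.shift 3 0), (rhd1e1ceb333a56828.shift 0 1)] (by decide +kernel))
noncomputable def rh42b8610d413a89c0 : CRef := CRef.mk (Pat.mk 0x10000000e00000002 0xe30000007e000000e6 6 8) 0 0 (step_sound _ 36 [(rh3f8766e6ecb455ce.shift 0 1), (rhf2b3bcf1454375d8.shift 1 0)] (by decide +kernel))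
noncomputable def rhf9a9f5d645638964 : CRef := CRef.mk (Pat.mk 0x180000005800000040 0xf80000007f000000c7 6 8) 0 0 (step_sound _ 37 [rh81eabc3f853e2700, (rhe25b0a99195a5d59.shift 3 0)] (by decide +kernel))
noncomputable def rh290b83d9dd633109 : CRef := CRef.mk (Pat.mk 0x18000000180000001000000000 0x180000001c0000001f00000038000000180000001800000008 6 6) 0 0 (step_sound _ 132 [(rh4821dcf828b9d7bf.shift 3 0), (rh503dd4575245365b.shift 3 1), (rh7f9f3607ee25a93b.shift 3 1), rhecc5d109a043e5d4] (by decide +kernel))
noncomputable def rh2ab8458df2e26e4f : CRef := CRef.mk (Pat.mk 0x1800000038000000100000001800000000 0x40000001e000000380000001f0000001f00000004 6 6) 0 0 (step_sound _ 130 [rh443551ddd324c10d, (rhb739f4f82bb681b4.shift 1 3)] (by decide +kernel))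
noncomputable def rh568dedf39348a228 : CRef := CRef.mk (Pat.mk 0x2000000030000000200000001 0x100000007000000070000000600000003000000030000000300000001 6 3) 0 0 (step_sound _ 129 [(rh42ab489a1be3958e.shift 0 1), rh79877ebd3ef475dd] (by decide +kernel))
noncomputable def rhd91b73d7ee353e95 : CRef := CRef.mk (Pat.mk 0x2000000030000000200000002 0x100000007000000070000000700000003000000030000000200000002 6 3) 0 0 (step_sound _ 129 [(rh1741680720c097b4.shift 0 1), rh3ca48e2a6d60153d, (rh42ab489a1be3958e.shift 0 1), rhf06a227ba195dbc0] (by decide +kernel))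
noncomputable def rhf5ae0a993985148e : CRef := CRef.mk (Pat.mk 0x90000000f0000000c00000000 0x1a0000001e0000000b0000001f0000000d00000001 6 5) 0 0 (step_sound _ 131 [(rh5c5e593799055d58.shift 2 1), rh8c91dc3ace112e53] (by decide +kernel))
noncomputable def rh074ac26face61b4b : CRef := CRef.mk (Pat.mk 0x3c00000020 0x500000007000000070000000600000003e00000037 6 7) 0 0 (step_sound _ 69 [(rh33e738c4ed385b9f.shift 2 1), rh66ec6f42cbc7e875] (by decide +kernel))
noncomputable def rh0338a888539aed8d : CRef := CRef.mk (Pat.mk 0x1000000010000000120000001f00000001 0xb0000001e00000036000000160000003f00000001 6 6) 0 0 (step_sound _ 66 [rh0f7592996b34cd67, (rhf48373e13d2bc128.shift 1 1)] (by decide +kernel))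
noncomputable def rh9a113e6cf45cee70 : CRef := CRef.mk (Pat.mk 0x1000000020000000240000003c00000002 0x40000000700000007c00000024000000240000003e00000003 6 7) 0 0 (step_sound _ 33 [(rheaabd5a84de133d8.shift 1 0), rheb0810cc63b001d8] (by decide +kernel))
noncomputable def rhc93ae5f31e7f613f : CRef := CRef.mk (Pat.mk 0x200000010000000120000001c00000010 0xb0000001e0000003c000000160000003c00000010 6 6) 0 0 (step_sound _ 131 [(rh47091a2b392f4be8.shift 0 1), (rhffd04209dc8ea796.shift 3 0)] (by decide +kernel))
noncomputable def rh12d1f9e454bf2196 : CRef := CRef.mk (Pat.mk 0x200000000000000020000000600000001 0x500000007000000070000000200000002000000060000000700000001 6 3) 0 0 (step_sound _ 97 [rh79877ebd3ef475dd, (rhba97f7f4ade5e136.shift 0 1)] (by decide +kernel))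
noncomputable def rh770b1aa933b2bbab : CRef := CRef.mk (Pat.mk 0x40000000480000007c0000004000000000 0x90000000f000000058000000ff0000004800000008 6 8) 0 0 (step_sound _ 100 [rha1aacb774a2b98b2, (rhf48373e13d2bc128.shift 3 2)] (by decide +kernel))
noncomputable def rhb120fdf60e75eb89 : CRef := CRef.mk (Pat.mk 0xb0000000e00000008 0x140000001c0000001e0000001e0000000b0000000e0000000c 6 5) 0 0 (step_sound _ 99 [(rh32431e66bbf434a4.shift 2 0), (rh769be3fe24eee174.shift 2 0), rh95da6d80b4e2034b, rha78afc937ca94db4, (rhc85cc95794737cf7.shift 2 0)] (by decide +kernel))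
noncomputable def rh05cd8c7c01c55bf3 : CRef := CRef.mk (Pat.mk 0x200000006000000020000000000000000 0x50000000700000007000000070000000600000006000000060000000600000004 6 3) 0 0 (step_sound _ 161 [(rh1741680720c097b4.shift 0 2), (rh6c59ce14113da07f.shift 1 0), (rhd4b4beefcd67f51e.shift 1 1), (rhfb9fb48a5e63ed80.shift 0 2)] (by decide +kernel))
noncomputable def rhcdce1b8bf0ff89c0 : CRef := CRef.mk (Pat.mk 0x7800000000 0xe70000007e00000070 6 8) 0 0 (step_sound _ 70 [(rh33e738c4ed385b9f.shift 3 1), rha2e182fd6274be10] (by decide +kernel))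
noncomputable def rhd690071d9e563773 : CRef := CRef.mk (Pat.mk 0x7800000000 0x7e0000007e00000007 6 7) 0 0 (step_sound _ 66 [(rh3f8766e6ecb455ce.shift 2 1), rhd98a7adcdf503a83] (by decide +kernel))
noncomputable def rhb86e82985daeab9f : CRef := CRef.mk (Pat.mk 0xe0000001000000010 0x2000000020000000700000003e0000003700000010 6 7) 0 0 (step_sound _ 68 [rh4b7a031cbbef5be8, (rhe25b0a99195a5d59.shift 1 1)] (by decide +kernel))
noncomputable def rh11120fbbbcf088e9 : CRef := CRef.mk (Pat.mk 0x20000001e000000000000000000000000 0x50000000700000007000000060000001e000000070000000600000004 6 5) 0 0 (step_sound _ 65 [rhdaf51d2c6458409f, (rheb0810cc63b001d8.shift 0 2)] (by decide +kernel))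
noncomputable def rhada558f102acf533 : CRef := CRef.mk (Pat.mk 0x1c0000000200000000 0x800000008000000380000001f0000003300000010 6 6) 0 0 (step_sound _ 65 [rh2fa8a6cd8a03c75c, (rheb0810cc63b001d8.shift 0 1)] (by decide +kernel))
noncomputable def rh1214907e735010fd : CRef := CRef.mk (Pat.mk 0xf8000000000000000000000000 0x200000002000000077000000fe000000780000001000000010 6 8) 0 0 (step_sound _ 68 [rh0b7bba6deeda2ac3, (rheb0810cc63b001d8.shift 3 2)] (by decide +kernel))
noncomputable def rh49bbe7d8cdf38891 : CRef := CRef.mk (Pat.mk 0x80000000f000000000000000000000000 0x140000001c0000001c0000000c0000000f0000001c0000000c0000000c 6 5) 0 0 (step_sound _ 67 [(rhc939a205c68c7915.shift 2 0), (rhe25b0a99195a5d59.shift 0 2)] (by decide +kernel))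
noncomputable def rh01f57ad5d3969588 : CRef := CRef.mk (Pat.mk 0xf8000000000000000000000000 0x100000001000000078000000fe000000770000002000000020 6 8) 0 0 (step_sound _ 132 [(rh3244c3cc8379b070.shift 3 3), rh7539d725656f4a7b] (by decide +kernel))
noncomputable def rh7cc7ec967cdafdce : CRef := CRef.mk (Pat.mk 0xe0000001000000000 0x400000004000000070000003e0000003300000002 6 6) 0 0 (step_sound _ 68 [rh21460d2d48a35cb8, (rhe25b0a99195a5d59.shift 1 1)] (by decide +kernel))
noncomputable def rhd9a16f99234bbfa7 : CRef := CRef.mk (Pat.mk 0x1800000018000000080000001e 0x70000001f0000001b0000000f0000001e 6 5) 0 0 (step_sound _ 33 [rh3244c3cc8379b070, rha4afa637f1fadb5e] (by decide +kernel))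
noncomputable def rhfaef1e6f89cbbc67 : CRef := CRef.mk (Pat.mk 0x8000000180000001a0000001800000000 0x60000000f0000001b0000001f0000001c00000004 6 5) 0 0 (step_sound _ 66 [rh92e11a489b7e95f3, (rhb739f4f82bb681b4.shift 0 1)] (by decide +kernel))
noncomputable def rhaf5e0f624f9cac97 : CRef := CRef.mk (Pat.mk 0x80000001a0000000a000000080000000000000000 0x500000007000000070000000f0000001b0000000b0000000b0000000300000001 6 5) 0 0 (step_sound _ 161 [(rh876344954e856662.shift 0 2), (rhc9980783718588ac.shift 0 1), (rhceb5f5a915f974ce.shift 0 1), rhf2eb0d5b8c248a4e] (by decide +kernel))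
noncomputable def rh29353ea105688852 : CRef := CRef.mk (Pat.mk 0x80000001a0000000a0000001a0000000000000000 0x40000000f0000001a0000000a0000001b0000000f00000005 6 5) 0 0 (step_sound _ 162 [rh02e5b67989130615, (rh50fbb5868c909700.shift 2 2)] (by decide +kernel))
noncomputable def rh1752575614f8aa61 : CRef := CRef.mk (Pat.mk 0xc000000180000001a0000001a0000000000000000 0xf0000001b0000001e0000001b0000000f00000005 6 5) 0 0 (step_sound _ 129 [(rh01e48cd9f335aa73.shift 0 2), rh02e5b67989130615, (rhe8844c4d903d0295.shift 0 1)] (by decide +kernel))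
noncomputable def rh288ce8bb1d617389 : CRef := CRef.mk (Pat.mk 0x800000018000000300000001800000000 0x20000000f0000001e000000340000001e0000000c 6 6) 0 0 (step_sound _ 98 [(rhb739f4f82bb681b4.shift 1 2), rhb9c383b3f0d7f2d9] (by decide +kernel))
noncomputable def rh2d442ed46f7e1c0f : CRef := CRef.mk (Pat.mk 0x30000000100000001000000010 0xf000000fe000000ff0000001000000010 6 8) 0 0 (step_sound _ 99 [(rh50fbb5868c909700.shift 3 0), (rha5e26d27d1f82a4a.shift 0 2)] (by decide +kernel))
noncomputable def rhbb7ea2af1a8b55cc : CRef := CRef.mk (Pat.mk 0x240000007800000000 0x2000000020000000360000007e000000c7 6 8) 0 0 (step_sound _ 34 [(rh3244c3cc8379b070.shift 1 1), rh8aa59ce1113d81fc] (by decide +kernel))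
noncomputable def rh10cd6b672a8931a4 : CRef := CRef.mk (Pat.mk 0x4000000060000000600000000 0xe0000003e00000007000000060000000600000004 6 6) 0 0 (step_sound _ 130 [(rh5c5e593799055d58.shift 1 1), rhe1bcd80b5c7d4f4c] (by decide +kernel))
noncomputable def rhd2ce9161fbc8be7e : CRef := CRef.mk (Pat.mk 0x8000000180000001c0000000800000000 0x170000001f0000001c0000001c0000000c00000004 6 5) 0 0 (step_sound _ 132 [(rh5c5e593799055d58.shift 3 1), rha6c7e115f731f46c] (by decide +kernel))
noncomputable def rh2eb2e9ac3738e877 : CRef := CRef.mk (Pat.mk 0x10000000180000001c0000000800000000 0xc0000000f0000007f0000001c0000001c0000000c00000004 6 7) 0 0 (step_sound _ 131 [(rh01ff8e29f1e0af53.shift 0 2), (rh37d9ceebb86d75d1.shift 2 1), rha6c7e115f731f46c] (by decide +kernel))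
noncomputable def rh45426df0b5ae0370 : CRef := CRef.mk (Pat.mk 0x18000000180000000e0000000000000000 0x60000001f0000001b0000000e0000000c0000000c 6 5) 0 0 (step_sound _ 35 [rh2b5e38c9874764db, (rh71222050f2c63a3a.shift 3 0)] (by decide +kernel))
noncomputable def rhb3e5613249985042 : CRef := CRef.mk (Pat.mk 0x20000000600000006000000000000000000000000 0x300000003000000030000000600000006000000030000000300000003 6 3) 0 0 (step_sound _ 193 [(rh2145e1d24b96a57e.shift 1 3), rha9a9dd876407ae9a] (by decide +kernel))
noncomputable def rhe6fc87871d2d9305 : CRef := CRef.mk (Pat.mk 0x1f800000000 0x7000001fe00000077 6 9) 0 0 (step_sound _ 5 [rh3918eeb6c53434d8, (rheb0810cc63b001d8.shift 4 0)] (by decide +kernel))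
noncomputable def rh5578a0f39df39c77 : CRef := CRef.mk (Pat.mk 0x80000000e000000180000000000000010 0x30000000300000003f0000001e000000180000001000000010 6 6) 0 0 (step_sound _ 100 [(rh1973362723cba897.shift 0 2), (rh9e07f76261b05888.shift 3 0)] (by decide +kernel))
noncomputable def rh89fa36a8925dc189 : CRef := CRef.mk (Pat.mk 0x2000000020000000200000000000000100000000000000000 0x100000003000000030000000300000003000000070000001f0000000700000001 6 5) 0 0 (step_sound _ 97 [(rh771d065bdc85bf2d.shift 0 2), (rh8ff3dde5b1c639e0.shift 0 1), rhef3ba3c62dc7a15c] (by decide +kernel))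
noncomputable def rh660339845b8171c4 : CRef := CRef.mk (Pat.mk 0x20000000200000002000000000000001000000000 0x50000000700000007000000020000000200000003000000070000001f00000004 6 5) 0 0 (step_sound _ 193 [rh1659a3368b863534, (rhc85cc95794737cf7.shift 0 3)] (by decide +kernel))
noncomputable def rh3860a403b9fb0c23 : CRef := CRef.mk (Pat.mk 0x80000001a0000001a 0x30000000300000003f0000001e0000001b 6 6) 0 0 (step_sound _ 34 [rh1973362723cba897, rheb0810cc63b001d8] (by decide +kernel))
noncomputable def rh90e5904e3fc6e121 : CRef := CRef.mk (Pat.mk 0x280000000800000008000000c0000000400000000000000000 0x100000007c0000000f00000008000000d80000007c0000001c00000004 6 8) 0 0 (step_sound _ 99 [(rh57b469c1bf70b264.shift 0 3), (rhd43983cdd3dd9c09.shift 3 1), (rhef3ba3c62dc7a15c.shift 2 0)] (by decide +kernel))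
noncomputable def rhc311f24698bec37f : CRef := CRef.mk (Pat.mk 0x140000000400000034000000a00000002000000000 0xa0000003e0000000700000034000001ec0000003c00000008 6 9) 0 0 (step_sound _ 70 [rhf33fda193be64554, (rhf48373e13d2bc128.shift 4 2)] (by decide +kernel))
noncomputable def rh8774521e81d4f0dc : CRef := CRef.mk (Pat.mk 0x20000000e0000000200000000 0x50000000700000007000000020000001e0000000300000001 6 5) 0 0 (step_sound _ 32 [(rh18965a982d73c794.shift 0 1), rh32431e66bbf434a4] (by decide +kernel))
noncomputable def rh50072dbf1674af11 : CRef := CRef.mk (Pat.mk 0x80000001e000000100000001000000000 0x3000000033000000330000001f0000001e0000001f0000001c00000008 6 6) 0 0 (step_sound _ 132 [(rh3f38de6b95fe6c30.shift 0 1), (rhbe6a11bbb961c2b9.shift 3 0)] (by decide +kernel))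
noncomputable def rh1b597f6d7cb48663 : CRef := CRef.mk (Pat.mk 0x400000007000000080 0x670000007e000000c7 6 8) 0 0 (step_sound _ 35 [rh551591afa7e9bd9a, (rh96851dee118c1ba3.shift 3 0)] (by decide +kernel))
noncomputable def rh757a9ef3bb9f8ce1 : CRef := CRef.mk (Pat.mk 0xe0000001e000000020000000200000000 0x1300000013000000330000001e0000001e0000000e0000000300000001 6 6) 0 0 (step_sound _ 32 [rh932754581e0f4330, (rhd0f5cf9487d9ed6c.shift 0 2)] (by decide +kernel))
noncomputable def rh30a977e7346b65b5 : CRef := CRef.mk (Pat.mk 0x20000000200000002000000100000000000000000 0x500000007000000070000000200000002000000060000001f0000000700000001 6 5) 0 0 (step_sound _ 66 [rh3cd11341cd3f7ff5, (rhba97f7f4ade5e136.shift 0 2)] (by decide +kernel))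
noncomputable def rhe58d96d1ec2f948b : CRef := CRef.mk (Pat.mk 0x2000000060000000200000000000000000000000000000000 0x40000000600000006000000060000000600000007000000070000000700000005 6 3) 0 0 (step_sound _ 97 [rh1b9022be4f7af407, (rh6eff4158bb400f47.shift 0 1), (rha707fb719e87fe6e.shift 1 2), (rhced6d86d2069808b.shift 1 2)] (by decide +kernel))
noncomputable def rhf59657c8f752e82c : CRef := CRef.mk (Pat.mk 0x20000001a00000002000000000000000000000000 0x1000000030000001e00000002000000070000000700000005 6 5) 0 0 (step_sound _ 160 [(rh5419adcd928dba20.shift 0 4), rh56259dd1390eee46] (by decide +kernel))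
noncomputable def rhca161cd30e405913 : CRef := CRef.mk (Pat.mk 0x20000001a0000000200000000 0x50000000700000007000000020000001e0000000300000001 6 5) 0 0 (step_sound _ 32 [rh32431e66bbf434a4, (rhb2a0b9ccfb5cecd5.shift 0 1)] (by decide +kernel))
noncomputable def rhbe0204dcb18a1358 : CRef := CRef.mk (Pat.mk 0x80000001a0000001a0000000800000000 0x140000001e0000001b0000001e0000000f00000004 6 5) 0 0 (step_sound _ 132 [rh169c0c6cb26b9603, (rh5c5e593799055d58.shift 3 1)] (by decide +kernel))
noncomputable def rhb700dbca755b9b65 : CRef := CRef.mk (Pat.mk 0x80000001a0000001a0000001800000000 0x140000001c0000001e0000001a0000001f00000007 6 5) 0 0 (step_sound _ 132 [(rh5c5e593799055d58.shift 3 1), rh8bbe35cc8023df18] (by decide +kernel))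
noncomputable def rhdfef6346d67ed6fb : CRef := CRef.mk (Pat.mk 0x80000001a0000001a0000001800000000 0x10000000190000001b0000001e0000001f00000007 6 5) 0 0 (step_sound _ 132 [rh3cde2b3cc262ee04, (rh5c5e593799055d58.shift 3 1)] (by decide +kernel))
noncomputable def rhd4ba88c0e57b38a2 : CRef := CRef.mk (Pat.mk 0x20000001e000000000000000000000000 0x50000000700000007000000060000001e000000070000000600000006 6 5) 0 0 (step_sound _ 65 [rhd01417a01441fe52, (rheb0810cc63b001d8.shift 0 2)] (by decide +kernel))
noncomputable def rh6dbfa710a30f272c : CRef := CRef.mk (Pat.mk 0xa0000001a00000002000000000000000000000000 0x10000000f0000001a00000002000000070000000700000005 6 5) 0 0 (step_sound _ 160 [rh56259dd1390eee46, (rhc10214bf3fe8094a.shift 0 4)] (by decide +kernel))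
end Crest.Agent.S0047.Helper85.Cert
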