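import Crest.Agent.Lib.S0047.Helper85CertPL6F0
import Crest.Agent.Lib.S0047.Helper85CertPL6F1
import Crest.Agent.Lib.S0047.Helper85CertPL6F2
import Crest.Agent.Lib.S0047.Helper85CertPL6F3
import Crest.Agent.Lib.S0047.Helper85CertPL6F4
import Crest.Agent.Lib.S0047.Helper85CertPL6F5
import Crest.Agent.Lib.S0047.Helper85CertPL6F6
import Crest.Agent.Lib.S0047.Helper85CertPL6F7
import Crest.Agent.Lib.S0047.Helper85CertPL6F8
import Crest.Agent.Lib.S0047.Helper85CertPL6F9
import Crest.Agent.Lib.S0047.Helper85CertPL6F10
import Crest.Agent.Lib.S0047.Helper85CertPL6F11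
import Crest.Agent.Lib.S0047.Helper85CertPL6F12
set_option autoImplicit false
set_option linter.all false
set_option Elab.async false
namespace Crest.Agent.S0047.Helper85.Cert
open Crest.Agent.S0047.Helper85

noncomputable def rhd92f1551f0fdfa3f : CRef := CRef.mk (Pat.mk 0x1000000010000000500000001000000000 0x1000000010000000770000003e0000002f 7 7) 0 0 (step_sound _ 37 [(rh55afc6a59410cf00.shift 4 0), rhfdf08be8414317bf] (by decide +kernel))
noncomputable def rhd34a88ba30bcee49 : CRef := CRef.mk (Pat.mk 0x18000000080000000800000008 0x200000002000000070000003f0000003f0000000c00000008 7 6) 0 0 (step_sound _ 98 [(rh32baa36dc86897fd.shift 0 1), (rh50fbb5868c909700.shift 2 0)] (by decide +kernel))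
noncomputable def rhc084dc44956ba4bb : CRef := CRef.mk (Pat.mk 0x400000004000000040000001400000000 0x1c0000003c0000000f0000000c0000001c00000018 7 6) 0 0 (step_sound _ 35 [(rh55afc6a59410cf00.shift 2 0), rh6ebf7ca86daecfd9] (by decide +kernel))
noncomputable def rh042c1bbe6ba07a01 : CRef := CRef.mk (Pat.mk 0x1c00000008000000080000003000000000 0x1f0000007f0000007f0000003000000020 7 7) 0 0 (step_sound _ 100 [rh42072218f2c33190, (rh6292bd8784ece55f.shift 1 3), rhd2de008395203f29, (rhdeca8db941583de2.shift 0 3)] (by decide +kernel))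
noncomputable def rhdf369ac86cf17040 : CRef := CRef.mk (Pat.mk 0xc000000050000000400000004 0x720000007e000000ef0000000400000004 7 8) 0 0 (step_sound _ 97 [(rh148a4fd74ec99e95.shift 0 2), (rh50fbb5868c909700.shift 1 0)] (by decide +kernel))
noncomputable def rhb6c95131d2dc6545 : CRef := CRef.mk (Pat.mk 0x1c00000018000000080000002000000000 0x3f0000001f0000003f0000003000000010 7 6) 0 0 (step_sound _ 129 [rh65ea3f73ad355052, (rhb739f4f82bb681b4.shift 0 3)] (by decide +kernel))
noncomputable def rhf1c89be7e4321c94 : CRef := CRef.mk (Pat.mk 0x70000000200000008000000000 0x100000001000000078e000003fe000007bf0000008000000080 7 11) 0 0 (step_sound _ 103 [(rh1a6590498224160a.shift 4 0), (rh352b7f91eba0c81f.shift 4 2), (rh5097ebe0f36b58ed.shift 0 2), (rha93a5dd541ab8209.shift 4 2)] (by decide +kernel))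
noncomputable def rh637081a0a0a17807 : CRef := CRef.mk (Pat.mk 0x700000001000000040000000000000000000000000 0xe70000007f000000fe00000040000000600000006000000020 7 8) 0 0 (step_sound _ 163 [(rh12ea4c871ce22297.shift 3 0), (rh9e97bba44c1b13e4.shift 1 4), (rhc833175dd2fdb85b.shift 0 4), (rheb100aab8ed4573d.shift 2 1)] (by decide +kernel))
noncomputable def rh8c173cec9d923ca7 : CRef := CRef.mk (Pat.mk 0x1e0000000000000014000000000000000000000000 0x100000001e0000003b0000001c000000780000003800000028 7 7) 0 0 (step_sound _ 129 [(rh5beb7610d0611ad0.shift 1 0), (rheb0810cc63b001d8.shift 0 4)] (by decide +kernel))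
noncomputable def rhe74d14abeafd57f8 : CRef := CRef.mk (Pat.mk 0x380000000000000020000000000000000000000000 0x770000003e0000006700000020000000700000007000000050 7 7) 0 0 (step_sound _ 162 [(rh33d3f1ba39b8bd00.shift 2 0), (rh592c7139d2c44767.shift 0 4), (rhf7ddab02e367f378.shift 1 2)] (by decide +kernel))
noncomputable def rh96d743001b52f8dc : CRef := CRef.mk (Pat.mk 0x1c00000004 0x1ff000000fe000001ec 7 9) 0 0 (step_sound _ 37 [(rh4c622fddc53a5f99.shift 0 1), (rhbdb07089a4623ed7.shift 2 0), (rhf2b3bcf1454375d8.shift 2 0), (rhf3baec4a0a3dd35e.shift 2 0)] (by decide +kernel))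
noncomputable def rh633b3c7cb98e5f80 : CRef := CRef.mk (Pat.mk 0x700000001000000010 0x800000008000000ef0000007f0000003f00000010 7 8) 0 0 (step_sound _ 67 [(rh768a472a1ebe455c.shift 2 0), (rh988dac8d009f9f77.shift 0 1), rhc8d9633b1f70f83e] (by decide +kernel))
noncomputable def rh6b574a37541dfb12 : CRef := CRef.mk (Pat.mk 0xa000000060000000e000000000000000000000000 0x18000000180000001b0000003e0000000e000000180000001800000018 7 6) 0 0 (step_sound _ 131 [(rh642e50382fd7f7a3.shift 2 0), (rhb762f327c85d41a0.shift 0 3)] (by decide +kernel))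
noncomputable def rh1680fc3eec86c92f : CRef := CRef.mk (Pat.mk 0x30000000a000000000 0x8000000080000000f0000007e000000f700000004 7 8) 0 0 (step_sound _ 67 [rha139e96feed5dfef, (rhba65360472489f45.shift 2 1), (rhc8ae77ecad49585e.shift 1 0), (rhe28dc3223a412fc9.shift 3 1)] (by decide +kernel))
noncomputable def rhe9fe126b2a62c528 : CRef := CRef.mk (Pat.mk 0x1e0000000000000014000000000000000000000000 0x130000001e000000380000001c000000780000003800000028 7 7) 0 0 (step_sound _ 193 [(rh3244c3cc8379b070.shift 0 5), (rh5beb7610d0611ad0.shift 1 0)] (by decide +kernel))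
noncomputable def rha9866805ab96b297 : CRef := CRef.mk (Pat.mk 0x280000000800000020000000000000000000000000 0x20000001f7000000fe000001ff00000030000000300000003000000010 7 9) 0 0 (step_sound _ 164 [(rh2820ca9a6c4f41b4.shift 0 4), (rh352b7f91eba0c81f.shift 2 4), rh87509bc56932c1d3] (by decide +kernel))
noncomputable def rhc5366e53b56a8412 : CRef := CRef.mk (Pat.mk 0x140000001c0000001c 0x360000003e000000170000001f0000001c 7 6) 0 0 (step_sound _ 33 [rh191213466e58ac74, rhb739f4f82bb681b4] (by decide +kernel))
noncomputable def rhc9cd60269625ea7e : CRef := CRef.mk (Pat.mk 0x50000000700000005000000000000000000000000 0xd0000000d0000000d00000007000000070000000e0000000c0000000c 7 4) 0 0 (step_sound _ 97 [(rh3e595262c1b737ad.shift 0 2), (rh642e50382fd7f7a3.shift 1 0)] (by decide +kernel))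
noncomputable def rh04d632eb6ebaea8f : CRef := CRef.mk (Pat.mk 0x280000002800000028 0x3ef000001fe000003b8 7 10) 0 0 (step_sound _ 36 [rh29b7e98b94f1a2ca, (rh484d8f58e103a87f.shift 2 0), (rha11dfd15f08f96e3.shift 2 1)] (by decide +kernel))
noncomputable def rh8852da6864efdae3 : CRef := CRef.mk (Pat.mk 0x8000000280000002000000020000000400000000000000000 0xf0000007c0000003000000020000000700000007000000010 7 7) 0 0 (step_sound _ 69 [(rh55afc6a59410cf00.shift 5 1), rh66b55b52022e937c] (by decide +kernel))
noncomputable def rhb70946e4922834d6 : CRef := CRef.mk (Pat.mk 0x80000000800000028000000000000000000000000 0xc0000000c0000001f000000380000001e0000001c00000004 7 6) 0 0 (step_sound _ 67 [(rh15f443a9a462a99b.shift 1 1), (rh749d33e05cb90f52.shift 0 1), (rhc4526fc8abf298b6.shift 2 0)] (by decide +kernel))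
noncomputable def rh39d80319ffd007ae : CRef := CRef.mk (Pat.mk 0x30000000180000001000000010 0xf000000ff000000f80000001000000010 7 8) 0 0 (step_sound _ 99 [(rh50fbb5868c909700.shift 3 0), (rhb1d8a7e321a4785e.shift 0 2)] (by decide +kernel))
noncomputable def rh46559edd7e2a54b9 : CRef := CRef.mk (Pat.mk 0x40000000c0000001c 0x30000000300000007f0000007f0000001c 7 7) 0 0 (step_sound _ 33 [rhb739f4f82bb681b4, rhdf2efb5aa7329afb] (by decide +kernel))
noncomputable def rhc88cf42222b76280 : CRef := CRef.mk (Pat.mk 0x2000000020000000200000004 0x100000007000000070000000600000003000000030000000700000004 7 3) 0 0 (step_sound _ 129 [(rhd3458b32566d63f7.shift 1 0), (rhf515f701b82bbaa6.shift 0 1)] (by decide +kernel))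
noncomputable def rh916fd83c93fa81d6 : CRef := CRef.mk (Pat.mk 0x2000000020000000200000002 0x100000007000000070000000700000003000000030000000300000002 7 3) 0 0 (step_sound _ 129 [rh3ca48e2a6d60153d, rh7054db60a5a4b771, (rhc85cc95794737cf7.shift 0 1), (rhf515f701b82bbaa6.shift 0 1)] (by decide +kernel))
noncomputable def rh336b89711aa97268 : CRef := CRef.mk (Pat.mk 0x600000014000000000 0x8000000080000000f000000fe000001ff00000010 7 9) 0 0 (step_sound _ 68 [(rh3918eeb6c53434d8.shift 1 1), (rhe28dc3223a412fc9.shift 4 1), rhfe573e726889db6b] (by decide +kernel))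
noncomputable def rhcf1cfae59fc63cc5 : CRef := CRef.mk (Pat.mk 0x3800000000 0x1e7000000fe000001ef 7 9) 0 0 (step_sound _ 38 [(rh3fc3a7fb6866dcd4.shift 3 0), (rh9e97bba44c1b13e4.shift 1 0), rhbb13f9e1d387f64a] (by decide +kernel))
noncomputable def rh93415c6a95b38377 : CRef := CRef.mk (Pat.mk 0x1e000000000000000000000000 0x50000000700000007000000070000001e000000070000000600000004 7 5) 0 0 (step_sound _ 65 [rhbad5016fcf171414, (rheb0810cc63b001d8.shift 0 2)] (by decide +kernel))
noncomputable def rh4daea3ba64e848ca : CRef := CRef.mk (Pat.mk 0x30000000280000008000000000 0x387000001fe000001ef0000008000000080 7 10) 0 0 (step_sound _ 99 [(rh2820ca9a6c4f41b4.shift 0 2), (rh3918eeb6c53434d8.shift 0 2), (rh880f707c990d6f11.shift 2 0), (rh8ee80cc30e93a344.shift 2 2)] (by decide +kernel))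
noncomputable def rhcedc24bc3fda36fc : CRef := CRef.mk (Pat.mk 0x4000000060000000400000018 0x34000000340000003e0000003f00000018 7 6) 0 0 (step_sound _ 35 [(rh2145e1d24b96a57e.shift 2 0), rh311f2129f0451b58] (by decide +kernel))
noncomputable def rh47470b8285cfa303 : CRef := CRef.mk (Pat.mk 0xe00000018000000100000001000000000 0x3200000032000000370000001e0000001f0000003c0000003400000020 7 6) 0 0 (step_sound _ 132 [(rh1adc8391535f5fb2.shift 3 0), (rh5ba2d67652840f34.shift 1 2), (rhdfce6298e63dfa8e.shift 0 1)] (by decide +kernel))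
noncomputable def rh9b1bf2b4a13bd739 : CRef := CRef.mk (Pat.mk 0x80000000a00000008000000080000000000000000 0x800000018000000180000000f0000000c0000001c0000001800000018 7 5) 0 0 (step_sound _ 164 [(rh2f68792b6b779e96.shift 3 2), rhabd47b69dd53aca1] (by decide +kernel))
noncomputable def rh0bd7bcfc41843595 : CRef := CRef.mk (Pat.mk 0x80000000a0000000800000008000000000000000000000000 0x10000000180000000f0000000c000000180000001c0000001c00000004 7 5) 0 0 (step_sound _ 196 [(rh2f68792b6b779e96.shift 3 3), rh612e3772ebde12f7] (by decide +kernel))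
noncomputable def rh1a6b2475faaa177a : CRef := CRef.mk (Pat.mk 0x400000004000000050000000400000000 0x400000004000000770000003e0000007a 7 7) 0 0 (step_sound _ 33 [rh3cbd361033ca5860, (rh932754581e0f4330.shift 1 0)] (by decide +kernel))
noncomputable def rh6fbc1776ad95426d : CRef := CRef.mk (Pat.mk 0xb0000000a00000008000000000000000000000000 0x100000001b0000001f000000080000001c0000001c00000014 7 5) 0 0 (step_sound _ 130 [rhc24f8d367658c081, (rhf48373e13d2bc128.shift 0 4)] (by decide +kernel))
noncomputable def rh76f5a3b0ea426738 : CRef := CRef.mk (Pat.mk 0x1e0000001a00000000000000000000000000000000 0x4000000070000001e0000001e00000003000000070000000700000005 7 5) 0 0 (step_sound _ 193 [(rh3244c3cc8379b070.shift 0 5), rhd57634499fd9ae10] (by decide +kernel))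
noncomputable def rhaa9adf877e4b01a6 : CRef := CRef.mk (Pat.mk 0x1e000000000000000000000000 0x50000000700000007000000070000001e000000070000000600000004 7 5) 0 0 (step_sound _ 129 [(rh3244c3cc8379b070.shift 0 3), rhaeb0128d2ae70dd8] (by decide +kernel))
noncomputable def rh2dae2c3cde4a3759 : CRef := CRef.mk (Pat.mk 0x1e0000000200000010000000300000000000000000 0x4000000070000001e000000020000001f000000370000000700000005 7 6) 0 0 (step_sound _ 193 [(rh3244c3cc8379b070.shift 0 5), rhc4e06418c828c95e] (by decide +kernel))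
noncomputable def rheb899394410a0333 : CRef := CRef.mk (Pat.mk 0x1000000010000000100000001800000000 0x8000000180000001c0000003f0000003e00000027 7 6) 0 0 (step_sound _ 37 [rh3e7aa43dbffe7d7b, (rh55afc6a59410cf00.shift 4 0)] (by decide +kernel))
noncomputable def rhefcbe7532e5bbfa6 : CRef := CRef.mk (Pat.mk 0x20000001a0000001200000000 0x1000000070000000700000007000000030000001b0000001f00000004 7 5) 0 0 (step_sound _ 129 [rha893ef807ce322b1, (rhc85cc95794737cf7.shift 0 1), (rhe01cfd8f0577defd.shift 0 1)] (by decide +kernel))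
noncomputable def rh7e2ce30127ae7e25 : CRef := CRef.mk (Pat.mk 0x100000007000000020 0x7b7000003fe0000077c 7 11) 0 0 (step_sound _ 39 [(rh352b7f91eba0c81f.shift 4 0), (rh9cf60041f0c0abcb.shift 4 1), (rhaf9f2efc81a8312b.shift 3 0), rhecf3a99a62af8959] (by decide +kernel))
noncomputable def rh80a8bc215c16222d : CRef := CRef.mk (Pat.mk 0x1000000010000000100000003800000000 0x8000000180000001c0000007f0000003e00000007 7 7) 0 0 (step_sound _ 131 [(rh50fbb5868c909700.shift 3 1), rh51e89694bd6abe77] (by decide +kernel))
noncomputable def rh393eb97118f7b358 : CRef := CRef.mk (Pat.mk 0x10000000100000001e00000010 0x2e0000003e000000170000001e00000013 7 6) 0 0 (step_sound _ 1 [rha809f892eca3ddc5, rheb0810cc63b001d8] (by decide +kernel))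
noncomputable def rh18088714346bf4f7 : CRef := CRef.mk (Pat.mk 0x1000000018000000380000000000000000 0xc0000000c0000000c0000001c000000180000003c0000000f0000000c 7 6) 0 0 (step_sound _ 35 [(rh71222050f2c63a3a.shift 3 0), rha8e4d7d840b8ef96] (by decide +kernel))
noncomputable def rh87f355c0055501c3 : CRef := CRef.mk (Pat.mk 0x1000000038000000000000000000000000 0x8000000080000003f000000ff0000000f0000000400000004 7 8) 0 0 (step_sound _ 131 [rh32031ef595e5cbab, rh673fec6b1f99f329, (rh79b3c29022acbdf3.shift 2 3), (rha9fbfd4bb8cf890b.shift 0 3)] (by decide +kernel))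
noncomputable def rh4433acc9deb5d91c : CRef := CRef.mk (Pat.mk 0x4000000020000001e0000001800000000 0x10000000f0000001f0000000a0000001e0000001b00000010 7 5) 0 0 (step_sound _ 33 [rh62ba860b38e48a06, (rheb0810cc63b001d8.shift 0 1)] (by decide +kernel))
noncomputable def rha67e356c00658080 : CRef := CRef.mk (Pat.mk 0x1e00000012000000100000000000000000 0x30000003e0000001e000000370000000600000006 7 6) 0 0 (step_sound _ 98 [(rh18965a982d73c794.shift 1 3), rhbbefed8bee248a32] (by decide +kernel))
noncomputable def rh9820a5ec8373342d : CRef := CRef.mk (Pat.mk 0x80000001e00000010000000100000000000000000 0xc0000003e0000001f000000370000000600000002 7 6) 0 0 (step_sound _ 97 [rh87e41c7388369d7a, (rheb0810cc63b001d8.shift 0 3)] (by decide +kernel))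
noncomputable def rh85bc70572fc4e0bf : CRef := CRef.mk (Pat.mk 0x380000002000000020 0x18000000180000003f0000007e0000003700000024 7 7) 0 0 (step_sound _ 100 [rh478adaa2b93b3f8d, (rha3df16ea9c8576c8.shift 4 0), (rhc89253ff58c66167.shift 4 0)] (by decide +kernel))
noncomputable def rh0d7471582b9deb8a : CRef := CRef.mk (Pat.mk 0x20000000700000004000000000 0x8000000080000001f0000007f000000fe0000007700000010 7 8) 0 0 (step_sound _ 67 [(rh36eba2a3de447758.shift 0 1), (rh6765e7960b108c8d.shift 2 1), rhd3a45fa5ff022cfc] (by decide +kernel))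
noncomputable def rh5ade84eac3d178a3 : CRef := CRef.mk (Pat.mk 0x1e0000000200000000000000000000000000000000 0x10000000700000007000000070000001e0000000600000003000000070000000700000004 7 5) 0 0 (step_sound _ 193 [(rh3244c3cc8379b070.shift 0 5), rh5191de6b07f8a63b] (by decide +kernel))
noncomputable def rhb1c7da47e5f900c4 : CRef := CRef.mk (Pat.mk 0xf0000000000000008000000000000000000000000 0x180000000f0000001c0000000c0000001c0000001c00000010 7 5) 0 0 (step_sound _ 131 [rh683a3844c09d4089, (rhe25b0a99195a5d59.shift 0 4)] (by decide +kernel))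
noncomputable def rh161049940437d60f : CRef := CRef.mk (Pat.mk 0x30000000f00000008 0x140000001c0000001c000000180000001f0000000f0000000c 7 5) 0 0 (step_sound _ 67 [rh2dace04af8ee8809, (rh33e738c4ed385b9f.shift 0 1)] (by decide +kernel))
noncomputable def rh01076b297b23e313 : CRef := CRef.mk (Pat.mk 0x1e0000001a00000000000000000000000000000000 0x70000001e0000001e00000003000000070000000700000004 7 5) 0 0 (step_sound _ 193 [(rh3244c3cc8379b070.shift 0 5), rhd3d6cf0b5f88ad49] (by decide +kernel))
noncomputable def rh0c73e62f4278d8c1 : CRef := CRef.mk (Pat.mk 0x1e00000008 0xe0000000fe000001df 7 9) 0 0 (step_sound _ 1 [(rh148a4fd74ec99e95.shift 1 0), rheb0810cc63b001d8] (by decide +kernel))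
noncomputable def rh117e9d2e0e2ed747 : CRef := CRef.mk (Pat.mk 0x40000000e000000080000002000000000 0xe70000007e0000007f0000002300000023 7 8) 0 0 (step_sound _ 100 [(rhe3060b190bc0bc78.shift 0 3), rhe95ad851c40ef2f8, (rhff137c455409f0e3.shift 1 0)] (by decide +kernel))
noncomputable def rh7fe58a12b82736a5 : CRef := CRef.mk (Pat.mk 0xe00000000000000200000000300000001 0xe00000007e00000073000000220000002300000001 7 8) 0 0 (step_sound _ 97 [rh3c88ce959c0e423f, (rh880f707c990d6f11.shift 0 1)] (by decide +kernel))
noncomputable def rh4c7fdb9e4a27b169 : CRef := CRef.mk (Pat.mk 0x2000000020000000200000002000000000000000000000000 0x100000007000000060000000600000003000000070000000700000004 7 3) 0 0 (step_sound _ 224 [rhb4d78cd0e58cc17c, (rhffd04209dc8ea796.shift 0 3)] (by decide +kernel))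
noncomputable def rh3c799b52c0cd2897 : CRef := CRef.mk (Pat.mk 0x800000008000000280000000800000000000000000000000000000000 0x1800000018000000380000001f0000000c0000001c0000001c00000014 7 6) 0 0 (step_sound _ 99 [(rh367118e0bf0473e0.shift 2 1), (rh7928877f9bf74a91.shift 2 2), (rh95311890f436bcdc.shift 2 0), (rhab5499bacd1db957.shift 0 2)] (by decide +kernel))
noncomputable def rhf03c2f52813be111 : CRef := CRef.mk (Pat.mk 0x30000000800000008000000000000000c00000000 0x140000001e0000001b0000000800000008000000180000001c00000014 7 5) 0 0 (step_sound _ 67 [(rh932754581e0f4330.shift 2 0), rhcadfe49164deda00] (by decide +kernel))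
noncomputable def rhaa2eec4b46aa3a46 : CRef := CRef.mk (Pat.mk 0x4000000000000000f00000000000000000000000000000000 0x40000001c0000000f000000180000001c0000001c00000014 7 5) 0 0 (step_sound _ 99 [rhb76be5733554430a, (rhe25b0a99195a5d59.shift 0 3)] (by decide +kernel))
noncomputable def rh653928d0520f72bc : CRef := CRef.mk (Pat.mk 0x7000000000 0xe000000fe000001ff 7 9) 0 0 (step_sound _ 35 [rh04797e9e06425c4e, (rh06db8ceda6269a47.shift 2 0), (rh0d378fd9e8917c5a.shift 1 0), (rh185f35b8bd8ec37f.shift 1 0), (rh381e6a8bbeedc876.shift 1 0), (rh775ca1963e850b80.shift 1 0)] (by decide +kernel))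
noncomputable def rh5b4a17836e2be7b3 : CRef := CRef.mk (Pat.mk 0x2000000020000000000000003800000000 0x2000000020000001e7000000fe000001c7 7 9) 0 0 (step_sound _ 38 [rh15b856e33c69f807, (rh3fc3a7fb6866dcd4.shift 3 0), (rh49bdc49f6b132823.shift 3 0)] (by decide +kernel))
noncomputable def rh8455945beca1078e : CRef := CRef.mk (Pat.mk 0x1000000010000000100000001000000000 0x1000000010000000ff000000fe0000002f 7 8) 0 0 (step_sound _ 35 [rh7200610e03d3f78c, (rh932754581e0f4330.shift 3 0)] (by decide +kernel))
noncomputable def rh8495a27377132ea5 : CRef := CRef.mk (Pat.mk 0x2000000020000000200000001000000000000000000000000 0x100000007000000070000000600000003000000070000000600000004 7 3) 0 0 (step_sound _ 97 [rh4cae674e8fd8dc57, (rh932754581e0f4330.shift 0 2)] (by decide +kernel))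
noncomputable def rh5f75ede74e37d837 : CRef := CRef.mk (Pat.mk 0x200000002000000020000000200000000000000000000000000000000 0x300000007000000070000000600000006000000070000000700000005 7 3) 0 0 (step_sound _ 97 [rh4cae674e8fd8dc57, (rh8ff3dde5b1c639e0.shift 0 1), rhcaeb492376c707d4, (rhd29a1fb688eae70f.shift 1 2)] (by decide +kernel))
noncomputable def rh39676766cac456fa : CRef := CRef.mk (Pat.mk 0x1e0000000000000000000000000000000000000000 0x600000006000000070000001e0000000700000007000000070000000700000001 7 5) 0 0 (step_sound _ 129 [rh6ca87dfeb9514c80, (rheb0810cc63b001d8.shift 0 4)] (by decide +kernel))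
noncomputable def rhf87cd3e5f7cb0314 : CRef := CRef.mk (Pat.mk 0x60000000400000004 0xa0000000e0000000e0000000e0000003e000000070000000600000004 7 6) 0 0 (step_sound _ 98 [(rh0de078aa0be653b2.shift 1 0), (rh1741680720c097b4.shift 1 0), (rh1dffa6d8a02b5f3a.shift 1 0), (rh31c46e51df3ea16f.shift 1 0), (rha1ebdc37587112bb.shift 1 0), rhd8406b09026060f8] (by decide +kernel))
noncomputable def rh9ac0bcc7d96693c5 : CRef := CRef.mk (Pat.mk 0x20000000a0000000a0000000800000008 0xf30000007e000000ee0000000800000008 7 8) 0 0 (step_sound _ 100 [(rh271fbbbbca267337.shift 0 2), (rh2f68792b6b779e96.shift 3 0)] (by decide +kernel))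
noncomputable def rhdf8bf65daa0e8b33 : CRef := CRef.mk (Pat.mk 0x8000000080000000e000000040000000000000000 0x8000000f80000007e000000f70000001400000014 7 8) 0 0 (step_sound _ 34 [rh70a6c51c91dc0a2a, (rh71222050f2c63a3a.shift 2 0)] (by decide +kernel))
noncomputable def rh87ff05e79b1a586d : CRef := CRef.mk (Pat.mk 0xf0000000b00000000000000000000000000000000 0x180000000f0000000f0000001c0000001c0000001c00000010 7 5) 0 0 (step_sound _ 195 [rh23b67fb1d8ca04b8, (rh33e738c4ed385b9f.shift 0 5)] (by decide +kernel))
noncomputable def rh6530f0e2f15deeeb : CRef := CRef.mk (Pat.mk 0x400000004000000000000000e00000000 0x400000004000000e40000007e000000e7 7 8) 0 0 (step_sound _ 1 [(rh3c88ce959c0e423f.shift 1 0), rh6287b81491833f3f] (by decide +kernel))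
noncomputable def rh1d372061ab4b7237 : CRef := CRef.mk (Pat.mk 0x3800000000 0x1e7000000fe000001ef 7 9) 0 0 (step_sound _ 38 [(rh3fc3a7fb6866dcd4.shift 3 0), rh708c3bc8fe2f3084, (rh9e97bba44c1b13e4.shift 1 0)] (by decide +kernel))
noncomputable def rhde32bc682637565f : CRef := CRef.mk (Pat.mk 0x1e00000000000000000000000000000000 0x2000000070000001e0000003f000000070000000700000002 7 6) 0 0 (step_sound _ 97 [rhafeb22b5357bd16b, (rheb0810cc63b001d8.shift 0 3)] (by decide +kernel))
noncomputable def rhfdbfa6e905294a62 : CRef := CRef.mk (Pat.mk 0x1f000000000 0x1f000001fe000000f7 7 9) 0 0 (step_sound _ 5 [rh773e292ad7481f2c, (rheb0810cc63b001d8.shift 4 0)] (by decide +kernel))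
noncomputable def rh59e8e5339c371f56 : CRef := CRef.mk (Pat.mk 0x40000001c00000018 0x3c0000003c000000360000001f00000018 7 6) 0 0 (step_sound _ 33 [(rh8ed8782856cb3c98.shift 1 0), rhb739f4f82bb681b4] (by decide +kernel))
noncomputable def rhe4a1b12ffaee49fe : CRef := CRef.mk (Pat.mk 0x20000000600000012000000000000000000000000 0x30000000300000006000000060000001e000000070000000700000003 7 5) 0 0 (step_sound _ 98 [(rh55a1f6c57a317ce6.shift 1 1), rhb559d0193d870d1d, rhf1ea61247e21eb5e] (by decide +kernel))
noncomputable def rhe52307a01c64ddb7 : CRef := CRef.mk (Pat.mk 0xf000000020 0xe000000fe000001f7 7 9) 0 0 (step_sound _ 7 [rh615d2cd5c799b5dc, (rhe25b0a99195a5d59.shift 4 0)] (by decide +kernel))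
noncomputable def rh7e5e05fe8b88cbeb : CRef := CRef.mk (Pat.mk 0x1000000010000000100000001000000000 0x1000000010000000ff0000007e0000002f 7 8) 0 0 (step_sound _ 35 [rh5a6d86c5fc390ff8, (rh932754581e0f4330.shift 3 0)] (by decide +kernel))
noncomputable def rh90db558c5eeaa1f2 : CRef := CRef.mk (Pat.mk 0x10000000100000001000000010 0x2f0000007e000000ff0000001000000010 7 8) 0 0 (step_sound _ 99 [(rh50fbb5868c909700.shift 3 0), rh54a27df1ab7049d7] (by decide +kernel))
noncomputable def rh34248906a10f8c00 : CRef := CRef.mk (Pat.mk 0x80000000800000008000000080000000800000000000000000000000000000000 0x80000001c0000007c0000001f0000000c000000180000001c0000001c00000014 7 7) 0 0 (step_sound _ 162 [(rh932754581e0f4330.shift 2 4), rh9661cc2097120241] (by decide +kernel))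
noncomputable def rh1fa67a9a5680aa2f : CRef := CRef.mk (Pat.mk 0x8000000080000000800000008000000080000000000000000 0x80000001c0000003f0000007f000000180000000800000008 7 7) 0 0 (step_sound _ 100 [(rh55afc6a59410cf00.shift 3 2), rhf638b916c4e37446] (by decide +kernel))
noncomputable def rh8c3964c7e5ef9e0f : CRef := CRef.mk (Pat.mk 0x200000002000000020000000200000000000000000000000000000000 0x200000006000000060000000600000007000000070000000700000004 7 3) 0 0 (step_sound _ 97 [(rh8cdd36b03d57a2f6.shift 0 1), rh8d8bfe45b7d5275a, (rhd29a1fb688eae70f.shift 1 2), (rheef6e2625c7864cd.shift 0 1)] (by decide +kernel))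
noncomputable def rha9036ee088616a5e : CRef := CRef.mk (Pat.mk 0x80000000800000008000000080000000000000000 0x1c0000003c0000000f000000180000001800000018 7 6) 0 0 (step_sound _ 36 [rhb4cd9b48f1a797b9, (rhd3458b32566d63f7.shift 3 1)] (by decide +kernel))
noncomputable def rh9afde6322e91a92c : CRef := CRef.mk (Pat.mk 0x38000000000000001000000010 0x80000007f0000003e000000070000001e0000003e 7 7) 0 0 (step_sound _ 98 [(rh32ae5b24c8e351c8.shift 1 0), (rh4c622fddc53a5f99.shift 0 3), (rh7654d7b92c96fe12.shift 0 2), (rh775ca1963e850b80.shift 0 2)] (by decide +kernel))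
noncomputable def rh190d949639737c5d : CRef := CRef.mk (Pat.mk 0x7000000080 0x770000007e000000ce 7 8) 0 0 (step_sound _ 35 [rh138c3774b73e0afc, (rh96851dee118c1ba3.shift 3 0)] (by decide +kernel))
noncomputable def rh0a6e50cf41d4fe52 : CRef := CRef.mk (Pat.mk 0x100000000e000000080000000000000000 0x370000007e000000ec0000000800000008 7 8) 0 0 (step_sound _ 100 [(rh33e738c4ed385b9f.shift 1 3), rh5d1227060f3fea36] (by decide +kernel))
noncomputable def rh87c31f195de153c9 : CRef := CRef.mk (Pat.mk 0x100000001e0000000000000000 0x80000003800000038000000380000001f0000001e0000003800000010 7 6) 0 0 (step_sound _ 36 [rh4e7a636fbda8d70c, (rhe25b0a99195a5d59.shift 1 1)] (by decide +kernel))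
noncomputable def rhe35905f8bc5d41a2 : CRef := CRef.mk (Pat.mk 0x7800000000 0x770000007e000000ce 7 8) 0 0 (step_sound _ 7 [rh138c3774b73e0afc, (rh96851dee118c1ba3.shift 3 0)] (by decide +kernel))
noncomputable def rh612003c16d254781 : CRef := CRef.mk (Pat.mk 0xc0000000f000000000000000000000000 0x1800000018000000180000000c0000000f0000001c0000000c0000000c 7 5) 0 0 (step_sound _ 67 [(rh985294ffbed587a6.shift 2 0), (rhe25b0a99195a5d59.shift 0 2)] (by decide +kernel))
noncomputable def rh61cedbc46ecc4102 : CRef := CRef.mk (Pat.mk 0x1000000010000000100000001000000000 0x1000000010000000ff000000fe0000002f 7 8) 0 0 (step_sound _ 35 [rh56430c3573e3e889, (rh932754581e0f4330.shift 3 0)] (by decide +kernel))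
noncomputable def rh4845c766840c1a8d : CRef := CRef.mk (Pat.mk 0xc00000008000000080000000800000000 0x140000001c0000001c000000180000000c0000000f0000007c0000001800000008 7 7) 0 0 (step_sound _ 98 [(rh2927f090bc03b1bb.shift 0 1), (rh7b1f1fb55310c477.shift 2 0)] (by decide +kernel))
noncomputable def rhd3f2dfa0729a5cb2 : CRef := CRef.mk (Pat.mk 0x800000003000000060000000c000000000000000000000000 0x18000000180000001b0000001e0000000c000000180000001800000018 7 5) 0 0 (step_sound _ 131 [(rhd1e3f323bf24a77c.shift 2 0), (rhf48373e13d2bc128.shift 0 4)] (by decide +kernel))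
noncomputable def rhbcd08b9885f5c99e : CRef := CRef.mk (Pat.mk 0x1e00000000000000000000000000000000 0x400000006000000070000001e00000007000000070000000700000005 7 5) 0 0 (step_sound _ 97 [rh1b384705e8792192, (rheb0810cc63b001d8.shift 0 3)] (by decide +kernel))
noncomputable def rh714ab8248e97ea17 : CRef := CRef.mk (Pat.mk 0x400000002000000020000000a000000080000000000000000 0x400000016000000120000003b0000001e0000000c0000000800000008 7 6) 0 0 (step_sound _ 193 [(rh2f68792b6b779e96.shift 1 3), rhcf21fdfa8a0c3634] (by decide +kernel))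
noncomputable def rh5cf652d87d4de76b : CRef := CRef.mk (Pat.mk 0x1600000002000000000000000e 0x330000001e0000000b000000780000001f 7 7) 0 0 (step_sound _ 99 [rh6037ce7dfec98b94, (rheb0810cc63b001d8.shift 0 2)] (by decide +kernel))
noncomputable def rh0e822a19e46e8b3c : CRef := CRef.mk (Pat.mk 0x200000002000000020000000200000000 0x50000000700000007000000030000000300000003000000030000000300000002 7 3) 0 0 (step_sound _ 161 [(rh193da7fc9e1674f1.shift 0 1), (rh3ca48e2a6d60153d.shift 0 1), (rh771d065bdc85bf2d.shift 0 1), rhd0e8c2498b2d628e] (by decide +kernel))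
noncomputable def rhc8671393f3bf7162 : CRef := CRef.mk (Pat.mk 0x30000000a0000000200000000000000000000000000000000 0x1000000030000001e0000000600000003000000070000000700000004 7 5) 0 0 (step_sound _ 162 [(rhf48373e13d2bc128.shift 0 5), rhf98fa66b1765731a] (by decide +kernel))
noncomputable def rhc24270a842f67450 : CRef := CRef.mk (Pat.mk 0x600000002000000020000000a0000000800000000 0x1000000130000001f000000120000007a0000001f0000000c00000008 7 7) 0 0 (step_sound _ 192 [rh2fdbac22792bf021, (rhffd04209dc8ea796.shift 0 2)] (by decide +kernel))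
noncomputable def rh45820cbd559ceae7 : CRef := CRef.mk (Pat.mk 0xf00000000000000040000000400000000000000000000000000000000 0xf0000001c0000000c00000004000000040000000e0000000e0000000a 7 5) 0 0 (step_sound _ 195 [(rh648e4b160e405460.shift 1 0), (rhe25b0a99195a5d59.shift 0 6)] (by decide +kernel))
noncomputable def rh41424be8671b9855 : CRef := CRef.mk (Pat.mk 0x400000012000000020000000a0000000800000000 0x1000000170000001f000000120000001a0000001a0000000800000008 7 5) 0 0 (step_sound _ 161 [(rh2f68792b6b779e96.shift 1 2), rhbe341911786ce8aa] (by decide +kernel))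
noncomputable def rhc84913b3c202786c : CRef := CRef.mk (Pat.mk 0x1c00000008000000080000000800000000 0x63000000ff0000007c000000180000001800000010 7 8) 0 0 (step_sound _ 36 [(rh55afc6a59410cf00.shift 3 0), (rh9200a2f39b422b7f.shift 0 1)] (by decide +kernel))
noncomputable def rh0f78b35116eceafd : CRef := CRef.mk (Pat.mk 0x600000004000000040000000400000000 0x380000003f0000003f0000000c0000000c00000008 7 6) 0 0 (step_sound _ 131 [(rh2f68792b6b779e96.shift 2 1), rhb5a9ec1ce9de0cd6] (by decide +kernel))
noncomputable def rh123f92165c04e0d7 : CRef := CRef.mk (Pat.mk 0x6000000000000001a0000000a0000000000000000 0x100000001e00000038000000ff000000ee0000000800000008 7 8) 0 0 (step_sound _ 132 [(rh0ab83fb9a9ff267c.shift 0 2), (rh170679153ea11e3d.shift 1 2), (rhf9366b6a121593ef.shift 3 0)] (by decide +kernel))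
noncomputable def rh8719e2dea9b1ee43 : CRef := CRef.mk (Pat.mk 0x40000000400000014000000100000000000000000 0xa0000000e0000002e00000024000000770000003e000000180000001000000010 7 7) 0 0 (step_sound _ 194 [(rha34a16d8d94daec2.shift 0 2), (rhc85cc95794737cf7.shift 1 3), (rhcf21fdfa8a0c3634.shift 1 0), (rhefb41fb43257ec4b.shift 1 2)] (by decide +kernel))
noncomputable def rh76908296e7de9b1b : CRef := CRef.mk (Pat.mk 0x4000000040000001c00000010 0x340000003c000000370000001f00000018 7 6) 0 0 (step_sound _ 3 [(rh2145e1d24b96a57e.shift 2 0), rh5b0cd6b53b0c31a6] (by decide +kernel))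
noncomputable def rhadd5715fbcd9b9d1 : CRef := CRef.mk (Pat.mk 0x2000000020000000e0000000a00000000000000000 0x2000000020000000200000003f000000fe000000ee0000002000000020 7 8) 0 0 (step_sound _ 100 [(rh26296021211e31e0.shift 3 2), (rh36eba2a3de447758.shift 1 2), rh6e563605f7708df3, (rhd1d05263fabc0227.shift 2 2), (rhef1509742e676880.shift 3 2)] (by decide +kernel))
noncomputable def rhe961aabeabc170e3 : CRef := CRef.mk (Pat.mk 0xa0000000e000000000 0x1bf000000fe0000000e 7 9) 0 0 (step_sound _ 36 [rh2b264ec59419670e, (rh33e738c4ed385b9f.shift 4 1)] (by decide +kernel))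
noncomputable def rhdb43b15c9f8b47ed : CRef := CRef.mk (Pat.mk 0x4000000020000000a0000000a0000000800000000 0x1000000170000001f0000001a0000001a0000000a0000000800000008 7 5) 0 0 (step_sound _ 161 [(rh2f68792b6b779e96.shift 1 2), rhea957d83ddc76f10] (by decide +kernel))
noncomputable def rh661fe274e172bbaf : CRef := CRef.mk (Pat.mk 0x8000000080000000a0000000800000000 0xc0000000c0000001c00000018000000180000000f0000000c00000008 7 5) 0 0 (step_sound _ 132 [(rh2f68792b6b779e96.shift 3 1), rh88a353cb60e0d045] (by decide +kernel))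
noncomputable def rh1341606455c9d8e7 : CRef := CRef.mk (Pat.mk 0x2000000020000000e0000000a00000000000000000 0x50000000700000007000000020000000200000003f000000fe000000ee0000002000000020 7 8) 0 0 (step_sound _ 100 [(rh48ea389700101016.shift 4 2), rh5695a6493ccc73ed, (rh88c620441a3a17ea.shift 1 2), (rhe8cabce1919c5509.shift 0 2)] (by decide +kernel))
noncomputable def rh2b00fe0ee687f885 : CRef := CRef.mk (Pat.mk 0x1000000050000000700000004000000000000000000000000 0xd0000000d0000000d00000007000000060000000c0000000c0000000c 7 4) 0 0 (step_sound _ 97 [(rh2145e1d24b96a57e.shift 0 3), (rh642e50382fd7f7a3.shift 1 0)] (by decide +kernel))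
noncomputable def rh57c9c96ef1b80664 : CRef := CRef.mk (Pat.mk 0x20000000a0000000a0000000a00000008 0x1000000070000001f0000001e0000001a0000000a0000000a00000008 7 5) 0 0 (step_sound _ 162 [rh545d427da79a9ec8, (rhbaefcd01e0a8bca3.shift 1 1)] (by decide +kernel))
noncomputable def rh3867143abd7ceb06 : CRef := CRef.mk (Pat.mk 0x4000000020000000a0000000a0000000a00000008 0x40000001e0000003b0000001a0000000b0000000f0000000c 7 6) 0 0 (step_sound _ 161 [(rh2f68792b6b779e96.shift 1 2), rhd4cf0502293283e6] (by decide +kernel))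
noncomputable def rhf9a561948d0ad639 : CRef := CRef.mk (Pat.mk 0x12000000020000000200000002 0x3d0000001f0000003b000000020000000200000002 7 6) 0 0 (step_sound _ 128 [(rhc1458d9a4fa93203.shift 0 1), rhffd04209dc8ea796] (by decide +kernel))
noncomputable def rhe2593ac51a81cb9e : CRef := CRef.mk (Pat.mk 0x280000002c0000002800000000 0x140000001c0000001c00000028000000280000002f0000003c00000010 7 6) 0 0 (step_sound _ 36 [(rh5fc67bac28a8b5bb.shift 3 0), (rh921a8f8cd2437502.shift 2 0), (rhdbcea10a0fbe5ba6.shift 0 1)] (by decide +kernel))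
noncomputable def rh1303676eb0aac25c : CRef := CRef.mk (Pat.mk 0x8000000080000008000000030000000100000000000000000 0x800000018000001d7000001fe0000007e0000002000000020 7 9) 0 0 (step_sound _ 102 [(rh3e2e82686979b72f.shift 0 2), (rh804763794ba1b259.shift 1 0), (rhee0891bc88ee3f94.shift 3 2)] (by decide +kernel))
noncomputable def rh0f81689a5db23152 : CRef := CRef.mk (Pat.mk 0x100000005000000100000000600000002 0x5000000770000003e0000007700000002 7 7) 0 0 (step_sound _ 65 [rh0da0aba8333b1d3b, rhcfdf45280693d3da] (by decide +kernel))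
noncomputable def rh6015369e85d44d01 : CRef := CRef.mk (Pat.mk 0xf000000000000000a0000000c0000002000000000 0x5f000000f80000007e0000002c0000002000000020 7 8) 0 0 (step_sound _ 132 [(rh684af8dcf862805e.shift 1 0), (rh96851dee118c1ba3.shift 0 4)] (by decide +kernel))
noncomputable def rh949854df036d7020 : CRef := CRef.mk (Pat.mk 0x800000003000000010 0x1c7000001fe000003be 7 10) 0 0 (step_sound _ 38 [rh3e2e82686979b72f, (rhe2aaa4986b725c6a.shift 4 0), (rhee0891bc88ee3f94.shift 3 0)] (by decide +kernel))
noncomputable def rh12204be10906cde9 : CRef := CRef.mk (Pat.mk 0x1000000010000000180000001800000000 0x1000000010000000f8000000ff00000027 7 8) 0 0 (step_sound _ 37 [(rh55afc6a59410cf00.shift 4 0), rhadec87ca519a3ac3] (by decide +kernel))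
noncomputable def rh46e0714526103aca : CRef := CRef.mk (Pat.mk 0xf000000020 0xe000000fe000001f7 7 9) 0 0 (step_sound _ 7 [rh031ca0d8b5abff66, (rhe25b0a99195a5d59.shift 4 0)] (by decide +kernel))
noncomputable def rhcd9ef1231b0bde49 : CRef := CRef.mk (Pat.mk 0x78000000100000000000000000 0x200000002000000070000007e0000003e0000000400000004 7 7) 0 0 (step_sound _ 66 [(rh80fcd6d0a18cb2dd.shift 2 2), rh9d5d9575d745afbf] (by decide +kernel))
noncomputable def rh68a65d64d78befc1 : CRef := CRef.mk (Pat.mk 0xf000000020 0x1c7000000fe00000067 7 9) 0 0 (step_sound _ 71 [(rh33e738c4ed385b9f.shift 4 1), rhbff89f04f36f67c5] (by decide +kernel))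
noncomputable def rh4e55971e90624233 : CRef := CRef.mk (Pat.mk 0x4000000040000000e00000002000000000 0x40000001ce000000fe000001bf00000080 7 9) 0 0 (step_sound _ 68 [(rh625dde73e665edc8.shift 4 0), (rh7c446a5779c6be66.shift 0 1)] (by decide +kernel))
noncomputable def rh1c46fb9836197b03 : CRef := CRef.mk (Pat.mk 0x200000007000000000 0x3ff000001fe00000387 7 10) 0 0 (step_sound _ 35 [(rh45f730bcf36fcf64.shift 2 0), rhb12ffaec36122c99, (rhb18e6c78a554867d.shift 2 1), (rhec46bd5500c722c9.shift 2 1)] (by decide +kernel))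
noncomputable def rhff5095b44545379b : CRef := CRef.mk (Pat.mk 0x800000008000000080000000800000000 0x800000008000000ff000000ff000001f4 7 9) 0 0 (step_sound _ 36 [(rh55afc6a59410cf00.shift 3 0), rh62ccd7692aaf66f8] (by decide +kernel))
noncomputable def rh9b8025488f982887 : CRef := CRef.mk (Pat.mk 0x2000000020000000200000004000000000000000000000000 0x400000007000000070000000300000006000000070000000300000001 7 3) 0 0 (step_sound _ 97 [rh0da2a71655c6a894, (rh55afc6a59410cf00.shift 1 2)] (by decide +kernel))
noncomputable def rhd050472752a7cf39 : CRef := CRef.mk (Pat.mk 0x800000008000000080000000c000000000000000000000000 0x80000001c0000007e0000007f0000000c000000180000001800000018 7 7) 0 0 (step_sound _ 130 [rh5253e6def0624eae, (rh5c5e593799055d58.shift 2 3)] (by decide +kernel))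
noncomputable def rh07f6632ef696322a : CRef := CRef.mk (Pat.mk 0x80000000800000008000000080000000000000000 0x80000001c0000001f0000007c000000180000001800000008 7 7) 0 0 (step_sound _ 68 [(rh55afc6a59410cf00.shift 3 1), rhd42884f2021f624d] (by decide +kernel))
noncomputable def rh16632f1119031042 : CRef := CRef.mk (Pat.mk 0x200000002000000020000000200000000000000000000000000000000 0x200000006000000060000000600000007000000070000000700000004 7 3) 0 0 (step_sound _ 97 [(rh6eff4158bb400f47.shift 0 1), rh8d8bfe45b7d5275a, (rhd29a1fb688eae70f.shift 1 2), (rheef6e2625c7864cd.shift 0 1)] (by decide +kernel))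
noncomputable def rh77100d685ef1b7c8 : CRef := CRef.mk (Pat.mk 0x18000000080000000800000028000000000000001c00000000 0x40000007c000000680000006800000028000000e70000007e000000f0 7 8) 0 0 (step_sound _ 194 [(rh50fbb5868c909700.shift 2 3), rhe6139ee3783d91c7] (by decide +kernel))
noncomputable def rhcead9ce7584d6492 : CRef := CRef.mk (Pat.mk 0x400000000000000070000000000000000000000000 0x4000000040000000ce0000007e0000007f0000002000000020 7 8) 0 0 (step_sound _ 99 [(rh04797e9e06425c4e.shift 0 2), (rh3927159016129638.shift 3 0), (rh775ca1963e850b80.shift 1 2)] (by decide +kernel))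
noncomputable def rh585856177ce4423b : CRef := CRef.mk (Pat.mk 0x80000000800000008000000000000001800000000 0x80000000800000008000000ef0000007e000000ef 7 8) 0 0 (step_sound _ 34 [(rh183e0d909544af91.shift 1 0), (rh343a5d3670c5295a.shift 2 0), (rh9075e8e077f682b0.shift 1 0), rhad8a784a228a12d6] (by decide +kernel))
noncomputable def rh658cc23ae583acb2 : CRef := CRef.mk (Pat.mk 0x8000000080000000e000000040000000000000000 0x8000000f80000007e000000f70000001400000004 7 8) 0 0 (step_sound _ 34 [(rh71222050f2c63a3a.shift 2 0), (rh79c296c9604ce03e.shift 0 1)] (by decide +kernel))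
noncomputable def rhd51a10234e8a890b : CRef := CRef.mk (Pat.mk 0x20000000200000002000000000000000000000000 0x5000000070000000700000007000000030000000600000006000000070000000700000005 7 3) 0 0 (step_sound _ 193 [(rh1741680720c097b4.shift 0 3), (rh20e56a1196e70fcc.shift 0 2), rhc850b49d039efae1, (rhced6d86d2069808b.shift 1 2)] (by decide +kernel))
noncomputable def rh5133fbe07fd94255 : CRef := CRef.mk (Pat.mk 0x1000000010000000500000001000000000 0x1000000010000000770000003e0000002f 7 7) 0 0 (step_sound _ 35 [(rh932754581e0f4330.shift 3 0), rhf747e75c56839347] (by decide +kernel))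
noncomputable def rh9819fa1480897963 : CRef := CRef.mk (Pat.mk 0x78000000000000001000000070 0x70000007e0000000e0000003e00000074 7 7) 0 0 (step_sound _ 66 [rh66fb1fc096df5a4a, (rh80fcd6d0a18cb2dd.shift 2 2)] (by decide +kernel))
noncomputable def rh0309e916aaf21abe : CRef := CRef.mk (Pat.mk 0x60000001e000000020000000000000000 0x300000003000000030000003e0000001e000000060000000300000003 7 6) 0 0 (step_sound _ 33 [(rh71222050f2c63a3a.shift 1 0), rhcc38aedec3fd8171] (by decide +kernel))
noncomputable def rh5fd19c59ce6eac07 : CRef := CRef.mk (Pat.mk 0xe0000000400000010000000000000000000000000 0xe80000007e000000f700000010000000380000003800000028 7 8) 0 0 (step_sound _ 164 [(rh33d3f1ba39b8bd00.shift 1 0), (rh352b7f91eba0c81f.shift 1 4), (rhaf9f2efc81a8312b.shift 0 4)] (by decide +kernel))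
noncomputable def rhfcaa5c4ac6786b2e : CRef := CRef.mk (Pat.mk 0x70000000200000008000000000 0x100000001000000078f000003fe000007bf0000008000000080 7 11) 0 0 (step_sound _ 103 [(rh1a6590498224160a.shift 4 0), (rh352b7f91eba0c81f.shift 4 2), (rh4e5c9341c1e92d3c.shift 0 2), (rh500a083f39e7580c.shift 4 0), (rhaf9f2efc81a8312b.shift 3 2)] (by decide +kernel))
noncomputable def rh01046abb2ddf4585 : CRef := CRef.mk (Pat.mk 0x200000002000000030000000200000002 0x50000000700000007000000020000000600000006000000070000000300000002 7 3) 0 0 (step_sound _ 161 [rh7d2b606e35c1758a, (rh932754581e0f4330.shift 0 1)] (by decide +kernel))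
noncomputable def rh9e2a10b982f346d6 : CRef := CRef.mk (Pat.mk 0x10000000180000001000000010 0x80000003800000038000000380000001f000000780000001000000010 7 7) 0 0 (step_sound _ 132 [(rh3ca48e2a6d60153d.shift 3 0), (rh42ab489a1be3958e.shift 3 1), rh56b40fbd20b015cd, (rhc85cc95794737cf7.shift 3 1)] (by decide +kernel))
noncomputable def rh39ba8fb050a26b20 : CRef := CRef.mk (Pat.mk 0x1c0000000e000000080000002000000000 0x20000000200000003000001df000000fe000001ef0000002000000020 7 9) 0 0 (step_sound _ 100 [(rh57356921bb808803.shift 2 0), (rh6292bd8784ece55f.shift 1 3), (rh7af882bee0289bdd.shift 1 2), rh808f571e1d6baf80, (rhe342e74196eab19c.shift 0 2)] (by decide +kernel))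
noncomputable def rhe49816516f0a7415 : CRef := CRef.mk (Pat.mk 0x3c0000000200000020000000000000000000000000 0x100000003e0000003300000020000000700000007000000050 7 7) 0 0 (step_sound _ 161 [(rh174e78dabbc7879b.shift 1 0), (rheb0810cc63b001d8.shift 0 4)] (by decide +kernel))
noncomputable def rh6c97138dff3c0805 : CRef := CRef.mk (Pat.mk 0x20000003c0000000000000020000000000000000000000000 0x130000003e0000003000000020000000700000007000000050 7 7) 0 0 (step_sound _ 161 [(rh174e78dabbc7879b.shift 1 0), (rh3244c3cc8379b070.shift 0 5)] (by decide +kernel))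
noncomputable def rh95c71a0aa953ef64 : CRef := CRef.mk (Pat.mk 0xf000000000 0xf000001fe000000ff 7 9) 0 0 (step_sound _ 35 [(rh592c7139d2c44767.shift 1 0), rhbb13f9e1d387f64a, (rheae1728ff4a56756.shift 2 0), (rhf9dc53ff440b8418.shift 2 0)] (by decide +kernel))
noncomputable def rhfd91648806081e50 : CRef := CRef.mk (Pat.mk 0x80000001e0000000000000000 0x1200000012000000370000001f0000003e0000000c00000004 7 6) 0 0 (step_sound _ 97 [(rh3244c3cc8379b070.shift 0 2), rh7d2e18f625b814cc] (by decide +kernel))
noncomputable def rh3754c6c367c15ace : CRef := CRef.mk (Pat.mk 0x1000000018000000180000000000000000 0xc0000000f0000007f00000038000000180000001800000008 7 7) 0 0 (step_sound _ 35 [(rh5fa3defda748b1e9.shift 0 1), (rh71222050f2c63a3a.shift 3 0)] (by decide +kernel))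
noncomputable def rh8aee2948d46dd937 : CRef := CRef.mk (Pat.mk 0x78000000000000000000000000 0x200000002000000077000000ff0000001c0000001000000010 7 8) 0 0 (step_sound _ 67 [rh9bd07e460a9db576, (rheb0810cc63b001d8.shift 2 2)] (by decide +kernel))
noncomputable def rh61aef1e967b8dd77 : CRef := CRef.mk (Pat.mk 0x1e00000000000000000000000000000000 0x600000006000000070000001e00000007000000070000000700000005 7 5) 0 0 (step_sound _ 97 [rh4b2e091729371a05, (rheb0810cc63b001d8.shift 0 3)] (by decide +kernel))
noncomputable def rh2446f9f0d49f4f86 : CRef := CRef.mk (Pat.mk 0xf000000000 0x3f000000fe000000e7 7 8) 0 0 (step_sound _ 35 [rh9729c3cd7faf54ff, rhbb13f9e1d387f64a, (rhd5eb272e07a4e288.shift 2 1)] (by decide +kernel))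
noncomputable def rha4a0918363e0d458 : CRef := CRef.mk (Pat.mk 0x80000001e000000000000000000000000 0x80000003e0000003f0000003c00000014 7 6) 0 0 (step_sound _ 65 [(rheb0810cc63b001d8.shift 0 2), (rhf68a4186d962c6c1.shift 1 0)] (by decide +kernel))
noncomputable def rha6e835daeafe3b76 : CRef := CRef.mk (Pat.mk 0x7000000000 0xe000000ff000001fe 7 9) 0 0 (step_sound _ 35 [(rh0d378fd9e8917c5a.shift 1 0), (rh185f35b8bd8ec37f.shift 1 0), (rh42d32bf970c9c157.shift 2 0), rh6cdba2873fc242a9] (by decide +kernel))
noncomputable def rh6bf7ef84911bf342 : CRef := CRef.mk (Pat.mk 0x3c000000020000005000000000 0x800000008000001dc000000fe000000d30000005000000050 7 9) 0 0 (step_sound _ 97 [(rha04f4e915986deeb.shift 2 0), (rheb0810cc63b001d8.shift 0 2)] (by decide +kernel))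
noncomputable def rheb0f9d555ed888e9 : CRef := CRef.mk (Pat.mk 0xe000000000000001000000000 0x800000008000000ff0000007e000000f00000001000000010 7 8) 0 0 (step_sound _ 100 [(rh00c1a02c588da1b0.shift 1 0), (rh45f730bcf36fcf64.shift 0 2), (rh56a24c72f1c55520.shift 0 3)] (by decide +kernel))
noncomputable def rha3cd6e417638cbd6 : CRef := CRef.mk (Pat.mk 0xf0000000000000010000000000000000000000000 0x780000003f0000003000000010000000380000003800000028 7 7) 0 0 (step_sound _ 164 [(rh33d3f1ba39b8bd00.shift 1 0), (rh500a083f39e7580c.shift 1 2), (rh9890f9d77740bbed.shift 0 5)] (by decide +kernel))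
noncomputable def rha23e9140b66e9602 : CRef := CRef.mk (Pat.mk 0xf0000000000000008000000000000000000000000 0x140000001f00000018000000080000001c0000001c00000014 7 5) 0 0 (step_sound _ 131 [(rhc2a413918de61f33.shift 2 0), (rhe25b0a99195a5d59.shift 0 4)] (by decide +kernel))
noncomputable def rh8b730aa53a771109 : CRef := CRef.mk (Pat.mk 0x400000006000000040000001400000000 0xa0000003f0000003e000000340000001400000010 7 6) 0 0 (step_sound _ 129 [rh40a2621ff666e043, (rh50fbb5868c909700.shift 1 1)] (by decide +kernel))
noncomputable def rh499a02d623550218 : CRef := CRef.mk (Pat.mk 0x80000000e000000040000001400000000 0x80000000a000000eb0000007e000000f60000001400000010 7 8) 0 0 (step_sound _ 163 [(rh5c5e593799055d58.shift 2 2), rh8a4e7bac66134d3d] (by decide +kernel))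
noncomputable def rhb7e555629d6096be : CRef := CRef.mk (Pat.mk 0x1f000000080 0x77000001fe000000c7 7 9) 0 0 (step_sound _ 35 [rh191e5ff85276f8e6, (rh96851dee118c1ba3.shift 3 0)] (by decide +kernel))
noncomputable def rh2e09ee9dbe4da14e : CRef := CRef.mk (Pat.mk 0xe0000000100000010000000000000000000000000 0x80000001e0000003300000010000000380000003800000028 7 6) 0 0 (step_sound _ 164 [(rh33d3f1ba39b8bd00.shift 1 0), (rh80fcd6d0a18cb2dd.shift 0 4)] (by decide +kernel))
noncomputable def rh2c72ba305cb936d9 : CRef := CRef.mk (Pat.mk 0x1e0000000000000004000000000000000000000000 0x80000003e00000007000000040000000e0000000e0000000a 7 6) 0 0 (step_sound _ 129 [(rh2eb57940aae23bfe.shift 1 0), (rheb0810cc63b001d8.shift 0 4)] (by decide +kernel))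
noncomputable def rh1597be57f2f4e72d : CRef := CRef.mk (Pat.mk 0x78000000000000002000000000 0xce0000007e000000370000002000000020 7 8) 0 0 (step_sound _ 134 [rh258db8532d6d1246, (rh33e738c4ed385b9f.shift 3 3)] (by decide +kernel))
noncomputable def rhfb97bf7ff250e6b2 : CRef := CRef.mk (Pat.mk 0xf0000000400000004000000000 0x200000002000000037000000fe0000007f0000005000000010 7 8) 0 0 (step_sound _ 133 [(rh50e736ca27d8bdbd.shift 3 0), (rhb571f2abe18c03ed.shift 0 2), (rhe072fffdd2fccf38.shift 5 1)] (by decide +kernel))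
noncomputable def rh3a17240041aa1acb : CRef := CRef.mk (Pat.mk 0x80000001c000000040000001000000000 0x60000000f0000001c0000001f0000003600000016 7 6) 0 0 (step_sound _ 34 [(rh71222050f2c63a3a.shift 2 0), rhee9c6f5faab711bb] (by decide +kernel))
noncomputable def rh79b37a0ae1a1166a : CRef := CRef.mk (Pat.mk 0x20000001e0000000000000000 0x500000007000000070000003e0000001e0000000700000002 7 6) 0 0 (step_sound _ 33 [rh35fa82e424499a24, (rheb0810cc63b001d8.shift 0 1)] (by decide +kernel))
noncomputable def rh54337a3e93086c81 : CRef := CRef.mk (Pat.mk 0x1e000000000000002000000000 0x4000000040000001dc000000fe000001e70000002000000020 7 9) 0 0 (step_sound _ 65 [(rh90a2c362701866ab.shift 1 0), (rheb0810cc63b001d8.shift 0 2)] (by decide +kernel))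
noncomputable def rh0a384f23e050cb23 : CRef := CRef.mk (Pat.mk 0x3c00000004000000000000003000000020 0x70000003e00000004000000040000003e00000077 7 7) 0 0 (step_sound _ 161 [(rh3f8766e6ecb455ce.shift 1 4), rh737646c86de76cd0] (by decide +kernel))
noncomputable def rh4cb5679b67eb5d7c : CRef := CRef.mk (Pat.mk 0x1e000000120000001000000000 0x600000006000000070000001e0000001e0000003700000007 7 6) 0 0 (step_sound _ 129 [(rh3244c3cc8379b070.shift 0 3), rh7c8425ce529ccc65] (by decide +kernel))
noncomputable def rhcbaa110d8a6021ff : CRef := CRef.mk (Pat.mk 0x700000002000000020 0x4000000040000000ef0000007e0000003f00000020 7 8) 0 0 (step_sound _ 67 [(rh15b856e33c69f807.shift 0 1), (rh49606a42a30c7ac4.shift 3 0), (rh4c622fddc53a5f99.shift 1 2), (rh8aa80d8d90d3223c.shift 0 1), (rh9e97bba44c1b13e4.shift 1 1)] (by decide +kernel))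
noncomputable def rhe9f0d31914778383 : CRef := CRef.mk (Pat.mk 0xc0000000800000008 0x140000001c0000001c0000001c0000007c0000001f0000000c00000008 7 7) 0 0 (step_sound _ 99 [(rh047c0c3b0047a487.shift 2 0), rhdf8b9aa233deec1e, rhe9f9259b2da8d967] (by decide +kernel))
noncomputable def rh851ab515f5e663cd : CRef := CRef.mk (Pat.mk 0x30000000100000001000000050 0x1cf000000fe000000f70000005000000050 7 9) 0 0 (step_sound _ 99 [(rh50fbb5868c909700.shift 3 0), rh6a690b10e3d8f396] (by decide +kernel))
noncomputable def rh004505c6dfb401de : CRef := CRef.mk (Pat.mk 0xf000000000000000000000002 0x3e0000003f000000760000000200000002 7 7) 0 0 (step_sound _ 132 [(rh428265de8cd3cd2d.shift 0 3), (rh72d39716cade0253.shift 1 0)] (by decide +kernel))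
noncomputable def rh26de692f03d4cb57 : CRef := CRef.mk (Pat.mk 0x800000008000000080000000c 0x170000003f0000003f0000000c0000000c 7 6) 0 0 (step_sound _ 98 [(rh50fbb5868c909700.shift 2 0), rh9be8a2e4d8571366] (by decide +kernel))
noncomputable def rh2c02af45e37684dd : CRef := CRef.mk (Pat.mk 0xf0000000800000000 0x140000001c0000001c0000007c0000001e0000000f0000000c0000000c 7 7) 0 0 (step_sound _ 99 [(rh33e738c4ed385b9f.shift 0 2), (rhb51a0b72ef8cff65.shift 1 0)] (by decide +kernel))
noncomputable def rhced19218c208a1e0 : CRef := CRef.mk (Pat.mk 0xf000000000000000000000002 0x760000003f0000003e0000000200000002 7 7) 0 0 (step_sound _ 68 [(rh96851dee118c1ba3.shift 0 2), (rheeb3dca0b086ad42.shift 1 0)] (by decide +kernel))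
noncomputable def rhceba6b2d0edcec32 : CRef := CRef.mk (Pat.mk 0x6000000060000000200000000 0x30000000f0000003f00000007000000060000000600000004 7 6) 0 0 (step_sound _ 130 [rh31e071f369ae2115, (rh5c5e593799055d58.shift 1 1)] (by decide +kernel))
noncomputable def rha0d65d152c7caa42 : CRef := CRef.mk (Pat.mk 0x70000000080000000000000028000000000000000000000000 0x40000000700000007c0000003f00000028000000780000007000000050 7 7) 0 0 (step_sound _ 165 [(rhc63a9ac73354bcb0.shift 0 2), (rhdefd8930e733b1b4.shift 4 0), (rhf622a291695942d1.shift 2 2)] (by decide +kernel))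
noncomputable def rh194a9b0f81405a79 : CRef := CRef.mk (Pat.mk 0xc000000060000000200000008 0x4000000040000003c0000007e0000007b00000008 7 7) 0 0 (step_sound _ 130 [(rh5c5e593799055d58.shift 1 1), rh5d09caedbe0c5c29] (by decide +kernel))
noncomputable def rhcb705c5d12ba6a2c : CRef := CRef.mk (Pat.mk 0x18000000180000001000000010 0x27000000ff000000f80000001000000010 7 8) 0 0 (step_sound _ 101 [(rh2f68792b6b779e96.shift 4 0), (rhb1d8a7e321a4785e.shift 0 2)] (by decide +kernel))
noncomputable def rh341e64f6d4895941 : CRef := CRef.mk (Pat.mk 0x2000000070000000100000000 0x60000000600000006000000070000001f0000001d 7 5) 0 0 (step_sound _ 129 [(rh5c5e593799055d58.shift 0 1), rhbdcb0de41185cd44] (by decide +kernel))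
noncomputable def rha56341eb28f522e8 : CRef := CRef.mk (Pat.mk 0xe0000001c00000000 0x280000003800000038000000370000007e0000001c00000008 7 7) 0 0 (step_sound _ 68 [(rh771383521b68d2cd.shift 0 1), (rhc148a8f25cdeeb08.shift 1 0)] (by decide +kernel))
noncomputable def rh1739e0a8db423824 : CRef := CRef.mk (Pat.mk 0xc00000006000000000000000a00000000 0x100000003c0000003e0000007f0000000a0000000a 7 7) 0 0 (step_sound _ 132 [(rh18965a982d73c794.shift 1 3), rhdbace12c6a0c947e] (by decide +kernel))
noncomputable def rhebade35d026fe5a8 : CRef := CRef.mk (Pat.mk 0x8000000180000001400000000 0xc0000000c0000001f000000780000001c0000000c 7 7) 0 0 (step_sound _ 131 [(rh2145e1d24b96a57e.shift 3 1), rh9849e7a3b9fff88d] (by decide +kernel))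
noncomputable def rhcda524d7d78b846e : CRef := CRef.mk (Pat.mk 0x20000000e00000005000000000 0x180000001800000018000001ff000000fe000000f700000020 7 9) 0 0 (step_sound _ 68 [(rh3ce854f4a795c89f.shift 2 1), (rh554009a2f490582e.shift 0 1), (rh7eb55b12c74c9b68.shift 3 0)] (by decide +kernel))
noncomputable def rhb7865d15293bc45e : CRef := CRef.mk (Pat.mk 0x1c0000000e00000000 0x1800000018000000380000001f0000007e00000070 7 7) 0 0 (step_sound _ 36 [(rh0cb6a409506b34ea.shift 1 0), rh5bf0a798af4e8525, (rhe3060b190bc0bc78.shift 0 1)] (by decide +kernel))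
noncomputable def rhb46da5e6eafa99d6 : CRef := CRef.mk (Pat.mk 0x200000002000000060000000700000000 0xd0000001f0000001b0000001e0000000700000002 7 5) 0 0 (step_sound _ 67 [rh172bc5bfea6c05ab, (rh18965a982d73c794.shift 0 1)] (by decide +kernel))
noncomputable def rhe24f7e56675c23a1 : CRef := CRef.mk (Pat.mk 0x1000000010000000300000003800000000 0xc0000001f00000038000000fc000000f800000010 7 8) 0 0 (step_sound _ 70 [(rh18965a982d73c794.shift 3 1), rh3f335929625f1de5] (by decide +kernel))
noncomputable def rhf38d464a7fbe212d : CRef := CRef.mk (Pat.mk 0x4000000040000000c0000000e00000000 0xa0000000e0000000c0000003f0000007e00000070 7 7) 0 0 (step_sound _ 68 [(rh18965a982d73c794.shift 1 1), rhf188ebdbf9b398c4] (by decide +kernel))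
noncomputable def rh9d4dd8f844411262 : CRef := CRef.mk (Pat.mk 0x4000000060000001e 0x30000000300000003f0000003e0000001f 7 6) 0 0 (step_sound _ 36 [(rh33e738c4ed385b9f.shift 1 0), rhceb1821ac8636730] (by decide +kernel))
noncomputable def rhc5b6ec687d13b121 : CRef := CRef.mk (Pat.mk 0x800000008000000080000000c 0x170000003f0000003f0000000c0000000c 7 6) 0 0 (step_sound _ 100 [(rh2f68792b6b779e96.shift 3 0), rh95aa721f5ed8f162] (by decide +kernel))
noncomputable def rhae021263d260c290 : CRef := CRef.mk (Pat.mk 0x8000000080000000c0000000400000000 0x160000007f0000007f0000000f0000000c00000008 7 7) 0 0 (step_sound _ 35 [(rh424f754c311038b5.shift 1 0), rh554948a6834eedab, (rh7ec372de7fdf51d0.shift 0 1), rha10abbb88ab9db0f, (rhe1bcd80b5c7d4f4c.shift 1 0)] (by decide +kernel))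
noncomputable def rh8014d142a8235877 : CRef := CRef.mk (Pat.mk 0x40000000c0000000a00000000 0xe0000003e000000070000000c0000000e00000006 7 6) 0 0 (step_sound _ 130 [(rh2145e1d24b96a57e.shift 2 1), rha35fac8b85f01e5c] (by decide +kernel))
noncomputable def rh96fa80bd57fa3caf : CRef := CRef.mk (Pat.mk 0x200000007000000050 0x2000000020000000270000007e000000f7 7 8) 0 0 (step_sound _ 101 [rh554009a2f490582e, (rh5c5e593799055d58.shift 4 0)] (by decide +kernel))
noncomputable def rh46d2fbab168b8093 : CRef := CRef.mk (Pat.mk 0x4000000040000000e0000000a 0x380000003c000000f70000007e000000fe 7 8) 0 0 (step_sound _ 36 [(rh9559e243a2f035f1.shift 1 0), (rhe3060b190bc0bc78.shift 0 1), (rhf2b3bcf1454375d8.shift 1 0)] (by decide +kernel))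
noncomputable def rh7b7de24aed9c5819 : CRef := CRef.mk (Pat.mk 0x80000000e0000001400000000 0x1c0000007c0000000e0000000f0000001c00000008 7 7) 0 0 (step_sound _ 131 [rh557f6e96bd45a802, (rh5c5e593799055d58.shift 2 1)] (by decide +kernel))
noncomputable def rhba27ed9b2699444f : CRef := CRef.mk (Pat.mk 0x1000000010000000300000003800000000 0xc0000001f0000003e0000003c000000f800000010 7 8) 0 0 (step_sound _ 131 [(rh50fbb5868c909700.shift 3 1), rh92d83d536b9e4ae3] (by decide +kernel))
noncomputable def rh04fa9f077a74a0bf : CRef := CRef.mk (Pat.mk 0x2000000070000000100000000000000040 0x2000000020000000700000007e000000d70000004000000040 7 8) 0 0 (step_sound _ 70 [(rh9e07f76261b05888.shift 5 0), (rhf72f87784b67e5f8.shift 0 2)] (by decide +kernel))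
noncomputable def rh5c4a3e6d1209d493 : CRef := CRef.mk (Pat.mk 0x1c000000040000000000000004 0x800000008000000ff0000007f000000e40000000400000004 7 8) 0 0 (step_sound _ 131 [(rh701e8c8f82c23353.shift 0 2), (rh9e3edb185cc347de.shift 2 0)] (by decide +kernel))
noncomputable def rh18fbc91f8714dd9d : CRef := CRef.mk (Pat.mk 0x40000000e00000008 0x30000000300000007f0000007e000000f8 7 8) 0 0 (step_sound _ 36 [(rh3fc3a7fb6866dcd4.shift 1 0), rh615bdbae854bd84e, (rhae8d21abc86b555a.shift 1 0), (rhe3060b190bc0bc78.shift 0 1)] (by decide +kernel))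
noncomputable def rh1f7c3fb8d030b2f3 : CRef := CRef.mk (Pat.mk 0x1e000000000000000000000008 0x10000000300000003f0000003f000000080000000800000008 7 6) 0 0 (step_sound _ 132 [rh2e4d0c579375f434, (rh33e738c4ed385b9f.shift 1 3)] (by decide +kernel))
noncomputable def rh573fbd002dfe5885 : CRef := CRef.mk (Pat.mk 0x7000000010000000000000001000000000 0xf0000007e000000f7000000100000001000000010 7 8) 0 0 (step_sound _ 131 [(rh0da3f8d18d3a0dfd.shift 2 1), (rhbb13f9e1d387f64a.shift 0 3), (rhe9ef74b53c7b2f8b.shift 2 0)] (by decide +kernel))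
noncomputable def rh8798aad7c74b5710 : CRef := CRef.mk (Pat.mk 0xc0000000600000000 0xa0000000a0000003b0000003f0000003600000014 7 6) 0 0 (step_sound _ 68 [(rh18965a982d73c794.shift 1 1), rhf517786b5316d8b7] (by decide +kernel))
noncomputable def rh8e64e03050c909f2 : CRef := CRef.mk (Pat.mk 0x200000007000000000 0x7ef000003fe0000038f 7 11) 0 0 (step_sound _ 35 [(rh775ca1963e850b80.shift 1 0), (rh8d33df7ee954b6ed.shift 3 0), rha4e887c2a2a0f60b] (by decide +kernel))
noncomputable def rhab6c7666dfa09004 : CRef := CRef.mk (Pat.mk 0x2000000030000000000000004000000000 0x2000000020000001fe000001fe000003cf0000004000000040 7 10) 0 0 (step_sound _ 102 [(rh8c9e20945c8f5d94.shift 1 0), (rh95a80f84f48ac358.shift 5 0), (rhab0747539d2c5f4b.shift 0 2), (rhfdadc7889f1fec70.shift 1 2)] (by decide +kernel))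
noncomputable def rhdfc481a80d375a7b : CRef := CRef.mk (Pat.mk 0x1e0000000e00000000 0x14000000340000003f0000001e0000000e0000000a 7 6) 0 0 (step_sound _ 100 [(rh33e738c4ed385b9f.shift 1 2), rhfda4a7ace6c09651] (by decide +kernel))
noncomputable def rhdc2dc782111b2636 : CRef := CRef.mk (Pat.mk 0x180000001e00000000 0x1800000038000000380000001f0000001e00000033 7 6) 0 0 (step_sound _ 4 [(rhe25b0a99195a5d59.shift 1 0), rhf8c141f7bfe6b660] (by decide +kernel))
noncomputable def rh25d9cddd94f3a268 : CRef := CRef.mk (Pat.mk 0x6000000070000000000000008 0x10000000f0000000f0000003e0000001f000000070000000d00000008 7 6) 0 0 (step_sound _ 99 [(rh18965a982d73c794.shift 0 2), rh5461ba6a2a32d252] (by decide +kernel))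
noncomputable def rh1554c6a3031e44c1 : CRef := CRef.mk (Pat.mk 0x380000001800000000 0xc0000000c0000000f0000003f0000001f00000014 7 6) 0 0 (step_sound _ 66 [(rhb14e2588a8d71db8.shift 0 1), (rhba89ab7cb81bcc90.shift 0 1), (rhfc63ac286d878ff9.shift 1 0)] (by decide +kernel))
noncomputable def rh48d657e4a0842417 : CRef := CRef.mk (Pat.mk 0x400000006000000060000000000000008 0xa0000003f0000003e000000070000000c00000008 7 6) 0 0 (step_sound _ 34 [(rh19bc6b196a7d72e2.shift 0 1), (rhd3458b32566d63f7.shift 2 0)] (by decide +kernel))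
noncomputable def rhb54a06ec479fcef8 : CRef := CRef.mk (Pat.mk 0x80000000c0000000c 0x1e0000003f0000003f0000000c0000000c 7 6) 0 0 (step_sound _ 99 [(rh5c5e593799055d58.shift 2 0), rh7ec372de7fdf51d0] (by decide +kernel))
noncomputable def rh293940884cb943ce : CRef := CRef.mk (Pat.mk 0x1e0000000600000000 0x7000000070000003f0000001e0000000600000002 7 6) 0 0 (step_sound _ 97 [(rh3244c3cc8379b070.shift 0 2), rhc985de7fe99e34c0] (by decide +kernel))
noncomputable def rhb6c7163c67be5a4d : CRef := CRef.mk (Pat.mk 0x1e0000000600000000 0x6000000070000003f0000001f0000000600000002 7 6) 0 0 (step_sound _ 97 [rh017a505fc3227b67, (rh3244c3cc8379b070.shift 0 2)] (by decide +kernel))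
noncomputable def rh0c14e30465266241 : CRef := CRef.mk (Pat.mk 0x1e0000000c00000000 0x12000000330000003f0000001e0000000c00000008 7 6) 0 0 (step_sound _ 100 [(rh33e738c4ed385b9f.shift 1 2), rhbf194e80aba347a5] (by decide +kernel))
noncomputable def rh0e8dc0feb877b0fc : CRef := CRef.mk (Pat.mk 0x380000001800000000 0xc0000000c0000007f0000003f0000001f00000014 7 7) 0 0 (step_sound _ 66 [(rh15c6bd118a09e701.shift 0 1), (rh775ca1963e850b80.shift 0 1), (rhba89ab7cb81bcc90.shift 0 1), (rhfc63ac286d878ff9.shift 1 0)] (by decide +kernel))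
noncomputable def rh0a482580bdff506a : CRef := CRef.mk (Pat.mk 0x100000001e0000000c00000000 0x1e0000001f0000001b0000001e0000000c00000008 7 5) 0 0 (step_sound _ 132 [rh26632cd3e2240348, (rh5c5e593799055d58.shift 3 1)] (by decide +kernel))
noncomputable def rh9ae8676c21245c41 : CRef := CRef.mk (Pat.mk 0x1a0000001e00000000 0x280000003e0000003e000000ff0000001e0000001e0000000a 7 8) 0 0 (step_sound _ 100 [(rh09f15fd6be8b7aaf.shift 1 1), (rh32431e66bbf434a4.shift 3 0), rhe80bfe3e16a83ae4] (by decide +kernel))
noncomputable def rh9a91d8f32e6bd95b : CRef := CRef.mk (Pat.mk 0x80000001e00000000 0x1df000000fe000000e0 7 9) 0 0 (step_sound _ 65 [(rh3244c3cc8379b070.shift 0 1), (rhb5a4df103f91c93d.shift 1 0)] (by decide +kernel))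
noncomputable def rhd255302d8fc766ec : CRef := CRef.mk (Pat.mk 0x100000001e00000000 0x200000002000000330000001f0000003f00000004 7 6) 0 0 (step_sound _ 65 [rh261cde0ba1df544b, (rh3244c3cc8379b070.shift 0 1)] (by decide +kernel))
noncomputable def rhf5ea0e892f063c78 : CRef := CRef.mk (Pat.mk 0x180000000c000000000000001000000000 0x1000000010000000300000001f0000003f000000380000001000000010 7 6) 0 0 (step_sound _ 97 [(rh53b3c253cb0c65f4.shift 0 3), rhb541d9f3c5eef20f] (by decide +kernel))
noncomputable def rh8a005174848e98f0 : CRef := CRef.mk (Pat.mk 0x1800000004000000000000001400000000 0x400000006000000060000007f0000007f0000003f0000001400000014 7 7) 0 0 (step_sound _ 99 [rh08d368efc4fb01cd, rh4528704b33913084, (rh46901184ab64b2ef.shift 1 0), (rhd69c262cd33b94b3.shift 0 3)] (by decide +kernel))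
noncomputable def rh9cc86ec5a13aa9e3 : CRef := CRef.mk (Pat.mk 0x180000000c000000000000001400000000 0x400000004000000760000007f0000001c0000001c0000001400000004 7 7) 0 0 (step_sound _ 133 [(rh18965a982d73c794.shift 2 3), rh7986821c4b81857a] (by decide +kernel))
noncomputable def rh7585ebae68711513 : CRef := CRef.mk (Pat.mk 0x8000000380000001000000000 0x1c0000003c0000000f000000380000001e0000000c 7 6) 0 0 (step_sound _ 131 [(rh2145e1d24b96a57e.shift 3 1), rh7e32e48d45e385e5] (by decide +kernel))
noncomputable def rh42b78a50078266ed : CRef := CRef.mk (Pat.mk 0x1a00000004000000000000001400000000 0x1000000010000000330000001e0000003f0000003c0000001400000010 7 6) 0 0 (step_sound _ 130 [(rh0da3f8d18d3a0dfd.shift 0 1), rh39ec3db8102276c3] (by decide +kernel))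
noncomputable def rh724ea3f6246e5db1 : CRef := CRef.mk (Pat.mk 0x78000000100000000000000000 0x200000002000000070000007e0000003e0000000400000004 7 7) 0 0 (step_sound _ 66 [(rh80fcd6d0a18cb2dd.shift 2 2), rhc6aff915896e2c4e] (by decide +kernel))
noncomputable def rh64e44cc33db180f4 : CRef := CRef.mk (Pat.mk 0xd0000000200000000000000020000000000000000000000000 0x1e000000fe0000003f0000002000000020000000700000007000000050 7 8) 0 0 (step_sound _ 197 [(rh0da3f8d18d3a0dfd.shift 3 3), (rh775ca1963e850b80.shift 2 5), (rh7c446a5779c6be66.shift 0 5), (rh96121bf27e17b5ab.shift 4 0)] (by decide +kernel))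
noncomputable def rh8066dfb651566056 : CRef := CRef.mk (Pat.mk 0x6000000020000001e0000000600000000 0x390000003f000000360000001e0000000e00000002 7 6) 0 0 (step_sound _ 98 [(rh68996b7b5a9f9d1c.shift 0 1), (rh932754581e0f4330.shift 1 0)] (by decide +kernel))
noncomputable def rhfd6ed93224609d92 : CRef := CRef.mk (Pat.mk 0xe0000000200000000000000020000000000000000000000000 0x1e000000fe0000003f0000002000000020000000700000007000000050 7 8) 0 0 (step_sound _ 196 [(rh0da3f8d18d3a0dfd.shift 3 3), (rh775ca1963e850b80.shift 2 5), (rh7c446a5779c6be66.shift 0 5), (rh96121bf27e17b5ab.shift 4 0)] (by decide +kernel))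
noncomputable def rh054913cd4271e1df : CRef := CRef.mk (Pat.mk 0x4000000020000000200000002000000000000000000000000 0x500000007000000030000000200000002000000070000000700000005 7 3) 0 0 (step_sound _ 193 [(rh2f68792b6b779e96.shift 1 3), rhc850b49d039efae1] (by decide +kernel))
noncomputable def rhf24a7e9e25147738 : CRef := CRef.mk (Pat.mk 0x80000000c000000040000000000000010 0x800000008000000fc000000ff000001f60000001000000010 7 9) 0 0 (step_sound _ 163 [rh112c09d3237b6ac5, (rh5c5e593799055d58.shift 2 2)] (by decide +kernel))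
noncomputable def rh3fdafafa20f0f4e5 : CRef := CRef.mk (Pat.mk 0xc0000000c00000004 0x20000000200000077000000ff0000007c000000e6 7 8) 0 0 (step_sound _ 36 [(rh352b7f91eba0c81f.shift 1 0), rh4a0a4c05c024ef72, (rh5c5a2014709044d0.shift 0 1)] (by decide +kernel))
noncomputable def rh0b88b3654eeeb39b : CRef := CRef.mk (Pat.mk 0x18000000180000000800000008 0xe4000000ff0000001f0000000800000008 7 8) 0 0 (step_sound _ 98 [(rh50fbb5868c909700.shift 2 0), (rh93dada6cc3ed2a8c.shift 0 2)] (by decide +kernel))
noncomputable def rhbf4c6906e2b1ba34 : CRef := CRef.mk (Pat.mk 0x700000006000000000000000000000008 0xc0000000c0000003c0000003f0000003e000000080000000800000008 7 6) 0 0 (step_sound _ 131 [(rh226655e3fe6b4a8a.shift 0 3), (rh8ee80f5a639ffca9.shift 0 3), (rha93a5dd541ab8209.shift 0 3), rhbb6b18950c79e955] (by decide +kernel))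
noncomputable def rh94b723808375fb9f : CRef := CRef.mk (Pat.mk 0x6000000020000000000000002000000000000000000000000 0x500000007000000030000000200000002000000070000000700000005 7 3) 0 0 (step_sound _ 129 [(rh2f68792b6b779e96.shift 1 3), rhc850b49d039efae1] (by decide +kernel))
noncomputable def rhe6b1637f2956534f : CRef := CRef.mk (Pat.mk 0x1e000000140000000000000010 0xa0000000f0000003f0000001e000000140000001000000010 7 6) 0 0 (step_sound _ 131 [(rh23323923877ea645.shift 0 2), (rh9e07f76261b05888.shift 3 0)] (by decide +kernel))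
noncomputable def rh5db58b4f33078050 : CRef := CRef.mk (Pat.mk 0xe000000020000000000000008 0x400000004000000070000003f0000003b0000000800000008 7 6) 0 0 (step_sound _ 100 [rh2b7878d881e0bf6a, (rheb0810cc63b001d8.shift 0 2)] (by decide +kernel))
noncomputable def rha409787a24c9aad5 : CRef := CRef.mk (Pat.mk 0x80000001e00000004 0xa0000000f0000003f0000001e00000007 7 6) 0 0 (step_sound _ 99 [(rh5c5e593799055d58.shift 2 0), rheacf19618d651185] (by decide +kernel))
noncomputable def rh78b31cafc0e4307d : CRef := CRef.mk (Pat.mk 0x40000000400000006000000020000000800000000 0x1000000014000000fc0000007e0000007b0000000800000008 7 8) 0 0 (step_sound _ 99 [(rh3b5346b2e316d790.shift 2 0), (rh9fb657e6481dfcdc.shift 0 2), rhce7b5ca4f9e88074] (by decide +kernel))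
noncomputable def rh0e90cfc3f4561eb9 : CRef := CRef.mk (Pat.mk 0x400000006000000000000000a00000000 0x10000000100000003c0000003f0000007f0000000a0000000a 7 7) 0 0 (step_sound _ 65 [(rh71222050f2c63a3a.shift 1 0), rhafb9feb93c0a9425] (by decide +kernel))
noncomputable def rhaf2023aac7d4e74c : CRef := CRef.mk (Pat.mk 0x1e0000001a00000000000000000000000000000000 0x4000000070000001e0000001a0000000f000000070000000700000005 7 5) 0 0 (step_sound _ 193 [rh10236321c675d474, (rh3244c3cc8379b070.shift 0 5)] (by decide +kernel))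
noncomputable def rhd0cb1c443b37a160 : CRef := CRef.mk (Pat.mk 0x1800000038000000000000000000000000 0xc0000001c0000001c00000018000000380000001f0000000c0000000c 7 6) 0 0 (step_sound _ 67 [(rh779f81b5d898c236.shift 0 1), (rh9954101f0efffb9e.shift 2 0), (rhadf429772c25fde0.shift 3 0)] (by decide +kernel))
noncomputable def rhece7b9071aa36b73 : CRef := CRef.mk (Pat.mk 0x1800000008000000080000000800000000 0x70000003f0000003f0000000c0000000c00000004 7 6) 0 0 (step_sound _ 130 [(rh50fbb5868c909700.shift 2 1), rhfd0e586ce45ed5f0] (by decide +kernel))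
noncomputable def rh9d4ac935437e7079 : CRef := CRef.mk (Pat.mk 0x40000000e000000080000002000000000 0x1ef000000fe000001ff0000003300000022 7 9) 0 0 (step_sound _ 100 [(rh1e581fcebcca7a34.shift 1 2), rh939b0e537699a05e, (rh9f93e2b24091a43d.shift 1 2), rhc6558bd0b1119bd2, (rhe3060b190bc0bc78.shift 0 3)] (by decide +kernel))
noncomputable def rhfbc118f2871b1c9d : CRef := CRef.mk (Pat.mk 0x1c000000180000000800000000 0x20000000a0000000b0000001f0000001f0000003c00000010 7 6) 0 0 (step_sound _ 97 [rh039146757e23a175, (rhb739f4f82bb681b4.shift 0 2)] (by decide +kernel))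
noncomputable def rha65513c9b2ab6606 : CRef := CRef.mk (Pat.mk 0xf00000000 0x700000007f000000fe 7 8) 0 0 (step_sound _ 36 [(rh3fc3a7fb6866dcd4.shift 1 0), rh4ad5fc38f1b69f65, rh65f40b64db91f9a3, (rha866c51301bf0130.shift 1 0)] (by decide +kernel))
noncomputable def rhf267cafeab58b428 : CRef := CRef.mk (Pat.mk 0x100000002000000020000000200000000000000000000000000000000 0x100000007000000060000000600000003000000070000000700000004 7 3) 0 0 (step_sound _ 97 [rhb4d78cd0e58cc17c, (rhffd04209dc8ea796.shift 0 3)] (by decide +kernel))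
noncomputable def rh61d7b62cf9b22ac6 : CRef := CRef.mk (Pat.mk 0x18000000100000001c00000018 0x1e4000000ff000001fe0000001c00000018 7 9) 0 0 (step_sound _ 101 [(rh2f68792b6b779e96.shift 4 0), rhc7f400d74b127350] (by decide +kernel))
noncomputable def rhe2c9c00c915de321 : CRef := CRef.mk (Pat.mk 0x3800000000000000000000007800000000 0x70000003e000000670000002000000078000000c0 7 8) 0 0 (step_sound _ 6 [rh9a75bbdded1be211, (rhe25b0a99195a5d59.shift 3 0)] (by decide +kernel))
noncomputable def rha5e6512ebff38971 : CRef := CRef.mk (Pat.mk 0x100000001000000070000000000000000000000000 0xc0000000c0000001f0000003e0000007e0000001f0000000800000008 7 7) 0 0 (step_sound _ 99 [(rh14ee58c1672e9101.shift 0 2), (rh1e8d6e1ef30e2d92.shift 2 0), (rh592c7139d2c44767.shift 1 2), (rhf2d2d0a5099213cb.shift 0 1)] (by decide +kernel))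
noncomputable def rha2a8389f91207085 : CRef := CRef.mk (Pat.mk 0x40000000c000000180000002000000000 0xe7000000ff0000001f0000003300000002 7 8) 0 0 (step_sound _ 97 [rh0949a8241bb3b8b9, (rhb739f4f82bb681b4.shift 0 2)] (by decide +kernel))
noncomputable def rhcf65bde17ed89f38 : CRef := CRef.mk (Pat.mk 0x30000000e0000000800000000 0x140000001c0000001c000000180000007f0000000f0000000c00000008 7 7) 0 0 (step_sound _ 99 [rh878c03cc42e824bf, (rha8c591e8c7effe8c.shift 0 1), (rhff7d63dcb3cf9f74.shift 0 2)] (by decide +kernel))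
noncomputable def rh2616c66ace7dc9f8 : CRef := CRef.mk (Pat.mk 0x20000001e000000040000000000000010 0xa0000000f0000003e0000001e000000340000001000000010 7 6) 0 0 (step_sound _ 68 [rhd6e9327be8e67ba6, (rhe25b0a99195a5d59.shift 1 2)] (by decide +kernel))
noncomputable def rhb12a3a81ad81bf74 : CRef := CRef.mk (Pat.mk 0x80000000e000000040000000000000010 0x800000008000000f80000007e000000f70000001000000010 7 8) 0 0 (step_sound _ 163 [rh0eb609a31f059828, (rh5c5e593799055d58.shift 2 2)] (by decide +kernel))
noncomputable def rh709d334d22ae84c4 : CRef := CRef.mk (Pat.mk 0x7000000020 0x38e000001fe000003bf 7 10) 0 0 (step_sound _ 39 [rh7c446a5779c6be66, (rha93a5dd541ab8209.shift 4 0)] (by decide +kernel))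
noncomputable def rhdc5385bf2771e076 : CRef := CRef.mk (Pat.mk 0x20000001e0000000a00000000 0x160000003f0000003e0000001e0000000e00000006 7 6) 0 0 (step_sound _ 100 [(rh33e738c4ed385b9f.shift 1 2), rh78660c5996feb7cd] (by decide +kernel))
noncomputable def rh04f32d166f1c28ac : CRef := CRef.mk (Pat.mk 0x800000008000000180000001800000000 0x40000000c0000000e0000001f0000001f00000007 7 5) 0 0 (step_sound _ 130 [(rh50fbb5868c909700.shift 2 1), rh6587dac249355e45] (by decide +kernel))
noncomputable def rh9eed25ace600e494 : CRef := CRef.mk (Pat.mk 0x800000008000000180000001000000000 0x140000001f0000007c000000380000001f0000000c 7 7) 0 0 (step_sound _ 35 [rh6fae963f33cfdfd7, rh81e6a49f359d83b3] (by decide +kernel))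
noncomputable def rh52818035164b2a4f : CRef := CRef.mk (Pat.mk 0x8000000180000001000000000 0x1c0000003c0000000f000000380000001f0000000c 7 6) 0 0 (step_sound _ 131 [(rh2145e1d24b96a57e.shift 3 1), rh8e3f3393eb4acc90] (by decide +kernel))
noncomputable def rhc2177b4b8114bb52 : CRef := CRef.mk (Pat.mk 0x4000000040000000c0000000c 0x1a0000007f0000003f0000000c0000000c 7 7) 0 0 (step_sound _ 99 [(rh2f68792b6b779e96.shift 2 0), rhd71c70b35e3e9b0e] (by decide +kernel))
noncomputable def rh3841ee30da6801d5 : CRef := CRef.mk (Pat.mk 0x1e000000000000004000000000 0x1c7000000fe000000e00000004000000040 7 9) 0 0 (step_sound _ 129 [(rh3244c3cc8379b070.shift 0 3), (rhe5e7278886a4eb25.shift 1 0)] (by decide +kernel))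
noncomputable def rha2273b4682d94eec : CRef := CRef.mk (Pat.mk 0x1800000030000000000000004000000000 0x200000002000000078000000ff000000ef0000004000000040 7 8) 0 0 (step_sound _ 102 [rh39a5fc9fbe775ba1, (rhf48373e13d2bc128.shift 3 3)] (by decide +kernel))
noncomputable def rhe9a815a1619f6e00 : CRef := CRef.mk (Pat.mk 0xc000000180000000000000020 0x340000003c000000ff000000ff0000001b0000003200000030 7 8) 0 0 (step_sound _ 97 [rh3861b505b4ef0eb0, (rhb739f4f82bb681b4.shift 0 2)] (by decide +kernel))
noncomputable def rhe64f7e28061b2357 : CRef := CRef.mk (Pat.mk 0xc000000180000000000000028 0x2000000028000000f8000000ff0000001f0000003800000038 7 8) 0 0 (step_sound _ 97 [(rhb739f4f82bb681b4.shift 0 2), rhc9f2a621b3995582] (by decide +kernel))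
noncomputable def rhb1d2d1d8452eecec : CRef := CRef.mk (Pat.mk 0x80000000c0000000e00000008 0x2000000170000001f0000003f0000000e00000008 7 6) 0 0 (step_sound _ 98 [(rh50fbb5868c909700.shift 2 0), rh7a59a6a566c7f120] (by decide +kernel))
noncomputable def rhe1d4ac11b9e7121c : CRef := CRef.mk (Pat.mk 0x60000000600000004 0xe0000000e0000003f0000003e0000000700000004 7 6) 0 0 (step_sound _ 98 [rh19bc6b196a7d72e2, (rh5fa50b509d4ce753.shift 1 0), (rhac91bb8935e50010.shift 1 0)] (by decide +kernel))
noncomputable def rhfb8c4f0d613a8ac6 : CRef := CRef.mk (Pat.mk 0x180000001c0000001000000000 0x2200000022000000770000007f0000001c0000001400000004 7 7) 0 0 (step_sound _ 101 [(rh18965a982d73c794.shift 2 2), rhd1528521a4a2f359] (by decide +kernel))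
noncomputable def rh89a182a5c191c2c5 : CRef := CRef.mk (Pat.mk 0x1e00000006000000000000000000000000 0x600000006000000070000001e00000006000000030000000300000003 7 5) 0 0 (step_sound _ 161 [(rh3244c3cc8379b070.shift 0 4), rha5b9eb9647a4db41] (by decide +kernel))
noncomputable def rhce196196d84c4f7a : CRef := CRef.mk (Pat.mk 0x80000000e000000180000001000000000 0x30000000340000007f0000001e0000001f0000003300000022 7 7) 0 0 (step_sound _ 132 [rh0c3b3bf078f4b123, (rh572132728df34c43.shift 1 3), (rh80f90a60d87caa0d.shift 1 3)] (by decide +kernel))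
noncomputable def rh1cb8d27c59f48eac : CRef := CRef.mk (Pat.mk 0x80000000c00000018000000100000000000000000 0x40000000c0000000c0000007e000000770000000600000002 7 7) 0 0 (step_sound _ 101 [(rhf48373e13d2bc128.shift 2 3), rhf8c8b70d21e8317b] (by decide +kernel))
noncomputable def rh1cdc4cfeede1f79d : CRef := CRef.mk (Pat.mk 0x40000000e000000180000002000000000 0x1cf000000fe000001df0000003300000002 7 9) 0 0 (step_sound _ 100 [(rh1e581fcebcca7a34.shift 1 2), rh3810f46837bebff9, (rh9f93e2b24091a43d.shift 1 2), (rhe3060b190bc0bc78.shift 0 3)] (by decide +kernel))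
noncomputable def rh081d1bdfaa086f45 : CRef := CRef.mk (Pat.mk 0x8000000180000001000000010 0x2000000020000003ff000001fc000003b000000010 7 10) 0 0 (step_sound _ 69 [(rh1e581fcebcca7a34.shift 2 1), (rh5266926b0536d92e.shift 2 0), (rha9fbfd4bb8cf890b.shift 0 2)] (by decide +kernel))
noncomputable def rh9a04582e4a4df810 : CRef := CRef.mk (Pat.mk 0x800000018000000000000005000000000 0x2000000020000001ff0000007c000000fe0000005000000050 7 9) 0 0 (step_sound _ 68 [(rh7b1f1fb55310c477.shift 3 0), rhef1f5d926b045a67] (by decide +kernel))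
noncomputable def rh4753ea4696c32881 : CRef := CRef.mk (Pat.mk 0x40000000e000000080000002800000000 0x10000000100000003f0000001e0000003f0000003b00000002 7 6) 0 0 (step_sound _ 100 [(rh49606a42a30c7ac4.shift 1 1), rh939b0e537699a05e] (by decide +kernel))
noncomputable def rh57db0b988286170e : CRef := CRef.mk (Pat.mk 0x40000000700000006000000040000001000000000 0x2000000024000000370000003e0000003e0000001800000010 7 6) 0 0 (step_sound _ 100 [(rh2fe78cc5ca4405d8.shift 0 3), (rhc0c55197dfa34199.shift 1 0)] (by decide +kernel))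
noncomputable def rhe91e7c1c00911cdc : CRef := CRef.mk (Pat.mk 0x180000000c0000000c000000080000002000000000 0x40000000780000006f0000007c000000780000003000000020 7 7) 0 0 (step_sound _ 129 [(rh53b3c253cb0c65f4.shift 0 4), (rhf76fb4f39d076bb4.shift 1 0)] (by decide +kernel))
noncomputable def rhdcb3f2c50d9c9908 : CRef := CRef.mk (Pat.mk 0x6000000030000001800000018000000000000000000000000 0x300000003e000000330000001800000018000000300000003000000030 7 6) 0 0 (step_sound _ 196 [(rh361cc68994bd8a63.shift 0 5), (rhd1e3f323bf24a77c.shift 3 0)] (by decide +kernel))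
noncomputable def rh8943b5578e23d018 : CRef := CRef.mk (Pat.mk 0x2000000070000000c00000004 0xa0000000e0000000e0000000c0000001e000000070000000e0000000c 7 5) 0 0 (step_sound _ 98 [rh712526e472efe489, (rh921a8f8cd2437502.shift 1 0)] (by decide +kernel))
noncomputable def rh60b9816cb4e92fbb : CRef := CRef.mk (Pat.mk 0x80000000e0000000800000000000000000000000000000000 0x10000000180000000f0000000c000000180000001c0000001c00000004 7 5) 0 0 (step_sound _ 196 [(rh53b3c253cb0c65f4.shift 0 5), (rhc850ef9393baf884.shift 2 0)] (by decide +kernel))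
noncomputable def rh05a2391b3498d263 : CRef := CRef.mk (Pat.mk 0xf0000000000000004 0x140000001c0000001c000000180000000f0000001c00000004 7 5) 0 0 (step_sound _ 99 [(rh33e738c4ed385b9f.shift 0 2), rhdbf4b4bf8295a2f0] (by decide +kernel))
noncomputable def rh71a2e738c38db4d4 : CRef := CRef.mk (Pat.mk 0x200000007000000000000001400000000 0x2800000028000000ff0000007f000000f80000001c00000014 7 8) 0 0 (step_sound _ 99 [(rh1e581fcebcca7a34.shift 0 2), rh2dfa8f5b164cf72e, (rhf5ee445178e6ace5.shift 1 0)] (by decide +kernel))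
noncomputable def rh5367cfffbe9697d7 : CRef := CRef.mk (Pat.mk 0x800000007000000000000001400000000 0x140000001c0000001c000000180000000f000000180000001c00000014 7 5) 0 0 (step_sound _ 99 [(rh33e738c4ed385b9f.shift 0 3), (rh459a846e13271890.shift 2 0)] (by decide +kernel))
noncomputable def rhe715b4dbd410bc89 : CRef := CRef.mk (Pat.mk 0x100000003000000020000000a00000000000000000 0x40000001df000000fe000001ef000000e00000008000000080 7 9) 0 0 (step_sound _ 134 [(rh18e67e1502989bb6.shift 0 2), (rha762e2b1ebf9273f.shift 2 0), (rha9fbfd4bb8cf890b.shift 1 4), (rhed36f541567aa280.shift 3 1)] (by decide +kernel))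
noncomputable def rh6c50f57b7e314671 : CRef := CRef.mk (Pat.mk 0x38000000200000000000000020 0xef0000007e0000002f0000002000000020 7 8) 0 0 (step_sound _ 102 [(rh15b856e33c69f807.shift 0 2), (rh63bb75a038171f49.shift 3 0), (rh775ca1963e850b80.shift 1 2)] (by decide +kernel))
noncomputable def rh8f608fc770a6e29a : CRef := CRef.mk (Pat.mk 0x7000000040 0xe70000007e000000c7 7 8) 0 0 (step_sound _ 35 [rh15b856e33c69f807, (rhe25b0a99195a5d59.shift 3 0)] (by decide +kernel))
noncomputable def rh248c66a1e315f94c : CRef := CRef.mk (Pat.mk 0x700000002000000000000000a00000000 0x60000000600000006000000070000001e0000000e0000000e0000000a 7 5) 0 0 (step_sound _ 162 [rh9d3f99fd4a85f332, (rh9e3edb185cc347de.shift 1 1)] (by decide +kernel))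
noncomputable def rh75d2150ad5469131 : CRef := CRef.mk (Pat.mk 0xc00000018000000000000002800000000 0x700000003f0000001f000000300000003800000028 7 7) 0 0 (step_sound _ 129 [rh7befe625dd3a230b, (rhb739f4f82bb681b4.shift 0 3)] (by decide +kernel))
noncomputable def rhfcdcc9190569a22e : CRef := CRef.mk (Pat.mk 0x20000000c000000000000001000000000 0x2800000028000000ff0000007e000000f00000001000000010 7 8) 0 0 (step_sound _ 100 [(rh0ebf403d5040d21a.shift 1 0), (rh167fff566cb27b75.shift 1 2), (rh1bc2b81e7d13c3fe.shift 1 0), rhb1a649af065b011b] (by decide +kernel))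
noncomputable def rhb861f99b61cd5b5e : CRef := CRef.mk (Pat.mk 0x400000018000000000000002000000000 0x6000000060000001ee000000fe000001f70000003000000020 7 9) 0 0 (step_sound _ 101 [(rh167fff566cb27b75.shift 2 2), (rh1bc2b81e7d13c3fe.shift 2 0), (rh8ceb03631decf9ab.shift 0 2), (rhc324a2ca59128f3e.shift 1 1)] (by decide +kernel))
noncomputable def rhae17003d4821d291 : CRef := CRef.mk (Pat.mk 0xe0000000c000000000000001000000000 0x14000000370000003e0000003c000000180000001800000010 7 6) 0 0 (step_sound _ 100 [rh720fd51c18c195f2, (rhf48373e13d2bc128.shift 1 3)] (by decide +kernel))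
noncomputable def rhad1bbd317a2f71dd : CRef := CRef.mk (Pat.mk 0x14000000180000000000000000 0x2000000020000000f7000000ff000000f80000001000000010 7 8) 0 0 (step_sound _ 99 [(rha14478d91faf3ae3.shift 0 2), (rhabc3ed3318d342ed.shift 2 0), (rhad5d8fc3675c15dd.shift 0 2)] (by decide +kernel))
noncomputable def rh59e888f6278cc4cd : CRef := CRef.mk (Pat.mk 0x1400000018000000000000002000000000 0x400000014000000f7000000ff0000007b000000220000002000000020 7 8) 0 0 (step_sound _ 131 [(rh01ef127f423122a8.shift 0 2), (rh6897eecf51c64c9d.shift 2 0), (rha14478d91faf3ae3.shift 0 3), (rhad5d8fc3675c15dd.shift 0 3)] (by decide +kernel))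
noncomputable def rh1865c0650619c6ee : CRef := CRef.mk (Pat.mk 0x200000003000000000000000500000000 0x40000000700000007000000030000000300000003000000060000000700000005 7 3) 0 0 (step_sound _ 65 [rh2818863d77d69ed0, (rh31ae38a86d43f11a.shift 0 1)] (by decide +kernel))
noncomputable def rhb4a22e831ba846a7 : CRef := CRef.mk (Pat.mk 0x400000018000000000000002000000000 0x5000000050000001fc000000fe000001f70000002000000020 7 9) 0 0 (step_sound _ 101 [(rh0ebf403d5040d21a.shift 2 0), (rh167fff566cb27b75.shift 2 2), (rh1bc2b81e7d13c3fe.shift 2 0), rha933739831591f8c] (by decide +kernel))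
noncomputable def rhdeead084a496f2f9 : CRef := CRef.mk (Pat.mk 0x1c00000018000000000000002800000000 0x200000002000000030000001f0000001f000000340000003800000028 7 6) 0 0 (step_sound _ 129 [rh33c0d143527c3000, (rhb739f4f82bb681b4.shift 0 3)] (by decide +kernel))
noncomputable def rh2fb6d7e246c87cb2 : CRef := CRef.mk (Pat.mk 0xe0000000c00000000 0x600000006000000070000007e0000000f0000000a 7 7) 0 0 (step_sound _ 68 [(rh4dc133ee0ba1420a.shift 0 1), (rh771383521b68d2cd.shift 0 1), rhfc63ac286d878ff9] (by decide +kernel))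
noncomputable def rh4895cd22a66018cd : CRef := CRef.mk (Pat.mk 0xc000000040000001400000004 0x10000000320000003f0000003f0000001c0000000c 7 6) 0 0 (step_sound _ 97 [rh19fd69f5fe4a3fd9, (rh50fbb5868c909700.shift 1 0)] (by decide +kernel))
noncomputable def rh54d9c2b937df1611 : CRef := CRef.mk (Pat.mk 0x40000000c0000000400000014000000000000000000000000 0x40000000c0000003c0000001f0000001c000000180000001000000010 7 6) 0 0 (step_sound _ 99 [rh3d6bc458fa6dc5b2, (rh55afc6a59410cf00.shift 2 2)] (by decide +kernel))
noncomputable def rhc7fd152addba3303 : CRef := CRef.mk (Pat.mk 0x70000000000000001000000000 0x2000000020000000ef000000fe0000003f0000001000000010 7 8) 0 0 (step_sound _ 99 [(rh592c7139d2c44767.shift 1 2), (rh60a8c5be05b942d2.shift 2 0), (rh6de94a1805bc67e2.shift 2 0), (rh988dac8d009f9f77.shift 0 2), (rh9e97bba44c1b13e4.shift 1 2)] (by decide +kernel))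
noncomputable def rh6c323b9732f79cf5 : CRef := CRef.mk (Pat.mk 0x1e000000020000000200000000 0x50000000700000007000000030000001e000000060000000600000004 7 5) 0 0 (step_sound _ 129 [rh20e56a1196e70fcc, (rh3244c3cc8379b070.shift 0 3)] (by decide +kernel))
noncomputable def rhf778c33ba83c2559 : CRef := CRef.mk (Pat.mk 0x400000006000000020000000800000000 0x4000000040000007c0000003f0000007b0000000800000008 7 7) 0 0 (step_sound _ 162 [rh237c76b462de98f7, (rh5c5e593799055d58.shift 1 2)] (by decide +kernel))
noncomputable def rh80b03c72746ea49c : CRef := CRef.mk (Pat.mk 0xc00000000000000140000000000000000 0xa0000000e0000000f0000003c0000001c0000001c0000001c00000010 7 6) 0 0 (step_sound _ 163 [(rh00d6a6e3c7e3bb40.shift 2 1), (rh580df77fe152422b.shift 2 1), (rh93d0ab6869fe0f11.shift 2 0), (rhd739756e6a847ab0.shift 0 1), (rheb7109f38bea040d.shift 2 0)] (by decide +kernel))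
noncomputable def rh4a9c389e737e2630 : CRef := CRef.mk (Pat.mk 0xc00000000000000140000000000000000 0xa0000000e0000000e0000001f0000007c0000001c0000001c00000010 7 7) 0 0 (step_sound _ 163 [(rh00d6a6e3c7e3bb40.shift 2 1), (rh580df77fe152422b.shift 2 1), (rh93d0ab6869fe0f11.shift 2 0), rhb968d51bbf345675, (rheb7109f38bea040d.shift 2 0), (rheef28b9391eb94b2.shift 1 1)] (by decide +kernel))
noncomputable def rhefb326fe551078ac : CRef := CRef.mk (Pat.mk 0x3800000000000000200000000000000000 0x10000000100000003e0000007f00000077000000200000002000000020 7 7) 0 0 (step_sound _ 130 [(rh00c1a02c588da1b0.shift 2 1), (rh185f35b8bd8ec37f.shift 0 3), (rhe8dbc29e18a5d730.shift 0 3), (rheb100aab8ed4573d.shift 1 0)] (by decide +kernel))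
noncomputable def rh2f1bf8dd352bbdb7 : CRef := CRef.mk (Pat.mk 0x1e0000000000000000 0x2000000030000003f0000003f0000000400000004 7 6) 0 0 (step_sound _ 97 [(rh3244c3cc8379b070.shift 0 2), rhe4094e015e1deb92] (by decide +kernel))
noncomputable def rh32c59cbf0a31b488 : CRef := CRef.mk (Pat.mk 0x18000000000000002800000000 0x5000000054000001fe000000fe000001ef0000002800000028 7 9) 0 0 (step_sound _ 101 [(rh1317c6ea28e6bacd.shift 2 0), (rh4d8114ee4aff13cc.shift 1 2), rh81255f8efb3f44f8, (rh9c2721ba684235a7.shift 1 0), (rh9d9383748e827b0b.shift 2 0), (rhb88ddb9721ca9177.shift 1 0), (rhdf07e0d5c2c3a82e.shift 1 2), (rhe0f3df1c6efaec8e.shift 1 0)] (by decide +kernel))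
noncomputable def rhc3747c76d16db1e3 : CRef := CRef.mk (Pat.mk 0xc000000040000001400000000 0xa0000000e0000001e0000003e0000000f0000000c0000001c00000018 7 6) 0 0 (step_sound _ 130 [rh0386a6bf77289b72, (rh1741680720c097b4.shift 1 1), (rh20e56a1196e70fcc.shift 1 0), (rh5abfc4c9d959be03.shift 1 0), (rhced6d86d2069808b.shift 2 0)] (by decide +kernel))
noncomputable def rh9d78f075658b940b : CRef := CRef.mk (Pat.mk 0xc0000000400000014000000000000000000000000 0xe0000000e0000000e000000060000000f0000003f0000001c0000000e0000000600000002 7 6) 0 0 (step_sound _ 194 [(rh20e56a1196e70fcc.shift 1 2), (rh62e05db1b73ac916.shift 1 0), (rhfb657409fbb16679.shift 1 2), (rhff4bed93a55221e9.shift 0 1)] (by decide +kernel))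
noncomputable def rh878891a854da3d9c : CRef := CRef.mk (Pat.mk 0x1c00000008000000080000000800000000 0x1e0000000fe000001ff000000080000000c00000004 7 9) 0 0 (step_sound _ 34 [(rh932754581e0f4330.shift 2 0), (rhc6499eeca57f533a.shift 0 3)] (by decide +kernel))
noncomputable def rh81d03a4c34a33e1b : CRef := CRef.mk (Pat.mk 0xe00000002000000020 0x4000000050000001df000000fe0000007f00000020 7 9) 0 0 (step_sound _ 68 [(rh4c622fddc53a5f99.shift 2 2), (rh775ca1963e850b80.shift 2 1), (rh9e97bba44c1b13e4.shift 2 1), rhc51caf03b5f99c45, (rhe4f9133a81c1dbc5.shift 3 0)] (by decide +kernel))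
noncomputable def rh3058b7020828739c : CRef := CRef.mk (Pat.mk 0x400000004000000050000000400000000 0x400000004000000770000003e0000007a 7 7) 0 0 (step_sound _ 33 [rh26e33a847ca2ed68, (rh932754581e0f4330.shift 1 0)] (by decide +kernel))
noncomputable def rhbda31292011ed31c : CRef := CRef.mk (Pat.mk 0x700000000000000040000000000000000000000000 0x2f0000007e000000ef00000040000000e0000000e0000000a0 7 8) 0 0 (step_sound _ 163 [(rh33d3f1ba39b8bd00.shift 3 0), (rh775ca1963e850b80.shift 1 4), (rhbb13f9e1d387f64a.shift 0 4)] (by decide +kernel))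
noncomputable def rh3b0cf57d2383f530 : CRef := CRef.mk (Pat.mk 0x70000000100000005000000000 0x48000000cf0000007e000000ff0000007000000020 7 8) 0 0 (step_sound _ 99 [(rh0837bf74ccc9ef48.shift 2 0), (rhbb13f9e1d387f64a.shift 0 2), (rhe4f9133a81c1dbc5.shift 2 1)] (by decide +kernel))
noncomputable def rh8d2ca0097dea3ac3 : CRef := CRef.mk (Pat.mk 0x8000000078000000000000004000000000 0x187000000fe000000670000004000000040 7 9) 0 0 (step_sound _ 103 [(rh33e738c4ed385b9f.shift 4 3), rh54680695116c84db] (by decide +kernel))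
noncomputable def rh7655a66e7e22d93e : CRef := CRef.mk (Pat.mk 0x380000000000000020000000000000000000000000 0x10000000f70000007e0000006000000020000000700000007000000050 7 8) 0 0 (step_sound _ 162 [(rh33d3f1ba39b8bd00.shift 2 0), (rh4b4ad80ec7facee3.shift 2 2), (rh4c622fddc53a5f99.shift 0 5), (rhfcffa0a9e99c8fd4.shift 2 2)] (by decide +kernel))
noncomputable def rh2d3df288557b4726 : CRef := CRef.mk (Pat.mk 0x20000000e000000120000001000000000 0x60000000e0000000e0000000e0000001e0000003700000007 7 6) 0 0 (step_sound _ 66 [(rh55a1f6c57a317ce6.shift 1 0), rh987b83cff2edc5a1, rhfffcc3b8afe84516] (by decide +kernel))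
noncomputable def rh3a3b52df04b42f51 : CRef := CRef.mk (Pat.mk 0xc00000014000000140000000000000000 0x800000008000001cf000000fc000001dc0000001000000010 7 9) 0 0 (step_sound _ 99 [(rh1b30fad02acc208f.shift 2 0), (rhace475a8c2ca34aa.shift 1 2), (rhe2b63c00a3d7bb73.shift 0 3)] (by decide +kernel))
noncomputable def rha6dc9b3a987c3d25 : CRef := CRef.mk (Pat.mk 0x280000002800000028000000200000004000000000 0x5000000070000000700000002f000000fc00000038000000300000006000000060 7 8) 0 0 (step_sound _ 37 [(rh55afc6a59410cf00.shift 5 0), rhf5c641a25b1aa4da] (by decide +kernel))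
noncomputable def rha011e19fdaacded3 : CRef := CRef.mk (Pat.mk 0x4000000050000000400000004 0x7a0000003e000000770000000400000004 7 7) 0 0 (step_sound _ 97 [rh13c3e9798d92554f, (rh50fbb5868c909700.shift 1 0)] (by decide +kernel))
noncomputable def rhcf6755a6b1fe2b64 : CRef := CRef.mk (Pat.mk 0x1e00000002000000020 0x4000000040000003df000001fe0000006f00000020 7 10) 0 0 (step_sound _ 68 [(rh1e803a780da5fd4e.shift 3 0), (rh4c622fddc53a5f99.shift 2 2), (rh9890f9d77740bbed.shift 4 2), (rhad247eb3373f4ddc.shift 0 1)] (by decide +kernel))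
noncomputable def rh9eee994c11eeb71f : CRef := CRef.mk (Pat.mk 0x500000005000000050 0x7df000003fe00000777 7 11) 0 0 (step_sound _ 37 [rh12ede8e9f54410a0, (rha11dfd15f08f96e3.shift 3 1), (rha9fbfd4bb8cf890b.shift 1 1), (rhace475a8c2ca34aa.shift 3 0)] (by decide +kernel))
noncomputable def rha51346e52a90d7b2 : CRef := CRef.mk (Pat.mk 0x1000000014000000140000001400000000 0x2800000038000000760000007f0000001c00000008 7 7) 0 0 (step_sound _ 35 [(rh932754581e0f4330.shift 3 0), (rhbf803a3abd86bf2e.shift 0 1)] (by decide +kernel))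
noncomputable def rhc667d5c1fee3bec0 : CRef := CRef.mk (Pat.mk 0x20000000200000002000000000000000000000000 0x50000000700000007000000030000000300000003000000070000000700000005 7 3) 0 0 (step_sound _ 193 [(rh1741680720c097b4.shift 0 3), (rh20966da26a1c2ae8.shift 0 2), rh47992774edf9829f, (rh771d065bdc85bf2d.shift 0 2)] (by decide +kernel))
noncomputable def rh2c52638c530e9b85 : CRef := CRef.mk (Pat.mk 0x28000000080000002800000000 0x1000000014000001f7000000fe000001ff0000002800000020 7 9) 0 0 (step_sound _ 100 [(rh2820ca9a6c4f41b4.shift 0 2), (rh352b7f91eba0c81f.shift 2 2), (rh3757c66cf1d5f4af.shift 1 0), rha5c5af91b3280ddd] (by decide +kernel))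
noncomputable def rh3de4f3a02fb67263 : CRef := CRef.mk (Pat.mk 0x280000002000000028000000000000000000000000 0x370000003e0000006700000038000000f00000007000000050 7 8) 0 0 (step_sound _ 69 [(rh47cc8c896ef8b20e.shift 0 2), (rh8cdd36b03d57a2f6.shift 4 0), (rhac3d6389f960a17c.shift 3 1)] (by decide +kernel))
noncomputable def rh275e1dfc2552f349 : CRef := CRef.mk (Pat.mk 0x180000000c0000002000000000 0x4000000040000001f0000003f0000003300000002 7 6) 0 0 (step_sound _ 65 [(rh53b3c253cb0c65f4.shift 0 2), rhbed40c11c983f953] (by decide +kernel))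
noncomputable def rhc7fdc437c1e1bbe0 : CRef := CRef.mk (Pat.mk 0x30000000180000005000000000 0x48000000cf000000ff000000f80000007000000020 7 8) 0 0 (step_sound _ 102 [rh16994f33d7a3fc36, (rh18965a982d73c794.shift 3 2)] (by decide +kernel))
noncomputable def rh92ae3f573ab0ceec : CRef := CRef.mk (Pat.mk 0x6800000000 0x1e7000000fe000001e7 7 9) 0 0 (step_sound _ 36 [(rh35e918dd76851f8c.shift 3 0), rh708c3bc8fe2f3084, rh988dac8d009f9f77] (by decide +kernel))
noncomputable def rh3ebc67f11921f5ed : CRef := CRef.mk (Pat.mk 0x6800000000 0x1df000000fe000001e7 7 9) 0 0 (step_sound _ 36 [(rh35e918dd76851f8c.shift 3 0), rh708c3bc8fe2f3084, (rhb18e6c78a554867d.shift 2 1)] (by decide +kernel))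
noncomputable def rh929aa3a99ae20620 : CRef := CRef.mk (Pat.mk 0x80000001a0000000800000008 0xe4000000ff0000001f0000000800000008 7 8) 0 0 (step_sound _ 98 [(rh5017d284c18e05b8.shift 0 2), (rh50fbb5868c909700.shift 2 0)] (by decide +kernel))
noncomputable def rh30c061e58ebf1ac8 : CRef := CRef.mk (Pat.mk 0x200000006000000020000000200000000 0x50000000700000007000000020000000200000006000000070000000300000001 7 3) 0 0 (step_sound _ 32 [(rh716f496a6f55b076.shift 0 1), rh932754581e0f4330] (by decide +kernel))
noncomputable def rh71405847a450518b : CRef := CRef.mk (Pat.mk 0x1e000000000000000a0000000000000000 0xc0000001f000000380000000e0000003c00000014 7 6) 0 0 (step_sound _ 100 [rh32ff24a6c80a0563, (rhe25b0a99195a5d59.shift 1 3)] (by decide +kernel))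
noncomputable def rhe469de54466359e3 : CRef := CRef.mk (Pat.mk 0x1e000000000000000a00000000 0xc0000003c0000001f0000000c0000000e0000000e 7 6) 0 0 (step_sound _ 132 [(rh33e738c4ed385b9f.shift 1 3), rh3a00b09c29522a3f] (by decide +kernel))
noncomputable def rhb6b6ad1bee977733 : CRef := CRef.mk (Pat.mk 0x6800000000 0x1ff000000fe000001c7 7 9) 0 0 (step_sound _ 36 [(rh35e918dd76851f8c.shift 3 0), rh988dac8d009f9f77, (rhb18e6c78a554867d.shift 2 1), (rhe401600d466b97cd.shift 2 0)] (by decide +kernel))
noncomputable def rh9fb91beaf6376f0a : CRef := CRef.mk (Pat.mk 0xe000000180000000a00000000 0x140000001c0000001e0000000f0000003e0000001c0000000e00000006 7 6) 0 0 (step_sound _ 131 [(rh1726a00b0a8befd0.shift 2 0), (rh1dffa6d8a02b5f3a.shift 2 1), rh436a20f3636baa42, (rh64bc0dab78a08b48.shift 2 1), rha8ab159894e8bb16] (by decide +kernel))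
noncomputable def rh7a83111c5f4a35c2 : CRef := CRef.mk (Pat.mk 0x4000000040000003c00000000 0x1c0000003c0000000f0000000c0000007c00000010 7 7) 0 0 (step_sound _ 67 [rh8c2640c009b1e3a1, (rhf48373e13d2bc128.shift 2 1)] (by decide +kernel))
noncomputable def rh323b8fce8ef28742 : CRef := CRef.mk (Pat.mk 0x7000000000 0x7f000001fe000001ce 7 9) 0 0 (step_sound _ 35 [rh200f0fc9d2321d44, (rh775ca1963e850b80.shift 1 0), (rh875ee7c4c1e718c0.shift 0 1), (rhe401600d466b97cd.shift 2 0), (rhe98fd16c4771a217.shift 1 0)] (by decide +kernel))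
noncomputable def rha0f9deb27daf9f34 : CRef := CRef.mk (Pat.mk 0x1e00000000000000140000000000000000 0x100000001f000000380000001c0000007800000038 7 7) 0 0 (step_sound _ 100 [rh7d6764a98cb57205, (rhe25b0a99195a5d59.shift 1 3)] (by decide +kernel))
noncomputable def rh15e5dd040b716ff1 : CRef := CRef.mk (Pat.mk 0x1e00000000000000140000000000000000 0x40000001f000000380000001c0000007800000038 7 7) 0 0 (step_sound _ 100 [rh857dd560c3c1238f, (rhe25b0a99195a5d59.shift 1 3)] (by decide +kernel))
noncomputable def rhc577acaf9acabe63 : CRef := CRef.mk (Pat.mk 0x20000000600000002000000020000001e00000000 0x21000000330000003e000000120000003a0000001e00000008 7 6) 0 0 (step_sound _ 160 [(rh50fbb5868c909700.shift 0 2), rhaccf78fa08b7e89c] (by decide +kernel))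
noncomputable def rh3949a9a3df047322 : CRef := CRef.mk (Pat.mk 0x400000004000000040000000c 0x3a0000003f0000003f0000000c0000000c 7 6) 0 0 (step_sound _ 99 [(rh2f68792b6b779e96.shift 2 0), rh8294d25b35cfc6b7] (by decide +kernel))
noncomputable def rhedf8eaab163fa27e : CRef := CRef.mk (Pat.mk 0x380000000000000020000000000000000000000000 0x170000003e0000006700000020000000700000007000000050 7 7) 0 0 (step_sound _ 162 [(rh33d3f1ba39b8bd00.shift 2 0), (rh592c7139d2c44767.shift 0 4)] (by decide +kernel))
noncomputable def rhd5b96d8b7ac96d3a : CRef := CRef.mk (Pat.mk 0x38000000000000002000000000 0x1000000030000000770000003e000000770000003000000010 7 7) 0 0 (step_sound _ 98 [(rh4c622fddc53a5f99.shift 0 3), (rh592c7139d2c44767.shift 0 2), (rh9e29fb7c6bb32015.shift 1 0), (rhcd79e8c9c13ae031.shift 2 0)] (by decide +kernel))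
noncomputable def rhc424adfa82a62902 : CRef := CRef.mk (Pat.mk 0x1800000014000000100000001000000000 0x10000000300000001f0000003f000000180000001800000010 7 6) 0 0 (step_sound _ 99 [(rh7b1f1fb55310c477.shift 3 0), (rhc7a10bd75613c8bb.shift 0 1)] (by decide +kernel))
noncomputable def rh6ae371dd8032a599 : CRef := CRef.mk (Pat.mk 0x200000002000000020000000200000000 0x50000000700000007000000060000000600000003000000030000000300000001 7 3) 0 0 (step_sound _ 161 [(rh1726a00b0a8befd0.shift 0 1), (rh44f453b84f013105.shift 1 1), rh7928877f9bf74a91] (by decide +kernel))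
noncomputable def rh44f9bf97e6e786d5 : CRef := CRef.mk (Pat.mk 0x14000000100000001400000000 0x280000003800000038000000f80000001f000000180000001c0000000c 7 8) 0 0 (step_sound _ 132 [(rh1726a00b0a8befd0.shift 3 0), rh191d72d0921af821, (rhb034511df68c2fcf.shift 1 1)] (by decide +kernel))
noncomputable def rhf81bc913b54df7ba : CRef := CRef.mk (Pat.mk 0x28000000200000002000000020 0x5e0000007e000000370000002000000020 7 7) 0 0 (step_sound _ 100 [rh35edc746726d60de, (rh50fbb5868c909700.shift 4 0)] (by decide +kernel))
noncomputable def rhcbc9bd9c10afba4b : CRef := CRef.mk (Pat.mk 0xa0000000800000008000000000000000000000000 0x140000001c0000001c0000001f0000001b0000000c0000000c0000001c0000001c00000014 7 5) 0 0 (step_sound _ 195 [(rh1726a00b0a8befd0.shift 2 2), (rh49759b6975f15643.shift 2 0), (rh771d065bdc85bf2d.shift 2 2), (rh9e78c8d0a6e73966.shift 0 2)] (by decide +kernel))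
noncomputable def rh0444548c62e61c4c : CRef := CRef.mk (Pat.mk 0x3800000020 0x1cf000001fe000003b7 7 10) 0 0 (step_sound _ 34 [rh0de499e0455c9c14, rh592c7139d2c44767, (rh76a3494d58f0b603.shift 1 0)] (by decide +kernel))
noncomputable def rh7788951817ee9ba4 : CRef := CRef.mk (Pat.mk 0x40000000400000000000000038000000040000005000000000 0x4000000060000000370000003e000000260000007000000050 7 7) 0 0 (step_sound _ 98 [rh140d865419277d44, (rheb0810cc63b001d8.shift 1 2)] (by decide +kernel))
noncomputable def rhff14e698370ac1f3 : CRef := CRef.mk (Pat.mk 0x2000000000000000400000007e0000000000000000 0x28000000780000005c0000007f000000d600000010 7 8) 0 0 (step_sound _ 99 [rh1e2f98e5639c71ae, (rh3244c3cc8379b070.shift 2 2)] (by decide +kernel))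
noncomputable def rh6960a99e6185da0c : CRef := CRef.mk (Pat.mk 0x2000000000000000080000003c000000000000002800000000 0x300000003000000030000000180000003f000000170000003800000028 7 6) 0 0 (step_sound _ 65 [(rh80fcd6d0a18cb2dd.shift 1 2), rhdd163a199659991c] (by decide +kernel))
noncomputable def rh3e906883d09ce3dd : CRef := CRef.mk (Pat.mk 0x4000000000000000020000003c000000000000005000000000 0x500000007000000070000000330000003e000000200000007000000050 7 7) 0 0 (step_sound _ 97 [(rh3244c3cc8379b070.shift 0 3), (rh47b19588419f3a01.shift 1 0)] (by decide +kernel))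
noncomputable def rh3cac2ea604ee602b : CRef := CRef.mk (Pat.mk 0x300000006000000000000000040000003c00000000 0x7c0000007f00000004000000040000003e00000007 7 7) 0 0 (step_sound _ 163 [rha010cafaab1688ae, (rhb739f4f82bb681b4.shift 2 4)] (by decide +kernel))
noncomputable def rh19f0adfac4f6d3a8 : CRef := CRef.mk (Pat.mk 0x300000003000000000000000040000003c00000000 0x2000000020000000700000003e00000014000000140000003e00000007 7 7) 0 0 (step_sound _ 100 [(rh9e3edb185cc347de.shift 4 1), rhb808e2d513940836] (by decide +kernel))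
noncomputable def rhd013594966e49eaf : CRef := CRef.mk (Pat.mk 0xe000000000000000440000007c00000002 0xfc000001dc000000440000007e000000c3 7 9) 0 0 (step_sound _ 33 [(rhd1a8912e9898eed7.shift 1 0), rheb0810cc63b001d8] (by decide +kernel))
noncomputable def rhf1584edb1090c4db : CRef := CRef.mk (Pat.mk 0x70000000000000002000000020 0xe70000007e000000270000002000000020 7 8) 0 0 (step_sound _ 134 [(rh04253f50b6dd0619.shift 5 0), (rhf7943763ae823400.shift 0 2)] (by decide +kernel))
noncomputable def rh0a5a90ae45b55714 : CRef := CRef.mk (Pat.mk 0x120000001e000000000000000000000004 0x70000000f0000001e0000001e000000070000000400000004 7 5) 0 0 (step_sound _ 66 [(rh17a8ec1caf1b21f3.shift 0 2), (rh9e07f76261b05888.shift 1 0)] (by decide +kernel))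
noncomputable def rh93ba652d567cb0b5 : CRef := CRef.mk (Pat.mk 0x6800000000000000040000003c00000000 0x3fc000001fe00000386000000040000003e00000007 7 10) 0 0 (step_sound _ 132 [(rh394e80a462af5b2f.shift 2 3), (rh4d9fcef63ba8be7b.shift 1 1), (rh8982237647b84a72.shift 1 1), rhfcb4e3a423ce2cb0] (by decide +kernel))
noncomputable def rh7bbaf4fdbe85db75 : CRef := CRef.mk (Pat.mk 0x1e000000000000000000000004 0x38000000ff000000e60000000400000004 7 8) 0 0 (step_sound _ 132 [(rh33e738c4ed385b9f.shift 1 3), rh44b4106e35987343] (by decide +kernel))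
noncomputable def rhea84e6b760805fb9 : CRef := CRef.mk (Pat.mk 0x20000001e000000000000000000000004 0xa0000000f0000003e0000001f000000040000000400000004 7 6) 0 0 (step_sound _ 66 [(rh45e2e532c77fdfcf.shift 0 2), (rh9e07f76261b05888.shift 1 0)] (by decide +kernel))
noncomputable def rh0204407c0fd31c8c : CRef := CRef.mk (Pat.mk 0x6000000000000000480000007e00000000 0xe00000007c0000005c000000580000007f000000d0 7 8) 0 0 (step_sound _ 68 [(rh3b1e1cfc12ff5756.shift 2 0), (rh53b3c253cb0c65f4.shift 0 1)] (by decide +kernel))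
noncomputable def rh6df4f9275e4f47ab : CRef := CRef.mk (Pat.mk 0x1e000000000000000000000007800000000 0x30000001e000000040000000670000007e00000007 7 9) 0 0 (step_sound _ 165 [(rh3244c3cc8379b070.shift 4 4), rh70be19010a87bac8] (by decide +kernel))
noncomputable def rha312ec071de2e631 : CRef := CRef.mk (Pat.mk 0xd000000000000000020000003c00000000 0x2800000078000000d800000010000000330000003e00000020 7 8) 0 0 (step_sound _ 33 [(rh1174b72dd57574e3.shift 1 0), (rh3244c3cc8379b070.shift 0 1)] (by decide +kernel))
noncomputable def rh0af3b15d005a78d3 : CRef := CRef.mk (Pat.mk 0xd000000000000000000000003800000004 0x20000000f000000018000000370000003e00000026 7 8) 0 0 (step_sound _ 34 [rhb0b4250a903be6f6, (rheb0810cc63b001d8.shift 1 0)] (by decide +kernel))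
noncomputable def rhf33c79cf3b0bd656 : CRef := CRef.mk (Pat.mk 0x68000000000000004000000040 0x2f0000007e000000cf0000004000000040 7 8) 0 0 (step_sound _ 70 [(rh50fbb5868c909700.shift 5 0), (rhf39cb4d3b22fdf88.shift 0 2)] (by decide +kernel))
noncomputable def rh82740151c68b4542 : CRef := CRef.mk (Pat.mk 0x7000000000 0x1fe000000fe000001c7 7 9) 0 0 (step_sound _ 35 [rh132224b2333f091b, (rh3947d1dfff0afc6c.shift 2 0), (rha93a5dd541ab8209.shift 3 0), (rhb18e6c78a554867d.shift 2 1)] (by decide +kernel))
noncomputable def rhc6127fc1dbbd5ff3 : CRef := CRef.mk (Pat.mk 0x20000000f000000000000000000000000 0x2000000020000000760000003f000000380000001000000010 7 7) 0 0 (step_sound _ 68 [(rh2ab7efde740748d7.shift 1 0), (rh96851dee118c1ba3.shift 0 2)] (by decide +kernel))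
noncomputable def rh22d3dd238283cfcf : CRef := CRef.mk (Pat.mk 0x200000000000000000000003f000000000000000a00000000 0xa0000000e0000000e0000001c0000007f000000040000000e0000000a 7 7) 0 0 (step_sound _ 131 [(rh33e738c4ed385b9f.shift 0 3), (rhf31f5dd6213b27a8.shift 1 0)] (by decide +kernel))
noncomputable def rh48c52b72921d98a6 : CRef := CRef.mk (Pat.mk 0x1000000000000002200000032000000100000000500000000 0x500000027000000270000002200000032000000120000001700000015 7 6) 0 0 (step_sound _ 165 [(rh5c5e593799055d58.shift 4 2), rhe5e045494a593db9] (by decide +kernel))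
noncomputable def rha94fe8851f545460 : CRef := CRef.mk (Pat.mk 0x18000000000000001000000010 0xff0000007e000000170000001000000010 7 8) 0 0 (step_sound _ 101 [(rh22d326bdf3fdc35e.shift 0 2), (rh5a4df29f20c07a62.shift 3 0), rh7c813fcdcfe43884, rhf32297923889a514] (by decide +kernel))
noncomputable def rh3c3fb9facc5c0625 : CRef := CRef.mk (Pat.mk 0x18000000000000001400000014000000000000002800000000 0xf70000007e000000f70000001400000014000000100000003800000028 7 8) 0 0 (step_sound _ 197 [(rh7c2e60a048ea7124.shift 0 3), (rh7c813fcdcfe43884.shift 0 3), (rhb6092fb0b30354f3.shift 3 0), rhffae826ddd46d99f] (by decide +kernel))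
noncomputable def rhf4b83a55d8cdef31 : CRef := CRef.mk (Pat.mk 0x3800000000000000000000007800000000 0x70000003e0000000f0000000c000000780000000c 7 7) 0 0 (step_sound _ 67 [(rh3244c3cc8379b070.shift 2 1), rhb99c9284a229395b] (by decide +kernel))
noncomputable def rh22fa416b810966fe : CRef := CRef.mk (Pat.mk 0xe00000000000000000000001e 0x740000003e00000073000000030000001e 7 7) 0 0 (step_sound _ 33 [rh3244c3cc8379b070, rh37fce8d89d87d5f3] (by decide +kernel))
noncomputable def rh1925ccdb9904f2b8 : CRef := CRef.mk (Pat.mk 0x400000000000000000000001e00000000 0x50000000700000007000000330000001e00000003 7 6) 0 0 (step_sound _ 68 [(rh33e738c4ed385b9f.shift 1 1), rh55a0927ffbbcbd8a] (by decide +kernel))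
noncomputable def rh6a9f2ea73aa3529f : CRef := CRef.mk (Pat.mk 0x400000000000000000000003c00000000 0x50000000700000007000000030000003e00000007 7 6) 0 0 (step_sound _ 1 [(rh80fcd6d0a18cb2dd.shift 1 0), rhc502ee1281b087a9] (by decide +kernel))
noncomputable def rh3a40240e3b39aee7 : CRef := CRef.mk (Pat.mk 0x200000002000000100000000e00000000 0x8000000090000001f0000001e000000320000003e00000074 7 7) 0 0 (step_sound _ 128 [rh80c59fdbc00f388c, rhdbb91694e91b4dc4] (by decide +kernel))
noncomputable def rh1d03ec6859586f19 : CRef := CRef.mk (Pat.mk 0x400000000000000000000001e00000000 0x400000004000000e60000007e000000e3 7 8) 0 0 (step_sound _ 1 [(rh86934ff0f9bce3c7.shift 1 0), rheb0810cc63b001d8] (by decide +kernel))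
noncomputable def rhb5209695074fbbb6 : CRef := CRef.mk (Pat.mk 0x600000002000000000000001e00000000 0x700000003f0000007f000000080000001e00000030 7 7) 0 0 (step_sound _ 4 [rh8c20e3ab95af63c3, (rhe25b0a99195a5d59.shift 1 0)] (by decide +kernel))
noncomputable def rh208fe2a974d4de28 : CRef := CRef.mk (Pat.mk 0x300000002000000000000000f00000000 0x8000000080000001f0000001e000000380000003f00000070 7 7) 0 0 (step_sound _ 68 [(rh428265de8cd3cd2d.shift 0 1), rhdbb91694e91b4dc4] (by decide +kernel))
noncomputable def rh2645b732099b2ea3 : CRef := CRef.mk (Pat.mk 0x10000000100000001000000010 0x2f0000007e000000ff0000001000000010 7 8) 0 0 (step_sound _ 99 [rh09594f775d4e9d7f, (rh50fbb5868c909700.shift 3 0)] (by decide +kernel))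
noncomputable def rh7bce200b7855259c : CRef := CRef.mk (Pat.mk 0x280000002000000004000000f800000000 0x70000003e0000007400000006000000fc00000018 7 8) 0 0 (step_sound _ 34 [(rh3244c3cc8379b070.shift 1 1), rh3d2de33eaf30b5d9] (by decide +kernel))
noncomputable def rh957d163e7cab4a93 : CRef := CRef.mk (Pat.mk 0x20000001e00000000 0x5000000070000000f0000003e0000001e00000007 7 6) 0 0 (step_sound _ 1 [rh614e722d2cf9a5a3, rheb0810cc63b001d8] (by decide +kernel))
noncomputable def rh515d09333d0c5f97 : CRef := CRef.mk (Pat.mk 0x700000004000000000000001e00000000 0x280000003c000000370000003e000000300000001e00000008 7 6) 0 0 (step_sound _ 68 [rh249ad7131d54cb23, (rh33e738c4ed385b9f.shift 1 1)] (by decide +kernel))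
noncomputable def rhd98b8245c961f2b2 : CRef := CRef.mk (Pat.mk 0x2800000020000000040000003c00000000 0x70000003e00000074000000040000003e00000007 7 7) 0 0 (step_sound _ 1 [rh6b0c83873ce8cb7b, (rh80fcd6d0a18cb2dd.shift 1 0)] (by decide +kernel))
noncomputable def rhd0f1598a3000a201 : CRef := CRef.mk (Pat.mk 0xa00000008000000200000003e00000000 0x500000007c0000006e0000007e000000230000003e00000014 7 7) 0 0 (step_sound _ 130 [(rh249ad7131d54cb23.shift 1 0), rhf02c244a23f35937] (by decide +kernel))
noncomputable def rh2bc2e71fb8c17aa9 : CRef := CRef.mk (Pat.mk 0x400000000000000000000003c00000000 0x50000000700000007000000070000003e00000003 7 6) 0 0 (step_sound _ 65 [rh1388a08177d81093, (rh3f8766e6ecb455ce.shift 1 1)] (by decide +kernel))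
noncomputable def rh51845b8a9700fc2f : CRef := CRef.mk (Pat.mk 0x70000000000000000000000100000001e00000000 0x380000001f0000003800000010000000100000003e00000070 7 7) 0 0 (step_sound _ 5 [rh53933f5bd11c1ec6, (rh96851dee118c1ba3.shift 1 0)] (by decide +kernel))
noncomputable def rh63e6a86aa815bdb4 : CRef := CRef.mk (Pat.mk 0x80000000c000000000000006000000040 0x70000007f0000007f000000200000006000000040 7 7) 0 0 (step_sound _ 133 [rh1fe4a43c80c96c15, rh2bd1b8f0808c429e, (rhcadd85ff2a73e8c7.shift 0 3), (rhcf8755d1c81689bc.shift 1 0), (rhe33d9496e10d8eb0.shift 0 3)] (by decide +kernel))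
noncomputable def rhc308dc52144e5afe : CRef := CRef.mk (Pat.mk 0xc0000000000000040000000de00000082 0x40000007e0000007700000043000000de00000082 7 8) 0 0 (step_sound _ 65 [rh0998c897bc24ad2b, (rh3244c3cc8379b070.shift 0 1)] (by decide +kernel))
noncomputable def rh24684580926abcd6 : CRef := CRef.mk (Pat.mk 0x3000000020000000000000007800000008 0x70000003e000000740000000e0000007c00000008 7 7) 0 0 (step_sound _ 66 [(rh3f8766e6ecb455ce.shift 2 1), rh53a9a00350741803] (by decide +kernel))
noncomputable def rh31fa429230e9ff4b : CRef := CRef.mk (Pat.mk 0x1800000010000000000000003800000004 0x380000001f00000034000000160000003c00000006 7 6) 0 0 (step_sound _ 34 [(rhc8ce06981b3a3aaa.shift 0 1), (rheb0810cc63b001d8.shift 1 0)] (by decide +kernel))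
noncomputable def rhabd57ac0532751e9 : CRef := CRef.mk (Pat.mk 0x4000000040000000c000000000000000200000008 0x3a0000003e0000000f0000000c0000000e0000000a00000008 7 6) 0 0 (step_sound _ 66 [(rh79877ebd3ef475dd.shift 1 1), rhafbff738e23dbab4] (by decide +kernel))
noncomputable def rhe508a946da929b02 : CRef := CRef.mk (Pat.mk 0x30000000600000000000000200000001c00000000 0x530000007e00000070000000600000003c00000060 7 7) 0 0 (step_sound _ 132 [(rh2fe78cc5ca4405d8.shift 0 4), (rhcc32bc9f3876d575.shift 2 0)] (by decide +kernel))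
noncomputable def rhbc5bc522fba78b48 : CRef := CRef.mk (Pat.mk 0xc0000001800000000 0x1400000014000000370000003f0000001b0000000a 7 6) 0 0 (step_sound _ 65 [rh131512d5988f1408, (rhb739f4f82bb681b4.shift 0 1)] (by decide +kernel))
noncomputable def rh1540e431f80423ef : CRef := CRef.mk (Pat.mk 0x8000000180000001000000000 0x7c0000007c0000001e000000780000001f00000004 7 7) 0 0 (step_sound _ 131 [(rh2145e1d24b96a57e.shift 3 1), rh8cd74396e66505b6] (by decide +kernel))
noncomputable def rhdb07e5f62a137f51 : CRef := CRef.mk (Pat.mk 0x10000000300000000000000100000000e00000000 0x8000000090000001f0000001e000000320000003e00000070 7 7) 0 0 (step_sound _ 97 [rh91d7e89670e3608f, (rh9e07f76261b05888.shift 0 1)] (by decide +kernel))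
noncomputable def rh631b67ab9e12e7c0 : CRef := CRef.mk (Pat.mk 0x20000001e0000000000000000 0x500000007000000070000003e0000001e0000000700000002 7 6) 0 0 (step_sound _ 33 [(rheb0810cc63b001d8.shift 0 1), rhf15e1b000680bab5] (by decide +kernel))
noncomputable def rh63a5ceb7e85f97f2 : CRef := CRef.mk (Pat.mk 0x100000001e00000008 0x380000003c0000001f0000001e00000038 7 6) 0 0 (step_sound _ 4 [rh40f56ec5f549e861, (rhe25b0a99195a5d59.shift 1 0)] (by decide +kernel))
noncomputable def rh95ea8175e0269678 : CRef := CRef.mk (Pat.mk 0xc00000000000000020000000a00000002 0x390000001f0000001f0000000a0000000a00000002 7 6) 0 0 (step_sound _ 97 [(rhbaefcd01e0a8bca3.shift 1 0), rhc19d035be0caf1a8] (by decide +kernel))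
noncomputable def rh2d1850e6f3c86c66 : CRef := CRef.mk (Pat.mk 0xc00000002000000020000002200000002 0x390000003f00000073000000220000002200000002 7 7) 0 0 (step_sound _ 128 [(rh95b9b74370ecc6ae.shift 0 1), rhffd04209dc8ea796] (by decide +kernel))
noncomputable def rh4e51895036f7e51b : CRef := CRef.mk (Pat.mk 0x400000000000000000000003c00000002 0x400000004000001cc000000fe000001c3 7 9) 0 0 (step_sound _ 33 [(rh6a655174d1637fe8.shift 1 0), rheb0810cc63b001d8] (by decide +kernel))
noncomputable def rhb32557eb843305a6 : CRef := CRef.mk (Pat.mk 0xf00000000 0xff0000007f00000070 7 8) 0 0 (step_sound _ 36 [(rh9890f9d77740bbed.shift 0 1), (rhb143c7a3e93df405.shift 1 0), rhe401600d466b97cd] (by decide +kernel))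
noncomputable def rh8ad5ca705289cf13 : CRef := CRef.mk (Pat.mk 0x5800000000000000000000007800000004 0x2000000078000000c0000000c70000007e00000026 7 8) 0 0 (step_sound _ 34 [rh32d7cf23a59045fa, (rheb0810cc63b001d8.shift 1 0)] (by decide +kernel))
noncomputable def rhdcc8985eb12d3516 : CRef := CRef.mk (Pat.mk 0x1600000000000000200000001c00000000 0x770000003e00000020000000600000007c000000e0 7 8) 0 0 (step_sound _ 37 [(rh33e738c4ed385b9f.shift 2 1), rhc58e08a26fdb3804] (by decide +kernel))
noncomputable def rhdeb9c5ba32f9759c : CRef := CRef.mk (Pat.mk 0x100000001e00000000 0x2000000038000000380000003c0000001f0000001e00000038 7 6) 0 0 (step_sound _ 4 [rhdf7be087198d2c22, (rhe25b0a99195a5d59.shift 1 0)] (by decide +kernel))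
noncomputable def rh7e8391acd972767e : CRef := CRef.mk (Pat.mk 0x1e000000000000000000000000 0x50000000700000007000000070000001e000000070000000600000006 7 5) 0 0 (step_sound _ 65 [rh6a89284147fdbba9, (rheb0810cc63b001d8.shift 0 2)] (by decide +kernel))
noncomputable def rh8c91948b78094451 : CRef := CRef.mk (Pat.mk 0x20000001e00000002 0x50000000f0000000f0000003e0000001e00000036 7 6) 0 0 (step_sound _ 68 [(rh33e738c4ed385b9f.shift 1 1), rh9cf6d7c30a17419d] (by decide +kernel))
noncomputable def rhdc8d684aeb98c0f7 : CRef := CRef.mk (Pat.mk 0x1c0000000000000000 0x800000008000001ce000000fe000001f700000004 7 9) 0 0 (step_sound _ 69 [(rh185f35b8bd8ec37f.shift 0 1), (rh21460d2d48a35cb8.shift 1 0), (rh394e80a462af5b2f.shift 1 1)] (by decide +kernel))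
noncomputable def rhc90f120511ceebbf : CRef := CRef.mk (Pat.mk 0x2000000020000000080000019800000100 0x14000001ff000000ff000001ff000000880000019800000110 7 9) 0 0 (step_sound _ 131 [rh1c57b2de72b7f2cc, rh5366564e64fb1b4d, rh7b08a4c39dc77b69, (rhcf2a8f121bc4ac1e.shift 2 0)] (by decide +kernel))
noncomputable def rhfeae40a330ca9f0d : CRef := CRef.mk (Pat.mk 0x100000003800000008 0x140000001e0000007f0000003e0000000f 7 7) 0 0 (step_sound _ 100 [(rh5c5e593799055d58.shift 3 0), rha07b1e66fa2f5839] (by decide +kernel))
noncomputable def rhaae6850beb7d9292 : CRef := CRef.mk (Pat.mk 0x1000000010000000180000000800000000 0x2c0000007f0000003e0000001e0000007800000020 7 7) 0 0 (step_sound _ 36 [(rhabf507d18231341f.shift 0 1), (rhfe557af9112f51d6.shift 1 0)] (by decide +kernel))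
noncomputable def rha82475a61f8839ca : CRef := CRef.mk (Pat.mk 0x80000001c00000004 0x800000008000001ff000000fe000001cc 7 9) 0 0 (step_sound _ 99 [(rh5c5e593799055d58.shift 2 0), rhf6739fa35f3ab1e2] (by decide +kernel))
noncomputable def rhcc2fcf51333a6b33 : CRef := CRef.mk (Pat.mk 0x600000000000000100000001e00000000 0x280000007f0000003e0000003c000000100000003e00000070 7 7) 0 0 (step_sound _ 100 [(rh5409b34d2c942dd2.shift 1 0), (rh5e044f2a7fe8917d.shift 1 0), (rhcf7bdda9aa4949e8.shift 0 1)] (by decide +kernel))
noncomputable def rh64c8bf9a0f2e2130 : CRef := CRef.mk (Pat.mk 0xf000000080000000000000008 0x80000001c0000007c0000001e0000000f0000000c0000000800000008 7 7) 0 0 (step_sound _ 130 [(rh8151d02265b504f8.shift 0 2), (rh9e07f76261b05888.shift 2 0)] (by decide +kernel))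
noncomputable def rh24478ac375b6b0d4 : CRef := CRef.mk (Pat.mk 0x600000002000000100000001e00000000 0x700000003e00000017000000100000003e00000070 7 7) 0 0 (step_sound _ 5 [rh307d9ad73e17dd02, (rh96851dee118c1ba3.shift 1 0)] (by decide +kernel))
noncomputable def rh86776561faeee048 : CRef := CRef.mk (Pat.mk 0x50000000400000004000000040 0x270000007e000000e70000004000000040 7 8) 0 0 (step_sound _ 101 [(rh50fbb5868c909700.shift 5 0), (rh554009a2f490582e.shift 0 2)] (by decide +kernel))
noncomputable def rh22e0984d4a63645e : CRef := CRef.mk (Pat.mk 0x1e00000006 0x70000000f0000003f0000001e00000006 7 6) 0 0 (step_sound _ 65 [(rh3244c3cc8379b070.shift 0 1), rha6831e1c99143fa1] (by decide +kernel))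
noncomputable def rh60024074442e9585 : CRef := CRef.mk (Pat.mk 0x800000000000000000000000f00000000 0x280000003800000038000000380000001f00000030 7 6) 0 0 (step_sound _ 68 [(rh428265de8cd3cd2d.shift 0 1), (rhcc32bc9f3876d575.shift 1 0)] (by decide +kernel))
noncomputable def rh2148742486433563 : CRef := CRef.mk (Pat.mk 0x20000001e00000000 0x50000000700000007000000070000000f0000003e0000001e00000007 7 6) 0 0 (step_sound _ 97 [rh14e0829dc73b6804, rh4cd6e515882e4161, rh697682f290203ad5] (by decide +kernel))
noncomputable def rhcf31a943653280a9 : CRef := CRef.mk (Pat.mk 0x20000001e00000000 0x100000007000000070000000f0000003e0000001e00000007 7 6) 0 0 (step_sound _ 1 [rh808877f63fc0ddbf, rheb0810cc63b001d8] (by decide +kernel))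
noncomputable def rhbaef09a4467795df : CRef := CRef.mk (Pat.mk 0x1000000000000000000000007c00000000 0x280000003800000038000000100000001c0000007f00000027 7 7) 0 0 (step_sound _ 1 [(rh80fcd6d0a18cb2dd.shift 1 0), rhd42b26e2f2de4f7f] (by decide +kernel))
noncomputable def rh37669aebc3cbb3ef : CRef := CRef.mk (Pat.mk 0x2000000000000000020000007c00000000 0x50000000700000007000000020000000330000007e00000040 7 7) 0 0 (step_sound _ 33 [(rh3244c3cc8379b070.shift 0 1), (rhcca34e0e8c012be5.shift 1 0)] (by decide +kernel))
noncomputable def rh036b73c69b6020df : CRef := CRef.mk (Pat.mk 0x800000008000000200000003400000000 0x58000000780000007c0000003f000000240000003400000014 7 7) 0 0 (step_sound _ 98 [(rh00d6a6e3c7e3bb40.shift 2 0), rhb574c322456fcf47] (by decide +kernel))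
noncomputable def rh4cd0a19382660777 : CRef := CRef.mk (Pat.mk 0x8000000080000000800000008 0x1f4000000fe000000ff0000000800000008 7 9) 0 0 (step_sound _ 98 [(rh50fbb5868c909700.shift 2 0), rh6444517a3539f63e] (by decide +kernel))
noncomputable def rhddaef846be150229 : CRef := CRef.mk (Pat.mk 0x200000000000000000000000e00000000 0x5000000070000000700000002000000730000003e00000074 7 7) 0 0 (step_sound _ 36 [(rha93a5dd541ab8209.shift 1 0), rha9d17e2c6cf0d374] (by decide +kernel))
noncomputable def rh1c06065bb3036f30 : CRef := CRef.mk (Pat.mk 0x3c00000000 0x3fc000001ff000003c0 7 10) 0 0 (step_sound _ 38 [(rh45f730bcf36fcf64.shift 2 0), (rh9890f9d77740bbed.shift 2 1), (rha93a5dd541ab8209.shift 3 0), (rhd64ac1b1180c5fc8.shift 0 1)] (by decide +kernel))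
noncomputable def rhf5b8fc1a3e9ff86e : CRef := CRef.mk (Pat.mk 0x8000000080000000800000008 0xf40000007f000000ff0000000800000008 7 8) 0 0 (step_sound _ 98 [rh375fde0967782dcd, (rh50fbb5868c909700.shift 2 0)] (by decide +kernel))
noncomputable def rh85c0fda97cd0d81b : CRef := CRef.mk (Pat.mk 0x4000000040000000c0000000c 0x7a0000003e0000007f0000000c0000000c 7 7) 0 0 (step_sound _ 99 [(rh2f68792b6b779e96.shift 2 0), rh8392262c0f893fd6] (by decide +kernel))
noncomputable def rh634a993d2c75ab74 : CRef := CRef.mk (Pat.mk 0x100000001e00000000 0x3800000038000000f80000001c0000001f00000030 7 8) 0 0 (step_sound _ 67 [(rh475d20015d4b5843.shift 1 0), (rh53b3c253cb0c65f4.shift 0 1)] (by decide +kernel))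
noncomputable def rh237e4663d4307a86 : CRef := CRef.mk (Pat.mk 0xc0000001c000000000000000800000000 0x3800000038000000780000003c0000001f000000100000001800000018 7 7) 0 0 (step_sound _ 132 [(rh4dc133ee0ba1420a.shift 0 3), (rhd71d19839ba0f2e7.shift 2 0)] (by decide +kernel))
noncomputable def rh331920c088655195 : CRef := CRef.mk (Pat.mk 0x4000000040000003c 0x3e0000003e0000000f0000000c0000007c 7 7) 0 0 (step_sound _ 35 [rh495a39b8a06d7922, (rhf48373e13d2bc128.shift 2 0)] (by decide +kernel))
noncomputable def rh38e8e26727113fca : CRef := CRef.mk (Pat.mk 0x60000000e000000000000000200000000 0xe0000000e0000001e000000070000001e000000040000000600000006 7 5) 0 0 (step_sound _ 128 [rhd71d19839ba0f2e7, (rhf48373e13d2bc128.shift 0 3)] (by decide +kernel))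
noncomputable def rhb5044cefdd4a22b4 : CRef := CRef.mk (Pat.mk 0x38000000000000000000000004 0x1c7000000fe000001ce0000000400000004 7 9) 0 0 (step_sound _ 102 [(rh3fc3a7fb6866dcd4.shift 3 2), rh4eb5a0e17122336a, rh6e5be26515f78d83] (by decide +kernel))
noncomputable def rha608ead5a8038cbd : CRef := CRef.mk (Pat.mk 0x1000000000000000120000001e00000000 0x10000001f0000001f0000000f0000001e0000001e00000003 7 5) 0 0 (step_sound _ 1 [rh992b3bf526add8cb, rheb0810cc63b001d8] (by decide +kernel))
noncomputable def rhd746854f0dc472df : CRef := CRef.mk (Pat.mk 0x100000001800000010000000100000001e00000000 0x21000000330000001f00000012000000170000001e00000004 7 6) 0 0 (step_sound _ 165 [(rh2f68792b6b779e96.shift 4 2), rh3e02934abb025dd6] (by decide +kernel))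
noncomputable def rh7408245632f0824a : CRef := CRef.mk (Pat.mk 0x180000003000000010000000000000001e000000000000000000000000 0x40000001e000000f60000001e000000070000001e000000040000000400000004 7 8) 0 0 (step_sound _ 198 [rh59d5f1dbb0efc9f2, (rhf48373e13d2bc128.shift 3 6)] (by decide +kernel))
noncomputable def rhdf697e3cf785e583 : CRef := CRef.mk (Pat.mk 0x10000000100000001000000014 0x2f000000fe000000fe0000001400000014 7 8) 0 0 (step_sound _ 99 [(rh50fbb5868c909700.shift 3 0), rh9659743c2de3e0a8] (by decide +kernel))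
noncomputable def rh62872b31fba8d6a5 : CRef := CRef.mk (Pat.mk 0x3800000000 0x1ee000000fe000001f7 7 9) 0 0 (step_sound _ 34 [rh185f35b8bd8ec37f, (rh45f730bcf36fcf64.shift 1 0), (rhb18e6c78a554867d.shift 1 1), (rhe401600d466b97cd.shift 1 0)] (by decide +kernel))
noncomputable def rhc6c4de3e02f96982 : CRef := CRef.mk (Pat.mk 0x38000000000000002000000000 0x1000000030000000700000003e000000770000003000000010 7 7) 0 0 (step_sound _ 98 [(rh185f35b8bd8ec37f.shift 0 2), (rh791e8b6afce31c27.shift 2 0), (rh9e97bba44c1b13e4.shift 0 2)] (by decide +kernel))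
noncomputable def rhd8af9ab4d0866b3e : CRef := CRef.mk (Pat.mk 0x7000000000 0x1fe000000ff0000000e 7 9) 0 0 (step_sound _ 35 [rh0e9da63fecc8976c, (rh4c622fddc53a5f99.shift 1 1), (rh9e97bba44c1b13e4.shift 1 0), (rhb18e6c78a554867d.shift 2 1), (rhe8dbc29e18a5d730.shift 1 0)] (by decide +kernel))
noncomputable def rh1153b3bda13123c4 : CRef := CRef.mk (Pat.mk 0x3800000000 0x1ff000000ff000001c7 7 9) 0 0 (step_sound _ 34 [(rh45f730bcf36fcf64.shift 1 0), (rh4c622fddc53a5f99.shift 0 1), rh9e97bba44c1b13e4, rhe8dbc29e18a5d730] (by decide +kernel))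
noncomputable def rhddf97ab2dd79135f : CRef := CRef.mk (Pat.mk 0x3800000000 0x3f0000007f000000f7 7 8) 0 0 (step_sound _ 34 [rh0d378fd9e8917c5a, rh185f35b8bd8ec37f, (rhe401600d466b97cd.shift 1 0), rhe8dbc29e18a5d730] (by decide +kernel))
noncomputable def rh2b3f2b63c1856561 : CRef := CRef.mk (Pat.mk 0x38000000000000002000000000 0x1000000030000000770000003e000000700000003000000010 7 7) 0 0 (step_sound _ 98 [(rh0d378fd9e8917c5a.shift 0 2), (rh4c622fddc53a5f99.shift 0 3), (rh5325704427762ec5.shift 1 1), (rh791e8b6afce31c27.shift 2 0)] (by decide +kernel))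
noncomputable def rh6e238882d2315fd5 : CRef := CRef.mk (Pat.mk 0xf0000000000000004 0x140000001c0000001c000000180000000f0000001c00000004 7 5) 0 0 (step_sound _ 99 [(rh33e738c4ed385b9f.shift 0 2), rh7365d2958ee5740e] (by decide +kernel))
noncomputable def rh995975079ffd0394 : CRef := CRef.mk (Pat.mk 0x1e0000000000000000 0x10000000300000003f0000003f0000000800000008 7 6) 0 0 (step_sound _ 100 [(rh33e738c4ed385b9f.shift 1 2), rh532b59a28090fcbf] (by decide +kernel))
noncomputable def rh179e77d3803a19da : CRef := CRef.mk (Pat.mk 0x38000000000000002000000000 0x20000001ef000000fe000001f70000003000000010 7 9) 0 0 (step_sound _ 98 [(rh185f35b8bd8ec37f.shift 0 2), (rh2cc7d62e70c02209.shift 0 2), (rh45f730bcf36fcf64.shift 1 2), (rh9e29fb7c6bb32015.shift 1 0)] (by decide +kernel))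
noncomputable def rh5923a59bc715a8af : CRef := CRef.mk (Pat.mk 0x40000003c00000000 0x1cc000000fe000001c7 7 9) 0 0 (step_sound _ 38 [(rh3f8766e6ecb455ce.shift 2 1), rhe4f34ca69f33b4db] (by decide +kernel))
noncomputable def rhc17f861d2679f45c : CRef := CRef.mk (Pat.mk 0x3c000000000000002000000000 0x5e0000007e000000370000002000000020 7 7) 0 0 (step_sound _ 130 [rh0fe041574cf34992, (rh3244c3cc8379b070.shift 1 3)] (by decide +kernel))
noncomputable def rh58b172df0588d916 : CRef := CRef.mk (Pat.mk 0x1e0000000000000000 0x10000000300000003f0000003f0000000800000008 7 6) 0 0 (step_sound _ 100 [(rh33e738c4ed385b9f.shift 1 2), rh57e407a00bdc4987] (by decide +kernel))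
noncomputable def rhca62805a13ad6125 : CRef := CRef.mk (Pat.mk 0x380000000000000020000000000000000000000000 0x3e0000007f0000007700000020000000300000003000000010 7 7) 0 0 (step_sound _ 162 [(rh12ea4c871ce22297.shift 2 0), (rh185f35b8bd8ec37f.shift 0 4), (rhe8dbc29e18a5d730.shift 0 4)] (by decide +kernel))
noncomputable def rhf0ff60e2ff483387 : CRef := CRef.mk (Pat.mk 0xa00000008000000080000000800000000 0x140000001c0000001c000000780000001f0000000c0000000c0000000c00000004 7 7) 0 0 (step_sound _ 163 [(rh0363d47a46978688.shift 0 2), (rh1726a00b0a8befd0.shift 2 1), (rh7928877f9bf74a91.shift 2 0)] (by decide +kernel))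
noncomputable def rh9b21245ad62a3e1c : CRef := CRef.mk (Pat.mk 0xf0000000400000004 0x800000008000000ec0000007f0000003e00000004 7 8) 0 0 (step_sound _ 99 [(rha1fbe9dd839a6753.shift 0 1), (rhbfb5770941270498.shift 2 0), rhf125bcd6a8e76387] (by decide +kernel))
noncomputable def rhc72cd35dcf638731 : CRef := CRef.mk (Pat.mk 0x2800000020000000200000002000000000 0x2f0000003e00000077000000300000003000000030 7 7) 0 0 (step_sound _ 36 [rh1e03d0a7e450b91b, (rh932754581e0f4330.shift 4 0)] (by decide +kernel))
noncomputable def rh245a65f2f31c544e : CRef := CRef.mk (Pat.mk 0x280000002000000020000000200000004000000000 0x70000003e0000007700000020000000200000006000000040 7 7) 0 0 (step_sound _ 37 [(rh55afc6a59410cf00.shift 5 0), (rhc4e793c930f1e4be.shift 0 1)] (by decide +kernel))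
noncomputable def rh106f75bfcadfc4e5 : CRef := CRef.mk (Pat.mk 0xa000000080000000a00000000 0x140000001c0000001c000000780000001f0000007c0000000e00000004 7 7) 0 0 (step_sound _ 131 [(rh0363d47a46978688.shift 0 1), (rh1726a00b0a8befd0.shift 2 0), rhd498ef7c4bf35194] (by decide +kernel))
noncomputable def rh111632ce0d46c4c2 : CRef := CRef.mk (Pat.mk 0x2000000028000000200000002000000000 0x170000007e000001ef000000200000002000000020 7 9) 0 0 (step_sound _ 132 [(rh50fbb5868c909700.shift 4 1), rhcb3d8e05fa637d3a] (by decide +kernel))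
noncomputable def rh2a87aac4d3ed0b82 : CRef := CRef.mk (Pat.mk 0x2000000028000000200000002000000020 0x170000007e000001ef000000200000002000000020 7 9) 0 0 (step_sound _ 132 [(rh50fbb5868c909700.shift 4 1), rhfb193166effa8b50] (by decide +kernel))
noncomputable def rhc505dbb087155857 : CRef := CRef.mk (Pat.mk 0x200000002000000020000000600000000 0x4000000060000000e0000007f0000003f00000039 7 7) 0 0 (step_sound _ 32 [rh932754581e0f4330, rhdcc00c779b13b2ba] (by decide +kernel))
noncomputable def rh60aec1cf4a604570 : CRef := CRef.mk (Pat.mk 0x13000000120000001200000002 0x20000000340000003e00000017000000320000003200000022 7 6) 0 0 (step_sound _ 130 [rh15c607a47babf996, (rhbaefcd01e0a8bca3.shift 1 0)] (by decide +kernel))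
noncomputable def rh0784c8c5fc411f63 : CRef := CRef.mk (Pat.mk 0x1000000012000000120000000200000002 0x8000000180000001800000011000000330000003e0000002a00000002 7 6) 0 0 (step_sound _ 96 [rh50fbb5868c909700, (rhe8afeb153ce6f4b7.shift 0 1)] (by decide +kernel))
noncomputable def rh184608c4cb472798 : CRef := CRef.mk (Pat.mk 0xc00000004000000040000000400000000 0x720000003f0000007e0000000c0000000c00000008 7 7) 0 0 (step_sound _ 129 [(rh50fbb5868c909700.shift 1 1), rh71dc08d2db2b3514] (by decide +kernel))
noncomputable def rh486e3ea0a057067b : CRef := CRef.mk (Pat.mk 0x600000002000000020000000200000000 0x390000001f0000003f0000000e0000000600000004 7 6) 0 0 (step_sound _ 128 [(rh50fbb5868c909700.shift 0 1), rhda134fc7a00268a1] (by decide +kernel))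
noncomputable def rh79833d36382e321e : CRef := CRef.mk (Pat.mk 0x2000000020000000200000000000000000000000000000000 0x50000000700000007000000070000000200000002000000070000000700000005 7 3) 0 0 (step_sound _ 97 [(rh1741680720c097b4.shift 0 3), rh47992774edf9829f, rh49759b6975f15643, (rhc4055b4872d6fb38.shift 0 2)] (by decide +kernel))
noncomputable def rh208a4c077a50bdfe : CRef := CRef.mk (Pat.mk 0x1000000002000000020000000200000002 0x5000000770000003f00000073000000020000000200000002 7 7) 0 0 (step_sound _ 129 [rh3ca48e2a6d60153d, (rhbda6eb6509751717.shift 0 1), (rhc85cc95794737cf7.shift 0 1)] (by decide +kernel))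
noncomputable def rhb45d382401969cd5 : CRef := CRef.mk (Pat.mk 0x12000000020000000200000002 0x3d0000001f0000003e000000020000000200000002 7 6) 0 0 (step_sound _ 130 [(rh5df3466004e4398d.shift 0 1), (rhbaefcd01e0a8bca3.shift 1 0)] (by decide +kernel))
noncomputable def rh5bfb84e7aac7edd0 : CRef := CRef.mk (Pat.mk 0x120000000200000012000000020000000000000000 0xc0000001e0000003b000000120000001a0000001800000008 7 6) 0 0 (step_sound _ 162 [(rh2f68792b6b779e96.shift 1 2), rha3455a172de451a9] (by decide +kernel))
noncomputable def rh9358244b61fbb390 : CRef := CRef.mk (Pat.mk 0x2000000120000000200000002000000000000000000000000 0x1000000030000001e0000000600000003000000070000000700000004 7 5) 0 0 (step_sound _ 192 [(rh50fbb5868c909700.shift 0 3), rh56a953e0e3e05276] (by decide +kernel))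
noncomputable def rha42dea33639360ae : CRef := CRef.mk (Pat.mk 0x20000000200000012000000120000000000000010000000000000000000000000 0xc0000003e0000003b00000032000000320000003000000030000000380000003800000028 7 6) 0 0 (step_sound _ 258 [(rh2f68792b6b779e96.shift 1 5), rh8613857741dc5b91] (by decide +kernel))
noncomputable def rh2192e693d5f4ccca : CRef := CRef.mk (Pat.mk 0x2000000020000000000000002000000000000000000000000 0x5000000070000000700000006000000060000000700000007000000070000000700000005 7 3) 0 0 (step_sound _ 129 [rh49759b6975f15643, (rha087c6594f4bfb59.shift 0 2), (rhc4ec57a3756c3a6c.shift 0 2), (rhcab3157f7bdcba3e.shift 0 1)] (by decide +kernel))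
noncomputable def rhce684cbf27defa86 : CRef := CRef.mk (Pat.mk 0x10000000120000001200000002000000040000000000000000 0x1000000010000000120000001a0000001a0000001f0000000f00000001 7 5) 0 0 (step_sound _ 65 [(rh55afc6a59410cf00.shift 1 1), rhd1151e7944233db6] (by decide +kernel))
noncomputable def rh8d8d0350a91ef61f : CRef := CRef.mk (Pat.mk 0x20000000200000012000000120000000000000000 0x200000007c0000003e0000007b000000320000003a0000003800000028 7 7) 0 0 (step_sound _ 162 [(rh2f68792b6b779e96.shift 1 2), rhe7e4e27bde330cf4] (by decide +kernel))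
noncomputable def rhc2747ec1d9b23623 : CRef := CRef.mk (Pat.mk 0x180000004c00000000000000400000000800000000 0x80000000c0000000f8000000cf000000c0000000e0000000f800000020 7 8) 0 0 (step_sound _ 166 [rh17b9da613afda83f, (rh361cc68994bd8a63.shift 2 4)] (by decide +kernel))
noncomputable def rh4d5b06b284cce693 : CRef := CRef.mk (Pat.mk 0x80000000800000008000000010000000000000000 0x140000001c0000001c0000001c0000001c0000000c0000000f0000001c00000014 7 5) 0 0 (step_sound _ 67 [(rh193da7fc9e1674f1.shift 2 1), (rh32e32f03ae89b559.shift 2 1), rh4942f594abee86ba, (rhcab3157f7bdcba3e.shift 2 0)] (by decide +kernel))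
noncomputable def rh5834958be0c275b7 : CRef := CRef.mk (Pat.mk 0x200000002000000060000000200000000 0x1d0000001f0000003f000000060000000600000004 7 6) 0 0 (step_sound _ 34 [(rh55afc6a59410cf00.shift 1 0), (rhfb02e98065f814ed.shift 0 1)] (by decide +kernel))
noncomputable def rhba038372453fce5d : CRef := CRef.mk (Pat.mk 0x100000001200000002000000030000000600000000 0x3c0000001e00000032000000330000003e00000020 7 6) 0 0 (step_sound _ 130 [rh24542dabb139441d, (rh2f68792b6b779e96.shift 1 1)] (by decide +kernel))
noncomputable def rh8ea3e9ea899f31ba : CRef := CRef.mk (Pat.mk 0x80000000800000009000000010000000100000001 0x140000001c0000001c000000080000001a0000000f000000050000000100000001 7 5) 0 0 (step_sound _ 97 [rh2f68792b6b779e96, (rh7beb16b4b7321bb5.shift 0 2)] (by decide +kernel))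
noncomputable def rhecbc7aa89231275d : CRef := CRef.mk (Pat.mk 0xb0000000800000000000000000000000000000000 0x40000000c0000001c0000000f0000001c0000001c0000001c0000001c00000004 7 5) 0 0 (step_sound _ 162 [rhdcde04c5f10e3768, (rhe25b0a99195a5d59.shift 0 4)] (by decide +kernel))
noncomputable def rhb6273661828b7911 : CRef := CRef.mk (Pat.mk 0x100000001200000002000000030000000400000000 0x340000001e0000003a0000001b0000001e00000004 7 6) 0 0 (step_sound _ 33 [(rh521fe7a1168248cc.shift 0 1), (rh55afc6a59410cf00.shift 1 0)] (by decide +kernel))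
noncomputable def rhb6153295d8b1ee06 : CRef := CRef.mk (Pat.mk 0x8000000090000000900000001000000010000000200000000 0x10000000180000001f0000000b00000019000000190000001300000002 7 5) 0 0 (step_sound _ 32 [rh55afc6a59410cf00, (rh79bf807a6ecb53c9.shift 0 1)] (by decide +kernel))
noncomputable def rhe13956065d56bd11 : CRef := CRef.mk (Pat.mk 0x8000000090000000900000001000000010000000200000000 0x100000001800000018000000080000001f0000001b00000011000000010000000300000002 7 5) 0 0 (step_sound _ 32 [(rh151d788bf535e008.shift 0 1), rh55afc6a59410cf00] (by decide +kernel))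
noncomputable def rh193d6be3488ca70c : CRef := CRef.mk (Pat.mk 0xf0000000800000000000000000000000000000000 0x40000000c0000001c0000001f0000000c0000000c0000001c0000001c00000014 7 5) 0 0 (step_sound _ 99 [(rh01483ff9cba2f6ac.shift 2 0), (rh1bb94d8bd52411a4.shift 0 2), rh42c8dabea78e6889, (rhd1779d7de7f8215b.shift 2 0)] (by decide +kernel))
noncomputable def rh89611f6200cf4573 : CRef := CRef.mk (Pat.mk 0x600000004000000040000000400000000 0x780000003f0000007e0000000c0000000c00000008 7 7) 0 0 (step_sound _ 131 [(rh2f68792b6b779e96.shift 2 1), rh71dc08d2db2b3514] (by decide +kernel))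
noncomputable def rh05bafc42b3574e9c : CRef := CRef.mk (Pat.mk 0x200000002000000020000000600000000 0x4000000060000000e0000003f0000001f00000039 7 6) 0 0 (step_sound _ 32 [rh56fdcb92456568d0, rh932754581e0f4330] (by decide +kernel))
noncomputable def rh1c883fadeb5a7808 : CRef := CRef.mk (Pat.mk 0x2000000020000000200000000000000000000000000000000 0x10000000300000007000000060000000700000007000000070000000700000004 7 3) 0 0 (step_sound _ 97 [(rh5abfc4c9d959be03.shift 0 2), (rh771d065bdc85bf2d.shift 0 2), (rh8cdd36b03d57a2f6.shift 0 1), rh8d8bfe45b7d5275a] (by decide +kernel))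
noncomputable def rh304d4080d4e0f6a5 : CRef := CRef.mk (Pat.mk 0x20000000200000002000000000000000000000000 0x50000000700000007000000070000000200000003000000070000000700000005 7 3) 0 0 (step_sound _ 193 [rh95311890f436bcdc, (rhc4526fc8abf298b6.shift 0 1), (rhc85cc95794737cf7.shift 0 3)] (by decide +kernel))
noncomputable def rh101670ad912ca7ef : CRef := CRef.mk (Pat.mk 0xf0000000000000000000000000000000000000000 0x40000000c0000001c0000000f0000001c0000001c0000001c0000001c00000004 7 5) 0 0 (step_sound _ 131 [rhdcde04c5f10e3768, (rhe25b0a99195a5d59.shift 0 4)] (by decide +kernel))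
noncomputable def rhe551db116598e6b3 : CRef := CRef.mk (Pat.mk 0x200000012000000160000000000000010000000000000000000000000 0x2b0000003e000000360000001000000030000000380000003800000028 7 6) 0 0 (step_sound _ 132 [(rh6c59ce14113da07f.shift 4 1), (rh76e5a31d6e334fd2.shift 0 3), (rh95311890f436bcdc.shift 3 0), (rhb8407345275ab4ca.shift 0 3)] (by decide +kernel))
noncomputable def rh8b8fb40eebe3503a : CRef := CRef.mk (Pat.mk 0x400000004000000040000000c00000000 0x80000000c0000000c0000007e0000003f00000072 7 7) 0 0 (step_sound _ 33 [(rh932754581e0f4330.shift 1 0), rh9c530b28cfd7eb0a] (by decide +kernel))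
noncomputable def rh3dc294244e6daac3 : CRef := CRef.mk (Pat.mk 0x2000000120000000200000001 0x5000000070000000700000002000000730000003e0000000700000001 7 7) 0 0 (step_sound _ 66 [(rh51246ab843efda05.shift 0 1), rh716f496a6f55b076, (rhe1e47742ff7cd56c.shift 0 1)] (by decide +kernel))
noncomputable def rh10c45420489fc1ce : CRef := CRef.mk (Pat.mk 0x120000000200000012000000020000000000000000 0xc0000001e0000003b00000012000000320000003000000020 7 6) 0 0 (step_sound _ 162 [(rh2f68792b6b779e96.shift 1 2), rh5c78959f44856e3d] (by decide +kernel))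
noncomputable def rh51499fad2812bafd : CRef := CRef.mk (Pat.mk 0x200000002000000030000000300000000 0x4000000060000000e0000001f0000001f0000001c 7 5) 0 0 (step_sound _ 34 [rh2ad69f4354f7bada, (rh55afc6a59410cf00.shift 1 0)] (by decide +kernel))
noncomputable def rh4c0c8c4280c0a8f8 : CRef := CRef.mk (Pat.mk 0x2000000020000000300000000 0x400000007000000070000000300000006000000060000000700000001 7 3) 0 0 (step_sound _ 129 [rh932754581e0f4330, (rhc2034d656568cc12.shift 0 1)] (by decide +kernel))
noncomputable def rhc51528e1cf8c4b26 : CRef := CRef.mk (Pat.mk 0x12000000120000001000000000000000000000000000000000 0x280000003e000000330000001000000038000000380000003800000028 7 6) 0 0 (step_sound _ 100 [(rh367118e0bf0473e0.shift 3 1), (rh49759b6975f15643.shift 3 0), (rh6c59ce14113da07f.shift 4 1), (rh8cdd36b03d57a2f6.shift 3 1), (rhd8e950e561f8c836.shift 0 3)] (by decide +kernel))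
noncomputable def rhf8c7ba2a13aebffb : CRef := CRef.mk (Pat.mk 0x2000000020000000200000000000000000000000000000000 0x50000000700000007000000070000000600000006000000060000000600000004 7 3) 0 0 (step_sound _ 97 [rh4cae674e8fd8dc57, (rh5abfc4c9d959be03.shift 0 2), (rh6c59ce14113da07f.shift 1 1), (rhc4055b4872d6fb38.shift 0 2), (rhced6d86d2069808b.shift 1 2)] (by decide +kernel))
noncomputable def rh3e1c86f51648b327 : CRef := CRef.mk (Pat.mk 0x240000000600000007000000040000000000000000 0x200000003c0000003e000000170000003c0000003800000028 7 6) 0 0 (step_sound _ 132 [(rh361cc68994bd8a63.shift 0 3), (rh9217f265ebd46b9c.shift 1 0)] (by decide +kernel))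
noncomputable def rh46a38c341b967eff : CRef := CRef.mk (Pat.mk 0x2000000120000000200000002000000020000000400000000 0x730000003e0000007600000002000000020000000600000004 7 7) 0 0 (step_sound _ 33 [(rh46b7fd914cf3f609.shift 0 1), (rh55afc6a59410cf00.shift 1 0)] (by decide +kernel))
noncomputable def rh5d12631e5cccf9b8 : CRef := CRef.mk (Pat.mk 0x2000000000000000200000002000000000000000000000000 0x5000000070000000700000006000000060000000600000006000000070000000700000005 7 3) 0 0 (step_sound _ 161 [(rh22733d1326b38478.shift 0 3), rh49759b6975f15643, rh97b4a10702c7a25d, (rha087c6594f4bfb59.shift 0 2), (rhced6d86d2069808b.shift 1 2)] (by decide +kernel))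
noncomputable def rhbfda0d350547d4c1 : CRef := CRef.mk (Pat.mk 0x2000000020000000000000002000000000000000000000000 0x5000000070000000700000006000000060000000600000006000000070000000700000005 7 3) 0 0 (step_sound _ 129 [(rh90f723a47a6af75d.shift 0 3), rh95311890f436bcdc, rh97b4a10702c7a25d, (rha087c6594f4bfb59.shift 0 2), (rhc9de03f9731897d4.shift 1 1)] (by decide +kernel))
noncomputable def rh9b0f9a5c2b4e46fd : CRef := CRef.mk (Pat.mk 0x20000000200000000000000020000000000000000 0x50000000700000007000000020000000200000007000000070000000700000005 7 3) 0 0 (step_sound _ 97 [(rh193da7fc9e1674f1.shift 0 1), rh8cdd36b03d57a2f6, (rha087c6594f4bfb59.shift 0 1), (rhed79e5c5ffee0217.shift 0 1)] (by decide +kernel))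
noncomputable def rh13be592e82206b07 : CRef := CRef.mk (Pat.mk 0x2000000020000000200000000000000000000000000000000 0x70000000700000007000000060000000600000006000000070000000700000005 7 3) 0 0 (step_sound _ 97 [rh49759b6975f15643, (rh5abfc4c9d959be03.shift 0 2), (rh67f0916ed90b8a7e.shift 0 2), (rhced6d86d2069808b.shift 1 2)] (by decide +kernel))
noncomputable def rhe8f1bbd7450c60db : CRef := CRef.mk (Pat.mk 0x200000002000000120000000200000000 0x5000000070000000700000002000000020000001e0000000700000001 7 5) 0 0 (step_sound _ 32 [(rh73823590e1fc1ea0.shift 0 1), rh932754581e0f4330] (by decide +kernel))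
noncomputable def rh82c8bf644f05d182 : CRef := CRef.mk (Pat.mk 0x200000002000000030000000000000000 0x50000000700000007000000060000000600000007000000070000000600000004 7 3) 0 0 (step_sound _ 161 [(rh20e56a1196e70fcc.shift 0 1), (rh6c59ce14113da07f.shift 1 0), (rh9a369cb82ea472da.shift 0 2), (rhced6d86d2069808b.shift 1 1), (rhe16036ff578a11df.shift 0 2)] (by decide +kernel))
noncomputable def rh49d5d9ac86ead7db : CRef := CRef.mk (Pat.mk 0x60000000e0000000a0000000200000000 0x60000000e0000007b0000003e0000007c 7 7) 0 0 (step_sound _ 35 [(rh7b1f1fb55310c477.shift 2 0), rhc2d38a69b00a9b0b] (by decide +kernel))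
noncomputable def rh6c01a90fad03ff91 : CRef := CRef.mk (Pat.mk 0x120000000200000012000000060000000300000000 0xc0000001e0000001b000000120000003e0000003300000020 7 6) 0 0 (step_sound _ 68 [(rh361cc68994bd8a63.shift 0 1), rhf1b34483fd962739] (by decide +kernel))
noncomputable def rhcfe4e6ebe610e2c0 : CRef := CRef.mk (Pat.mk 0x1200000002000000120000000600000003 0x740000003e00000063000000320000001e00000003 7 7) 0 0 (step_sound _ 36 [(rh01f0954cfc9839a6.shift 0 1), rh361cc68994bd8a63] (by decide +kernel))
noncomputable def rhcb3735733fc7fa29 : CRef := CRef.mk (Pat.mk 0x400000002000000020000001200000000 0x40000000600000002000000730000003e00000074 7 7) 0 0 (step_sound _ 129 [(rh2f68792b6b779e96.shift 1 1), rhaded46532ef4ca57] (by decide +kernel))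
noncomputable def rha74287e6c2dee340 : CRef := CRef.mk (Pat.mk 0x1000000060000001200000002000000100000000000000000 0x21000000330000003e000000320000003a000000380000003800000008 7 6) 0 0 (step_sound _ 193 [rh47e138d2afbbcce2, (rh50fbb5868c909700.shift 0 3)] (by decide +kernel))
noncomputable def rhdd92b398f9eae512 : CRef := CRef.mk (Pat.mk 0x60000000200000018000000030000000000000000 0x700000003e0000007b000000180000000f0000000800000008 7 7) 0 0 (step_sound _ 67 [rh163fc6ac2326ae0e, (rh1c62b6193297d9e3.shift 0 2)] (by decide +kernel))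
noncomputable def rh49df5ff148149e53 : CRef := CRef.mk (Pat.mk 0x1800000002000000000000000700000000 0x18000000780000001f000000380000001f00000038 7 7) 0 0 (step_sound _ 35 [rh04444f957c5dabcf, rh2990aa3bed5dbd4e, (rha26f5900290597cb.shift 0 1), rha93a5dd541ab8209, rhc49c0119ce193b33, rhe6f00b19f116d7bb] (by decide +kernel))
noncomputable def rhc39372eb7325d055 : CRef := CRef.mk (Pat.mk 0x120000000200000002000000020000000400000000 0x700000003e0000007700000002000000020000000600000004 7 7) 0 0 (step_sound _ 33 [(rh49030c95c852c62d.shift 0 1), (rh55afc6a59410cf00.shift 1 0)] (by decide +kernel))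
noncomputable def rh6bdce6f1bafc2daa : CRef := CRef.mk (Pat.mk 0x120000000200000002000000020000000100000000 0x700000003e0000007700000002000000020000000300000001 7 7) 0 0 (step_sound _ 33 [(rh49030c95c852c62d.shift 0 1), rh932754581e0f4330] (by decide +kernel))
noncomputable def rh9e631f40f97fa5f8 : CRef := CRef.mk (Pat.mk 0x180000000800000068000000080000000800000000 0x1e0000000fc000001ef000000680000006c0000004c00000040 7 9) 0 0 (step_sound _ 165 [(rh12cc61a11a9631fa.shift 2 1), (rh2820ca9a6c4f41b4.shift 0 4), (rh352b7f91eba0c81f.shift 2 4), (rh7bc6e4f859c6bd36.shift 2 0)] (by decide +kernel))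
noncomputable def rh9454faaea4f59732 : CRef := CRef.mk (Pat.mk 0xf00000000000000000000000000000000 0xc0000000c0000001c0000000f0000001c0000001c0000001c00000014 7 5) 0 0 (step_sound _ 99 [rh57e38a646e20dd21, (rhe25b0a99195a5d59.shift 0 3)] (by decide +kernel))
noncomputable def rh2c1cd97fab182669 : CRef := CRef.mk (Pat.mk 0x2000000030000001a000000020000000000000000 0x140000001e0000001b0000001a0000000f0000000900000008 7 5) 0 0 (step_sound _ 162 [(rh2f68792b6b779e96.shift 1 2), rhd18a17d1af6d5d32] (by decide +kernel))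
noncomputable def rhd7d7550663ec50ea : CRef := CRef.mk (Pat.mk 0x180000004800000008000000480000004800000008 0x80000000f8000000cf0000004c000000d8000000d800000088 7 8) 0 0 (step_sound _ 130 [rh86e7919891ccb30d, (rhffd04209dc8ea796.shift 2 0)] (by decide +kernel))
noncomputable def rh419123725427908e : CRef := CRef.mk (Pat.mk 0xf0000000000000000000000000000000000000000 0xc0000000c0000001c0000000f0000001c0000001c0000001c0000001c00000010 7 5) 0 0 (step_sound _ 131 [rh6d619afd3ce2adf2, (rhe25b0a99195a5d59.shift 0 4)] (by decide +kernel))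
noncomputable def rh34963f3e02c82e43 : CRef := CRef.mk (Pat.mk 0x60000000e0000000a000000000000000000000000 0x60000000e0000003b0000001e0000003e00000010 7 6) 0 0 (step_sound _ 65 [rh6b92c15602f74c07, (rh71222050f2c63a3a.shift 1 1)] (by decide +kernel))
noncomputable def rh6abc6b8e6ebda028 : CRef := CRef.mk (Pat.mk 0x580000000c00000040000000600000000000000000 0x20000000e0000000e0000000d8000000cf000000e0000000e0000000c000000080 7 8) 0 0 (step_sound _ 129 [(rh3f31dc9eccec79a1.shift 5 0), (rh53b3c253cb0c65f4.shift 0 4)] (by decide +kernel))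
noncomputable def rh130d00aebff8c1be : CRef := CRef.mk (Pat.mk 0x600000003000000100000000a0000000300000000 0x200000003e00000033000000100000003e0000003b00000020 7 6) 0 0 (step_sound _ 68 [(rhb2a0b9ccfb5cecd5.shift 0 1), rhf0d2c8aa52026c23] (by decide +kernel))
noncomputable def rheac318d56af14fc6 : CRef := CRef.mk (Pat.mk 0x600000002000000120000000a0000000200000000 0x100000001f0000001b0000001a0000000f0000000b00000008 7 5) 0 0 (step_sound _ 128 [(rh50fbb5868c909700.shift 0 1), rhdaacc2a17cb26e8e] (by decide +kernel))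
noncomputable def rhf37ce8d0f9c07ef3 : CRef := CRef.mk (Pat.mk 0x60000000300000010000000080000000000000000 0x2800000038000000380000003e0000003300000038000000380000003800000020 7 6) 0 0 (step_sound _ 164 [(rh361cc68994bd8a63.shift 0 4), (rha41c3715f4a5cef5.shift 3 0)] (by decide +kernel))
noncomputable def rh81b092c5b522025c : CRef := CRef.mk (Pat.mk 0x2000000030000000200000000000000000000000000000000 0x6000000060000000700000003000000030000000300000007000000070000000700000001 7 3) 0 0 (step_sound _ 97 [(rh119c9bac1cdd6c73.shift 0 2), rhbaff7ec0fcc038ba, (rhe286c75f2739cce2.shift 0 2)] (by decide +kernel))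
noncomputable def rh90a70354e6c2b206 : CRef := CRef.mk (Pat.mk 0x2000000020000001a0000000a0000000000000000 0x740000003e0000007b0000001a0000000a0000000800000008 7 7) 0 0 (step_sound _ 162 [rh163fc6ac2326ae0e, (rh2f68792b6b779e96.shift 1 2)] (by decide +kernel))
noncomputable def rhaa90532b14e903cb : CRef := CRef.mk (Pat.mk 0x60000000200000002000000120000001a0000001200000000000000000000000000000000 0x1e0000001b0000001b0000001a0000001a0000001a00000018000000380000003800000028 7 6) 0 0 (step_sound _ 256 [rh0d1a70b3093c31d6, (rhffd04209dc8ea796.shift 0 4)] (by decide +kernel))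
noncomputable def rh5e820e151abb0e34 : CRef := CRef.mk (Pat.mk 0x400000002000000020000001200000002 0x40000000600000002000000720000003e00000077 7 7) 0 0 (step_sound _ 129 [(rh2f68792b6b779e96.shift 1 1), rh815167629469a56f] (by decide +kernel))
noncomputable def rh8ce9f3d88910f338 : CRef := CRef.mk (Pat.mk 0x2000000120000000200000002 0x5000000070000000700000007000000030000003e0000007700000002 7 7) 0 0 (step_sound _ 66 [(rh4460d1954bd8412f.shift 0 1), (rh51246ab843efda05.shift 0 1), rh5a634c360f901c77] (by decide +kernel))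
noncomputable def rh3b048514e5bc07f8 : CRef := CRef.mk (Pat.mk 0x2000000120000000200000002 0x5000000070000000700000007000000730000003e0000000700000002 7 7) 0 0 (step_sound _ 66 [(rh51246ab843efda05.shift 0 1), rh5a634c360f901c77, (rh823892b6ed161c2f.shift 0 1)] (by decide +kernel))
noncomputable def rh09191afbd71d6a2f : CRef := CRef.mk (Pat.mk 0x20000000200000002000000000000000000000000 0x50000000700000007000000070000000600000006000000060000000600000004 7 3) 0 0 (step_sound _ 193 [(rh1741680720c097b4.shift 0 3), rh4cae674e8fd8dc57, (rh7eb4a07d72ad7934.shift 0 2), (rhced6d86d2069808b.shift 1 2)] (by decide +kernel))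
noncomputable def rh18cd71f5068ef973 : CRef := CRef.mk (Pat.mk 0x160000000200000012000000020000000000000000 0x390000001f0000003a00000012000000320000003000000020 7 6) 0 0 (step_sound _ 160 [rh1be062c6dc3ea416, (rh50fbb5868c909700.shift 0 2)] (by decide +kernel))
noncomputable def rh793eb10cafbc71e3 : CRef := CRef.mk (Pat.mk 0x2000000020000000200000000000000000000000000000000 0x50000000700000007000000070000000600000003000000070000000700000004 7 3) 0 0 (step_sound _ 97 [(rh1741680720c097b4.shift 0 3), rh4cae674e8fd8dc57, rh8d8bfe45b7d5275a, (rhc4526fc8abf298b6.shift 0 1)] (by decide +kernel))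
noncomputable def rh579d22b0d0d3542a : CRef := CRef.mk (Pat.mk 0x10000000100000001200000002 0x2800000038000000380000003800000010000000380000003e0000002b 7 6) 0 0 (step_sound _ 132 [(rh1741680720c097b4.shift 3 1), (rh20e56a1196e70fcc.shift 3 0), rhbc6cd0fa58e1e9dd, (rhc4ec57a3756c3a6c.shift 3 0)] (by decide +kernel))
noncomputable def rh2dca5b13a3f7016f : CRef := CRef.mk (Pat.mk 0x800000008000000090000000100000001000000010000000000000000 0x140000001c0000001c0000000c000000090000001d0000001d000000170000000300000002 7 5) 0 0 (step_sound _ 33 [rh4090af3d4df4bf92, (rhd3458b32566d63f7.shift 0 1)] (by decide +kernel))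
noncomputable def rhcd44cb4a3552705b : CRef := CRef.mk (Pat.mk 0x800000008000000090000000100000001000000010000000000000000 0x10000000180000001800000018000000190000001d0000001d000000170000000300000002 7 5) 0 0 (step_sound _ 33 [rh89859a14f02c326a, (rhd3458b32566d63f7.shift 0 1)] (by decide +kernel))
noncomputable def rha8815eb4830abf42 : CRef := CRef.mk (Pat.mk 0x2000000020000000000000002000000000000000000000000 0x700000007000000070000000700000007000000070000000700000004 7 3) 0 0 (step_sound _ 129 [rh4cae674e8fd8dc57, (rhc4ec57a3756c3a6c.shift 0 2), (rhcab3157f7bdcba3e.shift 0 1)] (by decide +kernel))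
noncomputable def rh70e5b6cdf7cb0e2f : CRef := CRef.mk (Pat.mk 0x40000001300000002000000120000000000000000 0x20000000340000003e000000330000003a0000003a0000003800000008 7 6) 0 0 (step_sound _ 161 [rh0b75154094b6d2b7, (rh2f68792b6b779e96.shift 1 2)] (by decide +kernel))
noncomputable def rhdc9946457106490f : CRef := CRef.mk (Pat.mk 0x130000000200000012000000020000000000000000 0x3c0000001f0000003a00000012000000320000003000000020 7 6) 0 0 (step_sound _ 162 [rh1be062c6dc3ea416, (rh2f68792b6b779e96.shift 1 2)] (by decide +kernel))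
noncomputable def rh14780365a7a33774 : CRef := CRef.mk (Pat.mk 0x8000000080000000900000001000000000000000000000000 0x1000000018000000180000001b0000001f0000001c0000001c00000010 7 5) 0 0 (step_sound _ 99 [(rh6c59ce14113da07f.shift 3 1), (rh8d8bfe45b7d5275a.shift 2 0), (rhbf404de0ef1b873d.shift 0 1), (rhcab3157f7bdcba3e.shift 2 1), (rhee0e688672f67a87.shift 0 2)] (by decide +kernel))
noncomputable def rh31970b015b3bb5ea : CRef := CRef.mk (Pat.mk 0x6000000130000001000000010000000020000000000000000 0x200000003e0000003300000010000000100000003e0000003800000020 7 6) 0 0 (step_sound _ 196 [(rh361cc68994bd8a63.shift 0 5), (rhb93294096953f793.shift 1 0)] (by decide +kernel))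
noncomputable def rh2310964b2a5733bc : CRef := CRef.mk (Pat.mk 0x600000013000000100000001000000000 0x2800000038000000380000001e00000013000000300000003000000020 7 6) 0 0 (step_sound _ 132 [(rh20e56a1196e70fcc.shift 3 0), (rh361cc68994bd8a63.shift 0 3)] (by decide +kernel))
noncomputable def rhbde63476f225e8e1 : CRef := CRef.mk (Pat.mk 0x40000001300000012000000120000000200000000 0x240000003e0000003300000012000000360000001e00000008 7 6) 0 0 (step_sound _ 161 [rh10ab67654ace9693, (rh2f68792b6b779e96.shift 1 2)] (by decide +kernel))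
noncomputable def rha9537659c22b88f5 : CRef := CRef.mk (Pat.mk 0x600000003000000020000000200000000 0x190000001f0000001f0000000e0000000600000004 7 5) 0 0 (step_sound _ 128 [rh1862e488ae703781, (rh50fbb5868c909700.shift 0 1)] (by decide +kernel))
noncomputable def rh6492884ca10cb14f : CRef := CRef.mk (Pat.mk 0x18000000130000001000000010 0x1e0000000fe000000fb0000001000000010 7 9) 0 0 (step_sound _ 98 [(rh6ac98ce2730a5712.shift 2 0), (rhca9569cc80abfe76.shift 0 2)] (by decide +kernel))
noncomputable def rh6155e415fa9b9a49 : CRef := CRef.mk (Pat.mk 0x800000008000000080000000100000001000000010000000200000000 0x40000000c0000000c0000000c0000001a0000001f0000001d000000150000000300000002 7 5) 0 0 (step_sound _ 32 [(rh2ae4d641ca8d1b0c.shift 0 1), rh55afc6a59410cf00] (by decide +kernel))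
noncomputable def rhe3f21d896db8758a : CRef := CRef.mk (Pat.mk 0x8000000080000000800000001000000000000000000000000 0xc0000001c0000001c000000180000001f0000001c0000001c00000010 7 5) 0 0 (step_sound _ 99 [(rh313d96db856d4bca.shift 0 2), (rh4cae674e8fd8dc57.shift 2 0), (rh8d8bfe45b7d5275a.shift 2 0), (rhc4526fc8abf298b6.shift 2 1)] (by decide +kernel))
noncomputable def rhd08ca0bd9b0d0643 : CRef := CRef.mk (Pat.mk 0x1300000012000000120000000200000000 0x340000001f0000001a0000003a0000003e00000008 7 6) 0 0 (step_sound _ 130 [(rh2f68792b6b779e96.shift 1 1), rhb67df7084eb6b0ac] (by decide +kernel))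
noncomputable def rh671d5effd0ecd882 : CRef := CRef.mk (Pat.mk 0x130000001200000012000000020000000000000000 0xc0000001f0000001a000000120000003a0000003800000028 7 6) 0 0 (step_sound _ 162 [rh235deda90e08f6c5, (rh2f68792b6b779e96.shift 1 2)] (by decide +kernel))
noncomputable def rh149b55ceb5403db5 : CRef := CRef.mk (Pat.mk 0x800000008000000080000000900000000 0x1000000018000000180000001c000000ff00000074 7 8) 0 0 (step_sound _ 34 [(rh932754581e0f4330.shift 2 0), rh9b0bf9e153e28aba] (by decide +kernel))
noncomputable def rhef75447a85865af4 : CRef := CRef.mk (Pat.mk 0x700000002000000020000000200000000 0x380000001f0000003f0000000e0000000700000005 7 6) 0 0 (step_sound _ 34 [(rh55afc6a59410cf00.shift 1 0), rh6a5c7933344b5d99] (by decide +kernel))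
noncomputable def rh892c38a1dbdd6b10 : CRef := CRef.mk (Pat.mk 0x200000002000000020000000200000000 0x200000002000000030000000300000007000000070000000700000003 7 3) 0 0 (step_sound _ 128 [(rh50fbb5868c909700.shift 0 1), rhd82de6c0a48ea27d] (by decide +kernel))
noncomputable def rhfee66d7ba2a729b5 : CRef := CRef.mk (Pat.mk 0x2000000120000000200000002 0x5000000070000000700000007000000730000003e0000007700000002 7 7) 0 0 (step_sound _ 66 [(rh185c6e3748bd1404.shift 0 1), rh5a634c360f901c77] (by decide +kernel))
noncomputable def rhf6333235212b1181 : CRef := CRef.mk (Pat.mk 0x2000000020000001e00000002 0x1d0000001f0000003a0000001e00000032 7 6) 0 0 (step_sound _ 4 [(rhe25b0a99195a5d59.shift 1 0), rhe302078265218a3d] (by decide +kernel))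
noncomputable def rh9a00a23f3821b86d : CRef := CRef.mk (Pat.mk 0x700000000000000180000000200000000 0x380000001f00000038000000780000001f00000008 7 7) 0 0 (step_sound _ 131 [(rh3fc3a7fb6866dcd4.shift 0 3), (rh462e38951f77e0b1.shift 0 1), (rh501c78500e3bb6f5.shift 0 1), (rhb701899451b33183.shift 0 1), (rhccb8c10e88567c4c.shift 0 1), rhe99ba229c1c454c7] (by decide +kernel))
noncomputable def rh3c7ef217a898e7c2 : CRef := CRef.mk (Pat.mk 0x6000000020000001a00000002 0x190000001f0000007a0000003e00000076 7 7) 0 0 (step_sound _ 96 [rh50fbb5868c909700, rhd9afdadc14b783df] (by decide +kernel))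
noncomputable def rh5cb09c451881ac9f : CRef := CRef.mk (Pat.mk 0x400000002000000020000001200000002 0x40000000600000002000000720000003e00000077 7 7) 0 0 (step_sound _ 129 [(rh2f68792b6b779e96.shift 1 1), rheabc8f856d22bbf7] (by decide +kernel))
noncomputable def rhecaeb643623b1174 : CRef := CRef.mk (Pat.mk 0x100000002000000020000001200000002 0x10000000300000002000000720000003e00000077 7 7) 0 0 (step_sound _ 129 [(rh50fbb5868c909700.shift 0 1), rheabc8f856d22bbf7] (by decide +kernel))
noncomputable def rh42d167e327e082e6 : CRef := CRef.mk (Pat.mk 0x1e0000000000000000000000070000000000000000 0x800000018000000380000001e00000038000000380000003f0000003800000020 7 6) 0 0 (step_sound _ 132 [(rhe25b0a99195a5d59.shift 1 4), rhe8357d4ba109c381] (by decide +kernel))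
noncomputable def rh6dac1d918c816f37 : CRef := CRef.mk (Pat.mk 0x400000007000000050000000100000000 0xc0000000c0000000c00000006000000070000000d0000000d0000000d 7 4) 0 0 (step_sound _ 129 [(rh4ee84d7f73540b6b.shift 1 0), rh71222050f2c63a3a] (by decide +kernel))
noncomputable def rhe6aaf710a3a25a5a : CRef := CRef.mk (Pat.mk 0x100000001e0000000000000000 0x280000003800000038000000100000001f0000003800000008 7 6) 0 0 (step_sound _ 36 [rhe100d2fd6058bfe1, (rhe25b0a99195a5d59.shift 1 1)] (by decide +kernel))
noncomputable def rhfbfd771acd5f7337 : CRef := CRef.mk (Pat.mk 0x3000000020000000e00000000000000080000000400000000 0x1b0000007e0000000f00000078000000180000001c00000014 7 7) 0 0 (step_sound _ 99 [rh35b4acdc227f84f5, (rha3c02ab1a397c44e.shift 2 0), (rhc1810b87469274ec.shift 0 1)] (by decide +kernel))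
noncomputable def rh25013a4d2a52900f : CRef := CRef.mk (Pat.mk 0x1c0000000100000010000000000000000000000000 0x80000001e0000003300000010000000380000003800000028 7 6) 0 0 (step_sound _ 161 [(rh33d3f1ba39b8bd00.shift 1 0), (rh80fcd6d0a18cb2dd.shift 0 4)] (by decide +kernel))
noncomputable def rh727c52b03938cff2 : CRef := CRef.mk (Pat.mk 0x1e0000000200000002000000040000000000000000 0x700000003e0000007200000002000000070000000700000001 7 7) 0 0 (step_sound _ 65 [rh4b15ccc2ccf4865c, (rh55afc6a59410cf00.shift 1 1)] (by decide +kernel))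
noncomputable def rh83ca8c5646f38cc4 : CRef := CRef.mk (Pat.mk 0xe0000000200000002000000060000000100000000 0x8000000380000003f0000007a0000001a0000001e0000001300000001 7 7) 0 0 (step_sound _ 132 [(rh2e55065c211d34ed.shift 0 2), rh5b95fd2252035401, (rh71efda916732b25a.shift 0 4), rh9ce8b780a638052a] (by decide +kernel))
noncomputable def rh53824044e91ae9ec : CRef := CRef.mk (Pat.mk 0xf00000002000000020000000c00000000 0x180000000f0000001a000000fa0000007f000000f3 7 8) 0 0 (step_sound _ 99 [rh57b34333248453b1, (rhe25b0a99195a5d59.shift 0 3)] (by decide +kernel))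
noncomputable def rh6ee3d32a195f1a68 : CRef := CRef.mk (Pat.mk 0x10000000100000001000000010 0x2f0000007e000000ff0000001000000010 7 8) 0 0 (step_sound _ 99 [rh3e93cca6a6ef2dc1, (rh50fbb5868c909700.shift 3 0)] (by decide +kernel))
noncomputable def rhe071f2d8352e9c5f : CRef := CRef.mk (Pat.mk 0x2000000020000000200000002 0x100000007000000070000000700000003000000030000000300000002 7 3) 0 0 (step_sound _ 129 [rh3ca48e2a6d60153d, rh7054db60a5a4b771, (rhc85cc95794737cf7.shift 0 1), (rhe01cfd8f0577defd.shift 0 1)] (by decide +kernel))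
noncomputable def rh980ea2edeb26a840 : CRef := CRef.mk (Pat.mk 0x1000000010000000100000003000000000 0x100000001000000010000000770000003e0000000f 7 7) 0 0 (step_sound _ 69 [(rh2145e1d24b96a57e.shift 4 1), rh91a2298d1796b84e] (by decide +kernel))
noncomputable def rh2d62943ab0c5b86e : CRef := CRef.mk (Pat.mk 0x100000003800000000 0x1ff000000fe000001c7 7 9) 0 0 (step_sound _ 34 [(rh45f730bcf36fcf64.shift 1 0), rh775ca1963e850b80, (rhec46bd5500c722c9.shift 1 1)] (by decide +kernel))
noncomputable def rh198b4d03be6df374 : CRef := CRef.mk (Pat.mk 0x800000008000000080000000800000008 0x140000001c0000001c0000000c000000180000007c0000001f0000001c00000008 7 7) 0 0 (step_sound _ 100 [(rh2f68792b6b779e96.shift 3 0), (rhd45a6b92c1b7bdf5.shift 0 1)] (by decide +kernel))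
noncomputable def rh84a3846b362970e2 : CRef := CRef.mk (Pat.mk 0x180000000a0000000000000008 0xf70000007e000000eb0000000800000008 7 8) 0 0 (step_sound _ 98 [rh1be51d055abc85b1, rh52f3c49a784e737b, (rh6cc90b92cddb9f0d.shift 0 2), (rhd1f9989d6034576a.shift 2 0)] (by decide +kernel))
noncomputable def rhfbda9708bcc1b53b : CRef := CRef.mk (Pat.mk 0x8000000100000001e00000010000000000000000000000000 0x10000000180000001b0000001e00000018000000380000003000000030 7 6) 0 0 (step_sound _ 68 [rh3647b3883113e6f4, (rhffd04209dc8ea796.shift 3 2)] (by decide +kernel))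
noncomputable def rh15322aa51e61b5a2 : CRef := CRef.mk (Pat.mk 0x8000000020000001e0000000400000000 0x1e0000001f0000003a0000001e0000000c00000008 7 6) 0 0 (step_sound _ 99 [(rh5c5e593799055d58.shift 2 1), rhe0f138f850aa1df6] (by decide +kernel))
noncomputable def rh6f509c88e1c24375 : CRef := CRef.mk (Pat.mk 0xf000000010000000000000000 0xc0000001c0000000f0000001f0000001c0000001c 7 5) 0 0 (step_sound _ 67 [rh39f1381c08ac239b, (rhe25b0a99195a5d59.shift 0 2)] (by decide +kernel))
noncomputable def rhdd13b3ad413ab7c2 : CRef := CRef.mk (Pat.mk 0x3800000010000000500000004000000000 0xc7000000ff0000007e000000f0000000c000000080 7 8) 0 0 (step_sound _ 99 [(rh126557da767e56cc.shift 1 2), rh44153a3ae3933d6c, (rh4dc133ee0ba1420a.shift 1 3)] (by decide +kernel))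
noncomputable def rhe98b16e026d795ad : CRef := CRef.mk (Pat.mk 0x800000008000000080000003800000028 0x2000000028000000f8000000ff0000003f0000003800000028 7 8) 0 0 (step_sound _ 68 [(rh2145e1d24b96a57e.shift 3 1), rh999cda61a8dbd098] (by decide +kernel))
noncomputable def rh7a38aa8d9605e9d8 : CRef := CRef.mk (Pat.mk 0x2000000020000000a00000002 0x4000000070000000700000003000000070000001e00000003 7 5) 0 0 (step_sound _ 128 [rhbc4f8ebcf5492090, rhffd04209dc8ea796] (by decide +kernel))
noncomputable def rhd9d7e0e968eeee4a : CRef := CRef.mk (Pat.mk 0x100000002000000020000000a0000000a00000000 0x10000001b0000001e0000001f0000007e0000001b00000011 7 7) 0 0 (step_sound _ 32 [rh932754581e0f4330, rhe3b027f559fbf010] (by decide +kernel))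
noncomputable def rh1e6b4cbeee7f35ff : CRef := CRef.mk (Pat.mk 0x2000000020000000a00000002 0x1000000070000000700000006000000070000001e00000003 7 5) 0 0 (step_sound _ 130 [(rhbaefcd01e0a8bca3.shift 1 0), rhbb13a8986bf3641e] (by decide +kernel))
noncomputable def rh36bc300b7ee15d12 : CRef := CRef.mk (Pat.mk 0x4000000060000001e0000000800000000 0x1a0000003b0000003e0000001e0000001e0000003800000010 7 6) 0 0 (step_sound _ 36 [(rhe25b0a99195a5d59.shift 1 1), rhe5f06f945d7ae178] (by decide +kernel))
noncomputable def rh27d677e5376c9894 : CRef := CRef.mk (Pat.mk 0x40000001e00000010 0x3800000038000000380000003e0000001f00000010 7 6) 0 0 (step_sound _ 68 [(rh33e738c4ed385b9f.shift 1 1), rhfeee64f8c5865b9c] (by decide +kernel))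
noncomputable def rh5d782cc7445db2bb : CRef := CRef.mk (Pat.mk 0xe00000004000000140000001400000000 0x300000007f0000003e000000340000003600000022 7 7) 0 0 (step_sound _ 33 [(rh932754581e0f4330.shift 1 0), rhae8208cac26a29fc] (by decide +kernel))
noncomputable def rh5eb1631a649f152d : CRef := CRef.mk (Pat.mk 0x70000000200000008000000080 0x18e000001fe000001f70000008000000080 7 9) 0 0 (step_sound _ 71 [(rh615d2cd5c799b5dc.shift 0 2), (rheb90acdf362e49d3.shift 4 0)] (by decide +kernel))
noncomputable def rh5566a532e71d371e : CRef := CRef.mk (Pat.mk 0x2000000020000000a0000000a 0x4000000070000000700000003000000070000000f0000001a 7 5) 0 0 (step_sound _ 128 [rhb78743b183109b0a, rhffd04209dc8ea796] (by decide +kernel))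
noncomputable def rh4f8dccb4319ca5c2 : CRef := CRef.mk (Pat.mk 0x2000000020000000a0000000a 0x1000000070000000700000006000000070000000f0000001a 7 5) 0 0 (step_sound _ 130 [rh6ce41048fbc73320, (rhbaefcd01e0a8bca3.shift 1 0)] (by decide +kernel))
noncomputable def rhe0bcc5c91a66a0e5 : CRef := CRef.mk (Pat.mk 0x14000000300000001400000000 0x3f0000003e00000016000000340000003400000020 7 6) 0 0 (step_sound _ 132 [(rhd4b4beefcd67f51e.shift 4 0), (rhea4ef8cbb178c0f7.shift 0 1)] (by decide +kernel))
noncomputable def rha9871193becf60de : CRef := CRef.mk (Pat.mk 0x4000000050000000400000004 0x7a0000003e000000770000000400000004 7 7) 0 0 (step_sound _ 97 [(rh50fbb5868c909700.shift 1 0), rhf37ec18cbcf87fc9] (by decide +kernel))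
noncomputable def rh0e6ae18a8429c81e : CRef := CRef.mk (Pat.mk 0xf00000000000000000000000000000000 0xc0000000c0000001c0000000f0000001c0000001c0000001c00000014 7 5) 0 0 (step_sound _ 99 [rh32d6ffa39281fb31, (rhe25b0a99195a5d59.shift 0 3)] (by decide +kernel))
noncomputable def rh59c4d1583d5c8458 : CRef := CRef.mk (Pat.mk 0xf000000050000000000000000 0x200000002000000e60000007f000000e70000000400000004 7 8) 0 0 (step_sound _ 129 [rh1b30fad02acc208f, (rhe4909b58bb712816.shift 0 2), rhf71cb1a94bedb48c] (by decide +kernel))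
noncomputable def rh94e8f48981f449f2 : CRef := CRef.mk (Pat.mk 0x4000000000000000f00000008000000000000000000000000 0x80000000c0000001c0000000f0000000c0000001c0000001800000018 7 5) 0 0 (step_sound _ 163 [(rh33e738c4ed385b9f.shift 0 4), (rhc3121d2a1c4abeda.shift 2 0)] (by decide +kernel))
noncomputable def rha5121b9f2e8bc43f : CRef := CRef.mk (Pat.mk 0x1f00000002 0x1dc000000ff000001c6 7 9) 0 0 (step_sound _ 37 [(rh80fcd6d0a18cb2dd.shift 1 0), rhe60b7cbaea893af9] (by decide +kernel))
noncomputable def rh97f73f30335f1fac : CRef := CRef.mk (Pat.mk 0x10000000060000001c0000000800000000 0x20000001f0000001e000000360000001c0000007800000020 7 7) 0 0 (step_sound _ 100 [(rh5c5e593799055d58.shift 3 1), rh8a46e4c06823543f] (by decide +kernel))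
noncomputable def rha6864009d57c1d37 : CRef := CRef.mk (Pat.mk 0x400000000000000070000000200000000 0xe0000000f0000003c000000070000001e0000000c 7 6) 0 0 (step_sound _ 98 [rh2e2245e92d55fb3a, (rh5c5e593799055d58.shift 1 1)] (by decide +kernel))
noncomputable def rh5bc9c4ecd5ded39d : CRef := CRef.mk (Pat.mk 0x20000000040000003800000010 0x40000006e0000007c0000001f0000003800000010 7 7) 0 0 (step_sound _ 67 [rh376b08d695d5e724, (rh7dc4d4070a7f1d57.shift 1 0), (rhc02b3aee7ab87ee1.shift 0 1)] (by decide +kernel))
noncomputable def rh2cbbcff545323bac : CRef := CRef.mk (Pat.mk 0x2000000004000000380000001000000000 0x480000007c0000003f00000038000000f000000040 7 8) 0 0 (step_sound _ 99 [(rh376b08d695d5e724.shift 0 1), (rh6f754c6cd41bc177.shift 2 0), (rhc02b3aee7ab87ee1.shift 0 2)] (by decide +kernel))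
noncomputable def rh7d217c7ad9dfa1fb : CRef := CRef.mk (Pat.mk 0x10000000f0000000400000000 0x1c0000001c0000001f0000000f0000001c00000008 7 5) 0 0 (step_sound _ 99 [(rh33e738c4ed385b9f.shift 0 2), rh4ec520720b14dd94] (by decide +kernel))
noncomputable def rh5b328bd357e5dcc3 : CRef := CRef.mk (Pat.mk 0x10000000020000001c0000000800000000 0x1c0000001e0000007f0000001c0000007800000030 7 7) 0 0 (step_sound _ 100 [(rh5c5e593799055d58.shift 3 1), rhf3b0bfa7bbc618fd] (by decide +kernel))
noncomputable def rha715d46af44d8c8f : CRef := CRef.mk (Pat.mk 0x180000000a000000180000000800000000 0xe40000007e000000fb000000180000001800000010 7 8) 0 0 (step_sound _ 130 [(rh50fbb5868c909700.shift 2 1), rhe12725b6cddb7872] (by decide +kernel))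
noncomputable def rhc07fd72949128a6d : CRef := CRef.mk (Pat.mk 0x4000000140000001400000000 0x400000004000001ce000000fe000001f700000002 7 9) 0 0 (step_sound _ 67 [(rhe3f612f8f5dcfdf1.shift 1 1), rhf4352fa3d803eb1c] (by decide +kernel))
noncomputable def rha6411bb6b99e9045 : CRef := CRef.mk (Pat.mk 0x8000000180000003800000020 0x6000000060000001ff000000fc0000003800000020 7 9) 0 0 (step_sound _ 69 [(rh7b1f2bd04e3db55f.shift 3 0), rh990423569c72ea1f, (rhb762f327c85d41a0.shift 2 1)] (by decide +kernel))
noncomputable def rhe346c1ec33f0ee92 : CRef := CRef.mk (Pat.mk 0x200000002000000060000000200000000 0x50000000700000007000000030000000300000007000000060000000300000001 7 3) 0 0 (step_sound _ 32 [(rh8aa0f211686350a1.shift 0 1), rh932754581e0f4330] (by decide +kernel))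
noncomputable def rhdecfea980d8dd8aa : CRef := CRef.mk (Pat.mk 0x20000000e0000000a 0x14000000340000003f0000003f0000000a 7 6) 0 0 (step_sound _ 36 [(rh3244c3cc8379b070.shift 0 1), rhcdf73cadbdb48da9] (by decide +kernel))
noncomputable def rheca94bcae192303b : CRef := CRef.mk (Pat.mk 0x3000000018 0xe7000000ff0000001c 7 8) 0 0 (step_sound _ 38 [(rh18965a982d73c794.shift 3 0), rhfa6c5e7a888a0cd1] (by decide +kernel))
noncomputable def rh0cb0d0c249175782 : CRef := CRef.mk (Pat.mk 0x20000000e0000000a0 0x10000000100000003f000000fe000001ae 7 9) 0 0 (step_sound _ 36 [(rhe25b0a99195a5d59.shift 4 0), rhe9bbe17dae195b2d] (by decide +kernel))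
noncomputable def rhdbb53fe115f16a48 : CRef := CRef.mk (Pat.mk 0xe0000000400000000000000020 0x1f000001fe000000ff0000002000000020 7 9) 0 0 (step_sound _ 100 [(rh12a4aa43a438d841.shift 3 0), (rh554009a2f490582e.shift 0 2), (rh775ca1963e850b80.shift 2 2), (rha0ae8adeb1dbcf8d.shift 1 2)] (by decide +kernel))
noncomputable def rh6e36c1a5a4284f3a : CRef := CRef.mk (Pat.mk 0x70000000200000018000000000 0x18e000000fe000001bf0000018000000100 7 9) 0 0 (step_sound _ 103 [(rh462e38951f77e0b1.shift 4 0), (rh7c446a5779c6be66.shift 0 2)] (by decide +kernel))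
noncomputable def rh36cc26a12291dbf3 : CRef := CRef.mk (Pat.mk 0x400000004000000340000001400000000 0x1a0000001f0000003e000000f40000003600000022 7 8) 0 0 (step_sound _ 129 [(rh50fbb5868c909700.shift 1 1), rha3ca31245c50bdd9] (by decide +kernel))
noncomputable def rhabc91dc4a3fac566 : CRef := CRef.mk (Pat.mk 0x200000002000000020000001a00000002 0x30000000300000007000000060000001f0000007a00000002 7 7) 0 0 (step_sound _ 160 [rha74ca15d7d50da74, (rhffd04209dc8ea796.shift 0 1)] (by decide +kernel))
noncomputable def rh56e03f4688a41d68 : CRef := CRef.mk (Pat.mk 0xe0000000a0 0xe000000fe000001bf 7 9) 0 0 (step_sound _ 36 [rh7c446a5779c6be66, (rhe25b0a99195a5d59.shift 4 0)] (by decide +kernel))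
noncomputable def rh8d34b33cf981803c : CRef := CRef.mk (Pat.mk 0xb0000000a0 0xe000000fe000001bf 7 9) 0 0 (step_sound _ 38 [rh7c446a5779c6be66, (rhe25b0a99195a5d59.shift 4 0)] (by decide +kernel))
noncomputable def rh44b38d578e306242 : CRef := CRef.mk (Pat.mk 0xa0000000a0000001800000008 0x170000001e0000000f0000000f0000001900000008 7 5) 0 0 (step_sound _ 130 [(rh64d13e30b1434ce1.shift 0 1), (rhffd04209dc8ea796.shift 2 0)] (by decide +kernel))
noncomputable def rh497faf567949d82c : CRef := CRef.mk (Pat.mk 0x1000000010000000d00000005000000000 0x6f0000007e000000f7000000d0000000d000000080 7 8) 0 0 (step_sound _ 131 [(rh50fbb5868c909700.shift 3 1), rhf6efddc07831bc81] (by decide +kernel))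
noncomputable def rhcdc77637d67b71ee : CRef := CRef.mk (Pat.mk 0x80000000800000008000000000000000800000000 0x140000001c0000001c000000780000001f0000000c0000000c0000000c0000000c00000004 7 7) 0 0 (step_sound _ 195 [(rh193da7fc9e1674f1.shift 2 2), (rh20966da26a1c2ae8.shift 2 2), (rh60d8335b5918d2b0.shift 0 1), (rh9326d3a429a5f883.shift 2 0), (rh9e9bd7b29e46297f.shift 2 0)] (by decide +kernel))
noncomputable def rhd104ee122c1ef622 : CRef := CRef.mk (Pat.mk 0x1800000010000000100000001000000000 0x270000007e0000007f000000180000001800000008 7 7) 0 0 (step_sound _ 133 [(rh2f68792b6b779e96.shift 4 1), rh71ab08d7ee9301e4] (by decide +kernel))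
noncomputable def rh2a92aa7913d171f8 : CRef := CRef.mk (Pat.mk 0x20000000100000001000000010 0x2f000000fe000000ff0000001000000010 7 8) 0 0 (step_sound _ 100 [(rh2f68792b6b779e96.shift 4 0), rh79513ce3843936b9] (by decide +kernel))
noncomputable def rh3b7e17c18b914ce3 : CRef := CRef.mk (Pat.mk 0x10000000100000001000000010 0x2f000000fe000000ff0000001000000010 7 8) 0 0 (step_sound _ 101 [(rh2f68792b6b779e96.shift 4 0), rh79513ce3843936b9] (by decide +kernel))
noncomputable def rh2dce3db23f940f6f : CRef := CRef.mk (Pat.mk 0x80000000800000008000000600000000800000000 0x100000001c0000001c0000000c000000380000007f000001ec0000000c00000004 7 9) 0 0 (step_sound _ 195 [(rh1abbfc1b610408c3.shift 0 2), (rh449b125e432019b6.shift 2 0), (rheebb48a03a3eec5a.shift 2 2)] (by decide +kernel))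
noncomputable def rhf818473beb431028 : CRef := CRef.mk (Pat.mk 0x10000000100000007000000010000000000000000 0x50000001d0000001f0000001f0000001a00000018 7 5) 0 0 (step_sound _ 65 [rh18a8efa221e72e64, (rh55afc6a59410cf00.shift 0 1)] (by decide +kernel))
noncomputable def rh54c1c23e7f82c3d4 : CRef := CRef.mk (Pat.mk 0xf00000000000000000000000000000000 0xc0000000c0000001c0000000f0000001c0000001c0000001c00000014 7 5) 0 0 (step_sound _ 163 [(rh33e738c4ed385b9f.shift 0 4), rh718ce84867c4bc47] (by decide +kernel))
noncomputable def rh5ac30fbd88f4eca3 : CRef := CRef.mk (Pat.mk 0x80000000a0000001800000008 0x40000001c0000001c0000001c0000000c0000000f0000001800000008 7 5) 0 0 (step_sound _ 66 [(rhb739f4f82bb681b4.shift 0 1), (rhca9122a6bf90113c.shift 2 0)] (by decide +kernel))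
noncomputable def rh884a35a1fc1cc427 : CRef := CRef.mk (Pat.mk 0x800000020000000600000002000000000 0x4000000070000000770000003e00000067000000600000006000000040 7 7) 0 0 (step_sound _ 133 [(rh47cc8c896ef8b20e.shift 0 1), (rh64bc0dab78a08b48.shift 4 1), (rhd4b4beefcd67f51e.shift 5 0)] (by decide +kernel))
noncomputable def rh1f57c138b7baef21 : CRef := CRef.mk (Pat.mk 0x1000000010000000c00000000800000008 0x770000007e000000cf0000000c00000008 7 8) 0 0 (step_sound _ 99 [(rh04253f50b6dd0619.shift 3 0), rh17d72857cb19cd62] (by decide +kernel))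
noncomputable def rh5251dfeead6b371c : CRef := CRef.mk (Pat.mk 0x100000003800000000000000080000000000000000 0x7f0000003e000000070000000e0000000e00000002 7 7) 0 0 (step_sound _ 130 [(rh272de0190cd0d37d.shift 1 0), (rh775ca1963e850b80.shift 0 3), (rhec46bd5500c722c9.shift 1 4)] (by decide +kernel))
noncomputable def rh020ca63e1c556b6b : CRef := CRef.mk (Pat.mk 0x1000000018000000c00000000800000000 0x4000000770000007e000000cf0000000800000008 7 8) 0 0 (step_sound _ 101 [rh3237f10bff6e21ec, (rhd6e447e81774439e.shift 3 2)] (by decide +kernel))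
noncomputable def rh7cc98c8c7f1f0dad : CRef := CRef.mk (Pat.mk 0xa0000001e00000000 0x10000000300000003000000030000003e0000001e00000007 7 6) 0 0 (step_sound _ 1 [rh8cb96321975a6872, rheb0810cc63b001d8] (by decide +kernel))
noncomputable def rh71a8c270fbf17f47 : CRef := CRef.mk (Pat.mk 0x10000000100000001800000000 0x28000000380000007c0000001f000000180000001800000010 7 7) 0 0 (step_sound _ 132 [rh2b856cb44e4e309f, (rh9a369cb82ea472da.shift 3 1), (rhc85cc95794737cf7.shift 3 1), (rhe62cab2ff5ad6fe2.shift 3 1)] (by decide +kernel))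
noncomputable def rh31e1bc69abf86ee5 : CRef := CRef.mk (Pat.mk 0x1e0000000000000004 0x50000000700000007000000030000001e0000000700000004 7 5) 0 0 (step_sound _ 97 [(rh3244c3cc8379b070.shift 0 2), rhcdd603b961b2a176] (by decide +kernel))
noncomputable def rh84efdb14278181c3 : CRef := CRef.mk (Pat.mk 0x1e00000000000000000000000000000000 0x600000006000000070000001e00000007000000070000000700000005 7 5) 0 0 (step_sound _ 97 [rh3f8e6f8e66beb5a9, (rheb0810cc63b001d8.shift 0 3)] (by decide +kernel))
noncomputable def rh3946191bcb73e5c1 : CRef := CRef.mk (Pat.mk 0x1800000018000000c000000010 0x800000008000000080000001f0000007f000000d400000010 7 8) 0 0 (step_sound _ 69 [rh0b4449bb610ff627, (rhd6e447e81774439e.shift 3 1)] (by decide +kernel))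
noncomputable def rh2834f7815c1fad84 : CRef := CRef.mk (Pat.mk 0x8000000080000001800000038 0x740000007c0000001f0000007e00000038 7 7) 0 0 (step_sound _ 100 [(rh2f68792b6b779e96.shift 3 0), rhe1514fa092c190c5] (by decide +kernel))
noncomputable def rh5cba910a57155187 : CRef := CRef.mk (Pat.mk 0x1800000018000000c00000004000000000 0x3000000430000007f0000007f000000c7000000c400000080 7 8) 0 0 (step_sound _ 98 [(rh55ac222c28cc04f7.shift 0 2), (rh95a11121c361dd3c.shift 2 0), (rhab2ad169e49f9c5e.shift 0 3), (rhbb7213d4724395ac.shift 0 1)] (by decide +kernel))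
noncomputable def rh435df62d93b5eb9e : CRef := CRef.mk (Pat.mk 0x20000000300000018000000010 0x2000000028000000ef000000fe000001bf00000010 7 9) 0 0 (step_sound _ 70 [rh5219cade83af4278, (rhd6e447e81774439e.shift 4 1)] (by decide +kernel))
noncomputable def rh0668c447fd80549a : CRef := CRef.mk (Pat.mk 0x1800000018000000080000000800000000 0x70000001f0000001f0000000e0000000c00000004 7 5) 0 0 (step_sound _ 130 [(rh50fbb5868c909700.shift 2 1), rh6fe3533b466b2991] (by decide +kernel))
noncomputable def rh6da80b1dde67086d : CRef := CRef.mk (Pat.mk 0x7000000020000000200000002000000000 0xf0000007e000000fe000000380000003000000010 7 8) 0 0 (step_sound _ 36 [(rh932754581e0f4330.shift 4 0), (rhee7d813acc868ebf.shift 0 1)] (by decide +kernel))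
noncomputable def rhdf583f975e2cd964 : CRef := CRef.mk (Pat.mk 0x200000012000000020000001a0000000a 0x30000000300000017000000360000001f0000001a0000000a 7 6) 0 0 (step_sound _ 68 [rh4f91499b6dced39a, (rh5c5e593799055d58.shift 3 0)] (by decide +kernel))
noncomputable def rh50374d850931dc78 : CRef := CRef.mk (Pat.mk 0x12000000020000000200000002 0xe40000007e000000e70000000200000002 7 8) 0 0 (step_sound _ 98 [(rh2f68792b6b779e96.shift 1 0), (rh97e22ee2b403a57f.shift 0 2)] (by decide +kernel))
noncomputable def rh0ffd78f1293f790a : CRef := CRef.mk (Pat.mk 0x30000000200000002000000020000001800000008 0x3e0000001f0000003a0000003e0000001f0000001800000008 7 6) 0 0 (step_sound _ 162 [(rh2f68792b6b779e96.shift 1 2), rhca8622791fda63ce] (by decide +kernel))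
noncomputable def rh22741f766cdcd070 : CRef := CRef.mk (Pat.mk 0x80000000800000008000000680000002800000000 0x18000000780000007c000001ef0000007c000000680000006800000040 7 9) 0 0 (step_sound _ 101 [(rh1a6fe6519f520918.shift 2 0), (rh67e470e54af65d94.shift 2 1), (rh7430a052bcb4bacd.shift 0 1), (rh7b29530c110a38a0.shift 2 0), (rhade18a1d5832f979.shift 2 1)] (by decide +kernel))
noncomputable def rh0ab3ff5031583986 : CRef := CRef.mk (Pat.mk 0x400000002000000020000000a0000001800000008 0x3d0000001f0000003a0000001a0000001a0000001800000008 7 6) 0 0 (step_sound _ 161 [(rh2f68792b6b779e96.shift 1 2), rh653a8b3dd9d9a8b9] (by decide +kernel))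
noncomputable def rh581fb51506dc707a : CRef := CRef.mk (Pat.mk 0x8000000280000006800000008 0x30000000780000003f0000007c0000006800000048 7 7) 0 0 (step_sound _ 132 [rh25f7222d8a562c34, (rhbaefcd01e0a8bca3.shift 3 0)] (by decide +kernel))
noncomputable def rhe5f63fdfefc20500 : CRef := CRef.mk (Pat.mk 0x20000000a0000001a0000000a00000000 0x140000001e0000003f0000001a0000001a0000001b00000001 7 6) 0 0 (step_sound _ 162 [rh67c35e90c7817e06, (rhbaefcd01e0a8bca3.shift 1 1)] (by decide +kernel))
noncomputable def rh4190ba02f7bc1b89 : CRef := CRef.mk (Pat.mk 0x10000000100000005000000050 0xef000000fe000000f70000005000000050 7 8) 0 0 (step_sound _ 101 [(rh2f68792b6b779e96.shift 4 0), rh87b452bafedd8830] (by decide +kernel))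
noncomputable def rh5171a48cdf5c647f : CRef := CRef.mk (Pat.mk 0xd0000000c0000000000000000 0x60000000600000007f0000007c0000007000000010 7 7) 0 0 (step_sound _ 68 [(rh182ca0c96ca2f548.shift 2 0), (rhab22b5b56e7b3243.shift 0 2)] (by decide +kernel))
noncomputable def rh640fd6fc0f203e7c : CRef := CRef.mk (Pat.mk 0x700000003000000030000000300000000 0x1f0000001f0000001b0000001f0000001c 7 5) 0 0 (step_sound _ 131 [(rh18965a982d73c794.shift 0 3), rh1e8ecd1aa28a9661] (by decide +kernel))
noncomputable def rh484d49066dff40f2 : CRef := CRef.mk (Pat.mk 0x70000000140000000000000004 0x787000003fe000007f60000000400000004 7 11) 0 0 (step_sound _ 103 [rh0cc5b3d2b5c1fce5, (rh3d54e7f933686048.shift 4 2), (rhd584a578337d0023.shift 4 2), (rhf3baec4a0a3dd35e.shift 4 2)] (by decide +kernel))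
noncomputable def rhfec38c76999c4da8 : CRef := CRef.mk (Pat.mk 0x10000000340000003000000014 0x40000001e7000001fe000001f60000003400000014 7 9) 0 0 (step_sound _ 101 [(rh5c5e593799055d58.shift 4 0), rhf6483a3496e885af] (by decide +kernel))
noncomputable def rh04d57a4b47ddcfef : CRef := CRef.mk (Pat.mk 0x60000000c00000008 0x30000000300000003e0000003f00000038 7 6) 0 0 (step_sound _ 36 [rh48063cd66fe129bd, (rhf48373e13d2bc128.shift 1 1)] (by decide +kernel))
noncomputable def rhbfb1fa7143f3393b : CRef := CRef.mk (Pat.mk 0xc000000180000001000000000 0xf7000000ff0000001f0000003000000020 7 8) 0 0 (step_sound _ 97 [rh820a0c32cf59c004, (rhb739f4f82bb681b4.shift 0 2)] (by decide +kernel))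
noncomputable def rh87ecef670dfc09d4 : CRef := CRef.mk (Pat.mk 0x80000000c000000180000001000000000 0x2000000020000000fc000000ff0000001f0000003000000020 7 8) 0 0 (step_sound _ 97 [rh6d332dc183066cb8, (rhb739f4f82bb681b4.shift 0 2)] (by decide +kernel))
noncomputable def rh7e90af3e3d1dcb1e : CRef := CRef.mk (Pat.mk 0x18000000180000003000000008 0xe7000000ff0000001f0000003800000008 7 8) 0 0 (step_sound _ 101 [(rh2612b4f73ba7c3b3.shift 2 2), (rh30b1045e318f0560.shift 0 2), rh5c01fabb5b815bd6] (by decide +kernel))
noncomputable def rh08e019a6b31b007f : CRef := CRef.mk (Pat.mk 0x180000001800000030 0xc0000000c0000000f000000ff0000001f00000030 7 8) 0 0 (step_sound _ 69 [(rh0f936b2c74e7b815.shift 2 0), rh1bafd0a8e7f7c30a, (rh2612b4f73ba7c3b3.shift 2 1)] (by decide +kernel))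
noncomputable def rhbbc46b4fa071ee99 : CRef := CRef.mk (Pat.mk 0x80000001e00000008 0x600000016000000370000001f0000003e00000008 7 6) 0 0 (step_sound _ 65 [rh2352f424c86d8ed6, (rh3244c3cc8379b070.shift 0 1)] (by decide +kernel))
noncomputable def rhcc8b0c730e940a7c : CRef := CRef.mk (Pat.mk 0x4000000060000000c00000008 0x12000000130000003e000000fe0000003f00000008 7 8) 0 0 (step_sound _ 36 [(rhf48373e13d2bc128.shift 1 1), rhf5cba49d9ea8fd5e] (by decide +kernel))
noncomputable def rh592e43c06db02d8f : CRef := CRef.mk (Pat.mk 0x4000000060000000c0000000800000000 0x20000001b0000003e000000360000003f0000007800000020 7 7) 0 0 (step_sound _ 68 [rh7400e4eb06ef86ae, (rhf48373e13d2bc128.shift 1 2)] (by decide +kernel))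
noncomputable def rh49d7bc861c279187 : CRef := CRef.mk (Pat.mk 0x4000000060000000c0000000800000000 0x20000003b0000003f0000003e0000003c0000007800000030 7 7) 0 0 (step_sound _ 68 [rhaedbfd33bdf5c35c, (rhf48373e13d2bc128.shift 1 2)] (by decide +kernel))
noncomputable def rh95b602ffa0659f64 : CRef := CRef.mk (Pat.mk 0x20000003200000038000000100000000000000000 0x10000002300000023000000330000003f000000170000000700000005 7 6) 0 0 (step_sound _ 165 [(rh5c5e593799055d58.shift 4 2), rh6d9b0fe6b9052f09] (by decide +kernel))
noncomputable def rh3e9d6a116a033149 : CRef := CRef.mk (Pat.mk 0x18000000180000003000000020 0x20000000e7000000ff000000f80000003000000020 7 8) 0 0 (step_sound _ 98 [(rh23426a3c71018ba6.shift 2 0), (rha14478d91faf3ae3.shift 0 2), (rhad5d8fc3675c15dd.shift 0 2)] (by decide +kernel))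
noncomputable def rhad8461ca531eef8b : CRef := CRef.mk (Pat.mk 0xc0000001800000014 0x2000000e7000000ff0000001f00000034 7 8) 0 0 (step_sound _ 65 [(rhb739f4f82bb681b4.shift 0 1), rhc2e8fbd03da3fbc0] (by decide +kernel))
noncomputable def rh2e7743a0acb8be76 : CRef := CRef.mk (Pat.mk 0x8000000000000000c0000001800000014 0x380000003a000000f3000000ff0000001f00000034 7 8) 0 0 (step_sound _ 65 [(rhb739f4f82bb681b4.shift 0 1), rhe9d8eb3627931ab4] (by decide +kernel))
noncomputable def rh96926c81573973d1 : CRef := CRef.mk (Pat.mk 0x80000001c000000180000001400000000 0x30000000370000007f0000001e0000001f0000003400000020 7 7) 0 0 (step_sound _ 132 [rh2168ac475500b457, (rh712526e472efe489.shift 2 1), (rhf13f8bf34654c2fd.shift 0 1), (rhf9d36e158778ce35.shift 1 3)] (by decide +kernel))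
noncomputable def rh82dcc251ed481fb7 : CRef := CRef.mk (Pat.mk 0x80000000c000000180000001400000000 0x10000000330000003f0000003f0000001f0000003400000020 7 6) 0 0 (step_sound _ 97 [rh10c8e318484dc850, (rhb739f4f82bb681b4.shift 0 2)] (by decide +kernel))
noncomputable def rhe5380afdb34c7831 : CRef := CRef.mk (Pat.mk 0x100000001c0000000200000004 0x50000000700000007000000330000001e0000000600000004 7 6) 0 0 (step_sound _ 65 [(rh33e738c4ed385b9f.shift 1 2), rhbd7eac49f5f61dc9] (by decide +kernel))
noncomputable def rh617d801057da5ed4 : CRef := CRef.mk (Pat.mk 0x2000000004000000380000001000000000 0x480000007c0000003f00000038000000f000000040 7 8) 0 0 (step_sound _ 99 [(rh328d79551216c3a2.shift 0 1), (rh6f754c6cd41bc177.shift 2 0), (rhc02b3aee7ab87ee1.shift 0 2)] (by decide +kernel))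
noncomputable def rhc6806e95e63b5522 : CRef := CRef.mk (Pat.mk 0x30000000a000000180000000800000000 0x140000001c0000001c000000180000001f0000003b000000180000001800000010 7 6) 0 0 (step_sound _ 131 [(rh0d1108b7506a545a.shift 0 1), (rh0f85868eef7d22a3.shift 0 1), (rhd4b4beefcd67f51e.shift 3 0)] (by decide +kernel))
noncomputable def rhf37938d8c103633d : CRef := CRef.mk (Pat.mk 0x600000014000000000 0x8000000080000000f000000fe000001ff00000010 7 9) 0 0 (step_sound _ 68 [(rh095222b233a14ac4.shift 2 0), rh2807d2ca846dbe75, (rhba65360472489f45.shift 3 1), (rhe28dc3223a412fc9.shift 4 1)] (by decide +kernel))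
noncomputable def rh4bd687de969ed2ae : CRef := CRef.mk (Pat.mk 0xa000000020000001a0000000800000000 0x8000000ee000000ff0000001b0000001800000010 7 8) 0 0 (step_sound _ 99 [(rhb97a988fd842842d.shift 0 2), (rhd4b4beefcd67f51e.shift 3 0)] (by decide +kernel))
noncomputable def rh6c420c2fc572a8c6 : CRef := CRef.mk (Pat.mk 0xa0000000200000018000000080000000000000000 0xf80000007e000000f700000018000000380000003000000020 7 8) 0 0 (step_sound _ 164 [(rh1ba37ec4f3315245.shift 0 2), (rh8dfa78814e62a564.shift 3 0), (rhbb388591183b747a.shift 0 4), (rhbe2395328c4d2c99.shift 0 2)] (by decide +kernel))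
noncomputable def rhc0a0d3df6f4c5ac1 : CRef := CRef.mk (Pat.mk 0x2000000020000001a0000000900000000 0x1a0000007f0000003f0000001b0000001900000010 7 7) 0 0 (step_sound _ 64 [(rh5c5e593799055d58.shift 0 1), rha3ac5577c3a5727f] (by decide +kernel))
noncomputable def rhbef6119a535a3c63 : CRef := CRef.mk (Pat.mk 0x80000001800000008000000200000000000000000 0x140000001c0000001c0000001c0000001800000018000000180000003c0000001f00000004 7 6) 0 0 (step_sound _ 195 [rh1638608b4e3af5ca, (rh1741680720c097b4.shift 2 3), (rh3da62da861143b9a.shift 2 3), (rhfb9fb48a5e63ed80.shift 2 3)] (by decide +kernel))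
noncomputable def rh03c06803d1655eb6 : CRef := CRef.mk (Pat.mk 0x1e00000000000000000000000000000000 0x600000006000000070000001e00000007000000070000000700000005 7 5) 0 0 (step_sound _ 161 [rh3204b907d25dc6c5, (rh3244c3cc8379b070.shift 0 4)] (by decide +kernel))
noncomputable def rh00e474322ddc9d49 : CRef := CRef.mk (Pat.mk 0x2000000020000000e000000020 0x5e0000007e000000ff000000e000000020 7 8) 0 0 (step_sound _ 102 [(rh2f68792b6b779e96.shift 5 0), rh5422471cc7cd921e] (by decide +kernel))
noncomputable def rh2bb37096a718671d : CRef := CRef.mk (Pat.mk 0x800000008000000280000000c 0x140000001c0000001c000000180000001f0000007f000001f80000000c 7 9) 0 0 (step_sound _ 68 [(rh65883200adaecae6.shift 2 0), rh77729e3b3642c3ef, (rh7a3fcd4672601a44.shift 2 1), rha261118844bb14b9] (by decide +kernel))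
noncomputable def rh53fee6962216d26d : CRef := CRef.mk (Pat.mk 0x800000008000000180000000c 0x140000001c0000001c0000000c0000001f00000078000000180000000f 7 7) 0 0 (step_sound _ 1 [rh42351e738d6c2289, rh53b3c253cb0c65f4] (by decide +kernel))
noncomputable def rhcb71867aaceb14f4 : CRef := CRef.mk (Pat.mk 0x2000000020000000300000000 0x700000007000000070000000600000006000000060000000300000003 7 3) 0 0 (step_sound _ 129 [rh932754581e0f4330, rhae682b69deb3d960] (by decide +kernel))
noncomputable def rh27d4a07ff5c56f55 : CRef := CRef.mk (Pat.mk 0x800000008000000080000000b 0x40000001c0000001c000000180000000c0000001e0000001b 7 5) 0 0 (step_sound _ 132 [rh745690ae3bfb145d, (rhbaefcd01e0a8bca3.shift 3 0)] (by decide +kernel))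
noncomputable def rh6521c621a012ffb3 : CRef := CRef.mk (Pat.mk 0x80000002800000028 0x39f000001fe000003ef 7 10) 0 0 (step_sound _ 36 [rh2820ca9a6c4f41b4, rh6c6cc8f59caab3aa, (rhd9106766b9ff53c0.shift 2 0), (rhe3f612f8f5dcfdf1.shift 2 0)] (by decide +kernel))
noncomputable def rh8bf3b74c3ae0f483 : CRef := CRef.mk (Pat.mk 0x3800000010000000100000001000000000 0x70000003e0000007f0000001c0000001800000008 7 7) 0 0 (step_sound _ 35 [(rh932754581e0f4330.shift 3 0), (rhd4bb8652d9d84b90.shift 0 1)] (by decide +kernel))
noncomputable def rhd50e0f29ab6e99b1 : CRef := CRef.mk (Pat.mk 0x8000000280000000800000000 0xc0000000e0000007f0000007e0000000f00000004 7 7) 0 0 (step_sound _ 68 [(rh2820ca9a6c4f41b4.shift 0 1), (rh5b46ea2c8c4a4e17.shift 1 0), (rha9fbfd4bb8cf890b.shift 0 2), (rhd9106766b9ff53c0.shift 2 1)] (by decide +kernel))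
noncomputable def rh73da59e4e507606f : CRef := CRef.mk (Pat.mk 0x380000001000000070 0x7000000ff000000fe00000070 7 8) 0 0 (step_sound _ 35 [(rh2ed427353258d8dd.shift 1 0), (rhb1d8a7e321a4785e.shift 0 1), (rhc02b3aee7ab87ee1.shift 1 0)] (by decide +kernel))
noncomputable def rh6b32e345f333394d : CRef := CRef.mk (Pat.mk 0x10000000080000001c000000180000000c 0x2800000078000000ee000000fc000000180000000f 7 8) 0 0 (step_sound _ 131 [(rh2145e1d24b96a57e.shift 3 1), rhff31e365e951982f] (by decide +kernel))
noncomputable def rh48f5edfd8fe35bd1 : CRef := CRef.mk (Pat.mk 0x8000000100000003800000000 0xa0000001e000000770000003e00000007 7 7) 0 0 (step_sound _ 34 [rh592c7139d2c44767, (rhe15231563d8a9ed3.shift 1 0), (rhec46bd5500c722c9.shift 1 1), (rhedf6b6c69a16cbd5.shift 0 1)] (by decide +kernel))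
noncomputable def rhb2ac0fcdef278467 : CRef := CRef.mk (Pat.mk 0x3000000020000000e0000000800000008 0x60000001e000000130000007e0000003f0000000800000008 7 7) 0 0 (step_sound _ 100 [(rh24f2f6c861012611.shift 0 1), (rh572327e332a5add9.shift 1 0), rh6835955021d3aba9, (rh83b5fed75f19d7cc.shift 0 2)] (by decide +kernel))
noncomputable def rh02575fc56458b534 : CRef := CRef.mk (Pat.mk 0x3800000040 0xe70000007e000000c7 7 8) 0 0 (step_sound _ 38 [rh988dac8d009f9f77, (rhe25b0a99195a5d59.shift 3 0)] (by decide +kernel))
noncomputable def rhae054e77ecf261e7 : CRef := CRef.mk (Pat.mk 0x8000000080000002800000008 0x140000007c0000007f0000007c00000008 7 7) 0 0 (step_sound _ 100 [(rh2f68792b6b779e96.shift 3 0), rh43c05946097dac52] (by decide +kernel))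
noncomputable def rhab7b354cbe75fc29 : CRef := CRef.mk (Pat.mk 0x2000000020000000a00000002 0x1000000070000000700000006000000070000001f00000002 7 5) 0 0 (step_sound _ 130 [(rhbaefcd01e0a8bca3.shift 1 0), (rhfcbbf2745ad20858.shift 0 1)] (by decide +kernel))
noncomputable def rh2151463e566192bc : CRef := CRef.mk (Pat.mk 0x20000000600000002000000020000000a00000008 0x1000000130000001e0000001a0000007e0000001f00000008 7 7) 0 0 (step_sound _ 160 [rh10ee02911e5c110a, (rh50fbb5868c909700.shift 0 2)] (by decide +kernel))
noncomputable def rh27168111a952b2bc : CRef := CRef.mk (Pat.mk 0x2000000020000000a00000002 0x4000000070000000700000003000000070000001f00000002 7 5) 0 0 (step_sound _ 128 [(rh4aa30b6b1a1b55f2.shift 0 1), rhffd04209dc8ea796] (by decide +kernel))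
noncomputable def rh0b4586fb6f5fa49f : CRef := CRef.mk (Pat.mk 0x400000006000000040000000600000010 0x80000000c0000003c000000260000007c0000003f00000030 7 7) 0 0 (step_sound _ 35 [(rh60085b405ab89a28.shift 1 0), (rh73f605273a09a9d0.shift 2 1), (rh90892cdc1810d809.shift 0 1)] (by decide +kernel))
noncomputable def rh5094f5b6d91699c8 : CRef := CRef.mk (Pat.mk 0x2000000030000000a0 0x670000007e000001e7 7 9) 0 0 (step_sound _ 6 [rhd9f94664d222f011, (rhf48373e13d2bc128.shift 4 0)] (by decide +kernel))
noncomputable def rhf02683ad0a49b8a7 : CRef := CRef.mk (Pat.mk 0x30000000f00000008 0x100000001c0000001c0000001c0000001f0000000f00000008 7 5) 0 0 (step_sound _ 67 [(rh33e738c4ed385b9f.shift 0 1), rhdfe8c6387df09594] (by decide +kernel))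
noncomputable def rhab35e81108c3a48d : CRef := CRef.mk (Pat.mk 0x30000000100000001000000010 0x40000000f0000007e0000003f0000001800000018 7 7) 0 0 (step_sound _ 99 [(rh50fbb5868c909700.shift 3 0), rheca135f545528d0d] (by decide +kernel))
noncomputable def rhfa744325fd0800b5 : CRef := CRef.mk (Pat.mk 0x2000000020000000200000002 0x100000007000000070000000700000003000000030000000300000002 7 3) 0 0 (step_sound _ 129 [rh3ca48e2a6d60153d, (rhc85cc95794737cf7.shift 0 1), rhd534da25a9e1909f, (rhf515f701b82bbaa6.shift 0 1)] (by decide +kernel))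
noncomputable def rhcad19dc7f69c6641 : CRef := CRef.mk (Pat.mk 0x1e000000080000000a00000000 0xc0000000c0000001e0000003f0000003b00000010 7 6) 0 0 (step_sound _ 68 [rh005b9b98208e1201, (rhe25b0a99195a5d59.shift 1 2)] (by decide +kernel))
noncomputable def rh98f090dad8c08d60 : CRef := CRef.mk (Pat.mk 0x80000000e000000080000000a00000000 0x40000000c0000007e0000007f0000003b00000010 7 7) 0 0 (step_sound _ 130 [(rh50fbb5868c909700.shift 2 1), rh6a488e55913b8bec] (by decide +kernel))
noncomputable def rhc184a31b552c61be : CRef := CRef.mk (Pat.mk 0x4000000070000000400000004 0xa0000000e0000000e000000060000003e0000000f0000000600000004 7 6) 0 0 (step_sound _ 100 [(rh4fd54f6717f3e7ac.shift 0 2), (rh5acb6dc3b47c700e.shift 0 2), (rha45bacf169746c15.shift 1 0)] (by decide +kernel))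
noncomputable def rhabf168c3aa4c056f : CRef := CRef.mk (Pat.mk 0x700000004000000010 0x80000038f000003fe0000007f00000010 7 10) 0 0 (step_sound _ 67 [(rh88c620441a3a17ea.shift 0 1), (rh99fd05cdff5fd7c0.shift 2 1), (rh9aa138e5ed752369.shift 2 0), (rhd1d05263fabc0227.shift 1 1)] (by decide +kernel))
noncomputable def rhc97a11ddac5e7173 : CRef := CRef.mk (Pat.mk 0x3e00000012000000020000000200000000 0x600000003e00000012000000170000003e00000074 7 7) 0 0 (step_sound _ 165 [(rh33e738c4ed385b9f.shift 2 4), rhc910f9225fe461be] (by decide +kernel))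
noncomputable def rh37ef2fb3c50bbb2b : CRef := CRef.mk (Pat.mk 0x2000000020000000a0000000200000000 0x1000000070000000700000006000000060000001e0000000300000001 7 5) 0 0 (step_sound _ 162 [rh5ebc5a567ffaf164, (rhbaefcd01e0a8bca3.shift 1 1)] (by decide +kernel))
noncomputable def rh442a928923572d90 : CRef := CRef.mk (Pat.mk 0x2000000020000000a0000000200000000 0x4000000070000000700000003000000060000001e0000000300000001 7 5) 0 0 (step_sound _ 32 [(rh0d9aad02c21b2ded.shift 0 1), rh932754581e0f4330] (by decide +kernel))
noncomputable def rh58b9c71f70493c53 : CRef := CRef.mk (Pat.mk 0x2000000120000000a0000000200000000 0x600000006000000070000003e0000001e0000000300000001 7 6) 0 0 (step_sound _ 162 [rh008eb9ca590fa030, (rhbaefcd01e0a8bca3.shift 1 1)] (by decide +kernel))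
noncomputable def rhc3ab76491af8db06 : CRef := CRef.mk (Pat.mk 0x2000000120000000a0000000a00000000 0x1c0000003f0000001e0000003e000000fb00000031 7 8) 0 0 (step_sound _ 68 [rh1bcb8e92a757458a, rh5710f30ba40ee3ec, rh9eaf948f91031b60] (by decide +kernel))
noncomputable def rhc0ba9bc24f231a82 : CRef := CRef.mk (Pat.mk 0x400000004000000060000000600000000 0x80000000c0000003c0000003f0000003600000014 7 6) 0 0 (step_sound _ 131 [(rh2f68792b6b779e96.shift 2 1), rha78bd1eb589ccb77] (by decide +kernel))
noncomputable def rh7327fb624f9525c0 : CRef := CRef.mk (Pat.mk 0x90000000d00000004 0xfb0000007f0000007c 7 8) 0 0 (step_sound _ 33 [(rh33e738c4ed385b9f.shift 0 1), rh73356946dc9821bc] (by decide +kernel))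
noncomputable def rhcb208271135f1e0c : CRef := CRef.mk (Pat.mk 0x2000000120000000a0000000a00000000 0x1000000014000000ff0000007e000000ee0000000b00000001 7 8) 0 0 (step_sound _ 99 [(rh271fbbbbca267337.shift 0 2), (rh4aa40e417e65ec51.shift 0 1), (rh5394ee3082c48d83.shift 0 1), rhf4b0efdf996b8f9f, (rhfbcc9ef56fb26c14.shift 0 1)] (by decide +kernel))
noncomputable def rh8a979e617afb91f3 : CRef := CRef.mk (Pat.mk 0x600000002000000100000001800000008 0x730000003e00000073000000300000001800000008 7 7) 0 0 (step_sound _ 132 [(rh1706798966dc514f.shift 0 1), (rhee230b994cc8b773.shift 3 0)] (by decide +kernel))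
noncomputable def rh0227936f8438de9d : CRef := CRef.mk (Pat.mk 0x800000008000000180000000800000000 0x140000001c0000001c0000000c0000001f00000078000000180000000c00000004 7 7) 0 0 (step_sound _ 163 [(rh3ca48e2a6d60153d.shift 2 1), (rh5bd4bc0c2c48140c.shift 2 2), rha46aa1b0a4ad6a82, (rhba97f7f4ade5e136.shift 2 2)] (by decide +kernel))
noncomputable def rh3e7ef9750e7b3313 : CRef := CRef.mk (Pat.mk 0x300000002000000020000001e00000008 0x4000000060000001b0000001e000000360000001e00000038 7 6) 0 0 (step_sound _ 161 [rh77f2622c01fa4f19, (rhd3458b32566d63f7.shift 1 1)] (by decide +kernel))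
noncomputable def rh88347663ed478970 : CRef := CRef.mk (Pat.mk 0x10000000100000005000000050 0xef000000fe000000f70000005000000050 7 8) 0 0 (step_sound _ 101 [(rh2f68792b6b779e96.shift 4 0), rh7ef73296965dca89] (by decide +kernel))
noncomputable def rh074d919ff0ab64d2 : CRef := CRef.mk (Pat.mk 0x400000002000000020000000a00000008 0x1000000070000000700000002000000060000001f00000078 7 7) 0 0 (step_sound _ 129 [(rh2f68792b6b779e96.shift 1 1), rhfc7bbd8988f3a12f] (by decide +kernel))
noncomputable def rhc53442e1a6432bec : CRef := CRef.mk (Pat.mk 0x100000002000000020000000a00000008 0x4000000070000000700000002000000060000001f00000078 7 7) 0 0 (step_sound _ 129 [rh1a6b9e2dcaa3dfa2, (rh50fbb5868c909700.shift 0 1)] (by decide +kernel))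
noncomputable def rh3e3cf5955477b7e2 : CRef := CRef.mk (Pat.mk 0x2000000020000001e0000000800000000 0x180000003b0000003e0000001e0000003800000010 7 6) 0 0 (step_sound _ 100 [(rh33e738c4ed385b9f.shift 1 2), rhbcc8caa6032809dc] (by decide +kernel))
noncomputable def rh15b17f6271df0ca6 : CRef := CRef.mk (Pat.mk 0x7000000040 0xe70000007e000000c7 7 8) 0 0 (step_sound _ 35 [rh988dac8d009f9f77, (rhe25b0a99195a5d59.shift 3 0)] (by decide +kernel))
noncomputable def rh7e7b959b4f850690 : CRef := CRef.mk (Pat.mk 0x200000002000000020000000e00000008 0x12000000120000003a0000003e0000003f00000008 7 6) 0 0 (step_sound _ 66 [(rh2145e1d24b96a57e.shift 1 1), rh338074c23ab46efe] (by decide +kernel))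
noncomputable def rh64a0afcfb91deaaa : CRef := CRef.mk (Pat.mk 0x7000000020000000a0000000a000000000 0x18f000001fe000001ef000000a0000000b000000010 7 9) 0 0 (step_sound _ 36 [(rh932754581e0f4330.shift 4 0), (rhdca83205f85fc235.shift 0 1)] (by decide +kernel))
noncomputable def rhf09cad7dfd230418 : CRef := CRef.mk (Pat.mk 0x10000000100000007000000010 0x2f000000fe0000003e0000007000000010 7 8) 0 0 (step_sound _ 101 [rh27668036ef8cfe30, (rh2f68792b6b779e96.shift 4 0)] (by decide +kernel))
noncomputable def rh9ba90ea1dca68118 : CRef := CRef.mk (Pat.mk 0x8000000080000003800000008 0x40000000c0000001c000000180000007c0000001f0000003800000008 7 7) 0 0 (step_sound _ 66 [(rh0845c696443da834.shift 2 0), (rhc02b3aee7ab87ee1.shift 0 1), rhdf8b9aa233deec1e] (by decide +kernel))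
noncomputable def rhfd4471f6f6a80515 : CRef := CRef.mk (Pat.mk 0x3000000020000000200000002000000000 0x4e000000fe0000007f000000300000003000000010 7 8) 0 0 (step_sound _ 134 [(rh2f68792b6b779e96.shift 5 1), rh410562924614aa92] (by decide +kernel))
noncomputable def rhfb099d9d291da423 : CRef := CRef.mk (Pat.mk 0x1e0000001000000000 0x280000003800000038000000300000001f0000001800000008 7 6) 0 0 (step_sound _ 35 [(rhb739f4f82bb681b4.shift 0 1), (rhc148a8f25cdeeb08.shift 1 0)] (by decide +kernel))
noncomputable def rhaafcef250512bad1 : CRef := CRef.mk (Pat.mk 0xf000000020000000800000008 0xf00000007f000000fe0000000800000008 7 8) 0 0 (step_sound _ 67 [(rhe25b0a99195a5d59.shift 0 2), (rhf37ec18cbcf87fc9.shift 1 0)] (by decide +kernel))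
noncomputable def rh49dc6ff8ea18768c : CRef := CRef.mk (Pat.mk 0x800000008000000180000001800000000 0x40000000c0000000e0000001f0000001f00000007 7 5) 0 0 (step_sound _ 34 [rh537493fa63bde2ed, (rh932754581e0f4330.shift 2 0)] (by decide +kernel))
noncomputable def rh6f1b10261fd03287 : CRef := CRef.mk (Pat.mk 0x10000000180000001c000000000000000000000000 0x370000001f0000001f000000030000000200000002 7 6) 0 0 (step_sound _ 97 [(rh53b3c253cb0c65f4.shift 0 3), rhb12e96c3e207f19f] (by decide +kernel))
noncomputable def rh8dcfccd13eefecc7 : CRef := CRef.mk (Pat.mk 0x300000001c0000001000000040 0x1000000010000000f00000001c0000007f0000006f 7 8) 0 0 (step_sound _ 103 [(rh361cc68994bd8a63.shift 3 2), rh9d807638d325f784] (by decide +kernel))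
noncomputable def rh6c7f258014e76fe7 : CRef := CRef.mk (Pat.mk 0x1e000000000000000000000000 0x50000000700000007000000070000001e000000070000000600000006 7 5) 0 0 (step_sound _ 65 [rhcf9d132135d3ddfa, (rheb0810cc63b001d8.shift 0 2)] (by decide +kernel))
noncomputable def rh38631c5d48a280b7 : CRef := CRef.mk (Pat.mk 0x1800000010000000500000001c00000000 0x240000003f0000001f000000780000001c00000004 7 7) 0 0 (step_sound _ 67 [rh1f1f004581965fd1, (rh361cc68994bd8a63.shift 2 1)] (by decide +kernel))
noncomputable def rhe0830e77ead836a0 : CRef := CRef.mk (Pat.mk 0x1e000000000000000000000000 0x1000000070000000700000007000000070000001e000000070000000600000006 7 5) 0 0 (step_sound _ 129 [(rh3244c3cc8379b070.shift 0 3), rhe8e128cdab9358aa] (by decide +kernel))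
noncomputable def rh5df2ba46531249aa : CRef := CRef.mk (Pat.mk 0x1c000000080000002800000024 0x630000007e0000006f0000003e00000066 7 7) 0 0 (step_sound _ 101 [rh1ac654600d04c553, (rh6e0d4a5e44329c0c.shift 2 0), (rhaf9f2efc81a8312b.shift 1 2)] (by decide +kernel))
noncomputable def rh417236353fd351e6 : CRef := CRef.mk (Pat.mk 0x10000000100000003800000018 0x2e0000003e000000f70000003f00000018 7 8) 0 0 (step_sound _ 101 [(rh2f68792b6b779e96.shift 4 0), rhb09a08074a79ccdd] (by decide +kernel))
noncomputable def rhb5b485c324620942 : CRef := CRef.mk (Pat.mk 0x1e0000001600000000 0x280000003800000038000000300000001f0000001e00000008 7 6) 0 0 (step_sound _ 35 [(rh3244c3cc8379b070.shift 0 1), (rhc148a8f25cdeeb08.shift 1 0)] (by decide +kernel))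
noncomputable def rha586cec940d8a159 : CRef := CRef.mk (Pat.mk 0x18000000080000002000000020 0xd70000007e000000ef0000002000000020 7 8) 0 0 (step_sound _ 101 [(rh1a73e645d9e9563b.shift 2 0), (rh2820ca9a6c4f41b4.shift 0 2), rhcaaf3b590f0c2ed6, (rhfe223548ec4c10f4.shift 2 0)] (by decide +kernel))
noncomputable def rhaf2c4cde477923c8 : CRef := CRef.mk (Pat.mk 0x5800000040 0xe70000007e000000c7 7 8) 0 0 (step_sound _ 37 [rh15b856e33c69f807, (rhe25b0a99195a5d59.shift 3 0)] (by decide +kernel))
noncomputable def rh80f736eb38ed378c : CRef := CRef.mk (Pat.mk 0x8000000040000000c0000001c00000010 0x340000003c000000770000007f0000001c00000010 7 7) 0 0 (step_sound _ 65 [rh89033204c3ca616c, (rhb739f4f82bb681b4.shift 0 1)] (by decide +kernel))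
noncomputable def rha578d43e202977bb : CRef := CRef.mk (Pat.mk 0x2000000020000000300000002 0x400000006000000070000000300000007000000070000000700000002 7 3) 0 0 (step_sound _ 128 [(rh62290136342671f0.shift 0 1), rhffd04209dc8ea796] (by decide +kernel))
noncomputable def rhd149b1ca8d686de3 : CRef := CRef.mk (Pat.mk 0x100000003800000018 0x6000000060000007f0000003f0000001e 7 7) 0 0 (step_sound _ 2 [(rh53b3c253cb0c65f4.shift 1 0), rhbc5aa0d58952bc85] (by decide +kernel))
noncomputable def rh94c22ac998723213 : CRef := CRef.mk (Pat.mk 0x100000003800000018 0x1c0000001e000000770000003f00000018 7 7) 0 0 (step_sound _ 34 [rh34517e326ddb5b25, (rh48ab4475e89f065c.shift 1 0), rhba89ab7cb81bcc90] (by decide +kernel))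
noncomputable def rha0d95ad46a48be0b : CRef := CRef.mk (Pat.mk 0x180000001800000018 0x400000006000000ff000000ff0000001e 7 8) 0 0 (step_sound _ 37 [rh0b92932e1a9dd358, rh30b1045e318f0560, (rh4dc133ee0ba1420a.shift 1 0)] (by decide +kernel))
noncomputable def rhcc315457aa11eb51 : CRef := CRef.mk (Pat.mk 0x3c00000000000000080000000c00000000 0x30000003e000000070000001f0000000f00000001 7 6) 0 0 (step_sound _ 97 [rh7bfd0b1f6ca0954d, (rh80fcd6d0a18cb2dd.shift 1 3)] (by decide +kernel))
noncomputable def rhebbd60f51169200a : CRef := CRef.mk (Pat.mk 0x200000002000000020000000000000002 0x400000007000000070000000700000006000000060000000600000002 7 3) 0 0 (step_sound _ 33 [(rh1741680720c097b4.shift 0 1), (rh44f453b84f013105.shift 1 0), rhbdb34f420224b15e, (rhc2034d656568cc12.shift 0 1)] (by decide +kernel))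
noncomputable def rhe1b9fa042009f4b7 : CRef := CRef.mk (Pat.mk 0x10000000100000001000000010 0x2f000000fe000000ff0000001000000010 7 8) 0 0 (step_sound _ 99 [(rh50fbb5868c909700.shift 3 0), rhe4a99ebe2f7d2849] (by decide +kernel))
noncomputable def rhb255caa7439b7db0 : CRef := CRef.mk (Pat.mk 0x800000008000000080000000800000008 0x10000000180000001c0000000f0000007c0000001800000008 7 7) 0 0 (step_sound _ 164 [rhb349f7f7b6c0c222, (rhbaefcd01e0a8bca3.shift 3 1)] (by decide +kernel))
noncomputable def rh037b21d98e784ced : CRef := CRef.mk (Pat.mk 0x6000000020000000200000002000000000 0x1f0000007e000000fe000000380000003000000010 7 8) 0 0 (step_sound _ 132 [rh32dba896b2437b9f, (rh50fbb5868c909700.shift 4 1)] (by decide +kernel))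
noncomputable def rhd9902533efff65e5 : CRef := CRef.mk (Pat.mk 0x80000000c0000000c 0x1f0000001f0000007c0000000f0000000c 7 7) 0 0 (step_sound _ 99 [(rh5c5e593799055d58.shift 2 0), rh6c0545ee52ca7761] (by decide +kernel))
noncomputable def rh9025032b20cf095e : CRef := CRef.mk (Pat.mk 0x400000006000000020000000800000008 0x770000003e0000007b0000000800000008 7 7) 0 0 (step_sound _ 99 [(rh1f23471e1f37f73b.shift 0 2), (rh2613c889e411427e.shift 2 0)] (by decide +kernel))
noncomputable def rh82f3230b7edbda86 : CRef := CRef.mk (Pat.mk 0x20000000200000002000000020 0x5f000001fe000001fe0000002000000020 7 9) 0 0 (step_sound _ 100 [(rh50fbb5868c909700.shift 4 0), rhfc68626c63a22f58] (by decide +kernel))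
noncomputable def rhc8d2c5075341eb0f : CRef := CRef.mk (Pat.mk 0x180000001e0000000000000000 0x600000006000000070000001f0000001e0000000700000002 7 5) 0 0 (step_sound _ 97 [(rh3244c3cc8379b070.shift 0 2), rh7bec080ee37e9213] (by decide +kernel))
noncomputable def rhb34714b2f65f7d7d : CRef := CRef.mk (Pat.mk 0x180000001c000000040000001000000010 0x1f0000001f0000001c0000001c0000000c0000001800000010 7 5) 0 0 (step_sound _ 67 [(rh79504e3359aa3ae3.shift 0 2), (rhbe0e43a3bc50a43f.shift 3 0)] (by decide +kernel))
noncomputable def rh944de33657f45c08 : CRef := CRef.mk (Pat.mk 0x1c0000000c000000000000000000000000 0xe0000000e0000000f0000001c0000000c000000060000000600000006 7 5) 0 0 (step_sound _ 66 [(rh84d1c02a8954c6a8.shift 2 1), (rh9954101f0efffb9e.shift 1 0), (rhcb4d718fd112ac71.shift 0 2)] (by decide +kernel))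
noncomputable def rh3ae08e1a71f2acc8 : CRef := CRef.mk (Pat.mk 0x80000000c000000000000001000000010 0xff0000007e000000f80000001800000010 7 8) 0 0 (step_sound _ 100 [(rh2613c889e411427e.shift 3 0), rhd2a8b93d19ea5e8d] (by decide +kernel))
noncomputable def rh6dc0a05e5bacf185 : CRef := CRef.mk (Pat.mk 0x80000000c000000040000001000000010 0x800000008000000ff0000007e000000f40000001000000010 7 8) 0 0 (step_sound _ 100 [(rh2613c889e411427e.shift 3 0), (rhea6a4b23f7632a1b.shift 0 2)] (by decide +kernel))
noncomputable def rhb9979863ef5af40a : CRef := CRef.mk (Pat.mk 0x180000000c00000020 0x200000002000000030000001f0000003f00000034 7 6) 0 0 (step_sound _ 33 [rh0d44f139a23bc0cb, (rh53b3c253cb0c65f4.shift 0 1)] (by decide +kernel))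
noncomputable def rh01e961e130b854dc : CRef := CRef.mk (Pat.mk 0x1e000000000000000000000000 0x50000000700000007000000070000001e000000070000000600000004 7 5) 0 0 (step_sound _ 65 [rh2bb478337dc9a574, (rheb0810cc63b001d8.shift 0 2)] (by decide +kernel))
noncomputable def rha4d1a162d1dbafb5 : CRef := CRef.mk (Pat.mk 0x18000000080000002000000020 0x1df000000fe000001ef0000002000000020 7 9) 0 0 (step_sound _ 101 [(rh1a73e645d9e9563b.shift 2 0), (rh1f23471e1f37f73b.shift 2 2), rhcaaf3b590f0c2ed6, (rhfe223548ec4c10f4.shift 2 0)] (by decide +kernel))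
noncomputable def rh1c866b01e309412c : CRef := CRef.mk (Pat.mk 0x38000000100000004000000040 0xc7000000fe000000ff0000004000000040 7 8) 0 0 (step_sound _ 102 [(rh6e0d4a5e44329c0c.shift 3 0), (rhaf9f2efc81a8312b.shift 2 2), (rhbb13f9e1d387f64a.shift 0 2)] (by decide +kernel))
noncomputable def rh8e97d36ec0373735 : CRef := CRef.mk (Pat.mk 0x3c00000000000000200000002000000000 0x630000003e00000067000000600000006000000040 7 7) 0 0 (step_sound _ 97 [rh07defb2d87ef6c68, (rh80fcd6d0a18cb2dd.shift 1 3)] (by decide +kernel))
noncomputable def rh148640f070497bdb : CRef := CRef.mk (Pat.mk 0x10000000a000000020000000a0000000800000000 0x10000001b0000001e0000000b0000001e0000003800000010 7 6) 0 0 (step_sound _ 161 [(rh50fbb5868c909700.shift 0 2), rhcb6ad570d8dfdbb6] (by decide +kernel))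
noncomputable def rh58e9cfabac2588f8 : CRef := CRef.mk (Pat.mk 0xf800000020 0x18e000000fe000001b7 7 9) 0 0 (step_sound _ 7 [rh91582111bb639861, (rhe25b0a99195a5d59.shift 4 0)] (by decide +kernel))
noncomputable def rh44e9ee161b094fa7 : CRef := CRef.mk (Pat.mk 0x30000000a000000020000000a0000000200000000 0x1c0000000f0000001a0000007b0000003e0000007300000001 7 7) 0 0 (step_sound _ 162 [(rh2f68792b6b779e96.shift 1 2), rhbc5e7df2ab7afb13] (by decide +kernel))
noncomputable def rh610d34efa1e388c9 : CRef := CRef.mk (Pat.mk 0xe000000020000000a000000020000000000000000 0x80000001e0000007b0000003e000000730000003100000020 7 7) 0 0 (step_sound _ 164 [(rheb0810cc63b001d8.shift 0 4), rhfca14a4734ddf968] (by decide +kernel))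
noncomputable def rha9a823f1b3d79c28 : CRef := CRef.mk (Pat.mk 0xa000000020000000a00000002 0x3d0000001f0000001b0000000a0000000a00000002 7 6) 0 0 (step_sound _ 128 [(rh970ba958c78af444.shift 0 1), rhffd04209dc8ea796] (by decide +kernel))
noncomputable def rhc11819f263096dc9 : CRef := CRef.mk (Pat.mk 0x700000004000000060000000200000000 0x800000008000000380000001f0000003c0000000e0000003e0000003c 7 6) 0 0 (step_sound _ 131 [(rha93a5dd541ab8209.shift 0 3), (rhb730ba14aa32bdb3.shift 2 1), (rhd4d36b4007f546b1.shift 0 1), rhf5777614e90e6e75] (by decide +kernel))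
noncomputable def rhdc53e574537f7705 : CRef := CRef.mk (Pat.mk 0x1a000000020000001a0000000a0000000000000000 0x280000003a0000003a0000001a0000003b0000003100000020 7 6) 0 0 (step_sound _ 64 [(rh932754581e0f4330.shift 0 1), (rhfceef0193f945d8d.shift 3 0)] (by decide +kernel))
noncomputable def rh54ce74712cd95ab5 : CRef := CRef.mk (Pat.mk 0x1c0000000a0000000a0000001200000000 0x630000003f0000007a0000003e0000001300000001 7 7) 0 0 (step_sound _ 129 [rh97e13e5632dbd1ea, (rha03f6e28ea70fc7d.shift 0 3), (rha25c0e62bb8d55c9.shift 0 1)] (by decide +kernel))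
noncomputable def rh1ba6b08dcadec62b : CRef := CRef.mk (Pat.mk 0x30000000600000008000000000000001800000000 0x140000001e0000001b0000001e00000008000000180000001800000010 7 5) 0 0 (step_sound _ 131 [rh5cdda1bdaf151aee, (rhf48373e13d2bc128.shift 0 4)] (by decide +kernel))
noncomputable def rhe50bd99f2331a850 : CRef := CRef.mk (Pat.mk 0xf00000000000000000000000800000000 0x380000001f00000030000000380000003800000028 7 6) 0 0 (step_sound _ 164 [(rh170a81d1ac99a386.shift 1 0), (rh428265de8cd3cd2d.shift 0 4)] (by decide +kernel))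
noncomputable def rh84604732c31d5928 : CRef := CRef.mk (Pat.mk 0x80000000b000000020 0x18e000000fe0000003f 7 9) 0 0 (step_sound _ 38 [(rh33e738c4ed385b9f.shift 4 1), rh7c446a5779c6be66] (by decide +kernel))
noncomputable def rha1ccd5b02795e9b7 : CRef := CRef.mk (Pat.mk 0x300000000000000030000000300000000 0x50000000700000006000000070000001f0000001e 7 5) 0 0 (step_sound _ 97 [(rh50fbb5868c909700.shift 0 1), rha068555654cd13ea] (by decide +kernel))
noncomputable def rh693164d9c3420dc3 : CRef := CRef.mk (Pat.mk 0x300000002000000030000000100000000 0x50000000700000006000000070000001f0000001e 7 5) 0 0 (step_sound _ 33 [(rh50fbb5868c909700.shift 0 1), rha068555654cd13ea] (by decide +kernel))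
noncomputable def rh539e26da2dc90f2a : CRef := CRef.mk (Pat.mk 0x18000000020000000a0000000a0000000000000000 0x28000000380000007b0000003e0000007b0000003000000020 7 7) 0 0 (step_sound _ 100 [(rh01e48cd9f335aa73.shift 0 2), (rh92804a1c675173ab.shift 0 2), (rhdacff0e0b97ba728.shift 0 2), (rhfceef0193f945d8d.shift 3 0)] (by decide +kernel))
noncomputable def rh07facce60062c694 : CRef := CRef.mk (Pat.mk 0x200000002000000030000000300000000 0x4000000060000001e0000001b0000001f0000000e 7 5) 0 0 (step_sound _ 34 [rh0a14b3c3948953e5, (rh55afc6a59410cf00.shift 1 0)] (by decide +kernel))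
noncomputable def rh3cb87dbec799b835 : CRef := CRef.mk (Pat.mk 0x20000001c000000000000000400000004 0x1000000010000000770000007f0000001c0000000c0000000400000004 7 7) 0 0 (step_sound _ 131 [(rh04253f50b6dd0619.shift 2 0), (rh332e1fa1ea7b7d45.shift 0 2)] (by decide +kernel))
noncomputable def rhbb884d32f52b0bd3 : CRef := CRef.mk (Pat.mk 0x4000000180000000000000000 0x2000000020000000ff0000007c000000e000000040 7 8) 0 0 (step_sound _ 69 [(rh40811da85268475d.shift 0 2), (rh8c12fdbbddc1e7ab.shift 0 2), (rhbbba4cc567a99095.shift 2 0), (rhe4d8e8c38dd73ba8.shift 1 1)] (by decide +kernel))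
noncomputable def rh6458d358dc5638a2 : CRef := CRef.mk (Pat.mk 0x18000000020000000a00000008 0x10000000380000007b0000003e00000078 7 7) 0 0 (step_sound _ 132 [(rh04253f50b6dd0619.shift 3 0), rhe06bc8231e0f7ce3] (by decide +kernel))
noncomputable def rh93db0c821291174d : CRef := CRef.mk (Pat.mk 0x80000000f0000000100000000000000000000000000000000 0xc0000000f0000001f0000001e0000001c0000001c00000014 7 5) 0 0 (step_sound _ 131 [rh2922235ba0cdac25, (rhe25b0a99195a5d59.shift 0 4)] (by decide +kernel))
noncomputable def rhec1a7c90257cbe22 : CRef := CRef.mk (Pat.mk 0x20000001e0000000000000000 0x10000000300000007000000070000003e0000001e0000000700000006 7 6) 0 0 (step_sound _ 33 [(rheb0810cc63b001d8.shift 0 1), rhfb743ec0ea2bcf47] (by decide +kernel))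
noncomputable def rh5fecda5352eacbcd : CRef := CRef.mk (Pat.mk 0x80000007000000000 0xec0000007e00000077 7 8) 0 0 (step_sound _ 35 [(rh3244c3cc8379b070.shift 2 1), rh4ee24c8c3be77869] (by decide +kernel))
noncomputable def rh94ad9971cb38b6f8 : CRef := CRef.mk (Pat.mk 0x1e00000002000000100000000000000000 0x600000006000000070000001e000000060000001f0000000700000001 7 5) 0 0 (step_sound _ 161 [(rh3244c3cc8379b070.shift 0 4), rh7b8eb38ab5b637c8] (by decide +kernel))
noncomputable def rh91af5f1d7f7229fb : CRef := CRef.mk (Pat.mk 0x180000000a000000180000000800000000 0x40000001f0000001b0000001c000000f800000030 7 8) 0 0 (step_sound _ 36 [rh0e955ed1b259b640, (rh55afc6a59410cf00.shift 3 0)] (by decide +kernel))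
noncomputable def rhebf843eb1e0b97d4 : CRef := CRef.mk (Pat.mk 0x2000000180000000800000000 0x140000001c0000001c0000003f0000003f000000780000001800000010 7 7) 0 0 (step_sound _ 99 [rh06492cc5cdc11bb8, (rh360d7defbd9dbc9c.shift 1 0), rh85b7d3560b3cc9c9, (rh9ebd639649ea671c.shift 0 2)] (by decide +kernel))
noncomputable def rh3418bd09a2109774 : CRef := CRef.mk (Pat.mk 0x2000000380000000800000000 0x140000001c0000003c0000000f0000003c0000001800000010 7 6) 0 0 (step_sound _ 98 [(rh09d4dfe75d4407d6.shift 1 2), rh39e1723b36eb24f3] (by decide +kernel))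
noncomputable def rh987b92670e1dd42a : CRef := CRef.mk (Pat.mk 0x4000000050000000c0000000400000000 0x1a0000001f0000003f0000000c0000000c00000008 7 6) 0 0 (step_sound _ 131 [(rh2f68792b6b779e96.shift 2 1), rh53c0f5596aef39da] (by decide +kernel))
noncomputable def rhc1ff7075d7506c73 : CRef := CRef.mk (Pat.mk 0x10000000100000001c0000001400000000 0xf0000001f0000001c0000001c0000001c00000018 7 5) 0 0 (step_sound _ 131 [rh0451ef6fb10ba0d2, (rh50fbb5868c909700.shift 3 1)] (by decide +kernel))
noncomputable def rhc1acc4463e9e631a : CRef := CRef.mk (Pat.mk 0x3800000010 0x3c7000001ff000003fc 7 10) 0 0 (step_sound _ 38 [(rh352b7f91eba0c81f.shift 3 0), (rh3fc3a7fb6866dcd4.shift 3 0), (rh84d84ec8e59a0da5.shift 3 0), (rh9ab60d74117ac343.shift 3 0), rhc833175dd2fdb85b] (by decide +kernel))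
noncomputable def rh7a0a1a326c6be395 : CRef := CRef.mk (Pat.mk 0x40000000700000005000000000000000000000000 0x6000000060000000600000007000000070000000e0000000c0000000c 7 4) 0 0 (step_sound _ 193 [(rh2f33d1d0bcfdca52.shift 0 2), (rha52e0141694f1c7d.shift 1 2), (rhc3121d2a1c4abeda.shift 1 0)] (by decide +kernel))
noncomputable def rhaf0004f793fd189f : CRef := CRef.mk (Pat.mk 0xe0000000c000000000000000000000000 0xe0000000e0000000f0000003e0000000c0000000c0000000c00000004 7 6) 0 0 (step_sound _ 66 [(rh215e11e099257d75.shift 2 1), (rh40241bd608e5be1a.shift 1 0), (rh6f4e94b00731db18.shift 0 1), (rhadf429772c25fde0.shift 2 0)] (by decide +kernel))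
noncomputable def rh50ecda6336d32a1e : CRef := CRef.mk (Pat.mk 0x1e00000000 0x1fe000000ff000001c0 7 9) 0 0 (step_sound _ 37 [(rh45f730bcf36fcf64.shift 1 0), (rh9890f9d77740bbed.shift 1 1), (rhb8e826e9da89f6c3.shift 0 1)] (by decide +kernel))
noncomputable def rhdf0bfbb649669892 : CRef := CRef.mk (Pat.mk 0x1e000000020000000000000000 0x400000004000000ee000000ff0000003a0000000800000008 7 8) 0 0 (step_sound _ 68 [rhbc943c395f4eac73, (rhe25b0a99195a5d59.shift 1 2)] (by decide +kernel))
noncomputable def rh2dddca5acd602e27 : CRef := CRef.mk (Pat.mk 0x6000000180000000800000000 0x140000001c0000003c0000000f000000780000001800000010 7 7) 0 0 (step_sound _ 99 [(rhb739f4f82bb681b4.shift 0 2), (rhff86615c147b72d2.shift 1 0)] (by decide +kernel))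
noncomputable def rh60e803859a58f51c : CRef := CRef.mk (Pat.mk 0xa000000180000000800000000 0x140000001c0000003c0000000f000000780000001800000010 7 7) 0 0 (step_sound _ 98 [(rhb739f4f82bb681b4.shift 0 2), (rhff86615c147b72d2.shift 1 0)] (by decide +kernel))
noncomputable def rh97da8dab41543d42 : CRef := CRef.mk (Pat.mk 0x1f000000020000000000000000 0x400000004000001cc000000ff000001de0000000800000008 7 9) 0 0 (step_sound _ 130 [rh471ec7ad2e1ad0a3, rh953c1eac1a354c1a, (rhe4909b58bb712816.shift 1 2)] (by decide +kernel))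
noncomputable def rh249666368fa84f05 : CRef := CRef.mk (Pat.mk 0x1e00000008 0x1c7000000fe000001cc 7 9) 0 0 (step_sound _ 65 [(rh241f16e0e9789477.shift 1 0), (rh3244c3cc8379b070.shift 0 1)] (by decide +kernel))
noncomputable def rh065cb709e7b956ff : CRef := CRef.mk (Pat.mk 0x1c00000002 0xe70000007e000000e3 7 8) 0 0 (step_sound _ 33 [rh394e80a462af5b2f, rheb0810cc63b001d8] (by decide +kernel))
noncomputable def rha74ab8aa688f87b9 : CRef := CRef.mk (Pat.mk 0x8000000050000000c0000000400000000 0x760000003e000000770000000c0000000c00000008 7 7) 0 0 (step_sound _ 130 [(rh5a281f6b25f3c6cc.shift 0 1), (rhd4b4beefcd67f51e.shift 2 0)] (by decide +kernel))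
noncomputable def rh036961b3d98b0c02 : CRef := CRef.mk (Pat.mk 0x20000000300000000c0000001000000010 0x140000001c0000001f0000007c0000007c0000000c0000001800000010 7 7) 0 0 (step_sound _ 99 [rh0aa071f715596e8c, (rh18965a982d73c794.shift 2 2)] (by decide +kernel))
noncomputable def rhc6ec607249fa4ef3 : CRef := CRef.mk (Pat.mk 0x140000003400000006 0xa0000000e0000000f0000001e000000f600000006 7 8) 0 0 (step_sound _ 67 [rh6533d2979f96f7ed, (rhb739f4f82bb681b4.shift 1 1)] (by decide +kernel))
noncomputable def rh76707f1ff073ed42 : CRef := CRef.mk (Pat.mk 0x1000000012000000180000000800000000 0x2e0000003f000000fb00000038000000f8000000f0 7 8) 0 0 (step_sound _ 36 [(rh2917d85608816fec.shift 0 1), rh571913d8bec9001e, (rha068555654cd13ea.shift 3 0), rha21ba809ddf0db48, (rhab3c3f3ae8c9664f.shift 2 0)] (by decide +kernel))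
noncomputable def rh53316f1fef727abe : CRef := CRef.mk (Pat.mk 0x12000000180000000800000000 0x3e0000003f000000fb0000003c0000001800000010 7 8) 0 0 (step_sound _ 132 [rh12eed7c5ebcee98e, (rh5c5e593799055d58.shift 3 1)] (by decide +kernel))
noncomputable def rhdd8f6672cad950b1 : CRef := CRef.mk (Pat.mk 0x12000000180000000800000000 0x1c0000001f0000001b0000001c000000f800000030 7 8) 0 0 (step_sound _ 132 [(rh5c5e593799055d58.shift 3 1), rha93ab7185fa684e6] (by decide +kernel))
noncomputable def rh921d272e6b6d8c66 : CRef := CRef.mk (Pat.mk 0x180000000b000000010000000000000000 0x1c0000001c0000001c000000180000001b0000001f0000001c00000010 7 5) 0 0 (step_sound _ 67 [rh011e46707c247443, (rhacb2f6a0fb3324d3.shift 0 1), (rhb730ba14aa32bdb3.shift 3 1), (rhfbe583ebb68a97e9.shift 0 1)] (by decide +kernel))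
noncomputable def rh45555fe5d2bac400 : CRef := CRef.mk (Pat.mk 0x1400000006000000020000000000000000 0x8000000080000003c0000007f0000007e0000001000000010 7 7) 0 0 (step_sound _ 131 [(rh18965a982d73c794.shift 1 3), rh97e5c234d74b2ba9] (by decide +kernel))
noncomputable def rh896ea6bf1f95c341 : CRef := CRef.mk (Pat.mk 0x1c000000060000000200000000 0x1a0000003b0000001e0000003e0000003e0000003c 7 6) 0 0 (step_sound _ 97 [(rh4cfe5a1044d8ace1.shift 1 0), rha7149f89a51ff247] (by decide +kernel))
noncomputable def rhbf4b224610439307 : CRef := CRef.mk (Pat.mk 0x400000004000000060000000c00000000 0x80000000c0000000c0000003e0000003f00000032 7 6) 0 0 (step_sound _ 33 [(rh932754581e0f4330.shift 1 0), rhef1971fd0fe45a2e] (by decide +kernel))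
noncomputable def rhe4a7aeaa9024ca7b : CRef := CRef.mk (Pat.mk 0x40000000e00000000000000000000000000000000 0x10000000f60000007f000000f8000000180000000800000008 7 8) 0 0 (step_sound _ 132 [(rh75c6fff53e4cbd6e.shift 1 3), (rh9c94213f6896c74a.shift 1 3), (rhb6f72982232a8164.shift 1 4), rhf96a633c18c19ba9] (by decide +kernel))
noncomputable def rh5307fb575e7a83b0 : CRef := CRef.mk (Pat.mk 0x40000000e000000020000000000000000 0x40000000c0000003e0000007f000000720000001000000010 7 7) 0 0 (step_sound _ 162 [rh319c9b5c6246543b, (rh5c5e593799055d58.shift 1 2)] (by decide +kernel))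
noncomputable def rh0398cb284fad3d95 : CRef := CRef.mk (Pat.mk 0xc0000000e0000000200000000 0x180000001c0000001c0000000c0000000f0000001a00000018 7 5) 0 0 (step_sound _ 130 [rh49eecd2cd376859f, (rh5c5e593799055d58.shift 1 1)] (by decide +kernel))
noncomputable def rhcceef60d939f6fab : CRef := CRef.mk (Pat.mk 0x40000000e00000000000000000000000000000000 0x10000001fe000000ff000001f8000000180000000800000008 7 9) 0 0 (step_sound _ 132 [(rh1e581fcebcca7a34.shift 1 3), rhf96a633c18c19ba9] (by decide +kernel))
noncomputable def rh7e294c416e376a1d : CRef := CRef.mk (Pat.mk 0x140000001e0000000200000000 0x14000000fc0000001e0000001f0000000a00000008 7 8) 0 0 (step_sound _ 99 [(rh53b3c253cb0c65f4.shift 0 2), (rhe4188ec8c15484d5.shift 1 0)] (by decide +kernel))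
noncomputable def rh6beb5e6daf8dd1ff : CRef := CRef.mk (Pat.mk 0x4000000040000000e000000000000000000000000 0x18000000180000001c0000003e0000007f000000780000001800000010 7 7) 0 0 (step_sound _ 131 [(rh4475e34ed71719c1.shift 1 0), (rh49eecd2cd376859f.shift 0 1), (rhf9d36e158778ce35.shift 0 3)] (by decide +kernel))
noncomputable def rh4b9b608540082a4d : CRef := CRef.mk (Pat.mk 0x10000000180000000800000000 0x1c0000001f000000380000001c000000f800000030 7 8) 0 0 (step_sound _ 132 [(rh5c5e593799055d58.shift 3 1), rh8a52b81181d81eff] (by decide +kernel))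
noncomputable def rh40c0ca9c51edfbce : CRef := CRef.mk (Pat.mk 0xf000000010000000000000000 0xc0000001c0000000f0000001f0000001c0000001c 7 5) 0 0 (step_sound _ 131 [(rh33e738c4ed385b9f.shift 0 3), rh55699bf0f5f3c263] (by decide +kernel))
noncomputable def rh332b06877541c7f0 : CRef := CRef.mk (Pat.mk 0x1e0000000e00000000 0x50000000700000007000000030000001e0000003e00000004 7 6) 0 0 (step_sound _ 36 [rh36b0d54def552c22, (rhf48373e13d2bc128.shift 1 1)] (by decide +kernel))
noncomputable def rhda584fc24f16bade : CRef := CRef.mk (Pat.mk 0x10000000140000001000000014 0x1cf000000fe000001de0000001400000014 7 9) 0 0 (step_sound _ 99 [(rh50fbb5868c909700.shift 3 0), rh523d5ece08c0fe65] (by decide +kernel))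
noncomputable def rh2bf26dad70895957 : CRef := CRef.mk (Pat.mk 0x40000001c000000380000000000000000 0x1c0000003c0000000f0000001c0000003f0000000600000004 7 6) 0 0 (step_sound _ 162 [rh01d66ee7c5a2ea88, (rh2145e1d24b96a57e.shift 2 2)] (by decide +kernel))
noncomputable def rha6990a1df457e6e7 : CRef := CRef.mk (Pat.mk 0x20000001a0000001a00000002 0x10000000f0000001f0000000e0000001a0000001a00000012 7 5) 0 0 (step_sound _ 130 [rh62ba860b38e48a06, (rhbaefcd01e0a8bca3.shift 1 0)] (by decide +kernel))
noncomputable def rh61c2555c8e5826c3 : CRef := CRef.mk (Pat.mk 0x4000000050000000400000004 0x7a0000003e000000770000000400000004 7 7) 0 0 (step_sound _ 99 [(rh2f68792b6b779e96.shift 2 0), rh495ee03c2b930070] (by decide +kernel))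
noncomputable def rh2cc777b527aebafc : CRef := CRef.mk (Pat.mk 0x14000000100000001400000000 0x280000003f0000003e00000016000000340000003400000020 7 6) 0 0 (step_sound _ 132 [(rh1741680720c097b4.shift 3 1), (rh25208373db83e521.shift 4 0), (rh5abfc4c9d959be03.shift 3 0), (rhea4ef8cbb178c0f7.shift 0 1)] (by decide +kernel))
noncomputable def rh7b76ebee7720cec8 : CRef := CRef.mk (Pat.mk 0xe00000001 0xe70000007e000000e3 7 8) 0 0 (step_sound _ 36 [rh45f730bcf36fcf64, rh80fcd6d0a18cb2dd] (by decide +kernel))
noncomputable def rh6d817a0391b86d65 : CRef := CRef.mk (Pat.mk 0x1c0000000200000004 0x50000000700000007000000030000001e0000000700000004 7 5) 0 0 (step_sound _ 65 [rhde2f8cc27a89e79b, (rheb0810cc63b001d8.shift 0 1)] (by decide +kernel))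
noncomputable def rh56d750a097414d5e : CRef := CRef.mk (Pat.mk 0xe0000000800000008 0x40000001c0000001c0000001c0000007c0000001f0000000800000008 7 7) 0 0 (step_sound _ 99 [(rh684e729394fba19d.shift 1 0), (rhca9122a6bf90113c.shift 2 0), rhee06b87c7471f87e] (by decide +kernel))
noncomputable def rhe161524812068d9d : CRef := CRef.mk (Pat.mk 0x4000000080000000e00000008 0x40000000e000001fb000000fe000000eb 7 9) 0 0 (step_sound _ 36 [rh86dbe64770be7dae, (rh8d33df7ee954b6ed.shift 1 0)] (by decide +kernel))
noncomputable def rh0f957c7ec1eb9943 : CRef := CRef.mk (Pat.mk 0x200000002000000070000000600000000 0xc0000003e0000003e000000070000001e00000008 7 6) 0 0 (step_sound _ 35 [rh09b087e92d8009b4, (rhf48373e13d2bc128.shift 0 1)] (by decide +kernel))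
noncomputable def rhae277bdd7fa9d333 : CRef := CRef.mk (Pat.mk 0x4000000060000000400000000 0x80000000e0000000e0000003e00000007000000060000000600000006 7 6) 0 0 (step_sound _ 130 [(rh03dfdf12d5937476.shift 1 0), (rh7a7e08304268422e.shift 1 1), rh7d892b8fecd0c242, (rhc85cc95794737cf7.shift 1 1)] (by decide +kernel))
noncomputable def rha4bfbdb50758729b : CRef := CRef.mk (Pat.mk 0x80000001800000018 0x3c000000ff0000003c0000001800000018 7 8) 0 0 (step_sound _ 99 [(rh2145e1d24b96a57e.shift 3 0), rh91305f23903fd15a] (by decide +kernel))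
noncomputable def rh72c7c51b6c8e078b : CRef := CRef.mk (Pat.mk 0x300000001000000020000000600000000 0x1c0000001f0000001f0000000e0000000600000004 7 5) 0 0 (step_sound _ 97 [(rh0767978f87992373.shift 0 1), (rh55afc6a59410cf00.shift 1 0)] (by decide +kernel))
noncomputable def rh09db8640fa28a310 : CRef := CRef.mk (Pat.mk 0xf000000000000000000000000 0x140000001c0000001c0000001c0000000f0000001c0000000c0000000c 7 5) 0 0 (step_sound _ 131 [(rh33e738c4ed385b9f.shift 0 3), rh98669df90e0605b3] (by decide +kernel))
noncomputable def rh21f37ae5100bfc72 : CRef := CRef.mk (Pat.mk 0x10000000160000001400000014 0x280000003f0000003e00000037000000160000001400000014 7 6) 0 0 (step_sound _ 129 [(rh3ac5d3c87f64171d.shift 1 0), rh6e898b6e3328309f, rhbf0bf90fa53994cc, (rhf4bcdf19b6922e31.shift 1 0)] (by decide +kernel))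
noncomputable def rhbb1ad67c97f34bda : CRef := CRef.mk (Pat.mk 0x2000000020000000200000002 0x400000007000000070000000700000006000000060000000600000002 7 3) 0 0 (step_sound _ 129 [rh0cc9c0ca431601b8, (rh44f453b84f013105.shift 1 0), (rh66ee4e4e1313f0fc.shift 0 1), (rhc85cc95794737cf7.shift 0 1)] (by decide +kernel))
noncomputable def rh6bb57afa662e6b58 : CRef := CRef.mk (Pat.mk 0x120000001600000014 0x20000000380000003e0000003e000000130000001e0000001c 7 6) 0 0 (step_sound _ 100 [(rh1741680720c097b4.shift 3 0), rh6a115f9db628de91, (rhc5e67171cca8dab0.shift 1 0), rhf3e6b0bf8a4f2a45] (by decide +kernel))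
noncomputable def rh53fbe5973d4cbb0f : CRef := CRef.mk (Pat.mk 0x20000001600000004 0x1c7000000fe000001cc 7 9) 0 0 (step_sound _ 35 [(rh3244c3cc8379b070.shift 0 1), (rh42b8610d413a89c0.shift 1 0)] (by decide +kernel))
noncomputable def rh58d6deb7f3eb6607 : CRef := CRef.mk (Pat.mk 0x180000005800000050 0x800000008000000f80000007f000000d7 7 8) 0 0 (step_sound _ 99 [(rh2145e1d24b96a57e.shift 3 0), rhf9a9f5d645638964] (by decide +kernel))
noncomputable def rhe050bba0a3857dcc : CRef := CRef.mk (Pat.mk 0x1800000018000000500000001800000000 0x40000001e000000f8000000df0000001f00000004 7 8) 0 0 (step_sound _ 101 [rh2ab8458df2e26e4f, (rh639c5d61b5ce9eea.shift 2 2), (rh79b3c29022acbdf3.shift 2 3), (rh8ef9dd588f33bbde.shift 3 2)] (by decide +kernel))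
noncomputable def rh2fd3c82e8124b6af : CRef := CRef.mk (Pat.mk 0x200000003000000020000000200000000 0x10000000700000007000000060000000300000003000000030000000300000001 7 3) 0 0 (step_sound _ 32 [(rh568dedf39348a228.shift 0 1), rh932754581e0f4330] (by decide +kernel))
noncomputable def rh4210ddbe79da0c25 : CRef := CRef.mk (Pat.mk 0x18000000700000005000000000 0x180000001c0000001f0000003800000078000000d800000008 7 8) 0 0 (step_sound _ 67 [rh290b83d9dd633109, (rhe25b0a99195a5d59.shift 3 1)] (by decide +kernel))
noncomputable def rha6981ac250fa0a83 : CRef := CRef.mk (Pat.mk 0x120000001e0000001000000000 0x340000003c000000160000003f0000001a00000002 7 6) 0 0 (step_sound _ 35 [(rhb739f4f82bb681b4.shift 0 1), (rhf5ae0a993985148e.shift 1 0)] (by decide +kernel))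
noncomputable def rh4ea1bf3d78252f08 : CRef := CRef.mk (Pat.mk 0x1c00000020 0x500000007000000070000000600000003e00000077 7 7) 0 0 (step_sound _ 37 [rh074ac26face61b4b, (rhe25b0a99195a5d59.shift 2 0)] (by decide +kernel))
noncomputable def rh602a27f4419216ec : CRef := CRef.mk (Pat.mk 0x2000000020000000240000003c00000002 0x160000003c0000006c0000002c0000007e00000003 7 7) 0 0 (step_sound _ 33 [(rh0338a888539aed8d.shift 1 0), rheb0810cc63b001d8] (by decide +kernel))
noncomputable def rh05aa8b34689c1cf6 : CRef := CRef.mk (Pat.mk 0x20000000240000003c00000022 0x40000000700000007c00000034000000240000003e00000023 7 7) 0 0 (step_sound _ 132 [rh9a113e6cf45cee70, (rhffd04209dc8ea796.shift 4 0)] (by decide +kernel))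
noncomputable def rh8dab1aae2a2412cf : CRef := CRef.mk (Pat.mk 0x400000020000000240000003c00000022 0x160000003c000000780000002c0000007e00000023 7 7) 0 0 (step_sound _ 33 [(rhc93ae5f31e7f613f.shift 1 0), rheb0810cc63b001d8] (by decide +kernel))
noncomputable def rh2c883658a05a83c6 : CRef := CRef.mk (Pat.mk 0x8000000090000000f00000008000000000 0x120000001e0000000b7000001fe0000009f00000010 7 9) 0 0 (step_sound _ 67 [(rh770b1aa933b2bbab.shift 1 0), (rhdf7238ac894838d7.shift 0 1), (rheae1728ff4a56756.shift 2 1)] (by decide +kernel))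
noncomputable def rh6bbb8895b698894e : CRef := CRef.mk (Pat.mk 0xb0000000e000000080000000800000000 0x140000001c0000001e0000001e0000000b0000000e0000000c0000001800000010 7 5) 0 0 (step_sound _ 36 [(rh55afc6a59410cf00.shift 3 0), (rhb120fdf60e75eb89.shift 0 2)] (by decide +kernel))
noncomputable def rhfab199109b95367a : CRef := CRef.mk (Pat.mk 0x20000001e000000000000000000000000 0x5000000070000000700000007000000060000001e000000070000000600000004 7 5) 0 0 (step_sound _ 65 [rh05cd8c7c01c55bf3, (rheb0810cc63b001d8.shift 0 2)] (by decide +kernel))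
noncomputable def rh856484bb386d17cf : CRef := CRef.mk (Pat.mk 0x1e000000020000000000000000 0x5000000070000000700000007000000070000001e000000060000000600000004 7 5) 0 0 (step_sound _ 129 [rh05cd8c7c01c55bf3, (rh3244c3cc8379b070.shift 0 3)] (by decide +kernel))
noncomputable def rhd13612592efaa228 : CRef := CRef.mk (Pat.mk 0xf000000000 0xe7000000fe0000007f 7 8) 0 0 (step_sound _ 35 [rh15b856e33c69f807, (rh7654d7b92c96fe12.shift 1 0), rhcdce1b8bf0ff89c0, (rheae1728ff4a56756.shift 2 0)] (by decide +kernel))
noncomputable def rhde1cd6752d019d3a : CRef := CRef.mk (Pat.mk 0xf000000000 0xff000000fe00000077 7 8) 0 0 (step_sound _ 35 [rh15b856e33c69f807, rh4ee24c8c3be77869, (rhd5eb272e07a4e288.shift 2 1)] (by decide +kernel))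
noncomputable def rhcb629f674f699cb7 : CRef := CRef.mk (Pat.mk 0xc0000000c0000000000000008 0x3e0000003e0000000f0000000c0000000c0000000800000008 7 6) 0 0 (step_sound _ 130 [(rh495a39b8a06d7922.shift 0 2), (rh9e07f76261b05888.shift 2 0)] (by decide +kernel))
noncomputable def rh166312432f80e23a : CRef := CRef.mk (Pat.mk 0x1e000000000000000000000000 0x50000000700000007000000070000001e000000070000000600000004 7 5) 0 0 (step_sound _ 129 [rh11120fbbbcf088e9, (rh3244c3cc8379b070.shift 0 3)] (by decide +kernel))
noncomputable def rh451f450cff442619 : CRef := CRef.mk (Pat.mk 0x3c0000000000000000 0x800000008000000380000003f0000003700000010 7 6) 0 0 (step_sound _ 33 [(rh80fcd6d0a18cb2dd.shift 1 1), rhada558f102acf533] (by decide +kernel))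
noncomputable def rh90fac31ea828a16d : CRef := CRef.mk (Pat.mk 0x1f000000000 0x1f000001fe000000f7 7 9) 0 0 (step_sound _ 35 [(rh0d378fd9e8917c5a.shift 1 0), (rh5108aaa789497f8e.shift 2 0), rhbb13f9e1d387f64a, (rhd5eb272e07a4e288.shift 2 1)] (by decide +kernel))
noncomputable def rhff321ade2fe2312d : CRef := CRef.mk (Pat.mk 0xf000000000000000000000000 0x140000001c0000001c0000001c0000000f0000001c0000000c0000000c 7 5) 0 0 (step_sound _ 131 [(rh33e738c4ed385b9f.shift 0 3), rh49bbe7d8cdf38891] (by decide +kernel))
noncomputable def rh0d97fc46e2a2ead4 : CRef := CRef.mk (Pat.mk 0xf000000000 0xe0000000fe0000007f 7 8) 0 0 (step_sound _ 35 [(rh01b886edb9b23012.shift 1 0), rh4ee24c8c3be77869, (rh9e97bba44c1b13e4.shift 1 0), (rheae1728ff4a56756.shift 2 0)] (by decide +kernel))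
noncomputable def rhf7b8a0a17b3ba00b : CRef := CRef.mk (Pat.mk 0x1800000018000000180000001c 0x70000001f0000001b0000001f0000001f 7 5) 0 0 (step_sound _ 1 [rh53b3c253cb0c65f4, rhd9a16f99234bbfa7] (by decide +kernel))
noncomputable def rh90a9e620e3402202 : CRef := CRef.mk (Pat.mk 0x80000001a0000001a000000180000000000000000 0x40000000f0000001b0000001e0000001b0000000f00000005 7 5) 0 0 (step_sound _ 65 [(rh01e48cd9f335aa73.shift 0 2), rh29353ea105688852, (rh599a00c5c2098406.shift 0 1)] (by decide +kernel))
noncomputable def rh77d2863636a3e199 : CRef := CRef.mk (Pat.mk 0xc000000180000001a0000001800000000000000000000000000000000 0xf0000001b0000001e0000001f0000000f000000070000000400000004 7 5) 0 0 (step_sound _ 129 [(rh1752575614f8aa61.shift 0 2), (rh3cf2764919f34f47.shift 0 3), (rh66d93aa3738235ba.shift 1 0), (rhda02c4ce0b224328.shift 0 4)] (by decide +kernel))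
noncomputable def rhc09f1cc8b50ae6cb : CRef := CRef.mk (Pat.mk 0x800000018000000300000001000000000 0xa0000001f0000001e000000340000001e0000000c 7 6) 0 0 (step_sound _ 35 [rh288ce8bb1d617389, (rh2d30d7e3cbdc5593.shift 1 0), (rhbdd4e349c1dde679.shift 3 0)] (by decide +kernel))
noncomputable def rh4bbdf9a50de13df6 : CRef := CRef.mk (Pat.mk 0xc00000008000000080000000800000000 0x130000003f0000003f0000000c0000000c00000004 7 6) 0 0 (step_sound _ 132 [(rh2f68792b6b779e96.shift 3 1), rhfd0e586ce45ed5f0] (by decide +kernel))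
noncomputable def rhed299ca130135d58 : CRef := CRef.mk (Pat.mk 0x20000000100000001000000010 0x2f000000fe000000ff0000001000000010 7 8) 0 0 (step_sound _ 100 [rh2d442ed46f7e1c0f, (rh2f68792b6b779e96.shift 4 0)] (by decide +kernel))
noncomputable def rh72a81f495127369a : CRef := CRef.mk (Pat.mk 0x200000007800000000 0x20000000200000003e0000007e000000c7 7 8) 0 0 (step_sound _ 66 [(rh3f8766e6ecb455ce.shift 2 1), rhbb7ea2af1a8b55cc] (by decide +kernel))
noncomputable def rh99bd63a2ec197916 : CRef := CRef.mk (Pat.mk 0x1c0000001c0000000000000000 0x1c0000007e0000000f0000001c0000001c0000000c0000000c 7 7) 0 0 (step_sound _ 131 [(rh10cd6b672a8931a4.shift 1 1), (rh37d9ceebb86d75d1.shift 2 1), rhbfa4950c75e79bf4] (by decide +kernel))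
noncomputable def rhf0df4d5345a94e48 : CRef := CRef.mk (Pat.mk 0x180000003c0000000800000000 0xc0000001f0000001f0000001e0000003c0000000c00000004 7 6) 0 0 (step_sound _ 131 [(rh37d9ceebb86d75d1.shift 2 1), (rhb998780801da240e.shift 1 1), rhd2ce9161fbc8be7e] (by decide +kernel))
noncomputable def rhc2ba242ccb76d3cb : CRef := CRef.mk (Pat.mk 0x10000000180000001c0000000800000000 0xc0000000f0000007f0000001c0000001f0000000c00000004 7 7) 0 0 (step_sound _ 64 [(rh24ae073cf30720c4.shift 0 2), rh2eb2e9ac3738e877] (by decide +kernel))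
noncomputable def rh922ca61c98517a19 : CRef := CRef.mk (Pat.mk 0x10000000100000001000000010 0x2f000000fe000000ff0000001000000010 7 8) 0 0 (step_sound _ 101 [rh2d442ed46f7e1c0f, (rh2f68792b6b779e96.shift 4 0)] (by decide +kernel))
noncomputable def rhcb246767b211a413 : CRef := CRef.mk (Pat.mk 0x10000000180000001e000000000000000000000000 0xc0000000f0000007f0000001b0000001e0000000c0000000c0000000c 7 7) 0 0 (step_sound _ 163 [(rh37d9ceebb86d75d1.shift 2 2), (rh45426df0b5ae0370.shift 0 1), (rhb3e5613249985042.shift 2 0), (rhdf8d307afd4a5706.shift 0 3)] (by decide +kernel))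
noncomputable def rh1d2218a61472485d : CRef := CRef.mk (Pat.mk 0x100000001c0000001c000000000000000000000000 0xc0000000f0000007f0000001c0000001c0000000c0000000c0000000c 7 7) 0 0 (step_sound _ 163 [(rh1e309b005ffa1b36.shift 2 1), (rhb3e5613249985042.shift 2 0), (rhd61524e17d46b610.shift 0 1), (rhdf8d307afd4a5706.shift 0 3)] (by decide +kernel))
noncomputable def rh13471aeebea543dc : CRef := CRef.mk (Pat.mk 0x80000001f000000000 0xc7000001fe00000077 7 9) 0 0 (step_sound _ 35 [(rh428265de8cd3cd2d.shift 3 1), rhe6fc87871d2d9305] (by decide +kernel))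
noncomputable def rh5b41ccf8cfa656f9 : CRef := CRef.mk (Pat.mk 0x80000000a000000180000000000000010 0x30000000300000003f0000001f000000180000001000000010 7 6) 0 0 (step_sound _ 98 [rh5578a0f39df39c77, (rhb739f4f82bb681b4.shift 0 2)] (by decide +kernel))
noncomputable def rh4862c9578b44db48 : CRef := CRef.mk (Pat.mk 0x20000000280000006800000000000000400000000000000000 0x140000001c0000001f0000007c0000003f0000006c0000001c0000007c0000001c00000004 7 7) 0 0 (step_sound _ 195 [(rh58bf74c0268b4d8f.shift 0 4), (rh660339845b8171c4.shift 2 1), (rh89fa36a8925dc189.shift 2 0), (rha13e131ffd3e4b47.shift 0 3)] (by decide +kernel))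
noncomputable def rhe6ae9ea0141c940f : CRef := CRef.mk (Pat.mk 0x80000000a0000001a0000000000000010 0x30000000300000003f0000001e0000001b0000001000000010 7 6) 0 0 (step_sound _ 100 [(rh3860a403b9fb0c23.shift 0 2), (rh9e07f76261b05888.shift 3 0)] (by decide +kernel))
noncomputable def rh980e8fd62ca49112 : CRef := CRef.mk (Pat.mk 0x2000000020000001a000000500000001000000000 0x5000000070000000700000002000000020000001b000000f70000001f00000004 7 8) 0 0 (step_sound _ 69 [rh660339845b8171c4, (rhf48373e13d2bc128.shift 3 2)] (by decide +kernel))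
noncomputable def rhbe91d5dc370e9282 : CRef := CRef.mk (Pat.mk 0x28000000080000006800000140000000400000000000000000 0x100000007c0000000f00000068000003d80000007c0000001c00000004 7 10) 0 0 (step_sound _ 103 [rh90e5904e3fc6e121, (rhf48373e13d2bc128.shift 5 3)] (by decide +kernel))
noncomputable def rh305c59daa988c15c : CRef := CRef.mk (Pat.mk 0x38000000080000000000000000 0x140000001c0000001c0000001f000000780000000c0000000c00000004 7 7) 0 0 (step_sound _ 131 [(rh8774521e81d4f0dc.shift 2 1), (rhbd12c57242090754.shift 2 0), (rhf60aa8aede119d3b.shift 0 3)] (by decide +kernel))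
noncomputable def rhcc32fffe7af92505 : CRef := CRef.mk (Pat.mk 0x80000001e000000000000001000000000 0x3000000033000000330000001f0000001e0000003f0000001c00000008 7 6) 0 0 (step_sound _ 68 [rh50072dbf1674af11, (rhe25b0a99195a5d59.shift 1 2)] (by decide +kernel))
noncomputable def rha3676cb6b15c7319 : CRef := CRef.mk (Pat.mk 0x40000000f000000000 0x67000000fe000001c7 7 9) 0 0 (step_sound _ 7 [rh1b597f6d7cb48663, (rhe25b0a99195a5d59.shift 4 0)] (by decide +kernel))
noncomputable def rh0cfa0ece96434e29 : CRef := CRef.mk (Pat.mk 0xe0000001e000000020000000000000000 0x1300000013000000330000001e0000001e0000000e0000000300000003 7 6) 0 0 (step_sound _ 33 [(rh71222050f2c63a3a.shift 1 0), rh757a9ef3bb9f8ce1] (by decide +kernel))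
noncomputable def rh8702079aa408304c : CRef := CRef.mk (Pat.mk 0x100000001e0000001a 0x3e0000003e000000170000001e0000001a 7 6) 0 0 (step_sound _ 100 [(rh5c5e593799055d58.shift 3 0), rha809f892eca3ddc5] (by decide +kernel))
noncomputable def rh50519afd34fd994a : CRef := CRef.mk (Pat.mk 0x20000001e00000000000000100000000000000000 0x50000000700000007000000020000001e000000070000001f0000000700000001 7 5) 0 0 (step_sound _ 97 [rh30a977e7346b65b5, (rheb0810cc63b001d8.shift 0 3)] (by decide +kernel))
noncomputable def rhf286bf6d0c5110b5 : CRef := CRef.mk (Pat.mk 0x20000001e0000000000000000000000000000000000000000 0x400000006000000060000001e0000000700000007000000070000000700000005 7 5) 0 0 (step_sound _ 129 [rhe58d96d1ec2f948b, (rheb0810cc63b001d8.shift 0 4)] (by decide +kernel))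
noncomputable def rh15b73db4cdb6b203 : CRef := CRef.mk (Pat.mk 0x20000001a00000000000000000000000000000000 0x50000000700000007000000030000001e0000000f000000070000000700000005 7 5) 0 0 (step_sound _ 97 [(rh01e48cd9f335aa73.shift 0 3), (rh823dec6b0a4c3fe8.shift 0 2), rhf59657c8f752e82c] (by decide +kernel))
noncomputable def rhd01ec37b6070748d : CRef := CRef.mk (Pat.mk 0xa0000001a000000000000001000000000 0x500000007000000170000001e0000001e0000000f0000001f0000000c 7 5) 0 0 (step_sound _ 65 [rh194940f530642ebb, rh2b612b3d3510db85, (rh823dec6b0a4c3fe8.shift 0 1), (rhca161cd30e405913.shift 0 1)] (by decide +kernel))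
noncomputable def rh5165881033ea0320 : CRef := CRef.mk (Pat.mk 0x80000001a0000001a000000000000000000000000 0x140000001e0000001b0000001e0000000f0000000e00000004 7 5) 0 0 (step_sound _ 67 [rh8620d0b73d25d777, (rha707fb719e87fe6e.shift 3 1), (rhbe0204dcb18a1358.shift 0 1)] (by decide +kernel))
noncomputable def rh0ac049706842611d : CRef := CRef.mk (Pat.mk 0x80000001a0000001a000000100000000000000000 0x140000001c0000001e0000001a0000001f0000000f00000004 7 5) 0 0 (step_sound _ 67 [(rha707fb719e87fe6e.shift 3 1), (rhb700dbca755b9b65.shift 0 1), (rhfb48bea540f6436d.shift 2 0)] (by decide +kernel))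
noncomputable def rhf81b2b99b531f92f : CRef := CRef.mk (Pat.mk 0x40000000d000000010 0xe7000000fe0000001f 7 8) 0 0 (step_sound _ 37 [rhdda18f14314c6e63, (rheb0810cc63b001d8.shift 3 0)] (by decide +kernel))
noncomputable def rh2d1e3d1dcfb22285 : CRef := CRef.mk (Pat.mk 0x40000000d000000090 0x67000000fe000000df 7 8) 0 0 (step_sound _ 37 [rh1b597f6d7cb48663, (rheb0810cc63b001d8.shift 3 0)] (by decide +kernel))
noncomputable def rh7c30840a393ca09c : CRef := CRef.mk (Pat.mk 0x80000001a0000001a000000100000000000000000 0x10000000190000001b0000001e0000001f0000000f00000004 7 5) 0 0 (step_sound _ 67 [rh8620d0b73d25d777, (rha707fb719e87fe6e.shift 3 1), (rhdfef6346d67ed6fb.shift 0 1)] (by decide +kernel))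
noncomputable def rhd006db0d9f9b2ec7 : CRef := CRef.mk (Pat.mk 0x1e000000000000000000000000 0x50000000700000007000000070000001e000000070000000600000006 7 5) 0 0 (step_sound _ 129 [(rh3244c3cc8379b070.shift 0 3), rhd4ba88c0e57b38a2] (by decide +kernel))
noncomputable def rh1e4a5db1103b3ca4 : CRef := CRef.mk (Pat.mk 0xa0000001a00000000000000100000000000000000 0x500000007000000070000000f0000001a0000000f0000001f0000000700000005 7 5) 0 0 (step_sound _ 97 [rh30a977e7346b65b5, rh6dbfa710a30f272c, (rh823dec6b0a4c3fe8.shift 0 2), rh9379f9f341e475ef, (rhbe5703805fd7fa8f.shift 0 2)] (by decide +kernel))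
noncomputable def rhf06cb90132fcab1e : CRef := CRef.mk (Pat.mk 0x20000000200000002000000020000001400000000 0x50000000700000007000000020000000200000003000000030000001e00000004 7 5) 0 0 (step_sound _ 33 [(rh55afc6a59410cf00.shift 1 0), (rh6f44232daaa984b6.shift 0 1)] (by decide +kernel))
noncomputable def rhb21e222e50122da5 : CRef := CRef.mk (Pat.mk 0x20000001a00000002000000100000000000000000 0x10000000300000003000000020000001b0000000f0000001f0000000700000001 7 5) 0 0 (step_sound _ 193 [(rh36e6bb6cca6188da.shift 0 2), (rh771d065bdc85bf2d.shift 0 2), (rh7eb809fb0cbb3ab7.shift 0 1), rhef3ba3c62dc7a15c] (by decide +kernel))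
noncomputable def rha64bdfda5676b9f5 : CRef := CRef.mk (Pat.mk 0x20000000200000002000000000000000000000000 0x50000000700000007000000030000000300000006000000070000000700000005 7 3) 0 0 (step_sound _ 65 [(rh20e56a1196e70fcc.shift 0 1), rh8cdd36b03d57a2f6, rh8ff3dde5b1c639e0, rhc4526fc8abf298b6] (by decide +kernel))
noncomputable def rh06f5b9411be2718b : CRef := CRef.mk (Pat.mk 0x80000000800000008000000580000000000000000 0xc0000000c0000003f0000007f0000000700000002 7 7) 0 0 (step_sound _ 98 [rh082ac680b8b3abec, (rh2fe78cc5ca4405d8.shift 2 2)] (by decide +kernel))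
noncomputable def rh403a1004e213188f : CRef := CRef.mk (Pat.mk 0x1000000010000000300000001000000000 0x2e000000ff0000003f000000380000001800000008 7 8) 0 0 (step_sound _ 133 [(rh2f68792b6b779e96.shift 4 1), rh5b6729093662ba66] (by decide +kernel))
noncomputable def rh16e952e77ba29eea : CRef := CRef.mk (Pat.mk 0x6000000020000000600000006 0x790000003f0000003e0000000600000006 7 7) 0 0 (step_sound _ 96 [rh167a5c48d10a8647, rh50fbb5868c909700] (by decide +kernel))
noncomputable def rh57d37688aa597e27 : CRef := CRef.mk (Pat.mk 0x400000004000000340000001400000000 0x1a0000003e00000037000000340000003600000022 7 6) 0 0 (step_sound _ 131 [(rh2f68792b6b779e96.shift 2 1), rhf1a76a54e65686b5] (by decide +kernel))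
noncomputable def rh24f961d4f3219eb6 : CRef := CRef.mk (Pat.mk 0x2000000180000000a 0xf6000000ff000001fb 7 9) 0 0 (step_sound _ 34 [rhd526f9b20c752965, rhdff2e0afc06e57b3, (rhea8024f69d23ee02.shift 1 0)] (by decide +kernel))
noncomputable def rh0f1c24c405c33a5f : CRef := CRef.mk (Pat.mk 0x2000000180000000a 0xe7000000ff000001fb 7 9) 0 0 (step_sound _ 34 [rhcb763b151dc90fdc, rhd526f9b20c752965, (rhea8024f69d23ee02.shift 1 0)] (by decide +kernel))
noncomputable def rhf28915223af859e0 : CRef := CRef.mk (Pat.mk 0x100000001e00000008 0x10000000100000001f000000ff000000e8 7 8) 0 0 (step_sound _ 65 [(rh3244c3cc8379b070.shift 0 1), rh624a6e114a8cf3b6] (by decide +kernel))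
noncomputable def rhef5e1d127e49441f : CRef := CRef.mk (Pat.mk 0x180000000a0000000000000008000000000000000000000000 0x70000003f0000003b00000008000000080000001c0000001c00000014 7 6) 0 0 (step_sound _ 194 [(rhb5a0a51a8e5939c5.shift 0 3), (rhbf873a50c97a5a16.shift 2 0), (rhd526f9b20c752965.shift 0 5)] (by decide +kernel))
noncomputable def rhc22119311c606b72 : CRef := CRef.mk (Pat.mk 0x100000001e000000140000000000000000 0x38000000380000001f0000001e0000001c0000003800000030 7 6) 0 0 (step_sound _ 129 [(rh3244c3cc8379b070.shift 0 3), (rh98ef38ab6cacfdcc.shift 1 0)] (by decide +kernel))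
noncomputable def rhac921b9699887f1f : CRef := CRef.mk (Pat.mk 0x1e00000004 0x1c7000000fe000001cc 7 9) 0 0 (step_sound _ 65 [(rh3244c3cc8379b070.shift 0 1), (rh42b8610d413a89c0.shift 1 0)] (by decide +kernel))
noncomputable def rh0f31fd930b4a48fe : CRef := CRef.mk (Pat.mk 0x1000000050000000700000004000000000000000000000000 0x6000000070000000700000007000000060000000e0000000e0000000c 7 4) 0 0 (step_sound _ 97 [(rh08edf065357d68e5.shift 0 1), (rh200491c3f6e9f883.shift 1 0), (rh62d5089427e66445.shift 0 1)] (by decide +kernel))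
noncomputable def rh5a7e15a6c3ebbe93 : CRef := CRef.mk (Pat.mk 0x1000000007000000060000000000000000 0x280000003800000038000000300000003f0000003e0000003000000020 7 6) 0 0 (step_sound _ 68 [(rh2fe78cc5ca4405d8.shift 0 2), (rheca59cb9ed7013b6.shift 1 0)] (by decide +kernel))
noncomputable def rh89cd8a8f5017e5d6 : CRef := CRef.mk (Pat.mk 0x120000000600000006 0x3f0000001f0000003a0000000600000006 7 6) 0 0 (step_sound _ 97 [(rh2145e1d24b96a57e.shift 1 0), rheb1fc97f3a2af76b] (by decide +kernel))
noncomputable def rhe3b2cdaef41e1e00 : CRef := CRef.mk (Pat.mk 0x7000000060000000000000000 0x800000008000000380000003f0000003e0000003400000030 7 6) 0 0 (step_sound _ 99 [(rh18a8efa221e72e64.shift 1 0), (rh75a8828f210a78cf.shift 0 1), (rh9462503d16fc4086.shift 0 2), (rhf5e124ec5c58a2dd.shift 0 2)] (by decide +kernel))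
noncomputable def rh90a1f3818c95778d : CRef := CRef.mk (Pat.mk 0x8000000000000001e00000004 0x80000007c0000001f0000003c0000001e0000000c 7 7) 0 0 (step_sound _ 131 [(rh3c88ce959c0e423f.shift 2 0), rhea0c50db67e26316] (by decide +kernel))
noncomputable def rh549543a9bb5252b4 : CRef := CRef.mk (Pat.mk 0x200000002000000020000000200000000 0x300000003000000030000000600000006000000070000000300000003 7 3) 0 0 (step_sound _ 32 [rh8dc2031d32064d45, rh932754581e0f4330] (by decide +kernel))
noncomputable def rh4aa51076bcdcdcd3 : CRef := CRef.mk (Pat.mk 0x3000000010000000100000001000000000 0xf000000fe000000ff000000100000003000000020 7 8) 0 0 (step_sound _ 131 [(rh50fbb5868c909700.shift 3 1), rhe052fd19f6b2da06] (by decide +kernel))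
noncomputable def rhfe58cc2885f021cc : CRef := CRef.mk (Pat.mk 0x8000000180000000a000000000000000800000000 0x28000000280000006c000000ff0000007b000000180000000800000008 7 8) 0 0 (step_sound _ 100 [rh15bfdba1faf37c2c, (rh1b2cc4ba122a7e24.shift 0 2), (rh3e595262c1b737ad.shift 3 2)] (by decide +kernel))
noncomputable def rh8eb8c3b0caa1ecb9 : CRef := CRef.mk (Pat.mk 0x1800000008000000180000001a00000000 0x20000000780000007e0000001f0000007b00000020 7 7) 0 0 (step_sound _ 66 [(rh710860539a4c4362.shift 0 1), (rhd7a4a4846b0c70b4.shift 1 0)] (by decide +kernel))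
noncomputable def rhf625949cd9d759f5 : CRef := CRef.mk (Pat.mk 0x1000000008000000080000000a000000000000000800000000 0x18000000180000000c0000001f0000001b000000180000000800000008 7 5) 0 0 (step_sound _ 195 [(rh2f68792b6b779e96.shift 3 3), rhb8ac66c864b9404e] (by decide +kernel))
noncomputable def rhdeed896270aa8ff9 : CRef := CRef.mk (Pat.mk 0x8000000080000000a0000000000000008 0x140000001c0000003c0000000f0000001f0000003b0000001800000008 7 6) 0 0 (step_sound _ 163 [(rh5abfc4c9d959be03.shift 2 1), (rhc85cc95794737cf7.shift 2 2), (rhced6d86d2069808b.shift 3 1), rhdae5b40d5ef079d3] (by decide +kernel))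
noncomputable def rh6cf5bd9320f65167 : CRef := CRef.mk (Pat.mk 0x80000000a000000000000000800000000 0x80000000c0000001c0000001f0000001b0000001c0000000c0000000c 7 5) 0 0 (step_sound _ 67 [(rh5e6e1f1966d4ee2e.shift 2 0), (rh771d065bdc85bf2d.shift 2 0), rh9e78c8d0a6e73966] (by decide +kernel))
noncomputable def rha53197535bf62ec1 : CRef := CRef.mk (Pat.mk 0x6000000020000000200000002000000000000000000000000 0x10000000300000007000000060000000200000002000000070000000700000005 7 3) 0 0 (step_sound _ 65 [rh72c40f9ee7724588, (rhbaefcd01e0a8bca3.shift 1 2)] (by decide +kernel))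
noncomputable def rh53d0136c721683b4 : CRef := CRef.mk (Pat.mk 0x180000000a0000000800000008000000000000000000000000 0x40000001e0000001b00000008000000080000001c0000001c00000014 7 5) 0 0 (step_sound _ 67 [(rhbaefcd01e0a8bca3.shift 3 2), rhead136b9b48a2d77] (by decide +kernel))
noncomputable def rh7f511eb04ae02907 : CRef := CRef.mk (Pat.mk 0x38000000140000001000000010000000100000000000000000 0x70000003e000000160000001000000010000000380000003800000028 7 6) 0 0 (step_sound _ 194 [rhc1baa1e99999d90d, (rheb0810cc63b001d8.shift 1 5)] (by decide +kernel))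
noncomputable def rhe2dd672fd5f75bef : CRef := CRef.mk (Pat.mk 0x380000000000000020000000000000000000000000 0xf00000007e0000006700000020000000700000007000000050 7 8) 0 0 (step_sound _ 162 [(rh33d3f1ba39b8bd00.shift 2 0), (rh500a083f39e7580c.shift 2 2), (rh9e97bba44c1b13e4.shift 0 4)] (by decide +kernel))
noncomputable def rh10f9c677e85763dd : CRef := CRef.mk (Pat.mk 0x380000000000000020000000000000000000000000 0x10000000770000003e0000006700000020000000700000007000000050 7 7) 0 0 (step_sound _ 162 [(rh09d9f2ed3f61f767.shift 1 2), (rh33d3f1ba39b8bd00.shift 2 0), (rh4a0183ed70e2bd2d.shift 1 2), (rh592c7139d2c44767.shift 0 4), (rh9e97bba44c1b13e4.shift 0 4)] (by decide +kernel))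
noncomputable def rha08a008feb6a4b49 : CRef := CRef.mk (Pat.mk 0x1e00000000 0x1000000010000000300000003f0000003f00000008 7 6) 0 0 (step_sound _ 68 [(rh33e738c4ed385b9f.shift 1 1), rh7389ce0f5df2a3df] (by decide +kernel))
noncomputable def rha33e15d7860b849b : CRef := CRef.mk (Pat.mk 0x38000000000000002000000000 0x1ef000000fe000001e70000002000000020 7 9) 0 0 (step_sound _ 98 [(rh2cc7d62e70c02209.shift 0 2), (rh45f730bcf36fcf64.shift 1 2), (rhfcffa0a9e99c8fd4.shift 2 0)] (by decide +kernel))
noncomputable def rh9a2ea87dbbcf3fa1 : CRef := CRef.mk (Pat.mk 0x20000000200000002000000030000000000000000 0x50000000700000007000000020000000200000003000000070000000600000004 7 3) 0 0 (step_sound _ 193 [(rh79877ebd3ef475dd.shift 0 2), rha4f04de5afb2225d] (by decide +kernel))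
noncomputable def rha87a6c130fa64747 : CRef := CRef.mk (Pat.mk 0x5000000040000000400000004 0x7a0000003f0000003e0000000400000004 7 7) 0 0 (step_sound _ 97 [(rh50fbb5868c909700.shift 1 0), rh6ac98ce2730a5712] (by decide +kernel))
noncomputable def rh3bf4014581d275cc : CRef := CRef.mk (Pat.mk 0x6000000050000000400000004 0x1000000010000000380000001f0000003f0000000c00000004 7 6) 0 0 (step_sound _ 99 [(rh2f68792b6b779e96.shift 2 0), (rh6dbe6390b8cc8511.shift 0 1)] (by decide +kernel))
noncomputable def rh981da9dd7f429643 : CRef := CRef.mk (Pat.mk 0x80000000a000000080000000e00000000 0xe0000000f0000003e0000003c0000000e00000002 7 6) 0 0 (step_sound _ 66 [(rh5c5e593799055d58.shift 2 1), rhe1cad0428e540968] (by decide +kernel))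
noncomputable def rh80f396e5ebf765e5 : CRef := CRef.mk (Pat.mk 0x2000000020000000200000002000000000000000000000000 0x500000007000000060000000200000002000000070000000700000005 7 3) 0 0 (step_sound _ 194 [(rh2f68792b6b779e96.shift 1 3), rh3d1d13fd66741360] (by decide +kernel))
noncomputable def rh6e24b884f2fad11f : CRef := CRef.mk (Pat.mk 0x3800000000000000200000000000000000 0x20000000ee0000007e00000077000000300000003000000030 7 8) 0 0 (step_sound _ 130 [(rh016453ae10cbece4.shift 1 0), (rh2985e254e65d6bbb.shift 0 3), (rh9e29fb7c6bb32015.shift 1 1), (rhdcf59d50d110bb21.shift 1 0), (rhfcffa0a9e99c8fd4.shift 2 1)] (by decide +kernel))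
noncomputable def rhb8e8b0397797ec5d : CRef := CRef.mk (Pat.mk 0x3800000000000000280000000000000000 0x1000000018000000ff0000007e00000030000000380000003800000030 7 8) 0 0 (step_sound _ 130 [(rh11a76f93c7cb2adf.shift 1 0), (rh4c622fddc53a5f99.shift 0 4), (rh5279ae1c94d1f418.shift 1 0), (rhb18e6c78a554867d.shift 1 4)] (by decide +kernel))
noncomputable def rhd6a56415c7f55304 : CRef := CRef.mk (Pat.mk 0x1c00000000000000100000000000000000 0x10000000770000003f00000038000000180000001800000018 7 7) 0 0 (step_sound _ 129 [rh016453ae10cbece4, (rh9e29fb7c6bb32015.shift 0 1), (rhb18e6c78a554867d.shift 0 4), rhdcf59d50d110bb21, (rhfcffa0a9e99c8fd4.shift 1 1)] (by decide +kernel))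
noncomputable def rh8b7a45122b3e0f72 : CRef := CRef.mk (Pat.mk 0x1e0000000000000000 0x10000000300000003f0000003f0000000800000008 7 6) 0 0 (step_sound _ 100 [(rh33e738c4ed385b9f.shift 1 2), rh4454a437c95e0888] (by decide +kernel))
noncomputable def rh799601d9b2a88bff : CRef := CRef.mk (Pat.mk 0x8000000040000000c0000001c000000000000000000000000 0x80000003e0000007f0000001c000000300000003000000030 7 7) 0 0 (step_sound _ 132 [rh1bbe343feac34b9b, (rhb762f327c85d41a0.shift 1 3)] (by decide +kernel))
noncomputable def rh4707b315013a5ed9 : CRef := CRef.mk (Pat.mk 0xc000000040000000c0000001800000000 0x700000007c0000003c0000001f0000001800000010 7 7) 0 0 (step_sound _ 99 [(rh55afc6a59410cf00.shift 3 0), (rh7108172435f27f9a.shift 0 1)] (by decide +kernel))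
noncomputable def rhc449c6f83c5d2070 : CRef := CRef.mk (Pat.mk 0x40000000c0000001c 0x30000000300000007f0000007f0000001c 7 7) 0 0 (step_sound _ 33 [rh72c6df9bc6951e26, rhb739f4f82bb681b4] (by decide +kernel))
noncomputable def rh50a0af58b9cd1e22 : CRef := CRef.mk (Pat.mk 0xc000000040000000c0000001c0000000000000000 0x300000003c000000770000007f0000001c0000001000000010 7 7) 0 0 (step_sound _ 97 [rh61b6ed7ceddeeec1, (rhb739f4f82bb681b4.shift 0 2)] (by decide +kernel))
noncomputable def rh4c09abf7488361d6 : CRef := CRef.mk (Pat.mk 0x30000000100000001000000050 0x1cf000000fe000000f70000005000000050 7 9) 0 0 (step_sound _ 99 [rh3f32bc372c9a05f1, (rh50fbb5868c909700.shift 3 0)] (by decide +kernel))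
noncomputable def rh735c89bfeddbe03f : CRef := CRef.mk (Pat.mk 0x10000000100000001000000010 0x2f000000fe000000ff0000001000000010 7 8) 0 0 (step_sound _ 101 [rh1e1c41f9254d8622, (rh2f68792b6b779e96.shift 4 0)] (by decide +kernel))
noncomputable def rhaffb5111dc1d9f18 : CRef := CRef.mk (Pat.mk 0x1000000060000000300000002 0x500000007000000070000000300000003000000060000000700000003 7 3) 0 0 (step_sound _ 97 [rh50fbb5868c909700, rhf515bd7a6bdea78b] (by decide +kernel))
noncomputable def rhbd6105fa73442d0c : CRef := CRef.mk (Pat.mk 0x600000002000000000000000a0 0x3ff000001fe000003b0000000a0000000a0 7 10) 0 0 (step_sound _ 100 [(rh1c37177b4d6b0603.shift 3 0), (rh7b39b956f4823eae.shift 3 0), (rhd1f9989d6034576a.shift 4 0), rhf1068de07ecc4813] (by decide +kernel))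
noncomputable def rh1200cd604cfcea06 : CRef := CRef.mk (Pat.mk 0x20000001e0000000a00000000 0x16000000370000003e0000001e0000000e00000006 7 6) 0 0 (step_sound _ 100 [rh03b0d0af6f322cad, (rh33e738c4ed385b9f.shift 1 2)] (by decide +kernel))
noncomputable def rh47ca18175377b226 : CRef := CRef.mk (Pat.mk 0x2000000070000000000000000000000040 0x670000007e000000c70000004000000040 7 8) 0 0 (step_sound _ 70 [(rh57585ecc72cf7beb.shift 0 2), (rh9e07f76261b05888.shift 5 0)] (by decide +kernel))
noncomputable def rha226637036f4c99f : CRef := CRef.mk (Pat.mk 0x38000000100000000000000010 0x8000000080000000f0000003e000000770000001400000010 7 7) 0 0 (step_sound _ 131 [(rh1c7ece7a1e9a040d.shift 0 1), (rh9e07f76261b05888.shift 3 0)] (by decide +kernel))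
noncomputable def rh3f60ed6a4067388d : CRef := CRef.mk (Pat.mk 0x20000000200000003000000010000000000000004000000000 0x58000000fc000000fc000001f7000001fe000000cf0000004000000040 7 9) 0 0 (step_sound _ 101 [rh4822d55b92e47d0e, (rh7ec372de7fdf51d0.shift 2 3)] (by decide +kernel))
noncomputable def rhf3bd7b3eebd6799d : CRef := CRef.mk (Pat.mk 0x2000000020000000e00000006000000000000001000000000 0x400000006000000060000003f0000003e000000320000001000000010 7 6) 0 0 (step_sound _ 194 [(rh2f68792b6b779e96.shift 1 3), rh91ef3a6f840d0fff] (by decide +kernel))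
noncomputable def rh6edc0f7a853879f2 : CRef := CRef.mk (Pat.mk 0x1800000008000000000000002000000000 0x3d7000001fe000003ff000000600000002000000020 7 10) 0 0 (step_sound _ 133 [(rh6e7807b7fd7eb5f5.shift 2 1), rhd0cf3d1e536805e1, (rhdc1641106d7e5aa2.shift 2 3), (rhf9f5ad8dfd9d880b.shift 2 0)] (by decide +kernel))
noncomputable def rhbcf6aeee2bc08482 : CRef := CRef.mk (Pat.mk 0x1000000010000000300000001000000000 0x1000000010000000770000003e0000002f 7 7) 0 0 (step_sound _ 37 [(rh55afc6a59410cf00.shift 4 0), rh91a2298d1796b84e] (by decide +kernel))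
noncomputable def rhd9c1e4fd1769baf3 : CRef := CRef.mk (Pat.mk 0x2000000020000000200000002 0x4000000070000000700000003000000060000000700000007 7 3) 0 0 (step_sound _ 128 [rhe5594a90fc3836f1, rhffd04209dc8ea796] (by decide +kernel))
noncomputable def rh37d6aef4518dde76 : CRef := CRef.mk (Pat.mk 0x800000008000000080000000800000008 0x140000001c0000001c0000000c000000180000007c0000001f0000000c00000008 7 7) 0 0 (step_sound _ 100 [(rh2f68792b6b779e96.shift 3 0), (rh5514933d5f1a6910.shift 0 1)] (by decide +kernel))
noncomputable def rh806b8393a0429ef7 : CRef := CRef.mk (Pat.mk 0x1000000010000000100000007000000000 0x1000000010000000f70000007e0000000f 7 8) 0 0 (step_sound _ 35 [rh15b856e33c69f807, (rh932754581e0f4330.shift 3 0)] (by decide +kernel))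
noncomputable def rha1b581813ac7bf71 : CRef := CRef.mk (Pat.mk 0x8000000080000000800000008 0xc0000000c0000000c0000001f0000007c00000018 7 7) 0 0 (step_sound _ 130 [rh2fe39102f854a9b3, (rhffd04209dc8ea796.shift 2 0)] (by decide +kernel))
noncomputable def rh7b481907aa436fee : CRef := CRef.mk (Pat.mk 0xe00000002000000020000000a00000000 0xf90000007f000000e6000000060000000e0000000c 7 8) 0 0 (step_sound _ 128 [(rh50fbb5868c909700.shift 0 1), rh60d9b2f2c718db0c] (by decide +kernel))
noncomputable def rh383b1f6ea4f65307 : CRef := CRef.mk (Pat.mk 0x300000003000000000000000600000000 0x1c0000001f0000001f0000000e0000000600000004 7 5) 0 0 (step_sound _ 65 [(rh55afc6a59410cf00.shift 1 0), (rh76060637a004f59d.shift 0 1)] (by decide +kernel))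
noncomputable def rhdbb492719a02384b : CRef := CRef.mk (Pat.mk 0x20000000e0000000a000000080000002800000000 0x5000000070000000700000007000000020000000e0000000e0000001f0000003800000010 7 6) 0 0 (step_sound _ 36 [(rh55afc6a59410cf00.shift 3 0), (rh9bb0c33ebe16b42f.shift 0 1)] (by decide +kernel))
noncomputable def rhbe763ab3dc6dd69c : CRef := CRef.mk (Pat.mk 0x20000000200000003000000010000000000000004000000000 0x400000006000000060000001f7000001fe000000ef0000006000000060 7 9) 0 0 (step_sound _ 101 [rh4822d55b92e47d0e, (rhc8e4c908cab1a418.shift 4 0), (rhe410088c7bc5bca8.shift 5 1)] (by decide +kernel))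
noncomputable def rh2d31207366f651a5 : CRef := CRef.mk (Pat.mk 0x18000000080000000000000028 0x20000001e7000000ff000000ff0000003800000038 7 9) 0 0 (step_sound _ 101 [(rh6e7807b7fd7eb5f5.shift 2 0), (rh7b3ba9f1e7e0b1a9.shift 1 0), rh89d040c75bd35288, (rhdc1641106d7e5aa2.shift 2 2)] (by decide +kernel))
noncomputable def rh3a9d7602edb76c4e : CRef := CRef.mk (Pat.mk 0x80000000800000008000000080000000000000008 0x8000000180000007c0000001f0000001c00000018 7 7) 0 0 (step_sound _ 36 [rh876e5912f9043ef4, (rhd3458b32566d63f7.shift 3 1)] (by decide +kernel))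
noncomputable def rh715057224d925851 : CRef := CRef.mk (Pat.mk 0x800000008000000080000001c00000000 0x100000001800000008000001ff000000fe000001c0 7 9) 0 0 (step_sound _ 132 [(rh2f68792b6b779e96.shift 3 1), rhc423f9c0cb02283f] (by decide +kernel))
noncomputable def rhc61f214186eea683 : CRef := CRef.mk (Pat.mk 0x1000000010000000700000000000000040000000000000000000000000 0x1000000010000000f70000007e000000cf00000040000000e0000000e0000000a0 7 8) 0 0 (step_sound _ 163 [(rh15b856e33c69f807.shift 0 4), (rh1ae4704ae86cb9a8.shift 2 4), (rh33d3f1ba39b8bd00.shift 3 0)] (by decide +kernel))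
noncomputable def rh3a8a7f7df86d50d1 : CRef := CRef.mk (Pat.mk 0x10000000f000000000 0x1f7000000fe0000000e 7 9) 0 0 (step_sound _ 71 [(rh33e738c4ed385b9f.shift 4 1), rh3d92b62a1b4cc5a5] (by decide +kernel))
noncomputable def rh68b3b2121c44e92c : CRef := CRef.mk (Pat.mk 0x800000008000000080000000800000008 0x40000000c0000001c000000780000001f0000000c00000008 7 7) 0 0 (step_sound _ 162 [rhe1e0524274ea4188, (rhffd04209dc8ea796.shift 2 1)] (by decide +kernel))
noncomputable def rha9c49d7bb509054d : CRef := CRef.mk (Pat.mk 0x80000000800000008000000080000000000000008 0x40000000c0000001c000000780000001f0000000c00000008 7 7) 0 0 (step_sound _ 162 [(rh50fbb5868c909700.shift 2 2), rh7dfbd9c7f23afcbe] (by decide +kernel))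
noncomputable def rhcb9add4f1eb7f0f4 : CRef := CRef.mk (Pat.mk 0x1800000018000000080000000800000000 0x640000003f0000001f000000180000001800000010 7 7) 0 0 (step_sound _ 130 [rh45df217638b3dcc7, (rh50fbb5868c909700.shift 2 1)] (by decide +kernel))
noncomputable def rhffd3895021359a57 : CRef := CRef.mk (Pat.mk 0x3000000030000000100000003000000000 0x40000001f00000007c000000770000003e0000000f 7 9) 0 0 (step_sound _ 35 [rh78ce9bacb8937013, (rh932754581e0f4330.shift 3 0)] (by decide +kernel))
noncomputable def rh2d36f38a5ec6a773 : CRef := CRef.mk (Pat.mk 0xc00000004000000040000000400000000 0xf20000007f0000003f0000000c0000000c00000008 7 8) 0 0 (step_sound _ 129 [(rh50fbb5868c909700.shift 1 1), rhb5235791d507ae37] (by decide +kernel))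
noncomputable def rh343f88471d009885 : CRef := CRef.mk (Pat.mk 0x70000000580000000000000040 0x20000000200000007c0000007f000000d80000004000000040 7 8) 0 0 (step_sound _ 133 [(rh9e07f76261b05888.shift 5 0), (rhaed7bf8ab24f550b.shift 0 2)] (by decide +kernel))
noncomputable def rhc75bcda8b3cfc0d1 : CRef := CRef.mk (Pat.mk 0x180000001e0000000200000000 0xe0000000f0000001b0000003e0000001600000010 7 6) 0 0 (step_sound _ 34 [(rh18965a982d73c794.shift 1 1), rh71a4c173bf261f95] (by decide +kernel))
noncomputable def rh8a1fb2f2a46c2ba8 : CRef := CRef.mk (Pat.mk 0x180000000e000000000000002000000000 0x2a0000003e0000003f0000001f0000001e000000370000003200000030 7 6) 0 0 (step_sound _ 100 [(rh15115c16165f7f79.shift 3 0), (rha82bf9e83b78fa91.shift 0 1)] (by decide +kernel))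
noncomputable def rhe985779d8af52329 : CRef := CRef.mk (Pat.mk 0x180000000e000000000000002000000000 0x2800000038000000380000001e000000fe000000770000003000000030 7 8) 0 0 (step_sound _ 100 [(rh15115c16165f7f79.shift 3 0), (rh5b76b39fbfaa23b1.shift 1 0), rh808f571e1d6baf80, (rhb447f348b8f2aaa5.shift 0 2)] (by decide +kernel))
noncomputable def rhd1aa3c71574611aa : CRef := CRef.mk (Pat.mk 0x3000000018000000000000004000000000 0x40000000e7000000ff000000f8000000e00000006000000040 7 8) 0 0 (step_sound _ 134 [(rh18965a982d73c794.shift 3 3), rhd85f892fa05ffac0] (by decide +kernel))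
noncomputable def rha59868ab65d1c188 : CRef := CRef.mk (Pat.mk 0x3c0000000c00000000 0xe0000000f0000003e0000003c0000000c00000004 7 6) 0 0 (step_sound _ 98 [(rh3244c3cc8379b070.shift 1 2), rhf1cce1a3e3826cd1] (by decide +kernel))
noncomputable def rh3cfc1cefa9693505 : CRef := CRef.mk (Pat.mk 0xc0000000c0000003c0000000c00000000 0x320000007e0000006c0000003f0000001c00000010 7 7) 0 0 (step_sound _ 36 [(rh55afc6a59410cf00.shift 3 0), (rh8b3b13ec5744bd02.shift 0 1)] (by decide +kernel))
noncomputable def rh060911bddda555c9 : CRef := CRef.mk (Pat.mk 0x4000000000000000c000000060000000000000000 0x600000016000000330000003f0000003e0000000800000008 7 6) 0 0 (step_sound _ 100 [(rh18965a982d73c794.shift 1 2), rh817b8cebcba6dbca] (by decide +kernel))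
noncomputable def rh3787b580e98cc3e3 : CRef := CRef.mk (Pat.mk 0x180000000e000000000000002000000000 0x4000000040000001f0000007e000000770000003200000032 7 7) 0 0 (step_sound _ 100 [(rh06db8ceda6269a47.shift 0 2), (rh5b76b39fbfaa23b1.shift 1 0), rhef38858534887a05, (rhfca472774fde86a0.shift 1 0)] (by decide +kernel))
noncomputable def rhc39d6435eefdd4ad : CRef := CRef.mk (Pat.mk 0x100000001e0000000800000000 0x38000000380000001f0000001e0000003800000010 7 6) 0 0 (step_sound _ 36 [rhcb49a5e584d3f9c0, (rhe25b0a99195a5d59.shift 1 1)] (by decide +kernel))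
noncomputable def rh756f03c8bf9075a2 : CRef := CRef.mk (Pat.mk 0x5800000008000000000000002000000000 0x3800000038000000f8000000d8000000ff000000f70000003000000030 7 8) 0 0 (step_sound _ 100 [(rh15115c16165f7f79.shift 3 0), (rh2d405b9988772a1f.shift 1 0), rh65cef9632e677259, (rhe071d5edbc5a25a2.shift 3 0)] (by decide +kernel))
noncomputable def rhc5e1009124c0724e : CRef := CRef.mk (Pat.mk 0x1c00000038000000000000002000000000 0x4000000040000001c0000003f000000670000002200000022 7 7) 0 0 (step_sound _ 69 [rh4b4e848370234aa6, (rh7b1f1fb55310c477.shift 4 0)] (by decide +kernel))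
noncomputable def rh13486c1c169a816c : CRef := CRef.mk (Pat.mk 0xe0000001c000000000000001000000000 0x14000000770000007e0000001c000000180000001800000010 7 7) 0 0 (step_sound _ 4 [(rh2613c889e411427e.shift 3 0), rh375cf92be0f5a226] (by decide +kernel))
noncomputable def rh445acd1a351e6a2c : CRef := CRef.mk (Pat.mk 0x40000003c0000000800000000 0xe0000000f0000003c0000003c0000000e00000004 7 6) 0 0 (step_sound _ 34 [(rheb0810cc63b001d8.shift 1 1), rhf1cce1a3e3826cd1] (by decide +kernel))
noncomputable def rh1102c9cb584a8094 : CRef := CRef.mk (Pat.mk 0xc00000008000000080000002800000000 0x300000007f0000007e000000180000003800000030 7 7) 0 0 (step_sound _ 132 [(rh2f68792b6b779e96.shift 3 1), rhf443ea4e34c4e8a5] (by decide +kernel))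
noncomputable def rh4386dacc8ca8390e : CRef := CRef.mk (Pat.mk 0x200000002000000020000000200000000 0x40000000700000007000000070000000600000006000000060000000200000002 7 3) 0 0 (step_sound _ 161 [(rh44f453b84f013105.shift 1 1), (rh66ee4e4e1313f0fc.shift 0 2), (rh9bb7d10ce98dcee4.shift 1 0), (rhc85cc95794737cf7.shift 0 2)] (by decide +kernel))
noncomputable def rh0954a71b97d09f2b : CRef := CRef.mk (Pat.mk 0x40000000c0000001c 0x30000000300000007f0000007f0000001c 7 7) 0 0 (step_sound _ 33 [rh906403dd62397d1a, rhb739f4f82bb681b4] (by decide +kernel))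
noncomputable def rhc949bef7ce52bf39 : CRef := CRef.mk (Pat.mk 0x200000002000000020000000200000000 0x10000000700000007000000070000000300000003000000030000000200000002 7 3) 0 0 (step_sound _ 161 [rh0105b2139521f473, (rh3ca48e2a6d60153d.shift 0 1), (rhc85cc95794737cf7.shift 0 2), (rhe01cfd8f0577defd.shift 0 2)] (by decide +kernel))
noncomputable def rh3ef72ee7af504b6b : CRef := CRef.mk (Pat.mk 0xc0000000c000000040000001400000000 0x100000003c0000003f0000000f0000001c00000018 7 6) 0 0 (step_sound _ 35 [(rh55afc6a59410cf00.shift 2 0), rh920aa40b70767bab] (by decide +kernel))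
noncomputable def rh5e7256c70c6d3c56 : CRef := CRef.mk (Pat.mk 0x4000000040000000c0000001c00000000 0x180000003c0000003f0000000f0000001c00000010 7 6) 0 0 (step_sound _ 131 [(rh2f68792b6b779e96.shift 2 1), rhb408dca00d15fd24] (by decide +kernel))
noncomputable def rh31ddac2e8ed7a09f : CRef := CRef.mk (Pat.mk 0xe00000004000000140000000400000000 0x700000007f0000003f0000001c0000000c00000008 7 7) 0 0 (step_sound _ 35 [(rh012c7625579c68af.shift 0 1), (rh55afc6a59410cf00.shift 2 0)] (by decide +kernel))
noncomputable def rh2406511ecf80fd92 : CRef := CRef.mk (Pat.mk 0x1c00000008000000080000000800000000 0xe0000000fe0000007f000000080000000c00000004 7 8) 0 0 (step_sound _ 34 [(rh932754581e0f4330.shift 2 0), (rhdfdd3a9b8bb67edc.shift 0 3)] (by decide +kernel))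
noncomputable def rha9eb7ecbe57edd30 : CRef := CRef.mk (Pat.mk 0x1c0000000e000000080000002800000000 0x200000002000000030000001f0000007e0000006f0000003800000030 7 7) 0 0 (step_sound _ 4 [rh037225a6b6511aa5, (rhd3458b32566d63f7.shift 3 0)] (by decide +kernel))
noncomputable def rhf53205eaedf8267e : CRef := CRef.mk (Pat.mk 0xc0000001e000000080000000000000000 0x8000000080000000f0000001e0000003f0000000300000003 7 6) 0 0 (step_sound _ 129 [(rh3244c3cc8379b070.shift 0 3), rh7c5378df7eddd423] (by decide +kernel))
noncomputable def rh0c17524af180dbb4 : CRef := CRef.mk (Pat.mk 0x3800000010 0x387000001fe000003ff 7 10) 0 0 (step_sound _ 38 [(rh352b7f91eba0c81f.shift 3 0), rh708c3bc8fe2f3084, (rhaf9f2efc81a8312b.shift 2 0)] (by decide +kernel))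
noncomputable def rh115612bb4ee9993a : CRef := CRef.mk (Pat.mk 0xe0000000400000004 0x2000000e70000007e000000e700000004 7 8) 0 0 (step_sound _ 68 [(rh352b7f91eba0c81f.shift 1 1), (rh45f730bcf36fcf64.shift 0 1), (rhaf9f2efc81a8312b.shift 0 1), rhe4f9133a81c1dbc5] (by decide +kernel))
noncomputable def rhff2b9ad6661b56e9 : CRef := CRef.mk (Pat.mk 0x1e00000000000000140000000000000000 0x60000003e000000070000001c0000000f0000000a 7 6) 0 0 (step_sound _ 97 [rh095b376292d8fbe7, (rheb0810cc63b001d8.shift 0 3)] (by decide +kernel))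
noncomputable def rh42536ef9ce021db6 : CRef := CRef.mk (Pat.mk 0xe000000000000001400000000 0x2000000036000000f70000007f000000fe0000001c0000001c 7 8) 0 0 (step_sound _ 100 [rh0837bf74ccc9ef48, (rh4c6fa5356a4905b7.shift 1 0), rhd0f2e39b54bcbf0d] (by decide +kernel))
noncomputable def rh36d3c305ab2d14a2 : CRef := CRef.mk (Pat.mk 0x38000000000000004000000000 0x40000003df000001fe000003e70000006000000020 7 10) 0 0 (step_sound _ 102 [(rh0837bf74ccc9ef48.shift 2 0), (rh45f730bcf36fcf64.shift 2 2), (rh56a24c72f1c55520.shift 2 3), (rh708c3bc8fe2f3084.shift 0 2)] (by decide +kernel))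
noncomputable def rh11dc20e5a0378c82 : CRef := CRef.mk (Pat.mk 0x38000000000000004000000000 0x40000001c7000000fe000000ff0000006000000020 7 9) 0 0 (step_sound _ 102 [(rh0837bf74ccc9ef48.shift 2 0), (rh3b00e9e9432b8f40.shift 2 2), (rh708c3bc8fe2f3084.shift 0 2)] (by decide +kernel))
noncomputable def rh12856764285a88fa : CRef := CRef.mk (Pat.mk 0x1e0000001200000028000000000000000000000000 0x80000000f0000001e0000001e000000380000001e0000001c00000004 7 6) 0 0 (step_sound _ 193 [(rh3244c3cc8379b070.shift 0 5), (rhcaedef3b23fb3798.shift 1 0)] (by decide +kernel))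
noncomputable def rh1fae3a7637244807 : CRef := CRef.mk (Pat.mk 0x1e00000000000000280000000000000000 0xc0000001f00000038000000380000001e00000014 7 6) 0 0 (step_sound _ 100 [rhced9f65e4ff4dd02, (rhe25b0a99195a5d59.shift 1 3)] (by decide +kernel))
noncomputable def rh55ba35afca77bd3b : CRef := CRef.mk (Pat.mk 0xe000000000000000400000000 0x2000000f70000007e000000e70000000400000004 7 8) 0 0 (step_sound _ 100 [(rh3b00e9e9432b8f40.shift 0 2), (rh45f730bcf36fcf64.shift 0 2), (rh56a24c72f1c55520.shift 0 3), rhd0f2e39b54bcbf0d] (by decide +kernel))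
noncomputable def rhed0e049269683b8d : CRef := CRef.mk (Pat.mk 0x3c00000000 0x1fc000000fe000001c7 7 9) 0 0 (step_sound _ 38 [(rh3fc3a7fb6866dcd4.shift 3 0), (rh9890f9d77740bbed.shift 2 1), (rhe401600d466b97cd.shift 2 0), rhe4f34ca69f33b4db] (by decide +kernel))
noncomputable def rhe2253acbf49ec480 : CRef := CRef.mk (Pat.mk 0xe000000000000001000000000 0x2000000028000000ff0000007e000000f80000001000000010 7 8) 0 0 (step_sound _ 100 [(rh1317c6ea28e6bacd.shift 1 0), (rh45f730bcf36fcf64.shift 0 2), (rh56a24c72f1c55520.shift 0 3), (rhd45e3ae46e6d7252.shift 1 0)] (by decide +kernel))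
noncomputable def rh4e5b1113d03b1bb9 : CRef := CRef.mk (Pat.mk 0xc000000080000000800000000 0x100000001c0000007c0000000f0000007c0000001800000010 7 7) 0 0 (step_sound _ 131 [rh47db436c481961a2, (rhced6d86d2069808b.shift 3 0), (rhdf8b9aa233deec1e.shift 0 1), rhedf6a18f6f88178e] (by decide +kernel))
noncomputable def rh7f06ae0d8d70b0ae : CRef := CRef.mk (Pat.mk 0x38000000000000004000000000 0x60000000ef0000007e000000e70000006000000060 7 8) 0 0 (step_sound _ 102 [(rh0837bf74ccc9ef48.shift 2 0), (rh22de5993038d04b0.shift 2 0), (rh4c622fddc53a5f99.shift 1 3), (rh708c3bc8fe2f3084.shift 0 2), (rhd45e3ae46e6d7252.shift 3 0)] (by decide +kernel))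
noncomputable def rh40c10ee78eb47d23 : CRef := CRef.mk (Pat.mk 0x38000000000000005000000000 0x1000000030000000770000003e000000770000007000000040 7 7) 0 0 (step_sound _ 98 [(rh4c622fddc53a5f99.shift 0 3), (rh592c7139d2c44767.shift 0 2), (rh6aaf382993851e7f.shift 2 0), (rh9e97bba44c1b13e4.shift 0 2)] (by decide +kernel))
noncomputable def rh08d878f740f6890a : CRef := CRef.mk (Pat.mk 0x1e00000000000000280000000000000000 0x180000001f00000038000000380000001e00000014 7 6) 0 0 (step_sound _ 100 [rh8430f61d153805cf, (rhe25b0a99195a5d59.shift 1 3)] (by decide +kernel))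
noncomputable def rh0345604f9dd81c00 : CRef := CRef.mk (Pat.mk 0x3800000000000000500000000000000000 0x2000000020000000a7000000fe000000ff000000500000005000000040 7 8) 0 0 (step_sound _ 134 [(rh708c3bc8fe2f3084.shift 0 3), (rh721a9f023dbadaa4.shift 2 1), (rh96baeb6eaf172679.shift 2 1), (rheb100aab8ed4573d.shift 2 0)] (by decide +kernel))
noncomputable def rh93f002782d3a6993 : CRef := CRef.mk (Pat.mk 0x380000000000000010000000000000000000000000 0x20000000200000006f0000003e0000003f00000010000000180000001800000008 7 7) 0 0 (step_sound _ 132 [(rh01483ff9cba2f6ac.shift 3 0), (rhb730ba14aa32bdb3.shift 4 2), (rhffdd029c37f544a3.shift 0 3)] (by decide +kernel))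
noncomputable def rh608d2c1be0dbd8a4 : CRef := CRef.mk (Pat.mk 0x400000004000000040000001c00000000 0xe0000000f0000003c0000000f0000001c00000010 7 6) 0 0 (step_sound _ 67 [(rh2145e1d24b96a57e.shift 2 1), rh682c8c3da2f92152] (by decide +kernel))
noncomputable def rhb883a8a19fe5b6cc : CRef := CRef.mk (Pat.mk 0x8000000060000000c00000018000000000000000000000000 0x80000003e0000003f00000018000000300000003000000030 7 6) 0 0 (step_sound _ 132 [rh1bbe343feac34b9b, (rhf48373e13d2bc128.shift 1 4)] (by decide +kernel))
noncomputable def rh7ffa779f303e6e3b : CRef := CRef.mk (Pat.mk 0xc000000080000002800000008 0x1f0000000fe000001ff0000002800000028 7 9) 0 0 (step_sound _ 100 [(rh2f68792b6b779e96.shift 3 0), rh4f2e1aafba31458f] (by decide +kernel))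
end Crest.Agent.S0047.Helper85.Cert
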