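import Crest.Agent.Lib.S0047.Helper85CertPL7F0
import Crest.Agent.Lib.S0047.Helper85CertPL7F1
import Crest.Agent.Lib.S0047.Helper85CertPL7F2
import Crest.Agent.Lib.S0047.Helper85CertPL7F3
import Crest.Agent.Lib.S0047.Helper85CertPL7F4
import Crest.Agent.Lib.S0047.Helper85CertPL7F5
import Crest.Agent.Lib.S0047.Helper85CertPL7F6
import Crest.Agent.Lib.S0047.Helper85CertPL7F7
import Crest.Agent.Lib.S0047.Helper85CertPL7F8
import Crest.Agent.Lib.S0047.Helper85CertPL7F9
import Crest.Agent.Lib.S0047.Helper85CertPL7F10
import Crest.Agent.Lib.S0047.Helper85CertPL7F11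
set_option autoImplicit false
set_option linter.all false
set_option Elab.async false
namespace Crest.Agent.S0047.Helper85.Cert
open Crest.Agent.S0047.Helper85

noncomputable def rh310d8c1897d86d09 : CRef := CRef.mk (Pat.mk 0x100000001000000050000000000000000000000000 0x200000003000000030000000770000003e0000003f00000028 8 7) 0 0 (step_sound _ 68 [(rh6c59ce14113da07f.shift 4 0), (rhcab3157f7bdcba3e.shift 3 0), (rhd92f1551f0fdfa3f.shift 0 1)] (by decide +kernel))
noncomputable def rh23bebe0e285dcedc : CRef := CRef.mk (Pat.mk 0x1000000010000000500000001000000000 0x80000001800000010000000770000003e0000002f 8 7) 0 0 (step_sound _ 131 [(rh50fbb5868c909700.shift 3 1), rhd92f1551f0fdfa3f] (by decide +kernel))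
noncomputable def rhb82ee5f5b900d26d : CRef := CRef.mk (Pat.mk 0x8000000080000000800000008 0x200000002000000170000003f0000003f0000000c00000008 8 6) 0 0 (step_sound _ 100 [(rh2f68792b6b779e96.shift 3 0), rhd34a88ba30bcee49] (by decide +kernel))
noncomputable def rha582339f082d9907 : CRef := CRef.mk (Pat.mk 0x1c00000008000000080000002800000000 0x1f0000007f0000007f0000003800000030 8 7) 0 0 (step_sound _ 36 [rh042c1bbe6ba07a01, (rh55afc6a59410cf00.shift 3 0)] (by decide +kernel))
noncomputable def rh05b99b3a55e8c0ce : CRef := CRef.mk (Pat.mk 0x30000000100000001000000010 0x1cf000001fe000003be0000001000000010 8 10) 0 0 (step_sound _ 66 [(rh0b786d94a31538a6.shift 1 2), (rhdf369ac86cf17040.shift 2 0), (rhedf3a755fe019897.shift 1 2), rhf38f9b555022e2b2] (by decide +kernel))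
noncomputable def rh352fddbeae4809b8 : CRef := CRef.mk (Pat.mk 0x1000000010000000500000001000000000 0x200000003000000010000000770000003e0000002f 8 7) 0 0 (step_sound _ 133 [(rh2f68792b6b779e96.shift 4 1), rhd92f1551f0fdfa3f] (by decide +kernel))
noncomputable def rh72c6a90afae7f9d5 : CRef := CRef.mk (Pat.mk 0x100000001000000050000000000000000000000000 0x8000000180000001800000018000000770000003e0000003f00000008 8 7) 0 0 (step_sound _ 68 [(rh5abfc4c9d959be03.shift 3 1), (rhc4526fc8abf298b6.shift 3 0), (rhd92f1551f0fdfa3f.shift 0 1)] (by decide +kernel))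
noncomputable def rh364da975ceff4842 : CRef := CRef.mk (Pat.mk 0xc00000018000000080000002800000000 0x100000003f0000001f0000003f0000003800000010 8 6) 0 0 (step_sound _ 132 [(rh2f68792b6b779e96.shift 3 1), rhb6c95131d2dc6545] (by decide +kernel))
noncomputable def rh5f1db46351a58a84 : CRef := CRef.mk (Pat.mk 0x3000000020000000a000000020 0x10000000100000007ce000003fe000007bf000000a0000000a0 8 11) 0 0 (step_sound _ 102 [(rh2f68792b6b779e96.shift 5 0), rhf1c89be7e4321c94] (by decide +kernel))
noncomputable def rh6f8cc61885871185 : CRef := CRef.mk (Pat.mk 0x380000000000000028000000000000000000000000 0x700000003e0000007700000038000000f00000007000000050 8 8) 0 0 (step_sound _ 162 [(rh8c173cec9d923ca7.shift 1 0), (rh9e97bba44c1b13e4.shift 0 4), (rhe84c35e83a304151.shift 2 0), (rhf7ddab02e367f378.shift 1 2)] (by decide +kernel))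
noncomputable def rhd36d322168eb93c0 : CRef := CRef.mk (Pat.mk 0x280000000800000020000000000000000000000000 0x4000000040000001ff000000fe000001ef00000020000000700000007000000050 8 9) 0 0 (step_sound _ 164 [(rh2820ca9a6c4f41b4.shift 0 4), (rh30d4c68134598f9f.shift 2 2), rhe74d14abeafd57f8] (by decide +kernel))
noncomputable def rh4825c46f559aeb54 : CRef := CRef.mk (Pat.mk 0x500000001000000010 0x800000008000007ff000003ff000007bf00000010 8 11) 0 0 (step_sound _ 69 [(rh2820ca9a6c4f41b4.shift 1 1), (rh352b7f91eba0c81f.shift 3 1), rh633b3c7cb98e5f80, (rh96d743001b52f8dc.shift 2 1)] (by decide +kernel))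
noncomputable def rhe65ef24f5c6f475d : CRef := CRef.mk (Pat.mk 0x500000001000000050000000000000000000000000 0x8800000088000003ff000001ff000003ff00000050000000e0000000e0000000a0 8 10) 0 0 (step_sound _ 165 [(rh2820ca9a6c4f41b4.shift 1 4), (rh30d4c68134598f9f.shift 3 2), (rh352b7f91eba0c81f.shift 3 4), (rh633b3c7cb98e5f80.shift 0 3), rh637081a0a0a17807, (rhe74d14abeafd57f8.shift 1 0)] (by decide +kernel))
noncomputable def rh706b24dfea6e33aa : CRef := CRef.mk (Pat.mk 0x20000000a000000020000000e000000000000000000000000 0x1a0000001a0000001b0000003e0000000e000000180000001800000018 8 6) 0 0 (step_sound _ 130 [(rh2145e1d24b96a57e.shift 1 3), rh6b574a37541dfb12] (by decide +kernel))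
noncomputable def rh377cf2e686332010 : CRef := CRef.mk (Pat.mk 0x20000000a00000002000000020 0x8000000080000001f0000007e000000f70000002400000020 8 8) 0 0 (step_sound _ 100 [(rh1680fc3eec86c92f.shift 0 1), (rh50fbb5868c909700.shift 4 0)] (by decide +kernel))
noncomputable def rh089d7f04331bd90e : CRef := CRef.mk (Pat.mk 0x380000000000000028000000000000000000000000 0x20000000670000003e0000007700000038000000f00000007000000050 8 8) 0 0 (step_sound _ 162 [(rh592c7139d2c44767.shift 0 4), (rh9e29fb7c6bb32015.shift 1 2), (rhe9fe126b2a62c528.shift 1 0)] (by decide +kernel))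
noncomputable def rh54489ab9c44d42ce : CRef := CRef.mk (Pat.mk 0x140000001c000000140000000000000000 0x360000003e000000170000001f0000001c0000000800000008 8 6) 0 0 (step_sound _ 67 [(rh3e595262c1b737ad.shift 2 1), (rh62d5089427e66445.shift 2 0), (rhc5366e53b56a8412.shift 0 2)] (by decide +kernel))
noncomputable def rhbc7834ae14787ee7 : CRef := CRef.mk (Pat.mk 0x28000000280000002000000020000000000000000000000000 0x2f0000007c0000003000000060000000700000007000000010 8 7) 0 0 (step_sound _ 70 [rh8852da6864efdae3, (rhd3458b32566d63f7.shift 5 2)] (by decide +kernel))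
noncomputable def rh80c6a9e3c08331f4 : CRef := CRef.mk (Pat.mk 0x30000000100000007000000010 0xf000000ff000000fe0000007000000010 8 8) 0 0 (step_sound _ 67 [rh39d80319ffd007ae, (rhc02b3aee7ab87ee1.shift 1 1), (rhd69c262cd33b94b3.shift 1 2)] (by decide +kernel))
noncomputable def rh13c3b907dd8b5052 : CRef := CRef.mk (Pat.mk 0x400000004000000040000001c 0x34000000340000007f0000007f0000001c 8 7) 0 0 (step_sound _ 35 [(rh2145e1d24b96a57e.shift 2 0), rh46559edd7e2a54b9] (by decide +kernel))
noncomputable def rh3b31f37766e4cb85 : CRef := CRef.mk (Pat.mk 0x200000002000000020000000200000000 0x10000000700000007000000060000000300000003000000070000000600000004 8 3) 0 0 (step_sound _ 34 [(rh55afc6a59410cf00.shift 1 0), (rhc88cf42222b76280.shift 0 1)] (by decide +kernel))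
noncomputable def rh8ee406389d07532b : CRef := CRef.mk (Pat.mk 0x2000000020000000000000001800000000 0x40000000600000006000000020000001e7000000fe000001ff 8 9) 0 0 (step_sound _ 37 [(rh3a2a22c59b172258.shift 4 0), rh900144b0f9adb2af, rhcf1cfae59fc63cc5, rhfa6156345f526d69] (by decide +kernel))
noncomputable def rh420e72f9aea10fa1 : CRef := CRef.mk (Pat.mk 0x2000000070000000000000000000000000 0x140000001c0000001c0000007f0000007e0000001f0000001800000010 8 7) 0 0 (step_sound _ 99 [(rh55c4ed4acec0f063.shift 1 2), (rh93415c6a95b38377.shift 2 0), (rhb12ffaec36122c99.shift 0 2), (rhedf6b6c69a16cbd5.shift 1 3)] (by decide +kernel))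
noncomputable def rhe428ed1009d1c35f : CRef := CRef.mk (Pat.mk 0x3000000020000000e000000000 0x387000001fe000001ff000000e000000080 8 10) 0 0 (step_sound _ 67 [(rh075211c3608a5a57.shift 2 1), rh4daea3ba64e848ca, (rh6634224c868ed3af.shift 2 1), (rhc40d12ada704558c.shift 0 1)] (by decide +kernel))
noncomputable def rhd4b6b9892a6b2a26 : CRef := CRef.mk (Pat.mk 0x400000006000000040000001400000000 0x34000000340000003e0000003f0000001c00000008 8 6) 0 0 (step_sound _ 35 [(rh55afc6a59410cf00.shift 2 0), (rhcedc24bc3fda36fc.shift 0 1)] (by decide +kernel))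
noncomputable def rh2016cde8831a52be : CRef := CRef.mk (Pat.mk 0xc00000018000000100000001000000000 0x3200000032000000370000001f0000001f0000003c0000003400000020 8 6) 0 0 (step_sound _ 129 [rh47470b8285cfa303, (rhb739f4f82bb681b4.shift 0 3)] (by decide +kernel))
noncomputable def rh6dd02677ad6e89f6 : CRef := CRef.mk (Pat.mk 0x80000000a0000000a00000000000000000000000000000000 0x1800000018000000180000000f000000ee0000007c000000fc0000001c00000004 8 8) 0 0 (step_sound _ 99 [rh0bd7bcfc41843595, (rh1a6b2475faaa177a.shift 1 2), (rh20966da26a1c2ae8.shift 2 2), (rh8cdd36b03d57a2f6.shift 2 1), (rh9b1bf2b4a13bd739.shift 0 1)] (by decide +kernel))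
noncomputable def rhf2122432506f5158 : CRef := CRef.mk (Pat.mk 0x40000000400000005000000000000000000000000 0x80000000c0000000c000000770000003e0000007e0000000a 8 7) 0 0 (step_sound _ 66 [(rh1a6b2475faaa177a.shift 0 1), (rh6c59ce14113da07f.shift 2 0), (rhcab3157f7bdcba3e.shift 1 0)] (by decide +kernel))
noncomputable def rh95fb0c0ce8b59f87 : CRef := CRef.mk (Pat.mk 0x5000000070000000500000000000000000000000000000000 0x1000000050000000500000007000000770000003e0000007e0000000e00000002 8 7) 0 0 (step_sound _ 98 [(rh03cc326bf07d2d6d.shift 0 2), (rh1a6b2475faaa177a.shift 0 2), (rh8cdd36b03d57a2f6.shift 1 1), (rhac3d6389f960a17c.shift 0 2), (rhbaff7ec0fcc038ba.shift 1 0), (rhda7297b1db46bc8a.shift 0 1)] (by decide +kernel))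
noncomputable def rh84e88b560de35837 : CRef := CRef.mk (Pat.mk 0x1e0000001800000000000000000000000000000000 0x4000000070000001e0000001f00000003000000070000000700000005 8 5) 0 0 (step_sound _ 129 [rh76f5a3b0ea426738, (rheb0810cc63b001d8.shift 0 4)] (by decide +kernel))
noncomputable def rh80b53dcb83706a2d : CRef := CRef.mk (Pat.mk 0x1a000000100000000000000000 0x50000000700000007000000070000001e000000370000000600000004 8 6) 0 0 (step_sound _ 98 [rhaa9adf877e4b01a6, (rhe25b0a99195a5d59.shift 1 2)] (by decide +kernel))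
noncomputable def rh555a45317abe89d0 : CRef := CRef.mk (Pat.mk 0x1000000034000000200000000000000000 0xa0000000e0000000e0000003f0000003e0000003f0000000c00000008 8 6) 0 0 (step_sound _ 99 [(rh0de499e0455c9c14.shift 0 2), (rhaa9adf877e4b01a6.shift 1 0), (rhd1d05263fabc0227.shift 0 2), (rhedf6b6c69a16cbd5.shift 0 3)] (by decide +kernel))
noncomputable def rhac0d026bf1b92818 : CRef := CRef.mk (Pat.mk 0x1a0000000200000010000000300000000000000000 0x4000000070000001e000000030000001f000000370000000700000005 8 6) 0 0 (step_sound _ 162 [rh2dae2c3cde4a3759, (rheb0810cc63b001d8.shift 0 4)] (by decide +kernel))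
noncomputable def rhea93c7527f2c100c : CRef := CRef.mk (Pat.mk 0x1a0000001a00000010000000300000000000000000 0x4000000070000001f0000001a0000001f000000370000000700000005 8 6) 0 0 (step_sound _ 162 [rh2dae2c3cde4a3759, (rhb739f4f82bb681b4.shift 0 4)] (by decide +kernel))
noncomputable def rh02a5a8a45a7ec6b6 : CRef := CRef.mk (Pat.mk 0x1000000010000000100000001000000000 0x8000000180000001c0000003f0000003e0000002f 8 6) 0 0 (step_sound _ 35 [(rh932754581e0f4330.shift 3 0), rheb899394410a0333] (by decide +kernel))
noncomputable def rhc5652bd1360849d8 : CRef := CRef.mk (Pat.mk 0x1000000010000000100000001800000000 0x8000000180000001c0000007f0000003e00000027 8 7) 0 0 (step_sound _ 37 [(rh55afc6a59410cf00.shift 4 0), rh80a8bc215c16222d] (by decide +kernel))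
noncomputable def rh150f29b4f63a8238 : CRef := CRef.mk (Pat.mk 0x100000001e00000018 0x3e0000003e000000170000001e0000001b 8 6) 0 0 (step_sound _ 100 [rh393eb97118f7b358, (rh5c5e593799055d58.shift 3 0)] (by decide +kernel))
noncomputable def rh8e32e911d48d3f41 : CRef := CRef.mk (Pat.mk 0x1000000018000000380000000000000000 0xc0000000c0000000c0000001c0000001e0000003c0000000f0000000c 8 6) 0 0 (step_sound _ 98 [rh18088714346bf4f7, (rhb739f4f82bb681b4.shift 1 2)] (by decide +kernel))
noncomputable def rhf0271f570d6b08b2 : CRef := CRef.mk (Pat.mk 0x4000000000000001e0000001800000000 0x10000000f0000001f0000000b0000001e0000001b00000010 8 5) 0 0 (step_sound _ 97 [(rh3244c3cc8379b070.shift 0 2), rh4433acc9deb5d91c] (by decide +kernel))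
noncomputable def rhf2e2e92d23699e49 : CRef := CRef.mk (Pat.mk 0x1e00000010000000100000000000000000 0x30000003e0000001f000000370000000600000006 8 6) 0 0 (step_sound _ 97 [rha67e356c00658080, (rheb0810cc63b001d8.shift 0 3)] (by decide +kernel))
noncomputable def rhcdc8b23e8c26b106 : CRef := CRef.mk (Pat.mk 0x200000007000000040000000400000000000000000 0x77000000fe0000007f000000dc0000001800000008 8 8) 0 0 (step_sound _ 131 [(rh36eba2a3de447758.shift 0 3), (rh6765e7960b108c8d.shift 2 3), (rh9820a5ec8373342d.shift 2 0), (rhb12ffaec36122c99.shift 0 3)] (by decide +kernel))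
noncomputable def rhe33ac67639f63f14 : CRef := CRef.mk (Pat.mk 0x700000004000000040 0x8000000280000003f0000007f000000fe0000007700000050 8 8) 0 0 (step_sound _ 101 [rh0d7471582b9deb8a, (rhc89253ff58c66167.shift 5 0), (rhe072fffdd2fccf38.shift 5 0)] (by decide +kernel))
noncomputable def rhfd802f0a7a7bdd68 : CRef := CRef.mk (Pat.mk 0x1e0000000000000000000000000000000000000000 0x10000000700000007000000070000001e0000000700000003000000070000000700000004 8 5) 0 0 (step_sound _ 129 [rh5ade84eac3d178a3, (rheb0810cc63b001d8.shift 0 4)] (by decide +kernel))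
noncomputable def rhaa42e81ac594cfa0 : CRef := CRef.mk (Pat.mk 0x38000000200000000000000000 0xa0000000e0000000e0000000f0000003e0000003f0000000c00000008 8 6) 0 0 (step_sound _ 98 [(rh0de499e0455c9c14.shift 0 2), (rh93415c6a95b38377.shift 1 0), (rhd1d05263fabc0227.shift 0 2)] (by decide +kernel))
noncomputable def rhe0df9d9f3714e240 : CRef := CRef.mk (Pat.mk 0x2000000160000000000000010000000000000000000000000 0x330000001e0000003800000018000000380000003800000020 8 6) 0 0 (step_sound _ 163 [(rh3244c3cc8379b070.shift 0 5), (rhb1c7da47e5f900c4.shift 1 0)] (by decide +kernel))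
noncomputable def rh865bf2056e57fb37 : CRef := CRef.mk (Pat.mk 0x180000007000000040 0xa0000000e0000000e0000000c0000000f80000007f00000067 8 8) 0 0 (step_sound _ 35 [(rh161049940437d60f.shift 3 0), (rh816fd429a35c92eb.shift 1 0), rh81eabc3f853e2700, rhc0fdbedd668582ed] (by decide +kernel))
noncomputable def rh400241dd4322207f : CRef := CRef.mk (Pat.mk 0x1e0000001800000000000000000000000000000000 0x70000001e0000001f00000003000000070000000700000004 8 5) 0 0 (step_sound _ 129 [rh01076b297b23e313, (rheb0810cc63b001d8.shift 0 4)] (by decide +kernel))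
noncomputable def rhfbeb1fb091bb1516 : CRef := CRef.mk (Pat.mk 0xe000000080000002800000000 0x8000000e8000000fe000001ff0000003800000030 8 9) 0 0 (step_sound _ 100 [(rh0c73e62f4278d8c1.shift 0 2), rhc6558bd0b1119bd2, rhfe9e522090ad037d, (rhff137c455409f0e3.shift 1 0)] (by decide +kernel))
noncomputable def rh8d23336aa0eb73f3 : CRef := CRef.mk (Pat.mk 0x1000000030000000200000008000000000 0x8000000080000039f000001fe000001ff0000008c0000008c 8 10) 0 0 (step_sound _ 99 [(rh117e9d2e0e2ed747.shift 2 0), (rh3918eeb6c53434d8.shift 0 2), (rh478adaa2b93b3f8d.shift 0 1), (rh8ee80cc30e93a344.shift 2 2)] (by decide +kernel))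
noncomputable def rh11ae42dc5e2019af : CRef := CRef.mk (Pat.mk 0x1c00000000000000400000001e00000000 0x1c0000000fc000000e6000000440000005e00000003 8 9) 0 0 (step_sound _ 1 [(rh7fe58a12b82736a5.shift 1 0), rheb0810cc63b001d8] (by decide +kernel))
noncomputable def rh46ed69140c9a6fa8 : CRef := CRef.mk (Pat.mk 0x3800000020000000800000003800000000 0x388000003f8000007fc0000008f000000be00000007 8 11) 0 0 (step_sound _ 134 [(rh0c73e62f4278d8c1.shift 2 3), (rh10e3074efe589034.shift 2 3), rh7992607b0bbc71fc, (rhcbb85c38ff781794.shift 2 1), (rhff137c455409f0e3.shift 3 1)] (by decide +kernel))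
noncomputable def rhca629e66a8b72841 : CRef := CRef.mk (Pat.mk 0xe00000008000000200000000200000000 0xe0000000fe000001ff000000330000002200000002 8 9) 0 0 (step_sound _ 132 [(rh0c73e62f4278d8c1.shift 0 3), (rh10e3074efe589034.shift 0 3), rh32ec57c92e17635e, (rhff137c455409f0e3.shift 1 1)] (by decide +kernel))
noncomputable def rh76aa5422df03215e : CRef := CRef.mk (Pat.mk 0x40000000800000008000000280000000000000000000000000000000000000000 0x40000001c00000018000000380000001f0000000c0000001c0000001c00000014 8 6) 0 0 (step_sound _ 131 [rh3c799b52c0cd2897, (rhffd04209dc8ea796.shift 2 4)] (by decide +kernel))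
noncomputable def rha919389e42420d11 : CRef := CRef.mk (Pat.mk 0x100000001000000050000000000000000000000000 0x80000001800000018000000770000003e0000003f00000028 8 7) 0 0 (step_sound _ 68 [(rh46baee19951a66e7.shift 3 0), (rh6eff4158bb400f47.shift 3 0), (rhc4526fc8abf298b6.shift 3 0), (rhd92f1551f0fdfa3f.shift 0 1)] (by decide +kernel))
noncomputable def rh2f4f0731c4a86b85 : CRef := CRef.mk (Pat.mk 0x10000000100000005000000000000000000000000000000000 0x10000000100000003000000030000000770000003e0000003f0000003800000020 8 7) 0 0 (step_sound _ 100 [(rh37d2ff33d1233819.shift 4 0), (rh8cdd36b03d57a2f6.shift 3 1), (rhb4d78cd0e58cc17c.shift 3 0), (rhd92f1551f0fdfa3f.shift 0 2), (rhff6b27c9612d7353.shift 3 1)] (by decide +kernel))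
noncomputable def rh05241b5ba8825a10 : CRef := CRef.mk (Pat.mk 0x100000001000000050000000000000000000000000 0x10000000180000003c000000ff000000770000003e0000003f00000018 8 8) 0 0 (step_sound _ 68 [(rh9dde4bdaf9dec30c.shift 0 1), (rhc4526fc8abf298b6.shift 3 0), (rhd92f1551f0fdfa3f.shift 0 1), (rhff6b27c9612d7353.shift 3 0)] (by decide +kernel))
noncomputable def rh5125eacc46ff6bd2 : CRef := CRef.mk (Pat.mk 0x80000001000000010000000500000000000000000 0x80000001800000010000000770000003e0000002f 8 7) 0 0 (step_sound _ 36 [rhd92f1551f0fdfa3f, (rhffd04209dc8ea796.shift 3 1)] (by decide +kernel))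
noncomputable def rhc02bcff1bb4cbd8d : CRef := CRef.mk (Pat.mk 0x8000000000000000e00000000000000000000000000000000 0x8000000780000003e00000077000000380000003800000028 8 7) 0 0 (step_sound _ 132 [(rh06db8ceda6269a47.shift 0 3), (rh3b00e9e9432b8f40.shift 0 3), (rh3fc3a7fb6866dcd4.shift 1 3), (rhaa2eec4b46aa3a46.shift 1 0)] (by decide +kernel))
noncomputable def rh7a62c4b2780c02e6 : CRef := CRef.mk (Pat.mk 0x200000002000000020000000200000000000000000000000000000000 0x300000007000000070000000700000003000000070000000600000004 8 3) 0 0 (step_sound _ 96 [(rh79877ebd3ef475dd.shift 0 3), rh8495a27377132ea5] (by decide +kernel))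
noncomputable def rhc846c3da3b4507ba : CRef := CRef.mk (Pat.mk 0x380000002000000000000000000000000000000000 0xc0000000c0000000f0000003e0000003f0000000e0000000e0000000e00000002 8 6) 0 0 (step_sound _ 162 [(rh0de499e0455c9c14.shift 0 4), (rh39676766cac456fa.shift 1 0), (rhd1d05263fabc0227.shift 0 4)] (by decide +kernel))
noncomputable def rh4b013d4b08985841 : CRef := CRef.mk (Pat.mk 0x2000000020000000a000000080000000c00000000 0xf30000007e000000ee000000080000000c00000004 8 8) 0 0 (step_sound _ 131 [(rh932754581e0f4330.shift 2 0), (rh9ac0bcc7d96693c5.shift 0 1)] (by decide +kernel))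
noncomputable def rh642acbf0c5e0a564 : CRef := CRef.mk (Pat.mk 0x8000000000000000e000000040000000000000000 0x800000008000000f80000007e000000f70000001400000014 8 8) 0 0 (step_sound _ 131 [(rh5c5e593799055d58.shift 2 2), rhdf8bf65daa0e8b33] (by decide +kernel))
noncomputable def rhc0630e0d24a3fe7c : CRef := CRef.mk (Pat.mk 0xf0000000300000000000000000000000000000000 0x180000000f0000001f0000001c0000001c0000001c00000010 8 5) 0 0 (step_sound _ 131 [rh87ff05e79b1a586d, (rhe25b0a99195a5d59.shift 0 4)] (by decide +kernel))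
noncomputable def rh6dfad99a853f0c59 : CRef := CRef.mk (Pat.mk 0x800000008000000280000000000000018000000000000000000000000 0x80000002800000028000001ef000000fe000001ef0000004000000040 8 9) 0 0 (step_sound _ 98 [(rh343a5d3670c5295a.shift 2 2), (rh5db979ee817d2c0a.shift 1 2), (rh6530f0e2f15deeeb.shift 1 2), rh9d56380813efe596] (by decide +kernel))
noncomputable def rhbb34eaf024a96af9 : CRef := CRef.mk (Pat.mk 0x1e000000000 0x1f000001fe000000ff 8 9) 0 0 (step_sound _ 36 [(rh04797e9e06425c4e.shift 1 0), (rh775ca1963e850b80.shift 2 0), (rheae1728ff4a56756.shift 3 0), rhfdbfa6e905294a62] (by decide +kernel))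
noncomputable def rhbc52701660e05c12 : CRef := CRef.mk (Pat.mk 0x80000002800000038 0x7800000078000000ef000000fe00000038 8 8) 0 0 (step_sound _ 36 [(rh59e8e5339c371f56.shift 1 0), (rha9fbfd4bb8cf890b.shift 0 1), (rhb762f327c85d41a0.shift 2 0), (rhee4c4dd27f5d0359.shift 1 0)] (by decide +kernel))
noncomputable def rh1d2139c51b4f96af : CRef := CRef.mk (Pat.mk 0x1e00000012000000000000000000000000 0x300000003000000070000001e0000001e000000070000000700000003 8 5) 0 0 (step_sound _ 161 [(rh3244c3cc8379b070.shift 0 4), rhe4a1b12ffaee49fe] (by decide +kernel))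
noncomputable def rh8f37fb46903c1ca8 : CRef := CRef.mk (Pat.mk 0x100000001000000010000000000000000000000000 0x2f0000007e000000ff00000010000000380000003800000028 8 8) 0 0 (step_sound _ 68 [(rh5ee4dc8825dcefa0.shift 1 1), (rh8cdd36b03d57a2f6.shift 3 0), (rh90db558c5eeaa1f2.shift 0 2)] (by decide +kernel))
noncomputable def rhcf247c81eb259d78 : CRef := CRef.mk (Pat.mk 0x800000008000000080000000800000000000000000000000000000000 0x80000001c0000003c0000000f0000001c0000001c0000001c00000004 8 6) 0 0 (step_sound _ 99 [(rh7928877f9bf74a91.shift 2 2), (rh8cdd36b03d57a2f6.shift 2 1), (rha9036ee088616a5e.shift 0 1), (rhe84e00c98653ad0c.shift 2 0)] (by decide +kernel))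
noncomputable def rh215eec42d97e714a : CRef := CRef.mk (Pat.mk 0x30000000000000001000000010 0x8000001ff000000fe000000170000001e0000003e 8 9) 0 0 (step_sound _ 99 [(rh5a4df29f20c07a62.shift 3 0), rh9afde6322e91a92c, (rhd74d37817ec9d4e4.shift 2 0), rhfdf65b4fc421f840] (by decide +kernel))
noncomputable def rhe70551b994fa615e : CRef := CRef.mk (Pat.mk 0xf000000080000000000000000 0x3f0000007f000000ec0000000800000008 8 8) 0 0 (step_sound _ 132 [rh0a6e50cf41d4fe52, (rh428265de8cd3cd2d.shift 0 3)] (by decide +kernel))
noncomputable def rh64f550cef0a6a548 : CRef := CRef.mk (Pat.mk 0x1e0000000000000000 0x80000003800000038000000380000003f0000001e0000003800000010 8 6) 0 0 (step_sound _ 100 [(rh33e738c4ed385b9f.shift 1 2), rh87c31f195de153c9] (by decide +kernel))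
noncomputable def rh103b4ef66905a7d7 : CRef := CRef.mk (Pat.mk 0x70000000000000002000000020 0x100000007f000001fe000001ce0000003c0000007c 8 9) 0 0 (step_sound _ 99 [(rh32ae5b24c8e351c8.shift 2 0), (rh775ca1963e850b80.shift 1 2), (rhd955a0402bd7b38f.shift 1 2), (rhe35905f8bc5d41a2.shift 0 2), (rhe401600d466b97cd.shift 2 2)] (by decide +kernel))
noncomputable def rh4939d18c5bfc78c2 : CRef := CRef.mk (Pat.mk 0x40000000f000000000000000000000000 0x1800000018000000180000001c0000000f0000001c0000000c0000000c 8 5) 0 0 (step_sound _ 131 [(rh33e738c4ed385b9f.shift 0 3), rh612003c16d254781] (by decide +kernel))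
noncomputable def rhf882baaa6b0c0ea3 : CRef := CRef.mk (Pat.mk 0x200000000000000010000000100000001000000000 0x200000003000000010000000ff000000fe0000002f 8 8) 0 0 (step_sound _ 132 [rh61cedbc46ecc4102, (rhbaefcd01e0a8bca3.shift 4 1)] (by decide +kernel))
noncomputable def rh29177dc5764745da : CRef := CRef.mk (Pat.mk 0x800000008000000080000000800000000 0x140000001c0000001c0000001c0000000c0000000f0000007c0000001800000008 8 7) 0 0 (step_sound _ 130 [rh4845c766840c1a8d, (rh50fbb5868c909700.shift 2 1)] (by decide +kernel))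
noncomputable def rh20cbb582b083f4f1 : CRef := CRef.mk (Pat.mk 0xa000000030000000600000008000000000000000000000000 0x1a0000001a0000001b0000001e0000000c000000180000001800000018 8 5) 0 0 (step_sound _ 98 [(rh2145e1d24b96a57e.shift 1 3), rhd3f2dfa0729a5cb2] (by decide +kernel))
noncomputable def rha04f68600f9a529d : CRef := CRef.mk (Pat.mk 0x3800000020000000000000000000000000 0x80000000c0000000f0000003e0000003f0000000e0000000e0000000a 8 6) 0 0 (step_sound _ 130 [(rh0de499e0455c9c14.shift 0 3), (rh775ca1963e850b80.shift 0 3), (rhbcd08b9885f5c99e.shift 1 0), (rhd1d05263fabc0227.shift 0 3)] (by decide +kernel))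
noncomputable def rh69e98cac484c7f41 : CRef := CRef.mk (Pat.mk 0x2000000020000000a0000000a0000000000000000 0x400000016000000160000003b0000001e0000000e0000000800000008 8 6) 0 0 (step_sound _ 194 [rh714ab8248e97ea17, (rhbaefcd01e0a8bca3.shift 1 2)] (by decide +kernel))
noncomputable def rhe23482ea5cd4648a : CRef := CRef.mk (Pat.mk 0x600000002000000000000000e0000000800000000 0x730000003e0000007b000000780000001f0000000800000008 8 7) 0 0 (step_sound _ 164 [(rh376cd2cdb08827d9.shift 0 4), (rh5cf652d87d4de76b.shift 0 2), rhd8d4cce516c2bbae, rhda5ff11808c02552] (by decide +kernel))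
noncomputable def rh65240bd7dd963b90 : CRef := CRef.mk (Pat.mk 0x2000000020000000000000002000000000000000000000000 0x500000007000000070000000700000003000000030000000300000003000000070000000700000005 8 3) 0 0 (step_sound _ 129 [(rh0e822a19e46e8b3c.shift 0 2), (rh193da7fc9e1674f1.shift 0 2), rh4ced31a8a6500d40, rhc850b49d039efae1] (by decide +kernel))
noncomputable def rhb3f0b59ae92bd25d : CRef := CRef.mk (Pat.mk 0x3400000020000000200000000000000000 0x80000000c0000000f0000003e0000003e0000006e0000000e0000000e 8 7) 0 0 (step_sound _ 131 [(rh5dcc2a46b0481258.shift 1 0), (rhbcd08b9885f5c99e.shift 1 0), (rhd1d05263fabc0227.shift 0 3)] (by decide +kernel))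
noncomputable def rh44a7e65439ee7df9 : CRef := CRef.mk (Pat.mk 0x100000001a00000000000000000000000000000000 0x400000006000000370000001e00000007000000070000000700000005 8 6) 0 0 (step_sound _ 130 [(rh33e738c4ed385b9f.shift 1 4), rhbcd08b9885f5c99e] (by decide +kernel))
noncomputable def rh49559e6dcdbd8748 : CRef := CRef.mk (Pat.mk 0x8000000280000000800000000000000000000000000000000 0x40000000f0000007c000000180000000c0000001c0000001c00000010 8 7) 0 0 (step_sound _ 194 [(rh01483ff9cba2f6ac.shift 2 1), (rh8c25cb665ab79ec0.shift 0 5), (rhc8671393f3bf7162.shift 2 0)] (by decide +kernel))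
noncomputable def rh6e10795e6422839c : CRef := CRef.mk (Pat.mk 0x400000002000000020000000a0000000800000000 0x1000000170000001f000000120000007a0000001f0000000c00000008 8 7) 0 0 (step_sound _ 161 [(rh2f68792b6b779e96.shift 1 2), rhc24270a842f67450] (by decide +kernel))
noncomputable def rh0937e66a398041cc : CRef := CRef.mk (Pat.mk 0x1600000002000000080000000800000000000000000000000000000000 0x1e0000003b0000001800000008000000080000001c0000001c00000014 8 6) 0 0 (step_sound _ 227 [(rh45820cbd559ceae7.shift 1 0), (rheb0810cc63b001d8.shift 0 6)] (by decide +kernel))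
noncomputable def rhf026def0cc87987d : CRef := CRef.mk (Pat.mk 0x12000000020000000a0000000a00000000 0x1000000170000001f000000160000001a0000001a0000000a00000008 8 5) 0 0 (step_sound _ 162 [rh41424be8671b9855, (rhbaefcd01e0a8bca3.shift 1 1)] (by decide +kernel))
noncomputable def rh28b5dc0c8949ca30 : CRef := CRef.mk (Pat.mk 0xc00000008000000080000000800000000 0x73000000ff0000007c000000180000001800000010 8 8) 0 0 (step_sound _ 132 [(rh2f68792b6b779e96.shift 3 1), rhc84913b3c202786c] (by decide +kernel))
noncomputable def rh507ee18cabc22909 : CRef := CRef.mk (Pat.mk 0x400000004000000040000000400000000 0x3a0000003f0000003f0000000c0000000c00000008 8 6) 0 0 (step_sound _ 129 [rh0f78b35116eceafd, (rh50fbb5868c909700.shift 1 1)] (by decide +kernel))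
noncomputable def rhd9fd99164604fadd : CRef := CRef.mk (Pat.mk 0xb00000000000000040000000400000000000000000000000000000000 0x180000000f0000001c0000000c00000004000000040000000e0000000e0000000a 8 5) 0 0 (step_sound _ 226 [rh45820cbd559ceae7, (rh4fc80024ed3db095.shift 0 4), (rh9c9de8a82d5e4ca8.shift 0 4)] (by decide +kernel))
noncomputable def rh210aae2064012003 : CRef := CRef.mk (Pat.mk 0x6000000020000000a0000000a0000000000000000 0x300000001e000000fb000000ff000000ee0000000800000008 8 8) 0 0 (step_sound _ 100 [rh0dd1060956829e91, rh123f92165c04e0d7, (rh271fbbbbca267337.shift 0 2), rh4baad379411d2447] (by decide +kernel))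
noncomputable def rh442eb45b513e5fe7 : CRef := CRef.mk (Pat.mk 0x40000000400000014000000140000000000000000 0x340000003c000000770000007f0000001c0000001000000010 8 7) 0 0 (step_sound _ 99 [(rh76908296e7de9b1b.shift 0 2), (rh85d01e60bae99e72.shift 1 2), (rh967a45ef8206f4a8.shift 1 0), (rha2e96c709e94c430.shift 2 0)] (by decide +kernel))
noncomputable def rhc01fd44f8119f485 : CRef := CRef.mk (Pat.mk 0x120000000a0000000a0000000a000000000000000000000000000000000 0x200000002000000120000001bf000000fe000000ee000001a0000001e0000001c000000040 8 9) 0 0 (step_sound _ 166 [(rh34f7c757bdcc945e.shift 6 0), (rhadd5715fbcd9b9d1.shift 0 2), (rhe961aabeabc170e3.shift 0 4)] (by decide +kernel))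
noncomputable def rh2bc33ad8d2aa6d1b : CRef := CRef.mk (Pat.mk 0x20000000a0000000a0000000a00000000 0x1000000170000001f0000001e0000001a0000000a0000000a00000008 8 5) 0 0 (step_sound _ 162 [(rhbaefcd01e0a8bca3.shift 1 1), rhdb43b15c9f8b47ed] (by decide +kernel))
noncomputable def rh6d06b6265a51569c : CRef := CRef.mk (Pat.mk 0x8000000080000000a0000000a000000000 0x8000000080000001bf000000fe0000004e 8 9) 0 0 (step_sound _ 38 [(rh932754581e0f4330.shift 6 0), rhe961aabeabc170e3] (by decide +kernel))
noncomputable def rh59166c42bd8c7291 : CRef := CRef.mk (Pat.mk 0x20000000a0000000a0000000a0000000000000000000000000 0x500000007000000170000001a0000001a0000001bf000000fe000000ee000001a0000001a000000180 8 9) 0 0 (step_sound _ 134 [(rh1341606455c9d8e7.shift 0 1), (rh2b00fe0ee687f885.shift 5 0), (rh878c03cc42e824bf.shift 4 2)] (by decide +kernel))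
noncomputable def rh5b87d4a288b0815e : CRef := CRef.mk (Pat.mk 0x20000000a0000000a0000000a00000008 0x40000001e0000003f0000001a0000000b0000000f0000000c 8 6) 0 0 (step_sound _ 162 [rh3867143abd7ceb06, (rhbaefcd01e0a8bca3.shift 1 1)] (by decide +kernel))
noncomputable def rh3a2e558878aec50e : CRef := CRef.mk (Pat.mk 0x20000000a0000000a0000000a00000008 0x3d0000001f0000003b0000001a0000000a0000000a00000008 8 6) 0 0 (step_sound _ 132 [(rhbaefcd01e0a8bca3.shift 3 0), (rhf9a561948d0ad639.shift 0 1)] (by decide +kernel))
noncomputable def rhbcc5c33b8482c211 : CRef := CRef.mk (Pat.mk 0x68000000280000002800000000 0x140000001c0000001c00000028000000780000002f0000003c00000010 8 7) 0 0 (step_sound _ 66 [(rhb2a0b9ccfb5cecd5.shift 2 2), rhe2593ac51a81cb9e] (by decide +kernel))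
noncomputable def rha75483ba58b49c97 : CRef := CRef.mk (Pat.mk 0x2000000020000000a0000000a000000000 0x2000000020000001bf000000fe0000004e 8 9) 0 0 (step_sound _ 38 [(rh55afc6a59410cf00.shift 5 0), rhe961aabeabc170e3] (by decide +kernel))
noncomputable def rh0d93b80dbbc621ea : CRef := CRef.mk (Pat.mk 0x7000000000000000a0000000c0000002000000000 0x380000005f000000f80000007e0000002c0000002000000020 8 8) 0 0 (step_sound _ 163 [(rh2df5afcfc4cfd1fc.shift 0 2), rh6015369e85d44d01, (rh6a78fa75f0f8d5b0.shift 0 2), (rha93a5dd541ab8209.shift 0 4), (rhe84bfd2bc1159083.shift 0 2)] (by decide +kernel))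
noncomputable def rh8585554cb985644e : CRef := CRef.mk (Pat.mk 0x1800000010000000180000000800000000 0x80000001800000010000000f8000000ff00000027 8 8) 0 0 (step_sound _ 36 [rh12204be10906cde9, (rh50fbb5868c909700.shift 3 1)] (by decide +kernel))
noncomputable def rhbc4279d6bffad7f8 : CRef := CRef.mk (Pat.mk 0xf000000010 0x1c7000001fe00000077 8 9) 0 0 (step_sound _ 5 [(rh18965a982d73c794.shift 4 0), rh68a65d64d78befc1] (by decide +kernel))
noncomputable def rh10f4fa53c4a509e9 : CRef := CRef.mk (Pat.mk 0x4000000000000000e00000002000000000 0x4000000040000001ce000000fe000001bf00000080 8 9) 0 0 (step_sound _ 102 [rh4e55971e90624233, (rh5c5e593799055d58.shift 5 1)] (by decide +kernel))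
noncomputable def rhb663078f9269b206 : CRef := CRef.mk (Pat.mk 0x2000000020000000200000003000000000 0x2000000020000003ff000001fe000003c7 8 10) 0 0 (step_sound _ 38 [rh1c46fb9836197b03, (rh55afc6a59410cf00.shift 5 0)] (by decide +kernel))
noncomputable def rh22c1ddc0b42107f2 : CRef := CRef.mk (Pat.mk 0x18000000080000000800000000000000000000000000000000 0x1800000018000000ff000000ff000001fc0000001c00000014 8 9) 0 0 (step_sound _ 99 [(rh8c3839f9b9075f23.shift 3 1), (rh984bfc6de6c2c524.shift 2 0), (rha8bc3cae4d77a08f.shift 2 1), (rhff5095b44545379b.shift 0 2)] (by decide +kernel))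
noncomputable def rh5f1c7693341f5f3e : CRef := CRef.mk (Pat.mk 0x200000002000000020000000200000000000000000000000000000000 0x600000007000000070000000700000006000000070000000300000001 8 3) 0 0 (step_sound _ 98 [rh9b8025488f982887, (rhd3458b32566d63f7.shift 1 3)] (by decide +kernel))
noncomputable def rh2a208ee7d1302cc0 : CRef := CRef.mk (Pat.mk 0x8000000080000000800000008000000000000000000000000 0x80000001c0000007e0000007f0000000c0000001c0000001800000018 8 7) 0 0 (step_sound _ 98 [(rh932754581e0f4330.shift 2 2), rhd050472752a7cf39] (by decide +kernel))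
noncomputable def rh2eb10c7e3a3a9b8f : CRef := CRef.mk (Pat.mk 0x8000000080000000800000008000000000000000000000000 0x80000001c0000003c0000000f0000001c0000001c0000001c 8 6) 0 0 (step_sound _ 67 [(rh6eff4158bb400f47.shift 2 0), (rh7928877f9bf74a91.shift 2 1), rha9036ee088616a5e] (by decide +kernel))
noncomputable def rha9b99e36c7eb142c : CRef := CRef.mk (Pat.mk 0x18000000080000000800000028000000000000001800000000 0x40000007c000000680000006800000028000000ef0000007e000000f8 8 8) 0 0 (step_sound _ 34 [(rh183e0d909544af91.shift 1 0), (rh71b06adb1bde91cb.shift 2 0), rh77100d685ef1b7c8, (rhe9937ce8bcea713a.shift 1 0)] (by decide +kernel))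
noncomputable def rhb4e9515fad555d6d : CRef := CRef.mk (Pat.mk 0x8000000000000000e000000040000000000000000 0x800000008000000f80000007e000000f70000001400000004 8 8) 0 0 (step_sound _ 131 [(rh5c5e593799055d58.shift 2 2), rh658cc23ae583acb2] (by decide +kernel))
noncomputable def rh4d2799df10f0b00e : CRef := CRef.mk (Pat.mk 0x100000001000000050000000000000000000000000 0x80000001800000018000000770000003e0000003f00000028 8 7) 0 0 (step_sound _ 68 [(rh5133fbe07fd94255.shift 0 1), (rh8ff3dde5b1c639e0.shift 3 0), (rhc4526fc8abf298b6.shift 3 0)] (by decide +kernel))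
noncomputable def rh0f922e9d60d2a7f2 : CRef := CRef.mk (Pat.mk 0x38000000000000001000000070 0x1c7000000fe000001ce0000003e00000074 8 9) 0 0 (step_sound _ 102 [rh9819fa1480897963, (rha93a5dd541ab8209.shift 3 2)] (by decide +kernel))
noncomputable def rh86a8e9bae779fdf9 : CRef := CRef.mk (Pat.mk 0x60000001e000000000000000000000000 0x300000003000000030000003e0000001e000000070000000300000003 8 6) 0 0 (step_sound _ 65 [rh0309e916aaf21abe, (rheb0810cc63b001d8.shift 0 2)] (by decide +kernel))
noncomputable def rh56c0f4e5c1f16d90 : CRef := CRef.mk (Pat.mk 0x3000000020000000a000000020 0x10000000100000007cf000003fe000007bf000000a0000000a0 8 11) 0 0 (step_sound _ 102 [(rh2f68792b6b779e96.shift 5 0), rhfcaa5c4ac6786b2e] (by decide +kernel))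
noncomputable def rhcf91cfb7d3e875de : CRef := CRef.mk (Pat.mk 0x2000000030000000200000002 0x50000000700000007000000070000000600000006000000070000000300000002 8 3) 0 0 (step_sound _ 129 [rh01046abb2ddf4585, (rh32431e66bbf434a4.shift 0 1), (rh44f453b84f013105.shift 1 0), (rh769be3fe24eee174.shift 0 1)] (by decide +kernel))
noncomputable def rha321187b1b18b0a1 : CRef := CRef.mk (Pat.mk 0x180000001000000050000000000000000000000000 0x1800000018000000770000003e0000003f00000028 8 7) 0 0 (step_sound _ 68 [(rha613ffd40b6c9d24.shift 3 0), (rhd92f1551f0fdfa3f.shift 0 1), (rhe4441baab75a6f73.shift 3 0)] (by decide +kernel))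
noncomputable def rhf89ca3b03e18dbe7 : CRef := CRef.mk (Pat.mk 0x1c0000000e000000080000002800000000 0x20000000200000003000001df000000fe000001ef0000003800000030 8 9) 0 0 (step_sound _ 36 [rh39ba8fb050a26b20, (rh55afc6a59410cf00.shift 3 0)] (by decide +kernel))
noncomputable def rhf4cb023ff02d09cf : CRef := CRef.mk (Pat.mk 0x3c0000000000000020000000000000000000000000 0x100000003e0000003700000020000000700000007000000050 8 7) 0 0 (step_sound _ 129 [(rh80fcd6d0a18cb2dd.shift 1 4), rhe49816516f0a7415] (by decide +kernel))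
noncomputable def rh51b16c7ae9f903d3 : CRef := CRef.mk (Pat.mk 0x3c0000000000000020000000000000000000000000 0x170000003e0000003000000020000000700000007000000050 8 7) 0 0 (step_sound _ 193 [(rh3f8766e6ecb455ce.shift 1 5), rh6c97138dff3c0805] (by decide +kernel))
noncomputable def rh9a100038179704e7 : CRef := CRef.mk (Pat.mk 0x40000000e00000008000000000 0x9000000090000001b8000000ff000001fe000000e700000020 8 9) 0 0 (step_sound _ 68 [(rh3b2b05f77630fe70.shift 1 1), (rh6765e7960b108c8d.shift 3 1), (rhdda18f14314c6e63.shift 0 1), (rhfd91648806081e50.shift 3 0)] (by decide +kernel))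
noncomputable def rhea2130d68f7199bf : CRef := CRef.mk (Pat.mk 0x18000000180000000000000000 0x3c0000003f0000007f00000038000000180000001800000008 8 7) 0 0 (step_sound _ 132 [rh3754c6c367c15ace, (rh4821dcf828b9d7bf.shift 3 0), (rh503dd4575245365b.shift 3 1), (rhc88e839617967cf4.shift 3 1)] (by decide +kernel))
noncomputable def rh243d181839e4ed79 : CRef := CRef.mk (Pat.mk 0x7000000000000000000000000000000000 0x38000000380000007f000001ff0000001c0000001c0000001c00000014 8 9) 0 0 (step_sound _ 131 [(rh61aef1e967b8dd77.shift 2 0), (rh875ee7c4c1e718c0.shift 0 4), (rh8aee2948d46dd937.shift 0 1), (rha36ed4c017c18c61.shift 2 1), (rhafa5a7051d37b143.shift 2 1)] (by decide +kernel))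
noncomputable def rh468fdde4bd725226 : CRef := CRef.mk (Pat.mk 0xe000000000000000000000000000000000 0x30000000300000003f000001fe000000ff000000380000003800000028 8 9) 0 0 (step_sound _ 132 [(rh2446f9f0d49f4f86.shift 0 3), (rh61aef1e967b8dd77.shift 3 0), (rh775ca1963e850b80.shift 2 3), (rh95c71a0aa953ef64.shift 0 3), (rha36ed4c017c18c61.shift 3 1), (rhafa5a7051d37b143.shift 3 1)] (by decide +kernel))
noncomputable def rh4139b8a3376ba1ae : CRef := CRef.mk (Pat.mk 0x280000000e000000000000000000000000 0x380000003e0000003f0000003c00000014 8 6) 0 0 (step_sound _ 100 [(rh428265de8cd3cd2d.shift 1 3), rha4a0918363e0d458] (by decide +kernel))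
noncomputable def rhef5e99fdac153561 : CRef := CRef.mk (Pat.mk 0x3c000000000000005000000000 0x800000008000001dc000000fe000000d70000005000000050 8 9) 0 0 (step_sound _ 65 [rh6bf7ef84911bf342, (rh80fcd6d0a18cb2dd.shift 1 2)] (by decide +kernel))
noncomputable def rh080b1d3b1241ea6d : CRef := CRef.mk (Pat.mk 0x10000000e0000000000000010000000000000000000000000 0x2b0000003e0000003000000010000000380000003800000028 8 6) 0 0 (step_sound _ 164 [(rh3f8766e6ecb455ce.shift 0 5), (rha23e9140b66e9602.shift 1 0)] (by decide +kernel))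
noncomputable def rh0c387c74c2f0f034 : CRef := CRef.mk (Pat.mk 0x7000000000000000000000000000000000 0x1800000018000000ff0000007e0000001f0000001c0000001c00000014 8 8) 0 0 (step_sound _ 131 [(rh4c622fddc53a5f99.shift 1 4), (rh61aef1e967b8dd77.shift 2 0), (rh988dac8d009f9f77.shift 0 3), (rh9e97bba44c1b13e4.shift 1 3)] (by decide +kernel))
noncomputable def rha8ddcf873f96c9cc : CRef := CRef.mk (Pat.mk 0x1c0000000000000040000000000000000000000000 0x1e7000000fe000000c700000040000000e0000000e0000000a0 8 9) 0 0 (step_sound _ 165 [(rh775ca1963e850b80.shift 0 4), (rha3cd6e417638cbd6.shift 2 0)] (by decide +kernel))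
noncomputable def rh0e8597787097384d : CRef := CRef.mk (Pat.mk 0x80000000e000000000000001400000000 0x80000000a000000eb0000007e000000f60000001400000014 8 8) 0 0 (step_sound _ 66 [rh499a02d623550218, (rh71222050f2c63a3a.shift 2 0)] (by decide +kernel))
noncomputable def rhaee1681682e7784e : CRef := CRef.mk (Pat.mk 0x1e000000090 0x77000001fe000000df 8 9) 0 0 (step_sound _ 36 [rhb7e555629d6096be, (rheb0810cc63b001d8.shift 3 0)] (by decide +kernel))
noncomputable def rh3d9ccce8f1410f87 : CRef := CRef.mk (Pat.mk 0x1e0000000000000020000000000000000000000000 0x100000003e0000006700000020000000700000007000000050 8 7) 0 0 (step_sound _ 129 [(rh2e09ee9dbe4da14e.shift 1 0), (rheb0810cc63b001d8.shift 0 4)] (by decide +kernel))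
noncomputable def rhf5a58a0d5e109957 : CRef := CRef.mk (Pat.mk 0x1800000018000000500000000000000000 0x1800000018000000770000003e0000003f 8 7) 0 0 (step_sound _ 36 [(rh7b1f1fb55310c477.shift 3 0), rhd92f1551f0fdfa3f] (by decide +kernel))
noncomputable def rh7fea07c3a317a80e : CRef := CRef.mk (Pat.mk 0x3800000000000000a0000000000000000000000000 0x3ce000001fe000001bf000000a0000001e0000001c000000140 8 10) 0 0 (step_sound _ 166 [(rh1597be57f2f4e72d.shift 0 2), (rh775ca1963e850b80.shift 1 4), (rha3cd6e417638cbd6.shift 3 0)] (by decide +kernel))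
noncomputable def rhf77b8674d969a4cf : CRef := CRef.mk (Pat.mk 0x1e000000080 0x7f000001fe000000cf 8 9) 0 0 (step_sound _ 36 [(rh88c620441a3a17ea.shift 1 0), rhb7e555629d6096be, (rhd1d05263fabc0227.shift 2 0), (rhd5eb272e07a4e288.shift 3 1)] (by decide +kernel))
noncomputable def rhca29b7bd6b2a4d95 : CRef := CRef.mk (Pat.mk 0x1c000000040000001000000000 0x80000000e0000000f0000001c0000001f0000003600000016 8 6) 0 0 (step_sound _ 131 [rh3a17240041aa1acb, (rh4821dcf828b9d7bf.shift 2 0), (rhb11d41c808e1ab4d.shift 3 0)] (by decide +kernel))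
noncomputable def rhcb20b56284a22647 : CRef := CRef.mk (Pat.mk 0x1e0000000000000000 0x500000007000000070000003f0000001e0000000700000002 8 6) 0 0 (step_sound _ 97 [(rh3244c3cc8379b070.shift 0 2), rh79b37a0ae1a1166a] (by decide +kernel))
noncomputable def rh01b20d24b8342407 : CRef := CRef.mk (Pat.mk 0xe0000000000000010000000000000000000000000 0x2800000028000000ff0000007e000000f000000010000000380000003800000028 8 8) 0 0 (step_sound _ 164 [(rh00c1a02c588da1b0.shift 1 2), (rh30d4c68134598f9f.shift 1 2), (rh500a083f39e7580c.shift 1 2), (rha23e9140b66e9602.shift 1 0), (rhb18e6c78a554867d.shift 0 5)] (by decide +kernel))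
noncomputable def rhfe6177b7a19d6b1f : CRef := CRef.mk (Pat.mk 0x1c0000000000000020000000000000000000000000 0x4000000050000001fc000000fe000001e700000020000000700000007000000050 8 9) 0 0 (step_sound _ 165 [(rh30d4c68134598f9f.shift 2 2), (rh4a0183ed70e2bd2d.shift 1 2), (rh500a083f39e7580c.shift 2 2), (rh9e97bba44c1b13e4.shift 0 4), (rha23e9140b66e9602.shift 2 0)] (by decide +kernel))
noncomputable def rh97176d4945c8430a : CRef := CRef.mk (Pat.mk 0x380000000000000040000000000000000000000000 0x20000001e7000000fe000000c700000040000000e0000000e0000000a0 8 9) 0 0 (step_sound _ 166 [(rh15b856e33c69f807.shift 0 4), (rh4a0183ed70e2bd2d.shift 2 2), (rh500a083f39e7580c.shift 3 2), (rha23e9140b66e9602.shift 3 0)] (by decide +kernel))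
noncomputable def rh33cd80cc4af0a78d : CRef := CRef.mk (Pat.mk 0x3800000004000000000000003000000020 0x70000003e00000006000000040000003e00000077 8 7) 0 0 (step_sound _ 130 [rh0a384f23e050cb23, (rheb0810cc63b001d8.shift 1 3)] (by decide +kernel))
noncomputable def rh4c2db3f84b1cea03 : CRef := CRef.mk (Pat.mk 0xe0000000000000014000000000000000000000000 0x780000003e00000037000000140000003e0000003e0000002a 8 7) 0 0 (step_sound _ 164 [rh2c72ba305cb936d9, (rh33d3f1ba39b8bd00.shift 1 0), (rh500a083f39e7580c.shift 1 2), (rha23e9140b66e9602.shift 1 0)] (by decide +kernel))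
noncomputable def rh6c6e95cd770ee366 : CRef := CRef.mk (Pat.mk 0x1e000000100000001000000000 0x600000006000000070000001e0000001f0000003700000007 8 6) 0 0 (step_sound _ 65 [rh4cb5679b67eb5d7c, (rheb0810cc63b001d8.shift 0 2)] (by decide +kernel))
noncomputable def rhc3a1e4c133a28ddb : CRef := CRef.mk (Pat.mk 0x3000000020000000a000000000 0x14000000140000007ef000003fe000007bf000000a0000000a0 8 11) 0 0 (step_sound _ 102 [(rh215e11e099257d75.shift 5 0), (rh7e713d58ed0966d0.shift 3 0), (rhcbaa110d8a6021ff.shift 0 1), rhfcaa5c4ac6786b2e] (by decide +kernel))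
noncomputable def rh9db1476117718991 : CRef := CRef.mk (Pat.mk 0x100000003000000020000000a000000000 0x14000000140000007ff000003fe000007bf000000a000000080 8 11) 0 0 (step_sound _ 102 [(rh7af882bee0289bdd.shift 3 2), (rh7e713d58ed0966d0.shift 3 0), (rhcbaa110d8a6021ff.shift 0 1), (rhe2f93f751a1b2a86.shift 3 0), rhfcaa5c4ac6786b2e] (by decide +kernel))
noncomputable def rhda2b33052fa7331d : CRef := CRef.mk (Pat.mk 0x20000000100000001000000050 0x1ef000000fe000000f70000005000000050 8 9) 0 0 (step_sound _ 100 [(rh2f68792b6b779e96.shift 4 0), rh851ab515f5e663cd] (by decide +kernel))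
noncomputable def rh7d07c3f29f4a92af : CRef := CRef.mk (Pat.mk 0xe000000010000000000000004 0x7c0000007e000000ef0000000400000004 8 8) 0 0 (step_sound _ 100 [(rh004505c6dfb401de.shift 1 0), (rh80fcd6d0a18cb2dd.shift 0 2)] (by decide +kernel))
noncomputable def rhae98e7f3d7bf7674 : CRef := CRef.mk (Pat.mk 0x8000000080000000c 0x140000001f0000003f0000003f0000000c0000000c 8 6) 0 0 (step_sound _ 99 [(rh1741680720c097b4.shift 2 0), rh26de692f03d4cb57, (rh9a369cb82ea472da.shift 2 0), (rhe62cab2ff5ad6fe2.shift 2 0)] (by decide +kernel))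
noncomputable def rh568e38204266cde5 : CRef := CRef.mk (Pat.mk 0xf0000000000000000 0x140000001c0000001c0000007c0000001e0000000f0000001c0000000c 8 7) 0 0 (step_sound _ 35 [rh2c02af45e37684dd, (rhe25b0a99195a5d59.shift 0 1)] (by decide +kernel))
noncomputable def rh4f20a92624c833c0 : CRef := CRef.mk (Pat.mk 0x600000006000000000000000100000001 0x30000000f0000003f0000000700000006000000060000000700000001 8 6) 0 0 (step_sound _ 65 [(rhceba6b2d0edcec32.shift 0 1), rheea67dfebd0f8008] (by decide +kernel))
noncomputable def rh1dc94430b0561ce1 : CRef := CRef.mk (Pat.mk 0xc00000006000000000000000a00000000 0x4000000040000003c0000007e0000007b0000000a00000002 8 7) 0 0 (step_sound _ 65 [(rh194a9b0f81405a79.shift 0 1), (rh71222050f2c63a3a.shift 1 0)] (by decide +kernel))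
noncomputable def rh3b8712a97cc21ae1 : CRef := CRef.mk (Pat.mk 0x8000000180000003800000010 0x1000000037000000ff000000f80000003800000030 8 8) 0 0 (step_sound _ 100 [(rh571950d89739e871.shift 3 0), rhcb705c5d12ba6a2c] (by decide +kernel))
noncomputable def rha6a38c5104621387 : CRef := CRef.mk (Pat.mk 0xc0000001c00000000 0x280000003800000038000000370000007f0000001c00000008 8 7) 0 0 (step_sound _ 65 [rha56341eb28f522e8, (rhb739f4f82bb681b4.shift 0 1)] (by decide +kernel))
noncomputable def rh62a6b12c43eae066 : CRef := CRef.mk (Pat.mk 0x800000018000000040000000000000010 0xc0000000c0000001f000000780000001c0000001c00000010 8 7) 0 0 (step_sound _ 68 [(rh9e07f76261b05888.shift 3 0), (rhebade35d026fe5a8.shift 0 1)] (by decide +kernel))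
noncomputable def rhc90e59084ddd3e6c : CRef := CRef.mk (Pat.mk 0x1c00000006000000000000000800000000 0x18000000180000003c0000001f0000007e000000780000000800000008 8 7) 0 0 (step_sound _ 99 [(rhb7865d15293bc45e.shift 0 2), (rhd02f44a45c1a55c1.shift 2 0), (rhdd1b84382d19bcbb.shift 2 0)] (by decide +kernel))
noncomputable def rh476eccd3e581668b : CRef := CRef.mk (Pat.mk 0x200000002000000060000000500000000 0xd0000001f0000001b0000001e0000000700000003 8 5) 0 0 (step_sound _ 33 [rh932754581e0f4330, rhb46da5e6eafa99d6] (by decide +kernel))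
noncomputable def rhf9b738624531b123 : CRef := CRef.mk (Pat.mk 0x1800000008000000100000001800000000 0x27000000ff000000f8000000100000001800000008 8 8) 0 0 (step_sound _ 100 [(rh932754581e0f4330.shift 3 0), (rhcb705c5d12ba6a2c.shift 0 1)] (by decide +kernel))
noncomputable def rh7ddd7de04b8018d0 : CRef := CRef.mk (Pat.mk 0x4000000060000000e 0x30000000300000003f0000003e0000003f 8 6) 0 0 (step_sound _ 4 [rh9d4dd8f844411262, (rhf48373e13d2bc128.shift 1 0)] (by decide +kernel))
noncomputable def rh17f22511abe7f664 : CRef := CRef.mk (Pat.mk 0x80000000c0000000400000000 0x1e0000007f0000007f0000000f0000000c00000008 8 7) 0 0 (step_sound _ 131 [(rh5c5e593799055d58.shift 2 1), rhae021263d260c290] (by decide +kernel))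
noncomputable def rh32d5e450774e6499 : CRef := CRef.mk (Pat.mk 0x40000000c000000020000000000000008 0xe0000003e000000070000000c0000000e0000000e00000008 8 6) 0 0 (step_sound _ 67 [(rh8014d142a8235877.shift 0 1), (rh9e07f76261b05888.shift 2 0)] (by decide +kernel))
noncomputable def rhe25bcd8cfbc390dc : CRef := CRef.mk (Pat.mk 0x800000008000000180000001400000000 0x140000007c0000001f0000007e000000fc000000e8 8 8) 0 0 (step_sound _ 35 [(rhe1bcd80b5c7d4f4c.shift 1 0), (rhe3d4fd193b7dc56e.shift 1 0), (rhf38d464a7fbe212d.shift 1 0), rhf93140e65523c557] (by decide +kernel))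
noncomputable def rh31b1095844829a95 : CRef := CRef.mk (Pat.mk 0x40000000e0000000a 0x3c0000003c000000f70000007e000000fe 8 8) 0 0 (step_sound _ 98 [rh46d2fbab168b8093, (rh5c5e593799055d58.shift 1 0)] (by decide +kernel))
noncomputable def rh69688ec0dcf89356 : CRef := CRef.mk (Pat.mk 0x20000000f00000005000000000 0x70000001f00000003f000000fe0000007700000020 8 9) 0 0 (step_sound _ 67 [(rh4f28e2de1d947202.shift 0 1), (rh7b7de24aed9c5819.shift 2 0), (rhd5eb272e07a4e288.shift 2 2)] (by decide +kernel))
noncomputable def rh76a8ba1681c97d5d : CRef := CRef.mk (Pat.mk 0x1000000010000000300000002800000000 0x2e000000ff0000007e0000003c000000f800000050 8 8) 0 0 (step_sound _ 36 [(rh32e32f03ae89b559.shift 3 0), rhba27ed9b2699444f, (rhc5b6ec687d13b121.shift 1 1), (rhe1bcd80b5c7d4f4c.shift 2 0), (rhe3d4fd193b7dc56e.shift 2 0)] (by decide +kernel))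
noncomputable def rhb5327a868069ee07 : CRef := CRef.mk (Pat.mk 0x70000000100000000000000050 0x2000000020000000700000007e000000d70000005000000050 8 8) 0 0 (step_sound _ 133 [rh04fa9f077a74a0bf, (rh9e3edb185cc347de.shift 4 0)] (by decide +kernel))
noncomputable def rh8d35d8ba1320570e : CRef := CRef.mk (Pat.mk 0x40000000e000000000000000000000008 0x30000000300000007f0000007e000000f80000000800000008 8 8) 0 0 (step_sound _ 67 [(rh18fbc91f8714dd9d.shift 0 2), (rh9e07f76261b05888.shift 2 0)] (by decide +kernel))
noncomputable def rh412f1f80a1be7ac3 : CRef := CRef.mk (Pat.mk 0xe000000020000000000000008 0x14000000340000007f0000003f0000007a0000000800000008 8 7) 0 0 (step_sound _ 100 [rh1f7c3fb8d030b2f3, rh2b7878d881e0bf6a, (rh3fc3a7fb6866dcd4.shift 1 2), rhf9fc252bb8290774] (by decide +kernel))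
noncomputable def rh560f073a0f2c0697 : CRef := CRef.mk (Pat.mk 0x6000000010000000000000005000000000 0x40000000c0000007df000003fe000007f7000000f00000005000000050 8 11) 0 0 (step_sound _ 132 [(rh0cab727b8509a5ae.shift 4 0), (rh149833733f3d30f6.shift 2 1), (rh56fd73e6ab161f47.shift 2 1), rh573fbd002dfe5885, (rh5a1ae4ad1173e744.shift 2 3), (rh6cbd5beace1956bf.shift 1 1), (rh9c1c083df63911c4.shift 2 1), (rhc0f460b769314fdb.shift 2 1)] (by decide +kernel))
noncomputable def rhed3aaa0253fd33a4 : CRef := CRef.mk (Pat.mk 0xc00000002000000000000000200000000 0xa0000000e0000003f0000003f00000036000000160000000200000002 8 6) 0 0 (step_sound _ 98 [(rh00d6a6e3c7e3bb40.shift 1 0), (rh580df77fe152422b.shift 1 0), (rh8798aad7c74b5710.shift 0 2)] (by decide +kernel))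
noncomputable def rha520aa44ef536577 : CRef := CRef.mk (Pat.mk 0x2000000030000000000000004000000000 0x2000000020000007ef000003fe000003ef0000004000000040 8 11) 0 0 (step_sound _ 102 [(rh8c9e20945c8f5d94.shift 1 0), (rh8e64e03050c909f2.shift 0 2), (rhb11d41c808e1ab4d.shift 5 0), (rhfdadc7889f1fec70.shift 1 2)] (by decide +kernel))
noncomputable def rh7e9cde87700d8a52 : CRef := CRef.mk (Pat.mk 0x1e0000000c00000000 0x14000000340000003f0000001e0000000f0000000a 8 6) 0 0 (step_sound _ 33 [rhdfc481a80d375a7b, (rheb0810cc63b001d8.shift 0 1)] (by decide +kernel))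
noncomputable def rh8b9fc029f18d345b : CRef := CRef.mk (Pat.mk 0x180000001c00000000 0x1800000038000000380000001f0000001f00000033 8 6) 0 0 (step_sound _ 33 [(rh53b3c253cb0c65f4.shift 0 1), rhdc2dc782111b2636] (by decide +kernel))
noncomputable def rhb7e34670c98c7591 : CRef := CRef.mk (Pat.mk 0x180000001800000000 0xc0000000c0000000f000000ff0000001f00000014 8 8) 0 0 (step_sound _ 69 [(rh113e957afa7c17ad.shift 2 0), rh1554c6a3031e44c1, (rh2612b4f73ba7c3b3.shift 2 1)] (by decide +kernel))
noncomputable def rhf590fcac22cf8b9d : CRef := CRef.mk (Pat.mk 0xc0000000c0000000000000010 0x1e0000003f0000007f0000007c0000000e0000001800000010 8 7) 0 0 (step_sound _ 131 [(rh2450e95985d5ffe1.shift 2 0), (rh263c9acc72a4db32.shift 2 0), (rh48d657e4a0842417.shift 1 0), (rhb54a06ec479fcef8.shift 0 2), (rhe1decf49bf0c740c.shift 2 0)] (by decide +kernel))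
noncomputable def rh6e7c215ac1cd3c6e : CRef := CRef.mk (Pat.mk 0x380000001c00000000 0xe0000000e0000007f0000003f0000001c00000004 8 7) 0 0 (step_sound _ 66 [(rh15c6bd118a09e701.shift 0 1), (rh293940884cb943ce.shift 1 0), (rhb6c7163c67be5a4d.shift 1 0), (rhba89ab7cb81bcc90.shift 0 1)] (by decide +kernel))
noncomputable def rh63f323293b12edd6 : CRef := CRef.mk (Pat.mk 0x380000001800000000 0x24000000660000007f0000003f0000001800000010 8 7) 0 0 (step_sound _ 66 [(rh0c14e30465266241.shift 1 0), (rh15c6bd118a09e701.shift 0 1), (rhba89ab7cb81bcc90.shift 0 1)] (by decide +kernel))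
noncomputable def rhac61412cd4135105 : CRef := CRef.mk (Pat.mk 0x180000001800000000 0x2c0000002c000000ef000000ff000000df00000054 8 8) 0 0 (step_sound _ 69 [(rh113e957afa7c17ad.shift 2 0), rh1554c6a3031e44c1, (rh3c004dd0a2e87afb.shift 2 0)] (by decide +kernel))
noncomputable def rh0b7ed92dffb7206d : CRef := CRef.mk (Pat.mk 0xc0000000c0000000000000010 0x1e0000003f0000007f0000000e0000000c0000001800000010 8 7) 0 0 (step_sound _ 131 [(rh2450e95985d5ffe1.shift 2 0), (rh263c9acc72a4db32.shift 2 0), (rh54e1b4906cb636ea.shift 1 0), (rhb54a06ec479fcef8.shift 0 2), (rhe1decf49bf0c740c.shift 2 0)] (by decide +kernel))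
noncomputable def rhecb75aaea0d460fa : CRef := CRef.mk (Pat.mk 0x180000001800000000 0xc0000000c0000007f000000ff0000001f00000014 8 8) 0 0 (step_sound _ 69 [rh0e8dc0feb877b0fc, (rh113e957afa7c17ad.shift 2 0), (rh2612b4f73ba7c3b3.shift 2 1)] (by decide +kernel))
noncomputable def rhc1f4f9346221d791 : CRef := CRef.mk (Pat.mk 0x1e0000000c00000000 0x1e0000001f0000003b0000001e0000000c00000008 8 6) 0 0 (step_sound _ 100 [rh0a482580bdff506a, (rh33e738c4ed385b9f.shift 1 2)] (by decide +kernel))
noncomputable def rh7db3173121f0d8f7 : CRef := CRef.mk (Pat.mk 0x180000001e00000000 0x280000003e0000003e000000ff0000001f0000001e0000000a 8 8) 0 0 (step_sound _ 65 [(rh3244c3cc8379b070.shift 0 1), rh9ae8676c21245c41] (by decide +kernel))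
noncomputable def rhab487c3c61f837dc : CRef := CRef.mk (Pat.mk 0x40000000700000000000000000 0x800000018000000dc0000007f000000fe0000001f00000008 8 8) 0 0 (step_sound _ 67 [(rh21460d2d48a35cb8.shift 2 0), (rh21d582c147e7e118.shift 1 1), (rh551591afa7e9bd9a.shift 0 1), (rh592c7139d2c44767.shift 1 1), (rhd255302d8fc766ec.shift 2 1)] (by decide +kernel))
noncomputable def rhd06c6f548c4cdcbb : CRef := CRef.mk (Pat.mk 0x80000000c000000000000001000000000 0x1400000014000000760000007f0000007f000000380000001000000010 8 7) 0 0 (step_sound _ 132 [(rh574fdbf07bdd18b9.shift 0 3), (rh8798aad7c74b5710.shift 1 2), (rhd69c262cd33b94b3.shift 0 3), rhf5ea0e892f063c78] (by decide +kernel))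
noncomputable def rh47929590d8c3eb7c : CRef := CRef.mk (Pat.mk 0x1800000004000000000000001400000000 0x400000006000000760000007f0000001f0000003e0000001400000014 8 7) 0 0 (step_sound _ 99 [rh08d368efc4fb01cd, (rh574fdbf07bdd18b9.shift 0 3), rh9cc86ec5a13aa9e3, (rhd69c262cd33b94b3.shift 0 3)] (by decide +kernel))
noncomputable def rh7b21d1b29bac71a5 : CRef := CRef.mk (Pat.mk 0x38000000100000000000000010 0x1c0000003c0000000f000000380000001e0000001c00000010 8 6) 0 0 (step_sound _ 131 [(rh7585ebae68711513.shift 0 1), (rh9e07f76261b05888.shift 3 0)] (by decide +kernel))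
noncomputable def rhf41ca52fadae593c : CRef := CRef.mk (Pat.mk 0xd000000020000000000000008000000000 0x84000000840000018e000000fe000001ff000001c80000008800000080 8 9) 0 0 (step_sound _ 133 [(rh39ec3db8102276c3.shift 3 0), (rh724ea3f6246e5db1.shift 1 1), (rh7c446a5779c6be66.shift 0 3), (rha4cf9251629f1722.shift 3 2)] (by decide +kernel))
noncomputable def rhb56d8be8c37e7f30 : CRef := CRef.mk (Pat.mk 0x2000000020000001e0000000600000000 0x3d0000003f000000360000001e0000000e00000002 8 6) 0 0 (step_sound _ 130 [(rh2f68792b6b779e96.shift 1 1), rh8066dfb651566056] (by decide +kernel))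
noncomputable def rh65302961bf245077 : CRef := CRef.mk (Pat.mk 0xc0000000200000000000000020000000000000000000000000 0x7be000003fe000007bf0000002000000020000000700000007000000050 8 11) 0 0 (step_sound _ 197 [(rh149833733f3d30f6.shift 3 3), (rh352b7f91eba0c81f.shift 4 5), (rha997c6ce7e425b45.shift 3 5), rhfd6ed93224609d92] (by decide +kernel))
noncomputable def rh9f4ff14b1c7e4194 : CRef := CRef.mk (Pat.mk 0x1800000004000000000000001000000000 0x1400000014000000760000007f0000007f000000380000001000000010 8 7) 0 0 (step_sound _ 99 [(rh574fdbf07bdd18b9.shift 0 3), (rh8798aad7c74b5710.shift 1 2), rhf5ea0e892f063c78] (by decide +kernel))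
noncomputable def rh739aebbd4d180445 : CRef := CRef.mk (Pat.mk 0x4000000020000000000000002000000000000000000000000 0x40000000500000007000000070000000600000002000000070000000700000005 8 3) 0 0 (step_sound _ 129 [rh054913cd4271e1df, (rh5890386c1f942fa1.shift 1 3), (rh87d5e4118780fa3b.shift 1 2), rh984bfc6de6c2c524] (by decide +kernel))
noncomputable def rh667db85b7f8ec3ee : CRef := CRef.mk (Pat.mk 0xc000000040000000000000014 0x800000008000000fc000000ff000001f60000001400000014 8 9) 0 0 (step_sound _ 131 [(rh9e3edb185cc347de.shift 2 0), rhf24a7e9e25147738] (by decide +kernel))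
noncomputable def rh5c4644d8c858bef1 : CRef := CRef.mk (Pat.mk 0x8000000180000000800000008 0xf4000000ff0000001f0000000800000008 8 8) 0 0 (step_sound _ 100 [rh0b88b3654eeeb39b, (rh2f68792b6b779e96.shift 3 0)] (by decide +kernel))
noncomputable def rh0789b2ccc6bf2041 : CRef := CRef.mk (Pat.mk 0x1800000018000000000000000000000020 0x3000000030000000f7000000ff000000f8000000200000002000000020 8 8) 0 0 (step_sound _ 130 [(rh6292bd8784ece55f.shift 1 3), (rha14478d91faf3ae3.shift 0 3), (rhbf4c6906e2b1ba34.shift 2 0)] (by decide +kernel))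
noncomputable def rha472b618d9ded202 : CRef := CRef.mk (Pat.mk 0xc0000000c000000040000000000000010 0x18000000180000007c0000007f0000007c000000140000001000000010 8 7) 0 0 (step_sound _ 129 [(rh411646f6a841c00f.shift 0 2), (rh6292bd8784ece55f.shift 0 3), (rhbf4c6906e2b1ba34.shift 1 0)] (by decide +kernel))
noncomputable def rh731c50c7797ecea1 : CRef := CRef.mk (Pat.mk 0x60000000200000000000000020000000000000000000000000 0x7be000003fe000007bf0000002000000020000000700000007000000050 8 11) 0 0 (step_sound _ 199 [(rh149833733f3d30f6.shift 3 3), (rh352b7f91eba0c81f.shift 4 5), (rha997c6ce7e425b45.shift 3 5), rhfd6ed93224609d92] (by decide +kernel))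
noncomputable def rhaa219727ceed7996 : CRef := CRef.mk (Pat.mk 0x1e000000040000000000000010 0xa0000000f0000003f0000001e000000340000001000000010 8 6) 0 0 (step_sound _ 68 [(rhe25b0a99195a5d59.shift 1 2), rhe6b1637f2956534f] (by decide +kernel))
noncomputable def rh00eb2e4956d7bb59 : CRef := CRef.mk (Pat.mk 0xe000000020000000000000008 0x10000000300000003f0000003f0000000b0000000800000008 8 6) 0 0 (step_sound _ 100 [rh1f7c3fb8d030b2f3, (rheb0810cc63b001d8.shift 0 2)] (by decide +kernel))
noncomputable def rh86a166494f2b0a6d : CRef := CRef.mk (Pat.mk 0x1e000000140000000000000010 0xa0000000f0000003f0000001e000000170000001000000010 8 6) 0 0 (step_sound _ 131 [(rh9e07f76261b05888.shift 3 0), (rha409787a24c9aad5.shift 0 2)] (by decide +kernel))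
noncomputable def rhb9cbfcf3b062c9ab : CRef := CRef.mk (Pat.mk 0x400000006000000020000000800000000 0x1400000014000000fc0000007e0000007b0000000800000008 8 8) 0 0 (step_sound _ 162 [(rh5c5e593799055d58.shift 1 2), rh78b31cafc0e4307d] (by decide +kernel))
noncomputable def rh1cd41dccea7cabb0 : CRef := CRef.mk (Pat.mk 0x1e0000001800000000000000000000000000000000 0x4000000070000001e0000001b0000000f000000070000000700000005 8 5) 0 0 (step_sound _ 129 [rhaf2023aac7d4e74c, (rheb0810cc63b001d8.shift 0 4)] (by decide +kernel))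
noncomputable def rha8aff73eac1626b1 : CRef := CRef.mk (Pat.mk 0x180000007000000000000000a000000000 0xc0000001c0000001c000000d800000078000000df000000ec000000ac 8 8) 0 0 (step_sound _ 99 [(rh2dfa8f5b164cf72e.shift 3 0), rhd0cb1c443b37a160] (by decide +kernel))
noncomputable def rh96199f16815d842c : CRef := CRef.mk (Pat.mk 0x800000008000000080000000800000000 0x170000003f0000003f0000000c0000000c00000004 8 6) 0 0 (step_sound _ 132 [(rh2f68792b6b779e96.shift 3 1), rhece7b9071aa36b73] (by decide +kernel))
noncomputable def rha97a0273060d881a : CRef := CRef.mk (Pat.mk 0x7000000040000000000000000000000000 0x18000000180000001f0000007e0000007f0000001c0000001c00000014 8 7) 0 0 (step_sound _ 131 [(rh0de499e0455c9c14.shift 1 3), (rh36eba2a3de447758.shift 0 3), (rh61aef1e967b8dd77.shift 2 0), (rh775ca1963e850b80.shift 1 3), (rhd1d05263fabc0227.shift 1 3)] (by decide +kernel))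
noncomputable def rhbcb65e134dea9887 : CRef := CRef.mk (Pat.mk 0xe000000000000000800000000 0x1000000010000000f8000000ff000001fc0000000800000008 8 9) 0 0 (step_sound _ 100 [(rh3fc3a7fb6866dcd4.shift 1 2), rh59dd316b71763994, (rha65513c9b2ab6606.shift 1 2), (rhb705031692dfe65f.shift 1 0)] (by decide +kernel))
noncomputable def rh338cdbabe058347d : CRef := CRef.mk (Pat.mk 0x10000000100000001c00000018 0x1ec000000ff000001fe0000001c00000018 8 9) 0 0 (step_sound _ 99 [(rh50fbb5868c909700.shift 3 0), rh61d7b62cf9b22ac6] (by decide +kernel))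
noncomputable def rh1cd9eb259a9d30b6 : CRef := CRef.mk (Pat.mk 0x3800000000000000180000003800000000 0x70000003e0000006700000038000000f8000000c0 8 8) 0 0 (step_sound _ 38 [rhe2c9c00c915de321, (rhf48373e13d2bc128.shift 3 1)] (by decide +kernel))
noncomputable def rh2a49eafd9afb658a : CRef := CRef.mk (Pat.mk 0x100000001000000030000000000000008000000000 0xc0000000c0000001f000007be000003fe000007df0000008800000088 8 11) 0 0 (step_sound _ 102 [(rh1e581fcebcca7a34.shift 3 2), (rha0ccb72343d5fe86.shift 2 0), rha5e6512ebff38971, (rha9fbfd4bb8cf890b.shift 1 3)] (by decide +kernel))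
noncomputable def rhc52fe94a5fc1f73d : CRef := CRef.mk (Pat.mk 0x3000000060000000800000000 0x140000001c0000001c000000180000007f0000001f0000000c00000008 8 7) 0 0 (step_sound _ 67 [rhcf65bde17ed89f38, (rhf48373e13d2bc128.shift 0 2)] (by decide +kernel))
noncomputable def rh5a9b09f1119b5900 : CRef := CRef.mk (Pat.mk 0x100000002000000000000000200000000000000000000000000000000 0x400000007000000070000000700000007000000070000000600000003000000070000000700000004 8 3) 0 0 (step_sound _ 161 [(rh0dbc8abee7ad42d4.shift 0 3), (rhbab796f6dafe9186.shift 0 4), (rhd1ae51dd049cce10.shift 0 2), rhf267cafeab58b428] (by decide +kernel))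
noncomputable def rh1608ddb21bd65595 : CRef := CRef.mk (Pat.mk 0x1e000000040000000000000010 0xa0000000f0000003f0000001e000000340000001000000010 8 6) 0 0 (step_sound _ 129 [rh2616c66ace7dc9f8, (rh3244c3cc8379b070.shift 0 3)] (by decide +kernel))
noncomputable def rhddeb2ab65ae900f0 : CRef := CRef.mk (Pat.mk 0xe000000040000000000000014 0x800000008000000f80000007e000000f70000001400000014 8 8) 0 0 (step_sound _ 131 [(rh9e3edb185cc347de.shift 2 0), rhb12a3a81ad81bf74] (by decide +kernel))
noncomputable def rh610b8fe03de92cf6 : CRef := CRef.mk (Pat.mk 0x1e0000000400000000 0x7000000070000003f0000001e0000000700000002 8 6) 0 0 (step_sound _ 33 [rh293940884cb943ce, (rheb0810cc63b001d8.shift 0 1)] (by decide +kernel))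
noncomputable def rh170ec006f2f607e7 : CRef := CRef.mk (Pat.mk 0x1e0000000a00000000 0x160000003f0000003f0000001e0000000e00000006 8 6) 0 0 (step_sound _ 97 [(rh3244c3cc8379b070.shift 0 2), rhdc5385bf2771e076] (by decide +kernel))
noncomputable def rh7804cc5007dcb340 : CRef := CRef.mk (Pat.mk 0x800000008000000180000001800000000 0x140000001c0000000e0000001f0000001f00000007 8 5) 0 0 (step_sound _ 132 [rh04f32d166f1c28ac, (rh2f68792b6b779e96.shift 3 1)] (by decide +kernel))
noncomputable def rh97440edde7818d26 : CRef := CRef.mk (Pat.mk 0x8000000180000001000000000 0x1c0000001f0000007c000000380000001f0000000c 8 7) 0 0 (step_sound _ 131 [(rh2145e1d24b96a57e.shift 3 1), rh9eed25ace600e494] (by decide +kernel))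
noncomputable def rh153582022cf29b9e : CRef := CRef.mk (Pat.mk 0x18000000100000000000000010 0x1c0000003c0000000f000000380000001f0000001c00000010 8 6) 0 0 (step_sound _ 131 [(rh52818035164b2a4f.shift 0 1), (rh9e07f76261b05888.shift 3 0)] (by decide +kernel))
noncomputable def rhd41b2ce965aed414 : CRef := CRef.mk (Pat.mk 0x800000008000000180000001000000000 0x34000000ff0000007f000000780000001800000008 8 8) 0 0 (step_sound _ 35 [rh2726962e49a46af1, rh5ee4dc8825dcefa0, rh81e6a49f359d83b3, rh82dcfa9962ac4e49, (rhbd4c773563fdbad3.shift 1 0), (rhc2177b4b8114bb52.shift 1 1)] (by decide +kernel))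
noncomputable def rh1c777d2fe263dafe : CRef := CRef.mk (Pat.mk 0x180000001c000000000000004000000000 0x1df000000ff000000e00000004000000040 8 9) 0 0 (step_sound _ 97 [rh3841ee30da6801d5, (rh53b3c253cb0c65f4.shift 0 3)] (by decide +kernel))
noncomputable def rh4003b032f5b5e3a7 : CRef := CRef.mk (Pat.mk 0x1800000010000000000000004000000000 0x6800000078000001fe000001fe000000ff000000ef0000006000000040 8 9) 0 0 (step_sound _ 101 [(rh3c3e23a02e82b2ed.shift 1 3), (rh4ca5dae25f5c14ff.shift 1 3), rha2273b4682d94eec, (rhe9a815a1619f6e00.shift 1 1)] (by decide +kernel))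
noncomputable def rh94926f21402ff548 : CRef := CRef.mk (Pat.mk 0x1800000010000000000000005000000000 0x4000000070000001f0000001fe000000ff000000ff0000007000000040 8 9) 0 0 (step_sound _ 101 [(rh3c3e23a02e82b2ed.shift 1 3), (rh4ca5dae25f5c14ff.shift 1 3), rha2273b4682d94eec, (rhe64f7e28061b2357.shift 1 1)] (by decide +kernel))
noncomputable def rhbb7600562b9f5fc8 : CRef := CRef.mk (Pat.mk 0xc0000000e00000008 0x1e0000001f0000001f0000003f0000000e00000008 8 6) 0 0 (step_sound _ 99 [(rh5fa50b509d4ce753.shift 2 0), (rhac91bb8935e50010.shift 2 0), rhb1d2d1d8452eecec] (by decide +kernel))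
noncomputable def rhc45db3510091a358 : CRef := CRef.mk (Pat.mk 0x18000000180000001000000000 0x2200000022000000770000007f0000001f0000003400000004 8 7) 0 0 (step_sound _ 66 [(rhd69c262cd33b94b3.shift 0 2), (rhf56e6bc5d2f7fe77.shift 0 1), rhfb8c4f0d613a8ac6] (by decide +kernel))
noncomputable def rh4592e78c73a42485 : CRef := CRef.mk (Pat.mk 0x1e00000004000000000000000000000000 0x600000006000000070000001e00000007000000030000000300000003 8 5) 0 0 (step_sound _ 97 [rh89a182a5c191c2c5, (rheb0810cc63b001d8.shift 0 3)] (by decide +kernel))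
noncomputable def rh8c42ab291949935b : CRef := CRef.mk (Pat.mk 0x80000000c000000180000001000000000 0x30000000340000007f0000001f0000001f0000003300000022 8 7) 0 0 (step_sound _ 97 [(rhb739f4f82bb681b4.shift 0 2), rhce196196d84c4f7a] (by decide +kernel))
noncomputable def rh25e6bea3988c424f : CRef := CRef.mk (Pat.mk 0x40000000c000000180000002000000000 0x1cf000000ff000001df0000003300000002 8 9) 0 0 (step_sound _ 97 [rh1cdc4cfeede1f79d, (rhb739f4f82bb681b4.shift 0 2)] (by decide +kernel))
noncomputable def rh183244b4e272723f : CRef := CRef.mk (Pat.mk 0x800000018000000000000001000000000 0x2000000020000003ff000001fc000003b00000001000000010 8 10) 0 0 (step_sound _ 68 [(rh081d1bdfaa086f45.shift 0 1), (rh7b1f1fb55310c477.shift 3 0)] (by decide +kernel))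
noncomputable def rhd70156aad596f2ad : CRef := CRef.mk (Pat.mk 0x100000001800000018000000100000004000000000 0x40000008400000097000000ff000000fb000000fa0000006000000040 8 8) 0 0 (step_sound _ 130 [(rh57db0b988286170e.shift 2 0), (rhdc692b1e23a4285d.shift 0 2)] (by decide +kernel))
noncomputable def rh26b5737ecac43ea8 : CRef := CRef.mk (Pat.mk 0x80000000c0000000c000000080000002000000000 0x50000000780000006f0000007c000000780000003000000020 8 7) 0 0 (step_sound _ 164 [(rh2f68792b6b779e96.shift 3 2), rhe91e7c1c00911cdc] (by decide +kernel))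
noncomputable def rhb662c787b8e01f2a : CRef := CRef.mk (Pat.mk 0x6000000070000000c00000018000000000000000000000000 0x300000003e000000370000003c00000018000000300000003000000030 8 6) 0 0 (step_sound _ 132 [rhdcb3f2c50d9c9908, (rhf48373e13d2bc128.shift 1 4)] (by decide +kernel))
noncomputable def rh7415667b1c6f4657 : CRef := CRef.mk (Pat.mk 0x40000000c0000001800000008 0x140000001c0000001c000000180000003c0000000f0000001c00000018 8 6) 0 0 (step_sound _ 65 [(rh8943b5578e23d018.shift 1 0), (rhb739f4f82bb681b4.shift 0 1)] (by decide +kernel))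
noncomputable def rh7f65dc8651c12d64 : CRef := CRef.mk (Pat.mk 0x18000000700000004000000000000000000000000000000000 0xa0000000e0000000e0000000f0000000d80000007f00000067000000c0000000e0000000e000000020 8 8) 0 0 (step_sound _ 198 [(rh60b9816cb4e92fbb.shift 3 0), (rh6c87c5511eb589fc.shift 3 4), (rh878c03cc42e824bf.shift 3 3), (rhd833bfa7bc0730a9.shift 0 4)] (by decide +kernel))
noncomputable def rhf1a7a62c7f58aaa0 : CRef := CRef.mk (Pat.mk 0x1e0000000000000008 0x280000003800000038000000330000001e0000003800000008 8 6) 0 0 (step_sound _ 97 [(rh05a2391b3498d263.shift 1 0), (rh3244c3cc8379b070.shift 0 2)] (by decide +kernel))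
noncomputable def rh356c202f6712dcf6 : CRef := CRef.mk (Pat.mk 0xf000000000000002800000000 0x280000003800000038000000380000001f000000300000003800000028 8 6) 0 0 (step_sound _ 132 [(rh428265de8cd3cd2d.shift 0 3), (rh5367cfffbe9697d7.shift 1 0)] (by decide +kernel))
noncomputable def rhf3e94c63d54b2887 : CRef := CRef.mk (Pat.mk 0x100000003800000000000000000000000000000000 0xc0000000c0000003f0000003e0000000f0000000e0000000e0000000a 8 6) 0 0 (step_sound _ 130 [(rh55c4ed4acec0f063.shift 0 3), (rh61aef1e967b8dd77.shift 1 0), (rh775ca1963e850b80.shift 0 3), (rhedf6b6c69a16cbd5.shift 0 4)] (by decide +kernel))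
noncomputable def rh2b1b005051b4325a : CRef := CRef.mk (Pat.mk 0x100000003000000020000000a00000000000000000 0x1000000050000001df000000fe000001ef000000e00000008000000080 8 9) 0 0 (step_sound _ 196 [(rh2145e1d24b96a57e.shift 4 3), rhe715b4dbd410bc89] (by decide +kernel))
noncomputable def rh50e542894165c74f : CRef := CRef.mk (Pat.mk 0x300000002000000000000000a000000000 0x3ef000001fe000001ef000000e0000000e0000000a0 8 10) 0 0 (step_sound _ 131 [(rh3918eeb6c53434d8.shift 0 3), (rh6c50f57b7e314671.shift 0 1), (rh87a6be49fed7a747.shift 3 0)] (by decide +kernel))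
noncomputable def rh66cb6d448fc48689 : CRef := CRef.mk (Pat.mk 0x800000030000000000000005000000000 0x20000000e00000007e000000ff000000ef0000007000000050 8 8) 0 0 (step_sound _ 132 [(rh3c3e23a02e82b2ed.shift 1 3), (rh5c5a2014709044d0.shift 1 3), (rh75d2150ad5469131.shift 1 0), rha2273b4682d94eec] (by decide +kernel))
noncomputable def rh831e791bb3b93075 : CRef := CRef.mk (Pat.mk 0x1400000018000000000000002000000000 0x28000000ef000000ff00000078000000300000003000000020 8 8) 0 0 (step_sound _ 131 [(rha14478d91faf3ae3.shift 0 3), (rhad5d8fc3675c15dd.shift 0 3), (rhae17003d4821d291.shift 1 0)] (by decide +kernel))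
noncomputable def rh1aeefae25cd6bc06 : CRef := CRef.mk (Pat.mk 0x1400000018000000000000002800000000 0xe0000000e000000ef000000ff0000001f000000360000003800000028 8 8) 0 0 (step_sound _ 131 [(rh01ef127f423122a8.shift 0 2), (rh2fb6d7e246c87cb2.shift 1 2), (rh93dada6cc3ed2a8c.shift 0 3), (rha14478d91faf3ae3.shift 0 3), rhdeead084a496f2f9] (by decide +kernel))
noncomputable def rhd41984f80d5d91b8 : CRef := CRef.mk (Pat.mk 0x1400000018000000000000002800000000 0x600000026000000f7000000ff0000001f000000360000003800000028 8 8) 0 0 (step_sound _ 131 [(rh01ef127f423122a8.shift 0 2), (rh93dada6cc3ed2a8c.shift 0 3), (rha14478d91faf3ae3.shift 0 3), rhdeead084a496f2f9, (rhe2655fd156947b4e.shift 1 1)] (by decide +kernel))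
noncomputable def rh0c325040d0296ca2 : CRef := CRef.mk (Pat.mk 0x200000004000000000000000400000000000000000000000000000000 0x20000000a0000000f0000003e0000000e0000000c000000060000000e0000000e00000008 8 6) 0 0 (step_sound _ 162 [(rh0dbc8abee7ad42d4.shift 1 3), (rhbab796f6dafe9186.shift 1 4), (rhbec796c3ea7a32e6.shift 0 3), (rhf267cafeab58b428.shift 1 0)] (by decide +kernel))
noncomputable def rh288cf6fbb8cd8def : CRef := CRef.mk (Pat.mk 0xc0000000400000014000000000000000000000000 0x10000000320000003f0000003f0000001c0000000e0000000600000002 8 6) 0 0 (step_sound _ 66 [(rh4895cd22a66018cd.shift 0 2), (rha8bc3cae4d77a08f.shift 1 0), (rhc4526fc8abf298b6.shift 1 0)] (by decide +kernel))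
noncomputable def rh1b29d1267387500a : CRef := CRef.mk (Pat.mk 0x180000000800000028000000000000000000000000 0x40000000c0000001f0000007c0000003e00000038000000300000002000000020 8 7) 0 0 (step_sound _ 195 [(rh54d9c2b937df1611.shift 1 0), (rh5abfc4c9d959be03.shift 2 2), (rhca405e350c462817.shift 0 3)] (by decide +kernel))
noncomputable def rh2a63ef67bf8452dc : CRef := CRef.mk (Pat.mk 0x1e000000000000000200000000 0x50000000700000007000000030000001e000000070000000600000004 8 5) 0 0 (step_sound _ 65 [rh6c323b9732f79cf5, (rheb0810cc63b001d8.shift 0 2)] (by decide +kernel))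
noncomputable def rhc3d3cf151ba06fc5 : CRef := CRef.mk (Pat.mk 0x400000006000000000000000a00000000 0x4000000040000007c0000003f0000007b0000000a0000000a 8 7) 0 0 (step_sound _ 65 [(rh71222050f2c63a3a.shift 1 0), rhf778c33ba83c2559] (by decide +kernel))
noncomputable def rh469d06c1c765a655 : CRef := CRef.mk (Pat.mk 0x1c0000000000000000 0x400000006000000ff0000007e000000e800000008 8 8) 0 0 (step_sound _ 69 [(rh2f1bf8dd352bbdb7.shift 1 0), (rh3fc3a7fb6866dcd4.shift 2 1), (rh4c622fddc53a5f99.shift 0 2), (rhe401600d466b97cd.shift 1 1)] (by decide +kernel))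
noncomputable def rh51e54745280eb8a0 : CRef := CRef.mk (Pat.mk 0xc0000000000000014000000000000000000000000 0xe0000000e0000001e0000003e0000000f0000003f0000001c0000001e0000000600000002 8 6) 0 0 (step_sound _ 130 [(rh215e11e099257d75.shift 2 2), (rh274a837cd7eaa569.shift 1 0), (rh50fa3c6f09d00c13.shift 1 2), rh9d78f075658b940b, (rhc3747c76d16db1e3.shift 0 2)] (by decide +kernel))
noncomputable def rhe117a95be6c28f70 : CRef := CRef.mk (Pat.mk 0x1800000008000000080000000800000000 0x1e4000000fe000001ff000000080000000c00000004 8 9) 0 0 (step_sound _ 130 [(rh50fbb5868c909700.shift 2 1), rh878891a854da3d9c] (by decide +kernel))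
noncomputable def rhb6bb7e5edd28140f : CRef := CRef.mk (Pat.mk 0x600000004000000050000000000000000 0x20000000600000004000000770000003e0000007a 8 7) 0 0 (step_sound _ 34 [rh3058b7020828739c, (rh50fbb5868c909700.shift 1 1)] (by decide +kernel))
noncomputable def rh60f319a717b57e10 : CRef := CRef.mk (Pat.mk 0x6000000040000000500000000000000000000000000000000 0x600000006000000770000003e0000007e0000000e0000000a 8 7) 0 0 (step_sound _ 98 [(rh1f3a6ba70a310ab1.shift 1 1), (rh3058b7020828739c.shift 0 2), (rha613ffd40b6c9d24.shift 1 1), (rhbba7d23481996066.shift 1 0)] (by decide +kernel))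
noncomputable def rhc6a078acb4a185d9 : CRef := CRef.mk (Pat.mk 0x78000000000000004000000000 0x1c7000000fe000000670000004000000040 8 9) 0 0 (step_sound _ 135 [(rh428265de8cd3cd2d.shift 3 3), rh8d2ca0097dea3ac3] (by decide +kernel))
noncomputable def rh2a0e1c655a5b10f7 : CRef := CRef.mk (Pat.mk 0x280000000800000028000000000000000000000000 0x4000000054000000f70000007e000000ef00000028000000700000007000000050 8 8) 0 0 (step_sound _ 164 [(rh0fdd3266243d3898.shift 0 3), (rh2820ca9a6c4f41b4.shift 0 4), (rh3757c66cf1d5f4af.shift 1 2), (rh4752733e34786ec4.shift 2 2), rh7655a66e7e22d93e, (rhce7b5ca4f9e88074.shift 2 2)] (by decide +kernel))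
noncomputable def rh56de50ba5d3c5a63 : CRef := CRef.mk (Pat.mk 0x1e000000120000001000000000 0x60000000e0000000f0000001e0000001e0000003700000007 8 6) 0 0 (step_sound _ 129 [rh2d3df288557b4726, (rh3244c3cc8379b070.shift 0 3)] (by decide +kernel))
noncomputable def rh3e95a6526849b81f : CRef := CRef.mk (Pat.mk 0x2800000028000000280000000000000000 0x100000001000000017000003be000001ff000003b80000002000000020 8 10) 0 0 (step_sound _ 132 [(rh274052baa202580c.shift 3 1), (rh3918eeb6c53434d8.shift 0 3), (rh3a3b52df04b42f51.shift 1 0), (rhc21a95c499b3efdb.shift 2 3)] (by decide +kernel))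
noncomputable def rh78450026ae2f86e2 : CRef := CRef.mk (Pat.mk 0x280000002800000028000000200000000000000000 0x5000000070000000700000002f000000fc00000038000000700000006000000060 8 8) 0 0 (step_sound _ 38 [rha6dc9b3a987c3d25, (rhd3458b32566d63f7.shift 5 1)] (by decide +kernel))
noncomputable def rh50c568dcb4e0f10b : CRef := CRef.mk (Pat.mk 0x400000005000000040000000400000000 0x7a0000003e00000077000000040000000600000002 8 7) 0 0 (step_sound _ 33 [(rh932754581e0f4330.shift 1 0), (rha011e19fdaacded3.shift 0 1)] (by decide +kernel))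
noncomputable def rh01dc198b1d9ba7b5 : CRef := CRef.mk (Pat.mk 0xe00000002000000020 0x4000000040000007df000003fe0000076f00000020 8 11) 0 0 (step_sound _ 72 [(rh3fc3a7fb6866dcd4.shift 5 1), rhcf6755a6b1fe2b64, (rhf3baec4a0a3dd35e.shift 5 1)] (by decide +kernel))
noncomputable def rh702302886dfe922e : CRef := CRef.mk (Pat.mk 0x14000000140000001400000000 0x280000003800000038000000760000007f0000001c00000008 8 7) 0 0 (step_sound _ 132 [(rh1741680720c097b4.shift 3 1), rha51346e52a90d7b2, (rhde24d9cffc396911.shift 1 0)] (by decide +kernel))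
noncomputable def rh890ce6f38a570d9c : CRef := CRef.mk (Pat.mk 0x400000005000000050000000000000000 0xa0000001e00000007000000770000003e0000007e 8 7) 0 0 (step_sound _ 34 [rh3058b7020828739c, rh9935478c09cd7ebd] (by decide +kernel))
noncomputable def rhe62d1be7a4319d87 : CRef := CRef.mk (Pat.mk 0x40000000400000005000000000000000000000000 0x80000000c0000000c000000770000003e0000007e0000000a 8 7) 0 0 (step_sound _ 66 [(rh3058b7020828739c.shift 0 1), (rh367118e0bf0473e0.shift 1 0), (rh6c59ce14113da07f.shift 2 0), (rh8cdd36b03d57a2f6.shift 1 0)] (by decide +kernel))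
noncomputable def rh0199b432a0217fb2 : CRef := CRef.mk (Pat.mk 0x30000000100000005000000000 0x48000000cf000000ff000000fe0000007600000024 8 8) 0 0 (step_sound _ 67 [(rh275e1dfc2552f349.shift 1 0), (rh3b915a8446bc88cf.shift 1 1), rhc7fdc437c1e1bbe0, (rhd69c262cd33b94b3.shift 1 2)] (by decide +kernel))
noncomputable def rh72eb7d2c6ecb4211 : CRef := CRef.mk (Pat.mk 0x1a000000080000000a00000000 0x140000001c0000001c000000ec000000ff0000001f0000003c0000000e00000006 8 8) 0 0 (step_sound _ 131 [(rh30c061e58ebf1ac8.shift 2 0), (rh929aa3a99ae20620.shift 0 1), rhe16948f0ddbd3cef, (rhf8c58d371bad927d.shift 2 0)] (by decide +kernel))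
noncomputable def rh4635bd4be286847e : CRef := CRef.mk (Pat.mk 0x1a000000000000000a0000000000000000 0xc0000007c0000003f0000007c0000000e0000003e00000014 8 7) 0 0 (step_sound _ 130 [(rh35e918dd76851f8c.shift 1 3), rh71405847a450518b, (rhe469de54466359e3.shift 0 1)] (by decide +kernel))
noncomputable def rh51246a81cfa0f661 : CRef := CRef.mk (Pat.mk 0x68000000000000002800000000 0x30000001f7000000fe000001f70000003800000038 8 9) 0 0 (step_sound _ 100 [(rh35e918dd76851f8c.shift 3 2), (rh708c3bc8fe2f3084.shift 0 2), (rhe469de54466359e3.shift 2 0)] (by decide +kernel))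
noncomputable def rh0996a3b29459eab5 : CRef := CRef.mk (Pat.mk 0x68000000000000002800000000 0x30000001ff000000fe000000370000003800000038 8 9) 0 0 (step_sound _ 100 [(rh988dac8d009f9f77.shift 0 2), (rhb18e6c78a554867d.shift 2 3), (rhe3b266185d7259e4.shift 2 0), (rhe469de54466359e3.shift 2 0)] (by decide +kernel))
noncomputable def rh5866b6d89cad942b : CRef := CRef.mk (Pat.mk 0x6800000000000000280000000000000000 0x100000003f000000fe000001f700000038000000f000000070 8 9) 0 0 (step_sound _ 132 [rh021693bda831e090, (rh708c3bc8fe2f3084.shift 0 3), (rh71405847a450518b.shift 2 0), (rhe3b266185d7259e4.shift 2 1), (rhe401600d466b97cd.shift 2 3)] (by decide +kernel))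
noncomputable def rh3a7936a5b2cbe76b : CRef := CRef.mk (Pat.mk 0x18000000080000000800000000 0x140000001c0000001c0000000c0000001f000000780000001c0000000c00000004 8 7) 0 0 (step_sound _ 131 [(rh30c061e58ebf1ac8.shift 2 0), (rhdb019b0e908810fb.shift 0 1), (rhf8c58d371bad927d.shift 2 0)] (by decide +kernel))
noncomputable def rhd0deadfa4ee2bfb6 : CRef := CRef.mk (Pat.mk 0xe000000080000000a00000000 0x140000001c0000001e0000000f0000003e0000007c0000000e00000006 8 7) 0 0 (step_sound _ 68 [(rh4a0b10776449c3e9.shift 1 2), (rh89ade209b3e28f13.shift 1 2), rh9fb91beaf6376f0a] (by decide +kernel))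
noncomputable def rh759e1eae6bfa6fcd : CRef := CRef.mk (Pat.mk 0x80000007800000008 0x3c0000007c0000001f00000078000000f800000028 8 8) 0 0 (step_sound _ 99 [(rh1741680720c097b4.shift 2 0), (rh6ab5d4c8ddaac48c.shift 2 0), (rh7a83111c5f4a35c2.shift 1 0), (rh99f5660129c74d11.shift 3 0), rhb3466cd52e912e74] (by decide +kernel))
noncomputable def rh66788fd0262ee9b8 : CRef := CRef.mk (Pat.mk 0x3800000000000000280000000000000000 0x1000000010000000370000003e0000007700000038000000f000000070 8 8) 0 0 (step_sound _ 130 [(rh00c1a02c588da1b0.shift 2 1), (rh775ca1963e850b80.shift 0 3), (rha0f9deb27daf9f34.shift 1 0)] (by decide +kernel))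
noncomputable def rh73327ad6e4f6d5f3 : CRef := CRef.mk (Pat.mk 0x380000000000000028000000000000000000000000 0x2f0000003e0000007700000038000000f00000007000000050 8 8) 0 0 (step_sound _ 162 [(rh15e5dd040b716ff1.shift 1 1), (rh592c7139d2c44767.shift 0 4), (rhb4950f4716863f45.shift 2 0)] (by decide +kernel))
noncomputable def rh9768de03810438db : CRef := CRef.mk (Pat.mk 0x600000002000000020000001e00000000 0x21000000330000003e000000120000003e0000001e00000008 8 6) 0 0 (step_sound _ 161 [rhc577acaf9acabe63, (rhd3458b32566d63f7.shift 1 1)] (by decide +kernel))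
noncomputable def rh22ac5414f01273ac : CRef := CRef.mk (Pat.mk 0x4000000040000000c 0xa0000000e0000003e0000003f0000003f0000000c0000000c 8 6) 0 0 (step_sound _ 98 [(rh1741680720c097b4.shift 1 0), rh3949a9a3df047322, (rh5bd4bc0c2c48140c.shift 1 0), (rh73f605273a09a9d0.shift 2 0), (rhba97f7f4ade5e136.shift 1 0)] (by decide +kernel))
noncomputable def rhc3ce67b2956aec18 : CRef := CRef.mk (Pat.mk 0x1000000014000000100000001000000000 0x10000000380000001f0000003f000000180000001800000010 8 6) 0 0 (step_sound _ 131 [(rh50fbb5868c909700.shift 3 1), rhc424adfa82a62902] (by decide +kernel))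
noncomputable def rh35816c002109ae9e : CRef := CRef.mk (Pat.mk 0xa000000080000000a000000000000000000000000 0x140000001c0000001c000000180000001f0000000c0000000e0000003c0000001c00000014 8 6) 0 0 (step_sound _ 67 [rh1ef94ac22f50e3da, (rh6ae371dd8032a599.shift 2 1), (rh8cdd36b03d57a2f6.shift 2 0), (rh934b7b499abbb98b.shift 1 1)] (by decide +kernel))
noncomputable def rh8a81c2cececf7016 : CRef := CRef.mk (Pat.mk 0x280000002000000020000000000000000000000000 0x5e0000007e0000003700000020000000700000007000000050 8 7) 0 0 (step_sound _ 69 [(rh8cdd36b03d57a2f6.shift 4 0), (rhc4526fc8abf298b6.shift 4 0), (rhe20588eaf211e6c5.shift 1 1), (rhf81bc913b54df7ba.shift 0 2)] (by decide +kernel))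
noncomputable def rh46a28115ca83879d : CRef := CRef.mk (Pat.mk 0x28000000200000002000000020 0x1df000001fe000003b70000002000000020 8 10) 0 0 (step_sound _ 100 [(rh0444548c62e61c4c.shift 0 2), (rh50fbb5868c909700.shift 4 0)] (by decide +kernel))
noncomputable def rhae9e91dbf306c82a : CRef := CRef.mk (Pat.mk 0x400000004000000050000000400000000 0x80000000c00000004000000770000003e0000007a 8 7) 0 0 (step_sound _ 131 [(rh2f68792b6b779e96.shift 2 1), rh3058b7020828739c] (by decide +kernel))
noncomputable def rh5b92dde1f4dbdd2c : CRef := CRef.mk (Pat.mk 0x280000002000000028000000000000000000000000 0x170000003e00000067000003b8000001f0000003f000000050 8 10) 0 0 (step_sound _ 69 [(rh3058b7020828739c.shift 3 1), (rh8cdd36b03d57a2f6.shift 4 0), (rh964e01d5ed09a4e1.shift 0 2)] (by decide +kernel))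
noncomputable def rh02870a84ce3cac76 : CRef := CRef.mk (Pat.mk 0x280000002000000020 0x40000001df000001fe000003f700000020 8 10) 0 0 (step_sound _ 68 [(rh0444548c62e61c4c.shift 0 1), (rh11f7404cc81a3bf0.shift 2 0), (rhc21a95c499b3efdb.shift 2 1), (rhc92c11e8da6c894f.shift 0 1)] (by decide +kernel))
noncomputable def rhc58c367ce2bd3103 : CRef := CRef.mk (Pat.mk 0x400000000000000080000000f8000000040000005000000000 0x40000000e0000000b7000000fe000001a60000007000000050 8 9) 0 0 (step_sound _ 166 [(rh5ef6dfbd1c7ee9de.shift 4 2), rh7788951817ee9ba4] (by decide +kernel))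
noncomputable def rh326f6f1b4724abd2 : CRef := CRef.mk (Pat.mk 0x800000000000000100000001f00000000000000000 0xa0000001e000000177000001fe0000035f00000040 8 10) 0 0 (step_sound _ 67 [(rh191e5ff85276f8e6.shift 0 1), (rheae1728ff4a56756.shift 2 1), (rhff14e698370ac1f3.shift 2 0)] (by decide +kernel))
noncomputable def rh70076f2521bf0769 : CRef := CRef.mk (Pat.mk 0x2000000000000000080000003c000000000000002800000000 0x140000003c0000003c00000038000000180000003f000000170000003800000028 8 6) 0 0 (step_sound _ 163 [(rh14e0829dc73b6804.shift 2 2), (rh19425efbd4f76f8f.shift 2 2), rh6960a99e6185da0c, (rhde10baa3043a2b46.shift 2 2)] (by decide +kernel))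
noncomputable def rh58dfc639bb7cb280 : CRef := CRef.mk (Pat.mk 0x4000000000000000000000003c000000000000005000000000 0x500000007000000070000000370000003e000000200000007000000050 8 7) 0 0 (step_sound _ 129 [rh3e906883d09ce3dd, (rh3f8766e6ecb455ce.shift 1 3)] (by decide +kernel))
noncomputable def rh3f1d6195ad6111ae : CRef := CRef.mk (Pat.mk 0x300000006000000000000000040000003c00000000 0x200000002000000070000001fe0000001c000000140000003e00000007 8 9) 0 0 (step_sound _ 132 [rh19f0adfac4f6d3a8, rh45a5b0a4a6b5c548, (rh7c8d02e239b172a4.shift 3 1)] (by decide +kernel))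
noncomputable def rhc134cdb55eefb8fe : CRef := CRef.mk (Pat.mk 0x6000000000000000440000007c00000002 0x3de000001fc000003de000000440000007e000000c3 8 10) 0 0 (step_sound _ 135 [(rh24dfbbdfa745af6f.shift 3 0), rhd013594966e49eaf, (rhedbce0dd904f9344.shift 2 0), (rhf1584edb1090c4db.shift 1 1)] (by decide +kernel))
noncomputable def rh88a8a612e317ffad : CRef := CRef.mk (Pat.mk 0x100000001e000000000000000000000004 0x70000000f0000001f0000001e000000070000000400000004 8 5) 0 0 (step_sound _ 129 [rh0a5a90ae45b55714, (rh3244c3cc8379b070.shift 0 3)] (by decide +kernel))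
noncomputable def rh8ff9c359f9691172 : CRef := CRef.mk (Pat.mk 0x6800000000000000040000003800000000 0x3fc000001fe00000386000000060000003e00000007 8 10) 0 0 (step_sound _ 34 [(rh3244c3cc8379b070.shift 1 1), rh93ba652d567cb0b5] (by decide +kernel))
noncomputable def rhb096730a301e2fc8 : CRef := CRef.mk (Pat.mk 0x1e000000000000000000000004 0xa0000000f0000003f0000001f000000040000000400000004 8 6) 0 0 (step_sound _ 129 [(rh3244c3cc8379b070.shift 0 3), rhea84e6b760805fb9] (by decide +kernel))
noncomputable def rhcfcc5b23be9dbe88 : CRef := CRef.mk (Pat.mk 0x6800000000000000040000003c00000000 0x1f7000003fe0000039f000000140000003e00000007 8 10) 0 0 (step_sound _ 132 [(rh3b00e9e9432b8f40.shift 2 3), (rh5e0ac8b51e5bef38.shift 2 1), (rh7bbaf4fdbe85db75.shift 2 1), (rh988dac8d009f9f77.shift 0 3), rha32ddaeca2944b71] (by decide +kernel))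
noncomputable def rh1c75fa13126d35a4 : CRef := CRef.mk (Pat.mk 0x68000000000000000000000010 0x3ff000003fe0000039f0000001000000010 8 10) 0 0 (step_sound _ 100 [(rh1182f4eba70209eb.shift 2 0), (rh394e80a462af5b2f.shift 2 2), (rh7bbaf4fdbe85db75.shift 2 0), (rh988dac8d009f9f77.shift 0 2)] (by decide +kernel))
noncomputable def rh2138d7074e76bc3a : CRef := CRef.mk (Pat.mk 0x6000000000000000400000007e00000000 0xe00000007c0000005c0000005c0000007f000000d0 8 8) 0 0 (step_sound _ 67 [rh0204407c0fd31c8c, (rh3244c3cc8379b070.shift 2 1)] (by decide +kernel))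
noncomputable def rhaf583c47bc4d7905 : CRef := CRef.mk (Pat.mk 0x1e00000000000000000000000f000000000 0x330000001e0000000400000006f000000fe0000001f 8 10) 0 0 (step_sound _ 35 [rh6df4f9275e4f47ab, (rh76ae77c02a000a93.shift 1 1), (rheae1728ff4a56756.shift 2 0)] (by decide +kernel))
noncomputable def rhdd3cf9ab6387837e : CRef := CRef.mk (Pat.mk 0xd000000000000000000000003c00000000 0x2800000078000000d800000010000000370000003e00000020 8 8) 0 0 (step_sound _ 65 [(rh3f8766e6ecb455ce.shift 1 1), rha312ec071de2e631] (by decide +kernel))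
noncomputable def rh67ccea158d5c0356 : CRef := CRef.mk (Pat.mk 0xd000000000000000000000007800000000 0x20000000f000000018000000370000007e0000002e 8 8) 0 0 (step_sound _ 2 [rh0af3b15d005a78d3, (rh80fcd6d0a18cb2dd.shift 2 0)] (by decide +kernel))
noncomputable def rh08483dfc96493c08 : CRef := CRef.mk (Pat.mk 0x30000000000000002000000020 0x1fe000000fe000001ef0000002000000020 8 9) 0 0 (step_sound _ 102 [(rh5a4df29f20c07a62.shift 4 0), (rh687076296dd60842.shift 1 0), (rh82740151c68b4542.shift 0 2), (rhac5e96a17a0827f5.shift 1 0)] (by decide +kernel))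
noncomputable def rh88039cb9ab3194cc : CRef := CRef.mk (Pat.mk 0x40000000f000000000000000000000000 0x4000000040000000fc0000007f000000700000002000000020 8 8) 0 0 (step_sound _ 100 [(rh3fc3a7fb6866dcd4.shift 1 2), (rh9890f9d77740bbed.shift 0 3), (rh9c71485ed59a17cd.shift 0 2), (rhc6127fc1dbbd5ff3.shift 1 0)] (by decide +kernel))
noncomputable def rh82af87b93df8324d : CRef := CRef.mk (Pat.mk 0x200000000000000000000001f000000200000000a00000000 0xa0000000e0000000e0000001c0000007f000000640000000e0000000a 8 7) 0 0 (step_sound _ 101 [rh22d3dd238283cfcf, (rhe25b0a99195a5d59.shift 2 2)] (by decide +kernel))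
noncomputable def rhb55aad5153a8c06a : CRef := CRef.mk (Pat.mk 0x100000000000000200000003e000000100000000500000000 0x50000002700000027000000260000003e000000120000001700000015 8 6) 0 0 (step_sound _ 129 [(rh3f8766e6ecb455ce.shift 1 3), rh48c52b72921d98a6] (by decide +kernel))
noncomputable def rh21c1af9a930fa3b7 : CRef := CRef.mk (Pat.mk 0x1800000000000000100000003c000000000000002800000000 0xf70000007e000000f7000000160000003c000000100000003800000028 8 8) 0 0 (step_sound _ 130 [(rh3244c3cc8379b070.shift 1 3), rh3c3fb9facc5c0625] (by decide +kernel))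
noncomputable def rh7c5f8bd8036bfd64 : CRef := CRef.mk (Pat.mk 0x3000000000000000200000007800000000 0x170000003e0000006f0000002c000000780000000c 8 7) 0 0 (step_sound _ 131 [(rh66341be27561f775.shift 2 0), (rhb5bbc4e81a621dcf.shift 2 1), (rhcb9c9b99670e1770.shift 0 1), rhf4b83a55d8cdef31] (by decide +kernel))
noncomputable def rh09aafa2ce0e6d2c2 : CRef := CRef.mk (Pat.mk 0x3000000000000000000000007800000000 0x1ff000000fe000001cf0000000c000000780000000c 8 9) 0 0 (step_sound _ 131 [(rh22fa416b810966fe.shift 2 1), (rh4d8114ee4aff13cc.shift 1 3), (rh66341be27561f775.shift 2 0), (rh669242c8189886aa.shift 0 1), rhf4b83a55d8cdef31] (by decide +kernel))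
noncomputable def rh28ba43c675a7fc26 : CRef := CRef.mk (Pat.mk 0x800000008000000400000003c00000000 0x20000000250000007f0000007f000000c3000000fe000001c7 8 9) 0 0 (step_sound _ 130 [rh6a9f2ea73aa3529f, (rhdbb91694e91b4dc4.shift 2 0)] (by decide +kernel))
noncomputable def rh8753fa30e52828ac : CRef := CRef.mk (Pat.mk 0x200000002000000020000001e00000000 0x740000003f0000007f0000000a0000001e00000030 8 7) 0 0 (step_sound _ 130 [(rh2f68792b6b779e96.shift 1 1), rhb5209695074fbbb6] (by decide +kernel))
noncomputable def rh57e98d8e05f75bdb : CRef := CRef.mk (Pat.mk 0x800000008000000000000003c00000000 0x20000000250000007f0000007f000000e3000000fe000001c7 8 9) 0 0 (step_sound _ 130 [(rh208fe2a974d4de28.shift 2 0), rh6a9f2ea73aa3529f] (by decide +kernel))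
noncomputable def rhc343a4e3c05d5e2e : CRef := CRef.mk (Pat.mk 0x1000000010000000000000003000000000 0x2f0000007e000000ff000000100000003000000020 8 8) 0 0 (step_sound _ 68 [(rh2645b732099b2ea3.shift 0 1), (rh55afc6a59410cf00.shift 4 0)] (by decide +kernel))
noncomputable def rh086da7f20c9bb6c1 : CRef := CRef.mk (Pat.mk 0x280000002000000000000000f800000000 0x70000003e000000740000000e000000fc00000018 8 8) 0 0 (step_sound _ 66 [(rh3f8766e6ecb455ce.shift 2 1), rh7bce200b7855259c] (by decide +kernel))
noncomputable def rh5a5335e7de19126f : CRef := CRef.mk (Pat.mk 0x1e00000000 0x5000000070000000f0000003f0000001e00000007 8 6) 0 0 (step_sound _ 65 [(rh3244c3cc8379b070.shift 0 1), rh957d163e7cab4a93] (by decide +kernel))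
noncomputable def rhf66a1586011df8b6 : CRef := CRef.mk (Pat.mk 0x2800000020000000040000003800000000 0x70000003e00000074000000060000003e00000007 8 7) 0 0 (step_sound _ 34 [(rh3244c3cc8379b070.shift 1 1), rhd98b8245c961f2b2] (by decide +kernel))
noncomputable def rha80795488aba2e4c : CRef := CRef.mk (Pat.mk 0x1200000002000000000000000600000000 0x3d0000001f0000003b00000002000000020000000600000004 8 6) 0 0 (step_sound _ 65 [(rh55afc6a59410cf00.shift 1 0), (rhf9a561948d0ad639.shift 0 1)] (by decide +kernel))
noncomputable def rhf84c4180f4eeeb0b : CRef := CRef.mk (Pat.mk 0x70000000000000000000000100000000e00000000 0x380000001f0000003800000010000000300000003e00000070 8 7) 0 0 (step_sound _ 36 [(rh33e738c4ed385b9f.shift 1 1), rh51845b8a9700fc2f] (by decide +kernel))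
noncomputable def rhf8928d22ff08a669 : CRef := CRef.mk (Pat.mk 0x80000000c000000000000007800000000 0x70000007f0000007f0000002000000078000000c0 8 8) 0 0 (step_sound _ 6 [rh63e6a86aa815bdb4, (rhe25b0a99195a5d59.shift 3 0)] (by decide +kernel))
noncomputable def rhe18636ea113f9b70 : CRef := CRef.mk (Pat.mk 0xc00000000000000400000007e00000082 0x40000007e0000007700000043000000fe00000182 8 9) 0 0 (step_sound _ 39 [rhc308dc52144e5afe, (rhe25b0a99195a5d59.shift 4 0)] (by decide +kernel))
noncomputable def rhbc82e353a92a1af3 : CRef := CRef.mk (Pat.mk 0x3000000020000000000000007000000008 0x70000003e000000740000000e0000007c0000000c 8 7) 0 0 (step_sound _ 35 [rh24684580926abcd6, (rheb0810cc63b001d8.shift 2 0)] (by decide +kernel))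
noncomputable def rhfc92d29a9f375a5f : CRef := CRef.mk (Pat.mk 0x1800000000000000800000007800000004 0x40000001fe000000ff000001f400000196000001fc00000386 8 10) 0 0 (step_sound _ 100 [(rh0e15a09e6f52da8c.shift 1 1), rh31fa429230e9ff4b, (rh91d7e89670e3608f.shift 3 0)] (by decide +kernel))
noncomputable def rh41c622e14aa3a70c : CRef := CRef.mk (Pat.mk 0x4000000040000000c00000000000000000000001e 0x3a0000003e0000000f0000000c0000000e0000000b0000001e 8 6) 0 0 (step_sound _ 33 [rh3244c3cc8379b070, rhabd57ac0532751e9] (by decide +kernel))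
noncomputable def rh7e9bae83f0451b24 : CRef := CRef.mk (Pat.mk 0x60000000c00000000000000400000003e00000002 0xa6000000fc000000e6000000c30000007e000000c2 8 8) 0 0 (step_sound _ 98 [rha3d4138a5939a4eb, (rhe508a946da929b02.shift 1 0)] (by decide +kernel))
noncomputable def rhcea9fbc079b423fb : CRef := CRef.mk (Pat.mk 0x800000018000000000000000000000010 0x7c0000007c0000001e000000780000001f0000001400000010 8 7) 0 0 (step_sound _ 68 [(rh1540e431f80423ef.shift 0 1), (rh9e07f76261b05888.shift 3 0)] (by decide +kernel))
noncomputable def rh9b962e551b6880fb : CRef := CRef.mk (Pat.mk 0x1e0000000000000000 0x500000007000000070000003f0000001e0000000700000002 8 6) 0 0 (step_sound _ 97 [(rh3244c3cc8379b070.shift 0 2), rh631b67ab9e12e7c0] (by decide +kernel))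
noncomputable def rhbd76b281123ea18e : CRef := CRef.mk (Pat.mk 0x100000001e000000000000000000000008 0x380000003c0000001f0000001e000000380000000800000008 8 6) 0 0 (step_sound _ 67 [(rh63a5ceb7e85f97f2.shift 0 2), (rh9e3edb185cc347de.shift 3 0)] (by decide +kernel))
noncomputable def rh5f7fdb28fa358219 : CRef := CRef.mk (Pat.mk 0xc00000000000000000000001e00000002 0x390000001f0000001f0000000b0000001e00000002 8 6) 0 0 (step_sound _ 65 [(rh3244c3cc8379b070.shift 0 1), rh95ea8175e0269678] (by decide +kernel))
noncomputable def rh1f2697a7c394b8fa : CRef := CRef.mk (Pat.mk 0xc00000000000000020000002200000002 0x390000003f00000077000000220000002200000002 8 7) 0 0 (step_sound _ 97 [rh2d1850e6f3c86c66, (rhbaefcd01e0a8bca3.shift 1 0)] (by decide +kernel))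
noncomputable def rh1383627ed4ac30b8 : CRef := CRef.mk (Pat.mk 0x400000000000000000000003c00000000 0x400000004000001cc000000fe000001c7 8 9) 0 0 (step_sound _ 1 [rh4e51895036f7e51b, (rh80fcd6d0a18cb2dd.shift 1 0)] (by decide +kernel))
noncomputable def rh3f4a8c3fe761b121 : CRef := CRef.mk (Pat.mk 0x5800000000 0x7ff000003fe00000387 8 11) 0 0 (step_sound _ 37 [rh15b856e33c69f807, (rh394e80a462af5b2f.shift 2 0), rh3fb45d846df6964d, (rhb32557eb843305a6.shift 3 0)] (by decide +kernel))
noncomputable def rh4ad21d851f9eb40c : CRef := CRef.mk (Pat.mk 0x1600000000000000000000001e00000000 0x770000003e00000020000000700000007e000000e0 8 8) 0 0 (step_sound _ 69 [(rh428265de8cd3cd2d.shift 1 1), rhdcc8985eb12d3516] (by decide +kernel))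
noncomputable def rh3a21f3045b0e192e : CRef := CRef.mk (Pat.mk 0x1e00000000 0x2000000038000000380000003c0000003f0000001e00000038 8 6) 0 0 (step_sound _ 68 [(rh33e738c4ed385b9f.shift 1 1), rhdeb9c5ba32f9759c] (by decide +kernel))
noncomputable def rh576aa160452ebcdb : CRef := CRef.mk (Pat.mk 0x38000000000000000000000000 0xa0000000e0000000e0000007f0000003e0000000f0000000c0000000c 8 7) 0 0 (step_sound _ 98 [(rh4c622fddc53a5f99.shift 0 3), (rh592c7139d2c44767.shift 0 2), (rh7e8391acd972767e.shift 1 0), (rh9e97bba44c1b13e4.shift 0 2)] (by decide +kernel))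
noncomputable def rhd4407d4635410f61 : CRef := CRef.mk (Pat.mk 0x20000001e00000000 0x50000000f0000000f0000003e0000001e00000037 8 6) 0 0 (step_sound _ 1 [rh8c91948b78094451, rheb0810cc63b001d8] (by decide +kernel))
noncomputable def rh596d8a5a56e415ea : CRef := CRef.mk (Pat.mk 0x200000002000000020000000f00000000 0x8000000090000001f0000001e0000003a0000003f00000070 8 7) 0 0 (step_sound _ 128 [rh208fe2a974d4de28, (rh50fbb5868c909700.shift 0 1)] (by decide +kernel))
noncomputable def rhee43a4c7c2d82180 : CRef := CRef.mk (Pat.mk 0x200000002000000008000001f800000000 0x14000001ff000000ff000001ff00000088000001f800000310 8 10) 0 0 (step_sound _ 8 [rhc90f120511ceebbf, (rhe25b0a99195a5d59.shift 5 0)] (by decide +kernel))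
noncomputable def rh8ee0d278a96ace7b : CRef := CRef.mk (Pat.mk 0x1000000018000000080000002000000020 0x140000001e0000007f0000003e0000002f0000002000000020 8 7) 0 0 (step_sound _ 101 [(rh2613c889e411427e.shift 4 0), (rhfeae40a330ca9f0d.shift 0 2)] (by decide +kernel))
noncomputable def rh92c00192e7711ad5 : CRef := CRef.mk (Pat.mk 0x10000000180000000800000000 0x3c0000007f0000003e0000001e0000007800000020 8 7) 0 0 (step_sound _ 132 [(rh5c5e593799055d58.shift 3 1), rhaae6850beb7d9292] (by decide +kernel))
noncomputable def rhe7410f7e267fcec9 : CRef := CRef.mk (Pat.mk 0x100000001800000008 0x140000001e000003ff000001fe0000039f 8 10) 0 0 (step_sound _ 37 [rh2820ca9a6c4f41b4, (rha82475a61f8839ca.shift 1 0), (rhdc1641106d7e5aa2.shift 2 0), rhfeae40a330ca9f0d] (by decide +kernel))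
noncomputable def rhae4721d097b4bc84 : CRef := CRef.mk (Pat.mk 0x600000000000000100000000e00000000 0x280000007f0000003e0000003c000000300000003e00000070 8 7) 0 0 (step_sound _ 36 [(rh33e738c4ed385b9f.shift 1 1), rhcc2fcf51333a6b33] (by decide +kernel))
noncomputable def rhd30de6d05072b71e : CRef := CRef.mk (Pat.mk 0xf000000000000000000000008 0x80000001c0000007c0000001e0000000f0000001c0000000800000008 8 7) 0 0 (step_sound _ 67 [rh64c8bf9a0f2e2130, (rhe25b0a99195a5d59.shift 0 2)] (by decide +kernel))
noncomputable def rha1c005314ce86d00 : CRef := CRef.mk (Pat.mk 0x600000002000000100000000e00000000 0x700000003e00000017000000300000003e00000070 8 7) 0 0 (step_sound _ 36 [rh24478ac375b6b0d4, (rh33e738c4ed385b9f.shift 1 1)] (by decide +kernel))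
noncomputable def rh3e7d13c1d4d72f84 : CRef := CRef.mk (Pat.mk 0x5000000000000000400000006000000000 0x270000007e000000e7000000400000006000000020 8 8) 0 0 (step_sound _ 102 [(rh86776561faeee048.shift 0 1), (rh932754581e0f4330.shift 5 0)] (by decide +kernel))
noncomputable def rh7370b1aef9478fb1 : CRef := CRef.mk (Pat.mk 0x1e00000004 0x70000000f0000003f0000001e00000007 8 6) 0 0 (step_sound _ 1 [rh22e0984d4a63645e, rheb0810cc63b001d8] (by decide +kernel))
noncomputable def rh9ba68b27cf0df333 : CRef := CRef.mk (Pat.mk 0x1e00000000 0x50000000700000007000000070000000f0000003f0000001e00000007 8 6) 0 0 (step_sound _ 65 [rh2148742486433563, (rh3244c3cc8379b070.shift 0 1)] (by decide +kernel))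
noncomputable def rhcb92109e41df5f65 : CRef := CRef.mk (Pat.mk 0x1e00000000 0x100000007000000070000000f0000003f0000001e00000007 8 6) 0 0 (step_sound _ 65 [(rh3244c3cc8379b070.shift 0 1), rhcf31a943653280a9] (by decide +kernel))
noncomputable def rh7df1edbe1fc5ea39 : CRef := CRef.mk (Pat.mk 0x1000000000000000000000007c00000000 0x28000000380000003800000010000000dc0000007f00000027 8 8) 0 0 (step_sound _ 70 [(rh33e738c4ed385b9f.shift 3 1), rhbaef09a4467795df] (by decide +kernel))
noncomputable def rh6dc252c70f120a1e : CRef := CRef.mk (Pat.mk 0x2000000000000000000000007c00000000 0x50000000700000007000000020000000370000007e00000040 8 7) 0 0 (step_sound _ 65 [rh37669aebc3cbb3ef, (rh3f8766e6ecb455ce.shift 1 1)] (by decide +kernel))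
noncomputable def rh55b014ea56dab7f1 : CRef := CRef.mk (Pat.mk 0x800000008000000000000003c00000000 0x58000000780000007c0000003f000000640000003c00000014 8 7) 0 0 (step_sound _ 69 [rh036b73c69b6020df, (rh33e738c4ed385b9f.shift 2 1)] (by decide +kernel))
noncomputable def rheff22c0435ae1049 : CRef := CRef.mk (Pat.mk 0x800000008000000000000000c 0x14000001fc000000fe000000ff0000000c0000000c 8 9) 0 0 (step_sound _ 35 [rh4cd0a19382660777, (rh9a369cb82ea472da.shift 2 0), (rhe62cab2ff5ad6fe2.shift 2 0)] (by decide +kernel))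
noncomputable def rh0ee994e2f4e9b198 : CRef := CRef.mk (Pat.mk 0x800000008000000000000001800000000 0x1f4000000fe000000ff000000080000001800000010 8 9) 0 0 (step_sound _ 67 [(rh4cd0a19382660777.shift 0 1), (rh55afc6a59410cf00.shift 3 0)] (by decide +kernel))
noncomputable def rhca8c9f0c61adce92 : CRef := CRef.mk (Pat.mk 0x80000000c0000000c 0xfc0000007f000000ff0000000c0000000c 8 8) 0 0 (step_sound _ 99 [(rh5c5e593799055d58.shift 2 0), rhf5b8fc1a3e9ff86e] (by decide +kernel))
noncomputable def rh58ab3eb898d6f7ec : CRef := CRef.mk (Pat.mk 0x40000000c0000000c 0x7e0000003e0000007f0000000c0000000c 8 7) 0 0 (step_sound _ 98 [(rh2145e1d24b96a57e.shift 2 0), rh85c0fda97cd0d81b] (by decide +kernel))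
noncomputable def rh97cdda0f3be8da7b : CRef := CRef.mk (Pat.mk 0x1e00000000 0x3800000038000000f80000003c0000001f00000030 8 8) 0 0 (step_sound _ 68 [(rh33e738c4ed385b9f.shift 1 1), rh634a993d2c75ab74] (by decide +kernel))
noncomputable def rhdbf0c76719c88fcd : CRef := CRef.mk (Pat.mk 0x40000003c000000000000000800000000 0x3800000038000000780000003c0000007f000000100000001800000018 8 7) 0 0 (step_sound _ 131 [rh237e4663d4307a86, (rhf48373e13d2bc128.shift 2 3)] (by decide +kernel))
noncomputable def rh1b5c20e66105236d : CRef := CRef.mk (Pat.mk 0x80000007800000008 0x7c0000007c0000001f00000078000000f800000008 8 8) 0 0 (step_sound _ 99 [(rh1741680720c097b4.shift 2 0), (rh331920c088655195.shift 1 1), (rh6ab5d4c8ddaac48c.shift 2 0), (rh99f5660129c74d11.shift 3 0), rhb3466cd52e912e74] (by decide +kernel))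
noncomputable def rh5d4b02074d89e6f9 : CRef := CRef.mk (Pat.mk 0x100000003e000000000000000800000000 0x3800000038000000780000001c0000007f000000100000001800000018 8 7) 0 0 (step_sound _ 131 [(rh38e8e26727113fca.shift 2 0), (rh53b3c253cb0c65f4.shift 0 3)] (by decide +kernel))
noncomputable def rhd77a46f68e40544b : CRef := CRef.mk (Pat.mk 0x18000000100000001000000014 0x1e7000000fe000001de0000001400000014 8 9) 0 0 (step_sound _ 101 [(rh2f68792b6b779e96.shift 4 0), rhb5044cefdd4a22b4] (by decide +kernel))
noncomputable def rh9e6d89b890d1e7b2 : CRef := CRef.mk (Pat.mk 0x1000000000000000100000001e00000000 0x10000001f0000001f0000000f0000001f0000001e00000003 8 5) 0 0 (step_sound _ 65 [(rh3244c3cc8379b070.shift 0 1), rha608ead5a8038cbd] (by decide +kernel))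
noncomputable def rh0881ea81ce10f04a : CRef := CRef.mk (Pat.mk 0x1800000010000000100000001e00000000 0x21000000330000001f000000120000001f0000001e00000004 8 6) 0 0 (step_sound _ 164 [(rh79877ebd3ef475dd.shift 3 1), rhd746854f0dc472df] (by decide +kernel))
noncomputable def rhd697ffe9e7974ddd : CRef := CRef.mk (Pat.mk 0x100000003000000010000000100000001e000000000000000000000000 0xc0000001e000000f60000001e000000170000001e000000040000000400000004 8 8) 0 0 (step_sound _ 227 [(rh50fbb5868c909700.shift 3 4), rh7408245632f0824a] (by decide +kernel))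
noncomputable def rh09f6529dec9cc907 : CRef := CRef.mk (Pat.mk 0x10000000100000001c 0x28000000380000003f000000fe000000fe0000001c0000001c 8 8) 0 0 (step_sound _ 100 [(rh9a369cb82ea472da.shift 3 0), (rh9fb9dc683e09b5f3.shift 3 0), rhdf697e3cf785e583, (rhe62cab2ff5ad6fe2.shift 3 0)] (by decide +kernel))
noncomputable def rh48fced331f22553e : CRef := CRef.mk (Pat.mk 0xe0000000000000008 0x280000003800000038000000770000003e0000007800000008 8 7) 0 0 (step_sound _ 68 [(rh3fc3a7fb6866dcd4.shift 1 1), (rh6e238882d2315fd5.shift 1 0), (rhb18e6c78a554867d.shift 0 2), (rhe401600d466b97cd.shift 0 1)] (by decide +kernel))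
noncomputable def rh3007d8ad512cec11 : CRef := CRef.mk (Pat.mk 0x380000000000000000 0x2000000060000000ff0000007e0000001700000010 8 8) 0 0 (step_sound _ 66 [(rh2cc7d62e70c02209.shift 0 1), (rh56a24c72f1c55520.shift 1 2), (rh995975079ffd0394.shift 1 0), (rh9e97bba44c1b13e4.shift 0 1)] (by decide +kernel))
noncomputable def rh5e98f7ab8993b949 : CRef := CRef.mk (Pat.mk 0x3c00000000 0x1ce000000fe000001c7 8 9) 0 0 (step_sound _ 66 [(rh3244c3cc8379b070.shift 1 1), rh5923a59bc715a8af] (by decide +kernel))
noncomputable def rh1292bb9f88d62877 : CRef := CRef.mk (Pat.mk 0x38000000000000002000000000 0x2000000060000000fe0000007f000000370000003000000020 8 8) 0 0 (step_sound _ 98 [(rh56a24c72f1c55520.shift 1 3), (rh58b172df0588d916.shift 1 1), (rh9e97bba44c1b13e4.shift 0 2), rhc17f861d2679f45c, (rhe8dbc29e18a5d730.shift 0 2)] (by decide +kernel))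
noncomputable def rh5da4028eb3f5533a : CRef := CRef.mk (Pat.mk 0xa000000080000000a000000000000000000000000 0x140000001c0000001c000000780000001f0000000c000000ee0000007c000000fc00000010 8 8) 0 0 (step_sound _ 67 [rh1ef94ac22f50e3da, (rh3058b7020828739c.shift 1 1), (rh934b7b499abbb98b.shift 1 1), (rhf0ff60e2ff483387.shift 0 1)] (by decide +kernel))
noncomputable def rhd248ebf62c762181 : CRef := CRef.mk (Pat.mk 0x70000000400000004 0x800000008000000fc0000007f0000003e00000004 8 8) 0 0 (step_sound _ 67 [rh49606a42a30c7ac4, rh9b21245ad62a3e1c, (rhe8ab71c4076c7ec8.shift 0 1)] (by decide +kernel))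
noncomputable def rhe7987087bc14def5 : CRef := CRef.mk (Pat.mk 0x280000002000000020000000200000000000000000 0x70000003e0000007700000020000000600000006000000040 8 7) 0 0 (step_sound _ 38 [rh245a65f2f31c544e, (rhd3458b32566d63f7.shift 5 1)] (by decide +kernel))
noncomputable def rhb5c1d5bcb6bfcd95 : CRef := CRef.mk (Pat.mk 0xa000000080000000a000000000000000000000000 0x180000001f00000038000000ee0000007c000000fc00000010 8 8) 0 0 (step_sound _ 67 [(rh0e88c4a9e4614eb0.shift 0 1), (rh3058b7020828739c.shift 1 1), (rh6c59ce14113da07f.shift 3 0), (rh934b7b499abbb98b.shift 1 1)] (by decide +kernel))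
noncomputable def rh8eb0f41acde5812c : CRef := CRef.mk (Pat.mk 0x40000000400000005000000000000000000000000 0xc0000000c0000003e000000770000003e0000007e00000008 8 7) 0 0 (step_sound _ 66 [(rh3058b7020828739c.shift 0 1), (rh6c59ce14113da07f.shift 2 0), (rhb3ac2cd916378a50.shift 0 1)] (by decide +kernel))
noncomputable def rh921c53f95b1d8708 : CRef := CRef.mk (Pat.mk 0x20000000280000002000000020000000000000000000000000 0x170000007e000001ef0000006000000020000000700000007000000050 8 9) 0 0 (step_sound _ 69 [(rh2a87aac4d3ed0b82.shift 0 2), (rh6c59ce14113da07f.shift 5 0), (rh8cdd36b03d57a2f6.shift 4 0), (rhcab3157f7bdcba3e.shift 4 0)] (by decide +kernel))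
noncomputable def rh32faae336d0a644a : CRef := CRef.mk (Pat.mk 0x200000002000000020000000200000000 0x4000000060000000e0000007f0000003f0000003d 8 7) 0 0 (step_sound _ 34 [(rh55afc6a59410cf00.shift 1 0), rhc505dbb087155857] (by decide +kernel))
noncomputable def rh6a4e298f8c49b17e : CRef := CRef.mk (Pat.mk 0x11000000120000001200000002 0x20000000340000003f00000017000000320000003200000022 8 6) 0 0 (step_sound _ 97 [rh50fbb5868c909700, rh60aec1cf4a604570] (by decide +kernel))
noncomputable def rhd9a2bda40f764301 : CRef := CRef.mk (Pat.mk 0x400000004000000040000000400000000 0x7a0000003f0000007e0000000c0000000c00000008 8 7) 0 0 (step_sound _ 131 [rh184608c4cb472798, (rh2f68792b6b779e96.shift 2 1)] (by decide +kernel))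
noncomputable def rhedc41c706221966a : CRef := CRef.mk (Pat.mk 0x200000002000000020000000200000000 0x3d0000001f0000003f0000000e0000000600000004 8 6) 0 0 (step_sound _ 130 [(rh2f68792b6b779e96.shift 1 1), rh486e3ea0a057067b] (by decide +kernel))
noncomputable def rhd4a9e6bbb0fa5904 : CRef := CRef.mk (Pat.mk 0x1000000002000000020000000200000002 0x3d0000001f0000003f00000003000000020000000200000002 8 6) 0 0 (step_sound _ 129 [rh3ca48e2a6d60153d, rh934fac0f6c2e83a8, (rhb45d382401969cd5.shift 0 1), (rhc85cc95794737cf7.shift 0 1)] (by decide +kernel))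
noncomputable def rh085ebf6a07cd0197 : CRef := CRef.mk (Pat.mk 0x100000000200000012000000020000000200000000 0x50000000f0000001f0000003b000000120000001a0000001a00000008 8 6) 0 0 (step_sound _ 161 [(rh3ca48e2a6d60153d.shift 0 1), rh5bfb84e7aac7edd0, (rh934fac0f6c2e83a8.shift 0 1), (rhc85cc95794737cf7.shift 0 2)] (by decide +kernel))
noncomputable def rh5f88db603a5caff2 : CRef := CRef.mk (Pat.mk 0x20000000200000012000000120000000300000006000000000000000000000000 0xc0000003e0000003b0000003200000032000000330000003e000000380000003800000028 8 6) 0 0 (step_sound _ 100 [(rh2fe78cc5ca4405d8.shift 0 3), rha42dea33639360ae] (by decide +kernel))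
noncomputable def rh4171fe6851ef5b7e : CRef := CRef.mk (Pat.mk 0x20000000200000012000000120000000200000006000000000000000000000000 0x2c0000003e0000003b00000032000000320000007b0000003e000000780000003800000028 8 7) 0 0 (step_sound _ 100 [(rh2192e693d5f4ccca.shift 3 0), (rh75d94fa6ea7c8dcc.shift 0 1), (rh8c742e142d1c4ef4.shift 0 2), rha42dea33639360ae, (rhc4c0672749f9dfbd.shift 0 2)] (by decide +kernel))
noncomputable def rh33bdba352ff017bf : CRef := CRef.mk (Pat.mk 0x12000000120000001200000002000000000000000000000000 0x1000000012000000120000001a0000001e0000001f0000000f00000001 8 5) 0 0 (step_sound _ 66 [rhce684cbf27defa86, (rhd3458b32566d63f7.shift 1 2)] (by decide +kernel))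
noncomputable def rh3ce9345fc27dc515 : CRef := CRef.mk (Pat.mk 0x200000012000000120000000200000000 0x250000007f0000003f0000007b000000320000003a0000003a00000028 8 7) 0 0 (step_sound _ 161 [(rh3ca48e2a6d60153d.shift 0 1), rh8d8d0350a91ef61f, (rhc85cc95794737cf7.shift 0 2)] (by decide +kernel))
noncomputable def rh805944d2ba535cec : CRef := CRef.mk (Pat.mk 0x100000004c00000008000000480000000800000000 0x80000000d0000000f8000000cf000000c8000000e8000000f800000020 8 8) 0 0 (step_sound _ 163 [(rh2f68792b6b779e96.shift 3 2), rhc2747ec1d9b23623] (by decide +kernel))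
noncomputable def rh685f0c3cf447ba66 : CRef := CRef.mk (Pat.mk 0x1200000002000000120000000200000002000000020000000400000000 0xc0000001e0000003b000000120000001a0000001a0000000a0000000600000004 8 6) 0 0 (step_sound _ 33 [(rh55afc6a59410cf00.shift 1 0), (rh5bfb84e7aac7edd0.shift 0 2)] (by decide +kernel))
noncomputable def rh3e1e91ac55a50490 : CRef := CRef.mk (Pat.mk 0x10000000020000000200000002000000020000000100000000 0x3d0000001f0000003f000000030000000200000002000000020000000300000001 8 6) 0 0 (step_sound _ 193 [(rh3ca48e2a6d60153d.shift 0 2), rhab207950aef22f48, (rhb45d382401969cd5.shift 0 3), (rhc85cc95794737cf7.shift 0 3)] (by decide +kernel))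
noncomputable def rh2deaa0b169edae37 : CRef := CRef.mk (Pat.mk 0x800000008000000080000000900000000 0x740000007c000000fc000000180000001f00000014 8 8) 0 0 (step_sound _ 68 [(rh5834958be0c275b7.shift 2 0), rh669c503fc29231eb] (by decide +kernel))
noncomputable def rhf394f93d986b3378 : CRef := CRef.mk (Pat.mk 0x100000001200000002000000030000000400000000 0x3c0000001e00000032000000330000003e00000024 8 6) 0 0 (step_sound _ 33 [(rh55afc6a59410cf00.shift 1 0), rhba038372453fce5d] (by decide +kernel))
noncomputable def rh9c1fa04ff60d4ad6 : CRef := CRef.mk (Pat.mk 0x8000000080000000900000001000000010000000200000000 0x140000001c0000001c000000080000001a0000000f00000005000000010000000300000002 8 5) 0 0 (step_sound _ 32 [rh55afc6a59410cf00, (rh8ea3e9ea899f31ba.shift 0 1)] (by decide +kernel))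
noncomputable def rh026499e91bb176bb : CRef := CRef.mk (Pat.mk 0x90000000900000001000000010000000100000000 0x40000000c0000001c0000000f0000001f0000001d0000001d0000001d00000004 8 5) 0 0 (step_sound _ 161 [(rhbaefcd01e0a8bca3.shift 0 1), rhecbc7aa89231275d] (by decide +kernel))
noncomputable def rha29b7c4d4d1d874f : CRef := CRef.mk (Pat.mk 0x120000001200000002000000030000000000000000 0x360000001e0000003a0000001f0000001e00000004 8 6) 0 0 (step_sound _ 34 [rhb6273661828b7911, (rhd3458b32566d63f7.shift 1 1)] (by decide +kernel))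
noncomputable def rhd89111f4dccb804f : CRef := CRef.mk (Pat.mk 0x8000000090000000900000001000000010000000000000000 0x10000000180000001f0000000b000000190000001b0000001300000002 8 5) 0 0 (step_sound _ 33 [rhb6153295d8b1ee06, (rhd3458b32566d63f7.shift 0 1)] (by decide +kernel))
noncomputable def rh686d18da490f0af5 : CRef := CRef.mk (Pat.mk 0x8000000090000000900000001000000010000000000000000 0x100000001800000018000000080000001f0000001b00000011000000030000000300000002 8 5) 0 0 (step_sound _ 33 [(rhd3458b32566d63f7.shift 0 1), rhe13956065d56bd11] (by decide +kernel))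
noncomputable def rh9e118434456f0bb0 : CRef := CRef.mk (Pat.mk 0xb0000000800000000000000000000000000000000 0x40000000c0000001c0000001f0000001c0000000c0000001c0000001c00000014 8 5) 0 0 (step_sound _ 162 [rh193d6be3488ca70c, (rhe25b0a99195a5d59.shift 0 4)] (by decide +kernel))
noncomputable def rh577313766a6b7038 : CRef := CRef.mk (Pat.mk 0x400000004000000040000000400000000 0x7a0000003f0000007e0000000c0000000c00000008 8 7) 0 0 (step_sound _ 129 [(rh50fbb5868c909700.shift 1 1), rh89611f6200cf4573] (by decide +kernel))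
noncomputable def rhabe032c9c2d6651d : CRef := CRef.mk (Pat.mk 0x200000002000000020000000200000000 0x4000000060000000e0000003f0000001f0000003d 8 6) 0 0 (step_sound _ 34 [rh05bafc42b3574e9c, (rh55afc6a59410cf00.shift 1 0)] (by decide +kernel))
noncomputable def rh457fa95969acc1da : CRef := CRef.mk (Pat.mk 0xb0000000100000000000000000000000000000000 0x40000000c0000003c0000001f0000003f0000001c0000001c0000001c00000004 8 6) 0 0 (step_sound _ 162 [rh101670ad912ca7ef, (rh3fc3a7fb6866dcd4.shift 0 4), (rhd584a578337d0023.shift 0 4), (rhf3baec4a0a3dd35e.shift 0 4)] (by decide +kernel))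
noncomputable def rhd0b1a50b89c79525 : CRef := CRef.mk (Pat.mk 0x400000004000000040000000400000000 0x80000000c0000000c0000007e0000003f0000007a 8 7) 0 0 (step_sound _ 35 [(rh55afc6a59410cf00.shift 2 0), rh8b8fb40eebe3503a] (by decide +kernel))
noncomputable def rhc14a082430eb74cf : CRef := CRef.mk (Pat.mk 0x200000012000000020000000200000000 0x5000000070000000700000002000000730000003e000000070000000300000001 8 7) 0 0 (step_sound _ 32 [(rh3dc294244e6daac3.shift 0 1), rh932754581e0f4330] (by decide +kernel))
noncomputable def rh5a5cd7dddb61760b : CRef := CRef.mk (Pat.mk 0x200000002000000030000000200000000 0x4000000060000000e0000001f0000001f0000001d 8 5) 0 0 (step_sound _ 32 [rh51499fad2812bafd, rh932754581e0f4330] (by decide +kernel))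
noncomputable def rh46b64e4ed8b2696c : CRef := CRef.mk (Pat.mk 0x12000000020000001800000000000000000000000000000000 0x2800000038000000380000003e0000003b0000003800000038000000380000003800000028 8 6) 0 0 (step_sound _ 164 [(rh117e8735385cd20a.shift 3 1), (rh7e07cd48c5ac7541.shift 3 2), (rh976a48eb1c80a12f.shift 3 3), rhc51528e1cf8c4b26, (rhf8c7ba2a13aebffb.shift 3 0)] (by decide +kernel))
noncomputable def rhf1b0752ff6e0bc1d : CRef := CRef.mk (Pat.mk 0x240000000600000007000000000000000000000000 0x200000003c0000003e000000170000003c0000003c0000002c 8 6) 0 0 (step_sound _ 66 [rh3e1c86f51648b327, (rh820d4e04d5dcd02e.shift 1 0), rhf8d29f3cbeaf06f7] (by decide +kernel))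
noncomputable def rh2e805b317eec6888 : CRef := CRef.mk (Pat.mk 0x2000000120000000200000002000000020000000000000000 0x730000003e0000007600000002000000060000000600000004 8 7) 0 0 (step_sound _ 34 [rh46a38c341b967eff, (rhd3458b32566d63f7.shift 1 1)] (by decide +kernel))
noncomputable def rha146e33b9bb88230 : CRef := CRef.mk (Pat.mk 0x6000000020000001000000010000000000000000000000000 0x2800000038000000780000003e0000007b0000003000000030000000380000003800000028 8 7) 0 0 (step_sound _ 196 [(rh185c6e3748bd1404.shift 0 5), (rh29e07b8822e3047d.shift 0 3), (rh3ba0785dfc34cc4e.shift 3 1), (rh5d12631e5cccf9b8.shift 3 0), (rhd70eea991e03b13e.shift 0 1)] (by decide +kernel))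
noncomputable def rh4164e9348317bf5b : CRef := CRef.mk (Pat.mk 0x12000000120000000300000002000000000000000000000000 0x28000000380000003800000032000000320000003b0000003e0000003c0000003800000028 8 6) 0 0 (step_sound _ 100 [(rh9b0f9a5c2b4e46fd.shift 3 1), (rhbfda0d350547d4c1.shift 3 0), (rhf8edb192cdea7ada.shift 0 2)] (by decide +kernel))
noncomputable def rhade84723515a6a6b : CRef := CRef.mk (Pat.mk 0x200000002000000120000000a0000000000000000 0x280000003d0000007f0000003e000000730000003a0000003a0000003800000020 8 7) 0 0 (step_sound _ 164 [(rhb45d382401969cd5.shift 0 2), (rhbda6eb6509751717.shift 0 2), (rhe29b6255c56db4f2.shift 3 0), (rhf6eafb23adb1e367.shift 0 1)] (by decide +kernel))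
noncomputable def rhb9bbb3d68fd71a36 : CRef := CRef.mk (Pat.mk 0x60000000e0000000a0000000000000000 0x60000000e0000007b0000003e0000007e 8 7) 0 0 (step_sound _ 33 [rh49d5d9ac86ead7db, (rh71222050f2c63a3a.shift 1 0)] (by decide +kernel))
noncomputable def rh6f4ad6eabbe0731a : CRef := CRef.mk (Pat.mk 0x120000000200000012000000060000000200000000 0xc0000001e0000001b000000120000003f0000003300000020 8 6) 0 0 (step_sound _ 32 [rh6c01a90fad03ff91, (rh79877ebd3ef475dd.shift 0 1)] (by decide +kernel))
noncomputable def rh275adacb0e2a009e : CRef := CRef.mk (Pat.mk 0x1200000002000000120000000600000002 0x740000003e00000063000000320000001f00000003 8 7) 0 0 (step_sound _ 0 [rh79877ebd3ef475dd, rhcfe4e6ebe610e2c0] (by decide +kernel))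
noncomputable def rh5942b7b9a7db3da1 : CRef := CRef.mk (Pat.mk 0x10000000000000001000000006000000030000000000000000 0x2800000038000000380000003000000030000000300000003e0000003b0000003800000028 8 6) 0 0 (step_sound _ 100 [(rh361cc68994bd8a63.shift 0 2), (rh5d12631e5cccf9b8.shift 3 0)] (by decide +kernel))
noncomputable def rh2943bd1894308c0d : CRef := CRef.mk (Pat.mk 0x2000000020000001200000002 0x40000000600000006000000730000003e00000076 8 7) 0 0 (step_sound _ 130 [(rhbaefcd01e0a8bca3.shift 1 0), rhcb3735733fc7fa29] (by decide +kernel))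
noncomputable def rh3796c6b00caf5d3a : CRef := CRef.mk (Pat.mk 0x60000001200000002000000120000000000000000 0x21000000330000003f000000320000003a0000003a0000003800000008 8 6) 0 0 (step_sound _ 192 [rha74287e6c2dee340, (rhffd04209dc8ea796.shift 0 2)] (by decide +kernel))
noncomputable def rh1ceb81cad9e534cc : CRef := CRef.mk (Pat.mk 0x60000000200000012000000030000000000000000 0x700000003e0000007b0000001e0000000f0000000800000008 8 7) 0 0 (step_sound _ 99 [(rhb2a0b9ccfb5cecd5.shift 0 2), rhdd92b398f9eae512] (by decide +kernel))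
noncomputable def rh4a1271cc7ee72461 : CRef := CRef.mk (Pat.mk 0x1a00000002000000020000000300000000 0x180000007a0000001f0000003a0000001f0000003c 8 7) 0 0 (step_sound _ 34 [rh49df5ff148149e53, (rh55afc6a59410cf00.shift 1 0)] (by decide +kernel))
noncomputable def rh9c6daa4e67941a37 : CRef := CRef.mk (Pat.mk 0x120000000200000002000000020000000000000000 0x700000003e0000007700000002000000060000000600000004 8 7) 0 0 (step_sound _ 34 [rhc39372eb7325d055, (rhd3458b32566d63f7.shift 1 1)] (by decide +kernel))
noncomputable def rhf2b7d58ac22c102c : CRef := CRef.mk (Pat.mk 0x120000000200000002000000020000000000000000 0x700000003e0000007700000002000000030000000300000001 8 7) 0 0 (step_sound _ 32 [rh6bdce6f1bafc2daa, (rh79877ebd3ef475dd.shift 0 1)] (by decide +kernel))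
noncomputable def rh422b1a35dc9c72a3 : CRef := CRef.mk (Pat.mk 0x80000000800000068000000080000000800000000 0x1f0000000fc000001ef000000680000006c0000004c00000040 8 9) 0 0 (step_sound _ 164 [(rh2f68792b6b779e96.shift 3 2), rh9e631f40f97fa5f8] (by decide +kernel))
noncomputable def rh3cb858112107d39a : CRef := CRef.mk (Pat.mk 0x20000001a00000000000000000000000000000000 0x18000000180000003b0000001e00000038000000380000003800000028 8 6) 0 0 (step_sound _ 130 [(rh3244c3cc8379b070.shift 0 4), (rh9454faaea4f59732.shift 1 0)] (by decide +kernel))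
noncomputable def rh602fb647602ff9bd : CRef := CRef.mk (Pat.mk 0x20000000300000012000000020000000000000000 0x140000001e0000001b0000001e0000000f0000000900000008 8 5) 0 0 (step_sound _ 99 [rh2c1cd97fab182669, (rh5419adcd928dba20.shift 0 3)] (by decide +kernel))
noncomputable def rhf0b93d692079a772 : CRef := CRef.mk (Pat.mk 0x100000004800000008000000480000004800000008 0x90000000f8000000cf0000004c000000d8000000d800000088 8 8) 0 0 (step_sound _ 163 [(rh2f68792b6b779e96.shift 3 2), rhd7d7550663ec50ea] (by decide +kernel))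
noncomputable def rh0ac5d9fac803fd69 : CRef := CRef.mk (Pat.mk 0xb0000000300000000000000000000000000000000 0xc0000000c0000001c0000001f0000001f0000001c0000001c0000001c00000010 8 5) 0 0 (step_sound _ 162 [(rh18965a982d73c794.shift 0 4), rh419123725427908e] (by decide +kernel))
noncomputable def rh257c975aac7a713f : CRef := CRef.mk (Pat.mk 0xc0000001c00000005000000000000000000000000 0xc0000001e000000f70000003c0000007c00000020 8 8) 0 0 (step_sound _ 100 [(rh0ded9cf36d1984b9.shift 0 3), (rh34963f3e02c82e43.shift 1 0), (rh419c1df1c0e446e7.shift 1 1), (rhab47dba932b096f0.shift 0 1)] (by decide +kernel))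
noncomputable def rh6b8771cc3b1e10bb : CRef := CRef.mk (Pat.mk 0x180000000c00000040000000600000000000000000 0x20000000e0000000e0000000f8000000cf000000e0000000e0000000c000000080 8 8) 0 0 (step_sound _ 166 [(rh361cc68994bd8a63.shift 2 4), rh6abc6b8e6ebda028] (by decide +kernel))
noncomputable def rhcde9a3c600849019 : CRef := CRef.mk (Pat.mk 0x600000003000000120000000a0000000200000000 0x200000003e00000033000000120000003f0000003b00000020 8 6) 0 0 (step_sound _ 32 [rh130d00aebff8c1be, (rh79877ebd3ef475dd.shift 0 1)] (by decide +kernel))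
noncomputable def rh4ff0a1ffe308a2a8 : CRef := CRef.mk (Pat.mk 0x200000002000000120000000a0000000200000000 0x140000001f0000001b0000001a0000000f0000000b00000008 8 5) 0 0 (step_sound _ 162 [(rh2f68792b6b779e96.shift 1 2), rheac318d56af14fc6] (by decide +kernel))
noncomputable def rhb78c9d8b69fd19fa : CRef := CRef.mk (Pat.mk 0x600000002000000120000000a0000000200000000 0x2800000038000000380000003f000000330000003a0000003a0000003a00000020 8 6) 0 0 (step_sound _ 128 [(rh50fbb5868c909700.shift 0 1), rhf37ce8d0f9c07ef3] (by decide +kernel))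
noncomputable def rhf88a5f806e4257d2 : CRef := CRef.mk (Pat.mk 0x80000000f0000000000000000000000000000000000000000 0x18000000180000001c0000000c0000000f0000001c0000001c0000001c0000001c00000004 8 5) 0 0 (step_sound _ 131 [(rh81b092c5b522025c.shift 2 0), (rhe25b0a99195a5d59.shift 0 4)] (by decide +kernel))
noncomputable def rhe304aa53754a96e3 : CRef := CRef.mk (Pat.mk 0x200000002000000120000000e0000000000000000 0x740000003e0000007b0000001a0000000f0000000800000008 8 7) 0 0 (step_sound _ 99 [(rh53b3c253cb0c65f4.shift 0 2), rh90a70354e6c2b206] (by decide +kernel))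
noncomputable def rh4033ff587a83e1c9 : CRef := CRef.mk (Pat.mk 0x40000000200000002000000120000001a0000001200000000000000000000000000000000 0x40000001e0000001b0000001b0000001a0000001a0000001a00000018000000380000003800000028 8 6) 0 0 (step_sound _ 289 [(rh2f68792b6b779e96.shift 1 6), rhaa90532b14e903cb] (by decide +kernel))
noncomputable def rh880dc7607a13fa41 : CRef := CRef.mk (Pat.mk 0x2000000020000001200000002 0x40000000600000006000000720000003e00000077 8 7) 0 0 (step_sound _ 130 [rh5e820e151abb0e34, (rhbaefcd01e0a8bca3.shift 1 0)] (by decide +kernel))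
noncomputable def rhabeab8eb65fa13cd : CRef := CRef.mk (Pat.mk 0x160000000200000000000000000000000000000000 0x1800000018000000380000001e0000003b00000038000000380000003800000020 8 6) 0 0 (step_sound _ 163 [(rh419123725427908e.shift 1 0), (rheb0810cc63b001d8.shift 0 4)] (by decide +kernel))
noncomputable def rh3ee77e877858dffb : CRef := CRef.mk (Pat.mk 0x2000000160000000000000000000000000000000000000000 0x18000000180000003b0000001e0000003800000038000000380000003800000020 8 6) 0 0 (step_sound _ 163 [(rh3244c3cc8379b070.shift 0 5), (rh419123725427908e.shift 1 0)] (by decide +kernel))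
noncomputable def rh767da603035671c5 : CRef := CRef.mk (Pat.mk 0x100000000200000012000000020000000200000000 0x50000000f0000001f0000003b00000012000000320000003200000020 8 6) 0 0 (step_sound _ 161 [rh10c45420489fc1ce, (rh3ca48e2a6d60153d.shift 0 1), (rh934fac0f6c2e83a8.shift 0 1), (rhc85cc95794737cf7.shift 0 2)] (by decide +kernel))
noncomputable def rhab31aafa4d07eaf7 : CRef := CRef.mk (Pat.mk 0x120000000200000012000000020000000000000000 0x3d0000001f0000003a00000012000000320000003000000020 8 6) 0 0 (step_sound _ 162 [rh18cd71f5068ef973, (rh2f68792b6b779e96.shift 1 2)] (by decide +kernel))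
noncomputable def rh7182f16bf12a46dd : CRef := CRef.mk (Pat.mk 0x100000012000000020000001200000002000000000000000000000000 0x2800000038000000390000003b0000003e0000003a0000003e0000003b000000380000003800000020 8 6) 0 0 (step_sound _ 164 [(rh1a77390c8dd58c37.shift 0 1), (rh579d22b0d0d3542a.shift 0 3), (rh793eb10cafbc71e3.shift 3 0), (rhd60a9635b04b5467.shift 3 1)] (by decide +kernel))
noncomputable def rh299353116a511572 : CRef := CRef.mk (Pat.mk 0x800000008000000080000000100000001000000010000000200000000 0x140000001c0000001c0000001c00000018000000180000001900000019000000110000000300000002 8 5) 0 0 (step_sound _ 32 [(rh09191afbd71d6a2f.shift 2 2), rh55afc6a59410cf00] (by decide +kernel))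
noncomputable def rhb7acfc79cb25344f : CRef := CRef.mk (Pat.mk 0x6000000120000000000000010000000000000000000000000 0x20000000380000003e0000003b0000003800000038000000380000003800000020 8 6) 0 0 (step_sound _ 196 [(rh0120d1fc2e76522b.shift 3 1), (rh636d9388fc8640b0.shift 3 1), (rha8815eb4830abf42.shift 3 0), (rhab6a07afe24ba22d.shift 1 2), (rhcaa7ba44a31c4370.shift 0 5)] (by decide +kernel))
noncomputable def rhf6005a1b7564f0cf : CRef := CRef.mk (Pat.mk 0x1300000002000000120000000200000000 0x20000000340000003e000000370000003a0000003a0000003a00000008 8 6) 0 0 (step_sound _ 162 [rh70e5b6cdf7cb0e2f, (rhbaefcd01e0a8bca3.shift 1 1)] (by decide +kernel))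
noncomputable def rhe2decb3f7c9150bc : CRef := CRef.mk (Pat.mk 0x110000000200000012000000020000000000000000 0x3d0000001f0000003a00000012000000320000003000000020 8 6) 0 0 (step_sound _ 161 [(rh50fbb5868c909700.shift 0 2), rhdc9946457106490f] (by decide +kernel))
noncomputable def rh60986a1989c204d7 : CRef := CRef.mk (Pat.mk 0x11000000020000001200000002000000000000000000000000 0x20000000750000003f0000003a000000360000003e000000380000003800000020 8 7) 0 0 (step_sound _ 164 [(rh14780365a7a33774.shift 1 0), (rhc3d72f20f5111753.shift 0 3), (rhc4fea9197da840fc.shift 0 3), (rhd60a9635b04b5467.shift 3 1)] (by decide +kernel))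
noncomputable def rhfe9bfc4f99d5032c : CRef := CRef.mk (Pat.mk 0x4000000130000001200000012000000020000000000000000 0x240000003e0000003300000012000000120000003e0000003800000020 8 6) 0 0 (step_sound _ 193 [(rh2f68792b6b779e96.shift 1 3), rh31970b015b3bb5ea] (by decide +kernel))
noncomputable def rhf0b831e160fee11d : CRef := CRef.mk (Pat.mk 0x400000013000000120000001200000000 0x28000000380000003c0000001e00000013000000320000003200000020 8 6) 0 0 (step_sound _ 129 [rh2310964b2a5733bc, (rh2f68792b6b779e96.shift 1 1)] (by decide +kernel))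
noncomputable def rhb5fba15d56a20ada : CRef := CRef.mk (Pat.mk 0x1300000012000000120000000200000000 0x240000003e0000003700000012000000360000001e00000008 8 6) 0 0 (step_sound _ 162 [(rhbaefcd01e0a8bca3.shift 1 1), rhbde63476f225e8e1] (by decide +kernel))
noncomputable def rheb280ac903ad3cf9 : CRef := CRef.mk (Pat.mk 0x17000000000000001200000002000000000000000000000000 0x280000003f00000038000000360000003e000000380000003800000020 8 6) 0 0 (step_sound _ 164 [(rh14780365a7a33774.shift 1 0), (rh235deda90e08f6c5.shift 0 1), (rh767ae4bed8f13527.shift 1 1), (rhc13e87f7835e0776.shift 0 5)] (by decide +kernel))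
noncomputable def rhfc048fbdd32a0ed9 : CRef := CRef.mk (Pat.mk 0x1800000009000000080000000800000000 0x640000007c0000007f000000380000001800000010 8 7) 0 0 (step_sound _ 98 [(rh24ae073cf30720c4.shift 0 3), (rha9537659c22b88f5.shift 2 0)] (by decide +kernel))
noncomputable def rh038f9d2164b25720 : CRef := CRef.mk (Pat.mk 0x10000000130000001000000010 0x1e8000000fe000000fb0000001000000010 8 9) 0 0 (step_sound _ 99 [(rh50fbb5868c909700.shift 3 0), rh6492884ca10cb14f] (by decide +kernel))
noncomputable def rhe7db86ab34eb6d2d : CRef := CRef.mk (Pat.mk 0x8000000080000000800000001000000010000000100000001 0x140000001c0000001c0000001c0000001a0000000f0000001d0000001d00000011 8 5) 0 0 (step_sound _ 97 [rh2f68792b6b779e96, (rh793eb10cafbc71e3.shift 2 0)] (by decide +kernel))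
noncomputable def rh463e09b0219ff51a : CRef := CRef.mk (Pat.mk 0x130000000200000012000000020000000000000000 0x20000000340000003f0000003a0000003a0000003e0000003800000028 8 6) 0 0 (step_sound _ 132 [(rh9e79f2d2c32bd380.shift 0 2), (rhd08ca0bd9b0d0643.shift 0 1), (rhd60a9635b04b5467.shift 3 0)] (by decide +kernel))
noncomputable def rh7999aeb39a274f8d : CRef := CRef.mk (Pat.mk 0x1300000002000000120000000200000002000000020000000000000000 0x20000000340000003f0000003a0000003a0000003e0000003a0000002e0000000600000004 8 6) 0 0 (step_sound _ 196 [(rh9e79f2d2c32bd380.shift 0 4), (rhcd44cb4a3552705b.shift 1 0), (rhd08ca0bd9b0d0643.shift 0 3)] (by decide +kernel))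
noncomputable def rh3b19739dad0d325e : CRef := CRef.mk (Pat.mk 0x130000000200000012000000020000000000000000 0x28000000380000003c0000001f0000003a0000003a0000003e0000003800000028 8 6) 0 0 (step_sound _ 132 [(rh0515df9305f7b8bc.shift 1 1), (rh252627aa63cbea32.shift 0 2), rh671d5effd0ecd882, (rh9e79f2d2c32bd380.shift 0 2)] (by decide +kernel))
noncomputable def rh657a1db8e51f65d6 : CRef := CRef.mk (Pat.mk 0x80000000800000008000000010000000000000000 0x1000000018000000180000001c000000ff0000007c00000014 8 8) 0 0 (step_sound _ 67 [(rh149b55ceb5403db5.shift 0 1), (rh6c59ce14113da07f.shift 3 0), (rh8cdd36b03d57a2f6.shift 2 0), (rhcab3157f7bdcba3e.shift 2 0)] (by decide +kernel))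
noncomputable def rhd3790ece22951f8c : CRef := CRef.mk (Pat.mk 0x600000002000000020000000200000000 0x390000001f0000003f0000000e0000000700000005 8 6) 0 0 (step_sound _ 128 [(rh50fbb5868c909700.shift 0 1), rhef75447a85865af4] (by decide +kernel))
noncomputable def rh97e546f54c9b66db : CRef := CRef.mk (Pat.mk 0x200000002000000020000000000000000 0x20000000700000007000000070000000700000007000000070000000300000001 8 3) 0 0 (step_sound _ 161 [(rh1741680720c097b4.shift 0 2), (rh20966da26a1c2ae8.shift 0 1), (rh892c38a1dbdd6b10.shift 0 1), rhcab3157f7bdcba3e] (by decide +kernel))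
noncomputable def rh9d2601f81d2812aa : CRef := CRef.mk (Pat.mk 0x2000000020000001a00000002 0x1d0000001f0000003a0000001e00000033 8 6) 0 0 (step_sound _ 34 [rheb0810cc63b001d8, rhf6333235212b1181] (by decide +kernel))
noncomputable def rha950dfd760a035fe : CRef := CRef.mk (Pat.mk 0x6000000020000001a0000000200000000 0x390000001f0000003a0000007a0000001f00000008 8 7) 0 0 (step_sound _ 128 [(rh50fbb5868c909700.shift 0 1), rh9a00a23f3821b86d] (by decide +kernel))
noncomputable def rhd2bf3b2053d4a342 : CRef := CRef.mk (Pat.mk 0x2000000020000001a00000002 0x1d0000001f0000007a0000003e00000076 8 7) 0 0 (step_sound _ 98 [(rh2f68792b6b779e96.shift 1 0), rh3c7ef217a898e7c2] (by decide +kernel))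
noncomputable def rh5e3c9c9c0c95dbf0 : CRef := CRef.mk (Pat.mk 0x2000000020000001200000002 0x40000000600000006000000720000003e00000077 8 7) 0 0 (step_sound _ 130 [rh5cb09c451881ac9f, (rhbaefcd01e0a8bca3.shift 1 0)] (by decide +kernel))
noncomputable def rh343697bfcf599c0f : CRef := CRef.mk (Pat.mk 0x2000000020000001200000002 0x10000000300000003000000720000003e00000077 8 7) 0 0 (step_sound _ 128 [rhecaeb643623b1174, rhffd04209dc8ea796] (by decide +kernel))
noncomputable def rhed02c010aa8c2538 : CRef := CRef.mk (Pat.mk 0x1a0000000200000000000000000000000000000000 0x1800000018000000380000001e0000003b00000038000000380000003800000020 8 6) 0 0 (step_sound _ 162 [(rh419123725427908e.shift 1 0), (rheb0810cc63b001d8.shift 0 4)] (by decide +kernel))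
noncomputable def rhb9a6af205155cb73 : CRef := CRef.mk (Pat.mk 0x1a0000000200000000000000070000000000000000 0x800000018000000780000003e0000007e000000380000003f0000003800000020 8 7) 0 0 (step_sound _ 162 [(rh3fc3a7fb6866dcd4.shift 1 4), rh42d167e327e082e6, (rhd584a578337d0023.shift 1 4), (rhf3baec4a0a3dd35e.shift 1 4)] (by decide +kernel))
noncomputable def rh36ff2447e8ef108f : CRef := CRef.mk (Pat.mk 0x100000001c00000005000000040000000000000000 0x300000003000000030000000180000001e000000370000003c0000003400000020 8 6) 0 0 (step_sound _ 100 [(rh0ded9cf36d1984b9.shift 0 3), (rh5a8abb721f11b584.shift 1 0), rh686c4912ae90cb4f, (rh6dac1d918c816f37.shift 2 1)] (by decide +kernel))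
noncomputable def rh545a2d8fab4a3b5f : CRef := CRef.mk (Pat.mk 0x100000000e0000000000000000 0x280000003800000038000000300000001f0000003800000008 8 6) 0 0 (step_sound _ 68 [(rh33e738c4ed385b9f.shift 1 2), rhe6aaf710a3a25a5a] (by decide +kernel))
noncomputable def rh746fc5daa067837b : CRef := CRef.mk (Pat.mk 0x3000000020000000e000000020000000a0000000000000000 0x1b0000007e0000000f0000007a0000001e0000001c00000014 8 7) 0 0 (step_sound _ 34 [(rhd3458b32566d63f7.shift 1 1), rhfbfd771acd5f7337] (by decide +kernel))
noncomputable def rhbf0e2729f946a807 : CRef := CRef.mk (Pat.mk 0xe0000000200000002000000040000000000000000 0x700000003e0000007300000002000000070000000700000001 8 7) 0 0 (step_sound _ 164 [rh727c52b03938cff2, (rheb0810cc63b001d8.shift 0 4)] (by decide +kernel))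
noncomputable def rh445b4ecba8a203b6 : CRef := CRef.mk (Pat.mk 0xe0000000200000002000000060000000000000000 0x8000000380000003f0000007a0000001a0000001f0000001300000001 8 7) 0 0 (step_sound _ 32 [(rh79877ebd3ef475dd.shift 0 1), rh83ca8c5646f38cc4] (by decide +kernel))
noncomputable def rh359b8ed8e0dd1cb8 : CRef := CRef.mk (Pat.mk 0xf0000000200000002000000040000000000000000 0x180000000f0000001a000000fa0000007f000000ff00000001 8 8) 0 0 (step_sound _ 67 [(rh226c77bf3a556df8.shift 0 1), (rh53824044e91ae9ec.shift 0 1), (rh5d95e5f755993db9.shift 0 1), rhb1385f5583bb96cc, (rhdf1b015bbe4d6607.shift 0 1)] (by decide +kernel))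
noncomputable def rh3a40cfe198d8ea4a : CRef := CRef.mk (Pat.mk 0x1000000010000000100000001000000000 0x100000001000000010000000770000003e0000002f 8 7) 0 0 (step_sound _ 37 [(rh55afc6a59410cf00.shift 4 0), rh980ea2edeb26a840] (by decide +kernel))
noncomputable def rh9baeadd9205a17f7 : CRef := CRef.mk (Pat.mk 0x1000000010000000100000003800000000 0x200000003000000010000001ff000000fe000001c7 8 9) 0 0 (step_sound _ 133 [rh2d62943ab0c5b86e, (rh2f68792b6b779e96.shift 4 1)] (by decide +kernel))
noncomputable def rh2b5f81e0ea7d7048 : CRef := CRef.mk (Pat.mk 0x8000000000000001e00000010000000000000000000000000 0x10000000180000003b0000001e00000018000000380000003000000030 8 6) 0 0 (step_sound _ 164 [(rh33e738c4ed385b9f.shift 1 4), rhfbda9708bcc1b53b] (by decide +kernel))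
noncomputable def rh96a7d59fee64d21c : CRef := CRef.mk (Pat.mk 0x8000000000000001e0000000400000000 0x1e0000001f0000003b0000001e0000000c00000008 8 6) 0 0 (step_sound _ 97 [rh15322aa51e61b5a2, (rh3244c3cc8379b070.shift 0 2)] (by decide +kernel))
noncomputable def rhfde02f38cc3d84db : CRef := CRef.mk (Pat.mk 0x7000000010000000000000000 0xc0000003c0000001f0000003f0000001c0000001c 8 6) 0 0 (step_sound _ 99 [rh6f509c88e1c24375, (rha93a5dd541ab8209.shift 0 2), (rhd584a578337d0023.shift 0 2), (rhf3baec4a0a3dd35e.shift 0 2)] (by decide +kernel))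
noncomputable def rh5827312cabb5649a : CRef := CRef.mk (Pat.mk 0x3000000010000000500000005000000000 0xcf000000ff0000007e000000f0000000d000000080 8 8) 0 0 (step_sound _ 131 [(rh50fbb5868c909700.shift 3 1), rhdd13b3ad413ab7c2] (by decide +kernel))
noncomputable def rh9a5ae1defea6c870 : CRef := CRef.mk (Pat.mk 0x8000000080000003800000028 0x140000003c0000003c000000f8000000ff0000003f0000003800000028 8 8) 0 0 (step_sound _ 131 [(rh44f453b84f013105.shift 3 0), (rhba97f7f4ade5e136.shift 2 1), rhe98b16e026d795ad] (by decide +kernel))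
noncomputable def rh9410779e1b317013 : CRef := CRef.mk (Pat.mk 0x2000000020000000a0000000a00000000 0x10000001b0000001f0000001f0000007e0000001b00000011 8 7) 0 0 (step_sound _ 160 [rhd9d7e0e968eeee4a, (rhffd04209dc8ea796.shift 0 1)] (by decide +kernel))
noncomputable def rhd18bfed091c76cc9 : CRef := CRef.mk (Pat.mk 0x60000001e0000000a00000000 0x1a0000003f0000003e0000001e0000001e0000003a00000010 8 6) 0 0 (step_sound _ 130 [rh36bc300b7ee15d12, (rh5c5e593799055d58.shift 1 1)] (by decide +kernel))
noncomputable def rh56980d4b3c6ac23a : CRef := CRef.mk (Pat.mk 0x40000001c00000010 0x3800000038000000380000003e0000001f00000030 8 6) 0 0 (step_sound _ 33 [rh27d677e5376c9894, (rhe25b0a99195a5d59.shift 1 0)] (by decide +kernel))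
noncomputable def rh12cfb4f7a6f48224 : CRef := CRef.mk (Pat.mk 0x600000004000000140000001400000000 0x380000007f0000003e000000340000003600000022 8 7) 0 0 (step_sound _ 131 [(rh2f68792b6b779e96.shift 2 1), rh5d782cc7445db2bb] (by decide +kernel))
noncomputable def rhb31e3f01a1492835 : CRef := CRef.mk (Pat.mk 0x7000000020000000a0000000a000000000 0x18e000001fe000001f7000000a0000000b000000010 8 9) 0 0 (step_sound _ 36 [(rh5eb1631a649f152d.shift 0 1), (rh932754581e0f4330.shift 4 0)] (by decide +kernel))
noncomputable def rhcbd2411023dbfaa2 : CRef := CRef.mk (Pat.mk 0x50000000c0000000400000000 0x7e0000003e000000770000000c0000000c00000008 8 7) 0 0 (step_sound _ 130 [(rha9871193becf60de.shift 0 1), (rhd4b4beefcd67f51e.shift 2 0)] (by decide +kernel))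
noncomputable def rh13c831a31e00735f : CRef := CRef.mk (Pat.mk 0x700000001000000000000000000000000 0xc0000000c0000007c0000003f0000007f0000001c0000001c00000014 8 7) 0 0 (step_sound _ 131 [rh0e6ae18a8429c81e, (rhd584a578337d0023.shift 0 3), (rhf2b3bcf1454375d8.shift 0 3), (rhf3baec4a0a3dd35e.shift 0 3)] (by decide +kernel))
noncomputable def rh23eabaffb8ccdbcb : CRef := CRef.mk (Pat.mk 0x1f000000020000000000000000 0x400000004000001cc000000ff000001de0000000800000008 8 9) 0 0 (step_sound _ 67 [(rh59c4d1583d5c8458.shift 1 0), (rhe25b0a99195a5d59.shift 0 2)] (by decide +kernel))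
noncomputable def rh48197ccbf8cdb5d5 : CRef := CRef.mk (Pat.mk 0xf0000000a000000000000000000000000 0xc0000000c0000001c0000000f0000000e0000001c0000001800000018 8 5) 0 0 (step_sound _ 194 [(rh3704215d5390e7fb.shift 1 1), rh94e8f48981f449f2, (rhb9cf176211527f7d.shift 0 2), (rhd302a01a4e6865cd.shift 1 1)] (by decide +kernel))
noncomputable def rh7f19faacb25ccadc : CRef := CRef.mk (Pat.mk 0xf00000002 0x1fc000000ff000001e6 8 9) 0 0 (step_sound _ 36 [(rh9890f9d77740bbed.shift 0 1), rha5121b9f2e8bc43f, (rhd584a578337d0023.shift 1 0), (rhf2b3bcf1454375d8.shift 1 0)] (by decide +kernel))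
noncomputable def rh764c121d528cde77 : CRef := CRef.mk (Pat.mk 0x2000000004000000380000001000000000 0x40000007e0000003c0000007f00000038000000f000000040 8 8) 0 0 (step_sound _ 99 [(rh5753d7dd6d6c863b.shift 1 1), (rh97f73f30335f1fac.shift 1 0), (rhc02b3aee7ab87ee1.shift 0 2)] (by decide +kernel))
noncomputable def rhe0b35af09c3d563c : CRef := CRef.mk (Pat.mk 0x20000001c0000000a00000000 0x38000000380000003e0000001e0000003b00000010 8 6) 0 0 (step_sound _ 65 [(rh7d217c7ad9dfa1fb.shift 1 0), (rheb0810cc63b001d8.shift 0 1)] (by decide +kernel))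
noncomputable def rhce3fbee2bb574b5c : CRef := CRef.mk (Pat.mk 0x4000000380000001000000000 0x10000000780000007c000001ff00000038000000f000000060 8 9) 0 0 (step_sound _ 133 [(rh137cd5c3bbeacac7.shift 0 1), rh2cbbcff545323bac, (rh5b328bd357e5dcc3.shift 1 0), (rh8ff5fe930dd74c90.shift 3 0), (rha6864009d57c1d37.shift 3 0), (rhab2ade96d5bfcd84.shift 0 1)] (by decide +kernel))
noncomputable def rh1607a558eadddaa0 : CRef := CRef.mk (Pat.mk 0x80000000a000000180000000800000000 0xf40000007e000000fb000000180000001800000010 8 8) 0 0 (step_sound _ 132 [(rh2f68792b6b779e96.shift 3 1), rha715d46af44d8c8f] (by decide +kernel))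
noncomputable def rhde3a2ab8ca2b1376 : CRef := CRef.mk (Pat.mk 0x800000008000000080000003800000020 0x6800000068000001ff000000fc0000003800000020 8 9) 0 0 (step_sound _ 68 [(rh2145e1d24b96a57e.shift 3 1), rha6411bb6b99e9045] (by decide +kernel))
noncomputable def rhe976514856156274 : CRef := CRef.mk (Pat.mk 0x2000000020000000a0000000200000000 0x500000007000000070000000300000003000000e70000007e000000e300000001 8 8) 0 0 (step_sound _ 66 [rh157b220518f94713, rhe346c1ec33f0ee92, (rhe3f612f8f5dcfdf1.shift 0 1)] (by decide +kernel))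
noncomputable def rh8c3ebffa57875f1b : CRef := CRef.mk (Pat.mk 0x10000000380000003c00000028 0x60000000e7000000ff0000003c0000003c00000028 8 8) 0 0 (step_sound _ 101 [(rh45c36539d1346e33.shift 1 0), (rh5fa50b509d4ce753.shift 4 0), (rheca94bcae192303b.shift 0 2), (rhf9d36e158778ce35.shift 2 2)] (by decide +kernel))
noncomputable def rha099d6ddaa3f2b29 : CRef := CRef.mk (Pat.mk 0x20000000e0000000a00000000 0x38000000380000003e0000001e0000003b00000010 8 6) 0 0 (step_sound _ 68 [(rh7d217c7ad9dfa1fb.shift 1 0), (rheb0810cc63b001d8.shift 0 1)] (by decide +kernel))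
noncomputable def rhc5e8dced01a47cd0 : CRef := CRef.mk (Pat.mk 0x20000000a0000000a0 0x100000001000000e7f000007fe00000fae 8 12) 0 0 (step_sound _ 38 [rh0cb0d0c249175782, (rh8ee80cc30e93a344.shift 4 0), (rha9fbfd4bb8cf890b.shift 2 1), (rhe3f612f8f5dcfdf1.shift 4 0)] (by decide +kernel))
noncomputable def rh71fd488dc14881c6 : CRef := CRef.mk (Pat.mk 0xe000000040000000400000004000000000 0x1f000001fe000000ff000000600000006000000020 8 9) 0 0 (step_sound _ 37 [(rh932754581e0f4330.shift 5 0), (rhdbb53fe115f16a48.shift 0 1)] (by decide +kernel))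
noncomputable def rh9817d0488f2d4b01 : CRef := CRef.mk (Pat.mk 0x7000000020000001a00000002000000000 0x18e000000fe000001bf000001a00000013000000010 8 9) 0 0 (step_sound _ 36 [(rh6e36c1a5a4284f3a.shift 0 1), (rh932754581e0f4330.shift 4 0)] (by decide +kernel))
noncomputable def rhd0ee0d16a6e2b3c1 : CRef := CRef.mk (Pat.mk 0x2000000020000001a00000003 0x30000000300000007000000060000001f0000007b00000003 8 7) 0 0 (step_sound _ 129 [rh79877ebd3ef475dd, rhabc91dc4a3fac566] (by decide +kernel))
noncomputable def rhbedfae0e3ee5c942 : CRef := CRef.mk (Pat.mk 0x60000000a0000001800000008000000000 0x8e000000fe000001bf000001800000018000000100 8 9) 0 0 (step_sound _ 135 [(rh56e03f4688a41d68.shift 0 3), (rhd4b4beefcd67f51e.shift 7 0)] (by decide +kernel))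
noncomputable def rh9dc9cae80a7c161f : CRef := CRef.mk (Pat.mk 0x30000000a0000001800000008000000000 0x8e000000fe000001bf000001800000018000000100 8 9) 0 0 (step_sound _ 135 [(rh8d34b33cf981803c.shift 0 3), (rhd4b4beefcd67f51e.shift 7 0)] (by decide +kernel))
noncomputable def rh723d5ecc7085e0c6 : CRef := CRef.mk (Pat.mk 0x800000028000000600000002000000000 0x5c000000780000003c0000003f000000640000006000000040 8 7) 0 0 (step_sound _ 133 [(rh44b38d578e306242.shift 2 1), (rh7a2645c41de6bb59.shift 0 1), (rhd4b4beefcd67f51e.shift 5 0)] (by decide +kernel))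
noncomputable def rhdd8fc9a9576db644 : CRef := CRef.mk (Pat.mk 0xa0000000a00000008000000080 0x4e000000fe000001bf0000008000000080 8 9) 0 0 (step_sound _ 102 [(rh50fbb5868c909700.shift 6 0), (rh56e03f4688a41d68.shift 0 2)] (by decide +kernel))
noncomputable def rh1c09a618366d2284 : CRef := CRef.mk (Pat.mk 0x1000000010000000c00000005000000000 0x28000000380000007f0000007e000000f7000000d8000000d800000088 8 8) 0 0 (step_sound _ 68 [(rh193da7fc9e1674f1.shift 3 0), (rh20966da26a1c2ae8.shift 3 0), rh497faf567949d82c, (rh968ba7b0df7e4096.shift 3 0), (rhc85cc95794737cf7.shift 3 1)] (by decide +kernel))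
noncomputable def rhe0e3b9396e3fac2a : CRef := CRef.mk (Pat.mk 0x1000000010000000100000001000000000 0x2f0000007e0000007f000000180000001800000008 8 7) 0 0 (step_sound _ 131 [(rh50fbb5868c909700.shift 3 1), rhd104ee122c1ef622] (by decide +kernel))
noncomputable def rh20b46f0d67e9d230 : CRef := CRef.mk (Pat.mk 0x1000000010000000100000000000000010 0x200000002f000000fe000000ff00000018000000100000001000000010 8 8) 0 0 (step_sound _ 165 [(rh08d50fe567eb1045.shift 4 1), (rh22d86f446f3de558.shift 1 1), (rh2a92aa7913d171f8.shift 0 2), (rh30fb2b4c25596139.shift 3 0), (rhb6173807e51fd66e.shift 2 1)] (by decide +kernel))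
noncomputable def rh7d997dcbd9866387 : CRef := CRef.mk (Pat.mk 0x100000001000000010000000c000000010 0x28000000380000003f000000fe000000ff00000030000000f8000003d000000010 8 10) 0 0 (step_sound _ 164 [(rh1741680720c097b4.shift 3 2), (rh3b7e17c18b914ce3.shift 0 2), (rh5f3c1ec18308a201.shift 3 1), (rh73979d245a8d739c.shift 3 0), (rheebb48a03a3eec5a.shift 3 1)] (by decide +kernel))
noncomputable def rh9f9a788a061f22d9 : CRef := CRef.mk (Pat.mk 0x100000001000000010000000c0 0x280000003f000000fe000000ff00000070000000fe000003c8 8 10) 0 0 (step_sound _ 132 [(rh1741680720c097b4.shift 3 1), (rh1abbfc1b610408c3.shift 1 0), (rh3b7e17c18b914ce3.shift 0 1), (rheebb48a03a3eec5a.shift 3 0)] (by decide +kernel))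
noncomputable def rhe733026cd9f55f1f : CRef := CRef.mk (Pat.mk 0x700000001000000000000000000000000 0xc0000000c0000003c0000001f0000003f0000001c0000001c00000014 8 6) 0 0 (step_sound _ 131 [rh54c1c23e7f82c3d4, (rhd584a578337d0023.shift 0 3), (rhf3baec4a0a3dd35e.shift 0 3)] (by decide +kernel))
noncomputable def rh6b9d977dbddb0fc6 : CRef := CRef.mk (Pat.mk 0x1000000010000000c00000001800000000 0x770000007e000000df0000001c00000008 8 8) 0 0 (step_sound _ 3 [rh1f57c138b7baef21, (rh3c88ce959c0e423f.shift 3 0)] (by decide +kernel))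
noncomputable def rha08d1dd2d019c5fa : CRef := CRef.mk (Pat.mk 0x1000000018000000c0000000080000000000000000 0x7f0000007e000000c70000000e0000000e00000002 8 8) 0 0 (step_sound _ 133 [rh5251dfeead6b371c, (rhd6e447e81774439e.shift 3 3)] (by decide +kernel))
noncomputable def rhfedd88f1ac44a924 : CRef := CRef.mk (Pat.mk 0x80000001e00000000 0x10000000300000003000000030000003f0000001e00000007 8 6) 0 0 (step_sound _ 65 [(rh3244c3cc8379b070.shift 0 1), rh7cc98c8c7f1f0dad] (by decide +kernel))
noncomputable def rhdadf1bb9a3d613d0 : CRef := CRef.mk (Pat.mk 0x10000000180000000000000008 0x28000000380000007c0000001f00000018000000180000001800000008 8 7) 0 0 (step_sound _ 132 [(rh06181a2dc624c6f8.shift 3 0), (rh32431e66bbf434a4.shift 3 1), (rh71a8c270fbf17f47.shift 0 1), (rh976a48eb1c80a12f.shift 3 1)] (by decide +kernel))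
noncomputable def rh6428b278b6cb4c86 : CRef := CRef.mk (Pat.mk 0x200000003800000000000000000000000000000000 0xc0000000c0000003f0000003e0000000f0000000e0000000e0000000a 8 6) 0 0 (step_sound _ 130 [(rh21d582c147e7e118.shift 0 3), (rh775ca1963e850b80.shift 0 3), (rh7fb660bc21ce4329.shift 0 4), (rh84efdb14278181c3.shift 1 0)] (by decide +kernel))
noncomputable def rh04d6508409a134b1 : CRef := CRef.mk (Pat.mk 0x80000001800000038 0x7c0000007c0000001f0000007e00000038 8 7) 0 0 (step_sound _ 99 [(rh2145e1d24b96a57e.shift 3 0), rh2834f7815c1fad84] (by decide +kernel))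
noncomputable def rh1d679f00083c2f98 : CRef := CRef.mk (Pat.mk 0x1800000018000000000000000800000000 0x170000001f0000001f0000000e0000000c00000004 8 5) 0 0 (step_sound _ 67 [rh0668c447fd80549a, (rh2f68792b6b779e96.shift 3 1)] (by decide +kernel))
noncomputable def rhf55d66087eae07c9 : CRef := CRef.mk (Pat.mk 0x3000000020000000200000002000000000 0x4f0000007e000000fe000000380000003000000010 8 8) 0 0 (step_sound _ 134 [(rh2f68792b6b779e96.shift 5 1), rh6da80b1dde67086d] (by decide +kernel))
noncomputable def rh78a12a05b3ca5b20 : CRef := CRef.mk (Pat.mk 0x20000001a0000000800000000 0x38000000380000003f0000001e0000003800000010 8 6) 0 0 (step_sound _ 66 [(rh3244c3cc8379b070.shift 0 2), (rh7d217c7ad9dfa1fb.shift 1 0)] (by decide +kernel))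
noncomputable def rhbfd290dbc65b6c31 : CRef := CRef.mk (Pat.mk 0x20000001a0000000a00000000 0x38000000380000003e0000001e0000003b00000010 8 6) 0 0 (step_sound _ 66 [(rh7d217c7ad9dfa1fb.shift 1 0), (rheb0810cc63b001d8.shift 0 1)] (by decide +kernel))
noncomputable def rh831918ec37e6b140 : CRef := CRef.mk (Pat.mk 0x200000002000000020000001a0000000a00000000 0x300000003000000ff0000007e000000ff0000001a0000001a00000010 8 8) 0 0 (step_sound _ 132 [(rh1ef944af1f768ca8.shift 0 1), rh3160267e33ffc081, (rh50374d850931dc78.shift 0 1), (rh775b5b9fdaf893f2.shift 0 1), (rhdf583f975e2cd964.shift 0 1)] (by decide +kernel))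
noncomputable def rhe82aef993300b54f : CRef := CRef.mk (Pat.mk 0x10000000200000002000000020000001800000008 0x3f0000001f0000003a0000003e0000001f0000001800000008 8 6) 0 0 (step_sound _ 161 [rh0ffd78f1293f790a, (rh50fbb5868c909700.shift 0 2)] (by decide +kernel))
noncomputable def rh9fa0a71de2694e11 : CRef := CRef.mk (Pat.mk 0x400000002000000020000000a0000001a0000000a00000000 0x3d0000001f0000003a0000001a0000001a0000001a0000000b00000001 8 6) 0 0 (step_sound _ 32 [(rh0ab3ff5031583986.shift 0 1), rh932754581e0f4330] (by decide +kernel))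
noncomputable def rhb2d61dd5cba2c1cf : CRef := CRef.mk (Pat.mk 0x800000008000000680000002800000000 0x7000000078000001ff0000007c000000680000006c00000044 8 9) 0 0 (step_sound _ 101 [(rh37153eeb4ce6ab62.shift 2 0), (rh4e6f88d76e1542f1.shift 2 0), (rh581fb51506dc707a.shift 0 1), (rh67e470e54af65d94.shift 2 1), (rhe5f63fdfefc20500.shift 2 0)] (by decide +kernel))
noncomputable def rh6abb87f2b1a1ba29 : CRef := CRef.mk (Pat.mk 0x40000000d0000000c0000000000000000 0x60000000640000007f0000007c0000007800000018 8 7) 0 0 (step_sound _ 35 [rh5171a48cdf5c647f, (rh7b1f1fb55310c477.shift 2 0)] (by decide +kernel))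
noncomputable def rh4653a4234f2d57f0 : CRef := CRef.mk (Pat.mk 0x200000003000000030000000100000000 0x5000000070000000f0000001f0000001f0000001e 8 5) 0 0 (step_sound _ 33 [rh3e595262c1b737ad, rh51499fad2812bafd, rha068555654cd13ea] (by decide +kernel))
noncomputable def rhacf396cb74a9c22f : CRef := CRef.mk (Pat.mk 0x700000001000000030000000300000000 0x40000001f0000001f0000001b0000001f0000001c 8 5) 0 0 (step_sound _ 97 [(rh2f68792b6b779e96.shift 1 1), rh640fd6fc0f203e7c] (by decide +kernel))
noncomputable def rhbeb4de020087bfb7 : CRef := CRef.mk (Pat.mk 0x1000000010000000140000003000000014 0x50000001f7000001fe000001f60000003400000014 8 9) 0 0 (step_sound _ 69 [(rh2145e1d24b96a57e.shift 4 1), rhfec38c76999c4da8] (by decide +kernel))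
noncomputable def rhe615ebeefbbb1f4c : CRef := CRef.mk (Pat.mk 0x60000000c00000008 0x34000000340000003e0000003f00000038 8 6) 0 0 (step_sound _ 98 [rh04d57a4b47ddcfef, (rh2145e1d24b96a57e.shift 2 0)] (by decide +kernel))
noncomputable def rh6fccf4a9fb9fc4e2 : CRef := CRef.mk (Pat.mk 0xc000000180000001000000000 0x2000000028000000fc000000ff0000001f0000003000000020 8 8) 0 0 (step_sound _ 131 [(rh2145e1d24b96a57e.shift 3 1), rh87ecef670dfc09d4] (by decide +kernel))
noncomputable def rh734392b2850f65ff : CRef := CRef.mk (Pat.mk 0x8000000180000003000000028 0xf7000000ff0000001f0000003800000028 8 8) 0 0 (step_sound _ 100 [(rh2145e1d24b96a57e.shift 4 0), rh7e90af3e3d1dcb1e] (by decide +kernel))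
noncomputable def rhb4f7de0ce209ceb0 : CRef := CRef.mk (Pat.mk 0x8000000180000003000000020 0xc0000000c0000001f000000ff0000001f0000003000000020 8 8) 0 0 (step_sound _ 100 [(rh08e019a6b31b007f.shift 0 1), (rh2145e1d24b96a57e.shift 4 0)] (by decide +kernel))
noncomputable def rh3d92b942c7111fca : CRef := CRef.mk (Pat.mk 0x80000001c00000018 0x600000016000000370000001f0000003f00000018 8 6) 0 0 (step_sound _ 33 [rhb739f4f82bb681b4, rhbbc46b4fa071ee99] (by decide +kernel))
noncomputable def rh984050ca1417316e : CRef := CRef.mk (Pat.mk 0x60000000c00000008 0x12000000170000003e000000fe0000003f00000008 8 8) 0 0 (step_sound _ 98 [(rh2145e1d24b96a57e.shift 2 0), rhcc8b0c730e940a7c] (by decide +kernel))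
noncomputable def rhb2691d715683a4b5 : CRef := CRef.mk (Pat.mk 0x60000000c0000000800000000 0x20000001f0000003e000000360000003f0000007800000020 8 7) 0 0 (step_sound _ 130 [(rh2145e1d24b96a57e.shift 2 1), rh592e43c06db02d8f] (by decide +kernel))
noncomputable def rh719a8500b2914a78 : CRef := CRef.mk (Pat.mk 0x60000000c0000000800000000 0x20000003f0000003f0000003e0000003c0000007800000030 8 7) 0 0 (step_sound _ 130 [(rh2145e1d24b96a57e.shift 2 1), rh49d7bc861c279187] (by decide +kernel))
noncomputable def rh9be3acab444ebcd7 : CRef := CRef.mk (Pat.mk 0x100000003200000038000000100000000000000000 0x10000002b0000003f000000330000003f000000170000000700000005 8 6) 0 0 (step_sound _ 161 [rh95b602ffa0659f64, (rhaeb617a54744e672.shift 1 2)] (by decide +kernel))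
noncomputable def rh0c19015a1dce5028 : CRef := CRef.mk (Pat.mk 0x8000000180000003800000028 0x20000000f7000000ff000000f80000003800000028 8 8) 0 0 (step_sound _ 100 [rh3e9d6a116a033149, (rh5c5e593799055d58.shift 3 0)] (by decide +kernel))
noncomputable def rha2319230ec48a15b : CRef := CRef.mk (Pat.mk 0x80000000e0000001800000014 0x600000016000000370000001f0000003e0000001f00000034 8 6) 0 0 (step_sound _ 68 [rh1e635b8b083a169d, (rhbbc46b4fa071ee99.shift 0 1), rhc31b6f966e0d7e89] (by decide +kernel))
noncomputable def rhae7aba5cd48174f9 : CRef := CRef.mk (Pat.mk 0xc0000001800000014 0xa000000ef000000ff0000001f00000034 8 8) 0 0 (step_sound _ 99 [(rh2145e1d24b96a57e.shift 3 0), rhad8461ca531eef8b] (by decide +kernel))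
noncomputable def rh6a04b505c7e55bd3 : CRef := CRef.mk (Pat.mk 0xc0000001800000014 0x380000003a000000fb000000ff0000001f00000034 8 8) 0 0 (step_sound _ 131 [rh2e7743a0acb8be76, (rh6f1cbe15c631ee70.shift 3 0)] (by decide +kernel))
noncomputable def rha723a58c35a063b8 : CRef := CRef.mk (Pat.mk 0x80000000c000000180000001400000000 0x3000000037000000ff000000fe0000001f0000003400000020 8 8) 0 0 (step_sound _ 100 [(rh329833e8e1a2aac2.shift 2 1), (rh5ec9a58dec5d827c.shift 0 2), (rh803d662a23946203.shift 1 1), rh96926c81573973d1] (by decide +kernel))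
noncomputable def rha57e4aef11cc7b75 : CRef := CRef.mk (Pat.mk 0xc000000180000001400000000 0x100000003b0000003f0000003f0000001f0000003400000020 8 6) 0 0 (step_sound _ 131 [(rh2145e1d24b96a57e.shift 3 1), rh82dcc251ed481fb7] (by decide +kernel))
noncomputable def rhb7b80f16ad7cffcc : CRef := CRef.mk (Pat.mk 0x2000000004000000380000001000000000 0x40000007e0000003c0000007f00000038000000f000000060 8 8) 0 0 (step_sound _ 99 [(rh5753d7dd6d6c863b.shift 1 1), (rh97f73f30335f1fac.shift 1 0), (rhc02b3aee7ab87ee1.shift 0 2), (rhda6245e74943428a.shift 1 0)] (by decide +kernel))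
noncomputable def rh0183573b3b51379d : CRef := CRef.mk (Pat.mk 0x10000000180000000200000004 0x50000000700000007000001fb000000fe000000e600000004 8 9) 0 0 (step_sound _ 66 [(rh849c73f5d210389b.shift 1 1), rhe5380afdb34c7831, (rhff7d63dcb3cf9f74.shift 1 2)] (by decide +kernel))
noncomputable def rh56243ecf91c9e427 : CRef := CRef.mk (Pat.mk 0x20000000c0000000a0 0x10000000100000073f000003fe000007ae 8 11) 0 0 (step_sound _ 37 [rh0cb0d0c249175782, (rh8ee80cc30e93a344.shift 4 0), (rh9c94213f6896c74a.shift 4 0), (rha9fbfd4bb8cf890b.shift 2 1)] (by decide +kernel))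
noncomputable def rh543dae3edfb90d8d : CRef := CRef.mk (Pat.mk 0x6000000040000003000000010000000000 0x28000000388000003880000030f00000ffe000007ff000003100000030000000200 8 12) 0 0 (step_sound _ 104 [(rh126557da767e56cc.shift 3 3), (rh4e6f88d76e1542f1.shift 5 0), (rh8c25cb665ab79ec0.shift 3 3), (rhc6806e95e63b5522.shift 5 0), (rhf37938d8c103633d.shift 0 2)] (by decide +kernel))
noncomputable def rh444b158271a39a5f : CRef := CRef.mk (Pat.mk 0x300000002000000020000001a000000080000000000000000 0xfb000000fe000000ff0000001b000000380000003000000020 8 8) 0 0 (step_sound _ 163 [(rh2d271739c113919b.shift 0 1), (rh4a91fdf65c10e5ab.shift 0 1), (rh4bd687de969ed2ae.shift 0 1), rh6c420c2fc572a8c6, (rh6d64ebafa6b47d4e.shift 0 2)] (by decide +kernel))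
noncomputable def rh890a8e02137c17f0 : CRef := CRef.mk (Pat.mk 0x2000000020000001a0000000a00000000 0x1a0000007f0000003f0000001b0000001b00000011 8 7) 0 0 (step_sound _ 32 [rh932754581e0f4330, rhc0a0d3df6f4c5ac1] (by decide +kernel))
noncomputable def rhb2ba5756d6a81925 : CRef := CRef.mk (Pat.mk 0x80000007800000008000000200000000000000000 0x140000001c0000001c0000001c000000d800000078000000180000003c0000001f00000004 8 8) 0 0 (step_sound _ 166 [(rh33e738c4ed385b9f.shift 3 4), rhbef6119a535a3c63] (by decide +kernel))
noncomputable def rh7c318a1e29af1556 : CRef := CRef.mk (Pat.mk 0x3800000000000000000000000000000000 0xc0000000c0000007f0000003e0000000f0000000e0000000e0000000a 8 7) 0 0 (step_sound _ 130 [(rh03c06803d1655eb6.shift 1 0), (rh4c622fddc53a5f99.shift 0 4), (rh592c7139d2c44767.shift 0 3), (rh9e97bba44c1b13e4.shift 0 3)] (by decide +kernel))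
noncomputable def rh8be7216a715a226c : CRef := CRef.mk (Pat.mk 0x2000000020000000a000000030 0x5e0000007e000000ff000001e000000030 8 9) 0 0 (step_sound _ 38 [rh00e474322ddc9d49, (rh18965a982d73c794.shift 4 0)] (by decide +kernel))
noncomputable def rhf30f040d08330f4f : CRef := CRef.mk (Pat.mk 0x800000008000000280000000800000000 0x140000001c0000001c000000180000001f0000007f000001f80000000c00000004 8 9) 0 0 (step_sound _ 34 [(rh2bb37096a718671d.shift 0 1), (rh932754581e0f4330.shift 2 0)] (by decide +kernel))
noncomputable def rh53e23c80db671be1 : CRef := CRef.mk (Pat.mk 0x800000008000000180000000800000000 0x140000001c0000001c0000000c0000001f00000078000000180000000f00000004 8 7) 0 0 (step_sound _ 34 [(rh53fee6962216d26d.shift 0 1), (rh932754581e0f4330.shift 2 0)] (by decide +kernel))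
noncomputable def rh45b74732518eb408 : CRef := CRef.mk (Pat.mk 0xb0000000e000000000000000000000000 0x1c0000001c0000001c0000001c0000001c0000003f0000000e0000007c0000001800000018 8 7) 0 0 (step_sound _ 163 [(rh32431e66bbf434a4.shift 2 2), rh4d44e82656d97880, (rhcb71867aaceb14f4.shift 2 2), (rhd2f81451d7df0686.shift 0 2)] (by decide +kernel))
noncomputable def rh42307a8a707d80d4 : CRef := CRef.mk (Pat.mk 0x8000000080000000b0000000800000000 0x40000001c0000001c0000001c0000000c0000001e0000001b0000000800000008 8 5) 0 0 (step_sound _ 163 [(rh1741680720c097b4.shift 2 2), (rh27d4a07ff5c56f55.shift 0 2), (rh3ca48e2a6d60153d.shift 2 1), rha2757678e0bea552] (by decide +kernel))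
noncomputable def rh35d3b7fc4fca41e3 : CRef := CRef.mk (Pat.mk 0x1800000010000000100000001000000000 0x270000003e0000007f0000001c0000001800000008 8 7) 0 0 (step_sound _ 133 [(rh2f68792b6b779e96.shift 4 1), rh8bf3b74c3ae0f483] (by decide +kernel))
noncomputable def rh940267b698d30cdb : CRef := CRef.mk (Pat.mk 0x38000000100000007000000018 0x7000000ff000000fe000000700000001e 8 8) 0 0 (step_sound _ 2 [(rh53b3c253cb0c65f4.shift 1 0), (rh73da59e4e507606f.shift 0 1)] (by decide +kernel))
noncomputable def rh49378f3c38b2efd1 : CRef := CRef.mk (Pat.mk 0x100000000800000018000000380000000c 0x2800000078000000ee000000fe000000380000000f 8 8) 0 0 (step_sound _ 66 [rh6b32e345f333394d, (rhb739f4f82bb681b4.shift 1 1)] (by decide +kernel))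
noncomputable def rhcb5b4f5b13e0e6f3 : CRef := CRef.mk (Pat.mk 0x8000000100000007000000040 0xa0000001e000000770000007e000000c7 8 8) 0 0 (step_sound _ 35 [rh48f5edfd8fe35bd1, (rhe25b0a99195a5d59.shift 3 0)] (by decide +kernel))
noncomputable def rh0e79bd058094bf5b : CRef := CRef.mk (Pat.mk 0x1000000020000000e0000000a00000008 0x60000001f000000130000007e0000003f0000000a00000008 8 7) 0 0 (step_sound _ 129 [(rh50fbb5868c909700.shift 0 1), rhb2ac0fcdef278467] (by decide +kernel))
noncomputable def rh7b76803feb6d9243 : CRef := CRef.mk (Pat.mk 0x3000000050 0xe70000007e000000f7 8 8) 0 0 (step_sound _ 35 [rh02575fc56458b534, rh88c620441a3a17ea, (rhd5041491555e8d86.shift 3 0)] (by decide +kernel))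
noncomputable def rhdd6a87aab056c192 : CRef := CRef.mk (Pat.mk 0x600000002000000020000000a00000008 0x100000003000000130000001e0000001b0000007f0000001f00000008 8 7) 0 0 (step_sound _ 161 [rh2151463e566192bc, rh56bede76cac4230e, (rh771d065bdc85bf2d.shift 0 1), (rhec05b2065587e384.shift 0 1)] (by decide +kernel))
noncomputable def rh6cc46d109d872927 : CRef := CRef.mk (Pat.mk 0x6000000040000000600000010 0x80000000c0000003c000000260000007c0000003f00000032 8 7) 0 0 (step_sound _ 130 [rh0b4586fb6f5fa49f, (rh932754581e0f4330.shift 1 0)] (by decide +kernel))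
noncomputable def rh96d62daca6f59697 : CRef := CRef.mk (Pat.mk 0x40000001e00000010 0x200000003800000038000000380000003f0000001e00000010 8 6) 0 0 (step_sound _ 65 [(rh3244c3cc8379b070.shift 0 1), (rhf02683ad0a49b8a7.shift 1 0)] (by decide +kernel))
noncomputable def rh6597e2501da570a6 : CRef := CRef.mk (Pat.mk 0x10000000100000001000000010 0x40000002f0000007e0000003f0000001800000018 8 7) 0 0 (step_sound _ 101 [(rh2f68792b6b779e96.shift 4 0), rhab35e81108c3a48d] (by decide +kernel))
noncomputable def rh27db3fae2ceb10ef : CRef := CRef.mk (Pat.mk 0xa000000080000000800000000 0x40000001c0000001c0000001c0000007c0000000f0000001c0000001800000010 8 7) 0 0 (step_sound _ 131 [(rh7eb4a07d72ad7934.shift 2 0), (rhb034511df68c2fcf.shift 0 1), (rhced6d86d2069808b.shift 3 0), (rhfa744325fd0800b5.shift 2 1)] (by decide +kernel))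
noncomputable def rh15c050e172d75993 : CRef := CRef.mk (Pat.mk 0xe000000080000000a00000000 0xc0000007c0000007e0000007f0000003b00000010 8 7) 0 0 (step_sound _ 100 [(rh300eedc557b86950.shift 1 2), (rh3b00e9e9432b8f40.shift 0 2), (rh3fc3a7fb6866dcd4.shift 1 2), rhcad19dc7f69c6641] (by decide +kernel))
noncomputable def rh268dfd99917ddbd2 : CRef := CRef.mk (Pat.mk 0xe000000080000000a00000000 0x140000001c0000001c0000001c0000000c0000007e0000007f0000003b00000010 8 7) 0 0 (step_sound _ 131 [(rh1dffa6d8a02b5f3a.shift 2 1), (rh6f235c76ee6d9186.shift 1 0), (rh7eb4a07d72ad7934.shift 2 0), rh98f090dad8c08d60, (rha45bacf169746c15.shift 2 1)] (by decide +kernel))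
noncomputable def rheec6db5e955f75d9 : CRef := CRef.mk (Pat.mk 0x40000000500000004000000050 0xa0000000e0000000e000000068000003ef000003fe0000007f000000d0 8 10) 0 0 (step_sound _ 69 [(rh12155d67af2d0ad6.shift 2 0), rh6287ec5fcea77cda, (rh9d3b09f3b7b4cf97.shift 2 0), rhabf168c3aa4c056f, (rhc184a31b552c61be.shift 4 0)] (by decide +kernel))
noncomputable def rh284de4f4a71f1d2d : CRef := CRef.mk (Pat.mk 0x1e00000012000000020000000200000000 0x600000003e00000016000000170000003e00000074 8 7) 0 0 (step_sound _ 133 [(rh80fcd6d0a18cb2dd.shift 1 3), rhc97a11ddac5e7173] (by decide +kernel))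
noncomputable def rh26852ec9b94e66b1 : CRef := CRef.mk (Pat.mk 0x7000000010000000000000000 0xc0000003c0000001f0000003f0000001c0000001c 8 6) 0 0 (step_sound _ 99 [(rh3fc3a7fb6866dcd4.shift 0 2), rh6f509c88e1c24375, (rhd584a578337d0023.shift 0 2), (rhf3baec4a0a3dd35e.shift 0 2)] (by decide +kernel))
noncomputable def rhf66691f443e1fd56 : CRef := CRef.mk (Pat.mk 0x500000004000000050 0x880000038f000003fe000003ff00000050 8 10) 0 0 (step_sound _ 69 [(rh8ee80cc30e93a344.shift 3 1), (rh8ff24e5140c56d73.shift 3 0), rhabf168c3aa4c056f, (rhb2afcb5db661472f.shift 1 1)] (by decide +kernel))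
noncomputable def rha745fad5571fffa9 : CRef := CRef.mk (Pat.mk 0x5000000040000000400000000 0xa0000007e0000003e000000770000000c0000000c00000008 8 7) 0 0 (step_sound _ 130 [(rh1741680720c097b4.shift 1 1), (rh25208373db83e521.shift 2 0), (rh7eb4a07d72ad7934.shift 1 0), (rha9871193becf60de.shift 0 1)] (by decide +kernel))
noncomputable def rha736278549156a8f : CRef := CRef.mk (Pat.mk 0x40000000400000006000000020000000000000000 0x80000000c0000003c0000007f0000003e0000007c00000008 8 7) 0 0 (step_sound _ 66 [(rh2b05b642004fac39.shift 0 1), (rh51499fad2812bafd.shift 1 1), (rh6b49c384df38419b.shift 2 0), (rhc0ba9bc24f231a82.shift 0 1)] (by decide +kernel))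
noncomputable def rh57863f10d441b9ac : CRef := CRef.mk (Pat.mk 0x600000002000000120000000a0000000800000000 0x730000003e0000007b0000003e0000003e000000f800000030 8 8) 0 0 (step_sound _ 68 [(rh40ff0d2e086625d3.shift 1 2), (rh8a979e617afb91f3.shift 0 1), rh9eaf948f91031b60] (by decide +kernel))
noncomputable def rh1f44a8eea5f9a4d9 : CRef := CRef.mk (Pat.mk 0x20000000200000003000000010000000000000000 0x5000000070000000f0000001f0000001f0000001e00000004 8 5) 0 0 (step_sound _ 65 [(rh51499fad2812bafd.shift 0 1), rh8ff3dde5b1c639e0, (rha068555654cd13ea.shift 0 1), (rhc4055b4872d6fb38.shift 0 1)] (by decide +kernel))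
noncomputable def rh24c513eceb6268d9 : CRef := CRef.mk (Pat.mk 0x300000002000000020000000e00000008 0x4000000060000001b0000001e000000f60000007e000000f8 8 8) 0 0 (step_sound _ 36 [(rh0786c19de25163c7.shift 1 0), rh3e7ef9750e7b3313, (rh3fc3a7fb6866dcd4.shift 1 0), (rhc9ca25976740a074.shift 1 1)] (by decide +kernel))
noncomputable def rhf4a8a567d4af2496 : CRef := CRef.mk (Pat.mk 0x2000000020000000a0000000a 0x1000000070000000700000006000000060000001f0000007a 8 7) 0 0 (step_sound _ 130 [rh074d919ff0ab64d2, (rhbaefcd01e0a8bca3.shift 1 0)] (by decide +kernel))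
noncomputable def rh94bbbc071487713d : CRef := CRef.mk (Pat.mk 0x2000000020000000a0000000a 0x4000000070000000700000003000000060000001f0000007a 8 7) 0 0 (step_sound _ 128 [rhc53442e1a6432bec, rhffd04209dc8ea796] (by decide +kernel))
noncomputable def rhc39b97830e29895a : CRef := CRef.mk (Pat.mk 0x200000002000000020000000e0000000800000000 0x20000001a0000003b000000fe0000007e000000f800000010 8 8) 0 0 (step_sound _ 68 [(rh0786c19de25163c7.shift 1 1), rh3e3cf5955477b7e2, (rh3fc3a7fb6866dcd4.shift 1 1), (rhc9ca25976740a074.shift 1 2)] (by decide +kernel))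
noncomputable def rh3892353668527c86 : CRef := CRef.mk (Pat.mk 0x100000005000000050 0x7f7000003fe000007df 8 11) 0 0 (step_sound _ 37 [rh15b17f6271df0ca6, (rh8ee80cc30e93a344.shift 3 0), (rhed089e533d29058f.shift 3 0)] (by decide +kernel))
noncomputable def rha683fdf548817616 : CRef := CRef.mk (Pat.mk 0x6000000020000000a0000000a000000000 0x19f000001fe000001ef000000a0000000b000000010 8 9) 0 0 (step_sound _ 132 [(rh50fbb5868c909700.shift 4 1), rh64a0afcfb91deaaa] (by decide +kernel))
noncomputable def rhd55400fb477fb774 : CRef := CRef.mk (Pat.mk 0x800000008000000380000000800000000 0x40000000c0000001c000000180000007c0000001f000000380000000c00000004 8 7) 0 0 (step_sound _ 34 [(rh932754581e0f4330.shift 2 0), (rh9ba90ea1dca68118.shift 0 1)] (by decide +kernel))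
noncomputable def rh8f62166d4ab3b392 : CRef := CRef.mk (Pat.mk 0x20000000a0000000a0 0x10000000100000073f000003fe000007ae 8 11) 0 0 (step_sound _ 38 [rh0cb0d0c249175782, (rh8ee80cc30e93a344.shift 4 0), (rh9c94213f6896c74a.shift 4 0), (rha9fbfd4bb8cf890b.shift 2 1)] (by decide +kernel))
noncomputable def rhed645b885de017e4 : CRef := CRef.mk (Pat.mk 0x2000000020000000200000002000000000 0x5e000000fe0000007f000000300000003000000010 8 8) 0 0 (step_sound _ 132 [(rh50fbb5868c909700.shift 4 1), rhfd4471f6f6a80515] (by decide +kernel))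
noncomputable def rh44f661c7c07a4115 : CRef := CRef.mk (Pat.mk 0x1e0000000000000000 0x280000003800000038000000300000001f0000003800000008 8 6) 0 0 (step_sound _ 36 [(rhe25b0a99195a5d59.shift 1 1), rhfb099d9d291da423] (by decide +kernel))
noncomputable def rhfc5101f9980ad4a5 : CRef := CRef.mk (Pat.mk 0x8000000180000001800000018000000000000000000000000 0x80000003f0000001f0000001f000000070000000200000002 8 6) 0 0 (step_sound _ 98 [rh6f1b10261fd03287, (rh932754581e0f4330.shift 2 2)] (by decide +kernel))
noncomputable def rh9dc77922ed55261c : CRef := CRef.mk (Pat.mk 0x30000000180000001000000040 0x1000000010000000f00000001e0000007f0000006f 8 8) 0 0 (step_sound _ 66 [(rh53b3c253cb0c65f4.shift 1 2), rh8dcfccd13eefecc7] (by decide +kernel))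
noncomputable def rh3882dad07822b32a : CRef := CRef.mk (Pat.mk 0x2000000038000000000000000000000000 0xa0000000e0000000e0000003f0000003e0000000f0000000c0000000c 8 6) 0 0 (step_sound _ 98 [(rh21d582c147e7e118.shift 0 2), (rh6c7f258014e76fe7.shift 1 0), (rh7fb660bc21ce4329.shift 0 3)] (by decide +kernel))
noncomputable def rh7eba6c7a1e09598a : CRef := CRef.mk (Pat.mk 0x2000000038000000000000000000000000 0x20000000e0000000e0000000e0000003f0000003e0000000f0000000c0000000c 8 6) 0 0 (step_sound _ 98 [(rh21d582c147e7e118.shift 0 2), (rh7fb660bc21ce4329.shift 0 3), (rhe0830e77ead836a0.shift 1 0)] (by decide +kernel))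
noncomputable def rhf0d08257d778e970 : CRef := CRef.mk (Pat.mk 0x1c00000008000000280000002800000000 0x630000007e0000006f0000003e0000006e00000004 8 7) 0 0 (step_sound _ 34 [(rh5df2ba46531249aa.shift 0 1), (rh932754581e0f4330.shift 2 0)] (by decide +kernel))
noncomputable def rh4feca7b3d5dcf93a : CRef := CRef.mk (Pat.mk 0x10000000100000003800000018 0x2e0000003e000000f70000003f0000001e 8 8) 0 0 (step_sound _ 2 [rh417236353fd351e6, (rh53b3c253cb0c65f4.shift 1 0)] (by decide +kernel))
noncomputable def rhe93911991caef741 : CRef := CRef.mk (Pat.mk 0x1e0000000600000000 0x280000003800000038000000300000001f0000003e00000008 8 6) 0 0 (step_sound _ 36 [rhb5b485c324620942, (rhe25b0a99195a5d59.shift 1 1)] (by decide +kernel))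
noncomputable def rh26f93e0e6fd46816 : CRef := CRef.mk (Pat.mk 0x1000000010000000100000004800000040 0x1000000010000000f70000007e000000cf 8 8) 0 0 (step_sound _ 36 [(rh932754581e0f4330.shift 3 0), rhaf2c4cde477923c8] (by decide +kernel))
noncomputable def rhcb9ff6f57bcb2d14 : CRef := CRef.mk (Pat.mk 0x800000004000000040000001c00000010 0x3c0000003c000000770000007f0000001c00000010 8 7) 0 0 (step_sound _ 67 [rh80f736eb38ed378c, (rh82bd946b1709a78e.shift 2 1), rhb2bdda74075a6d32] (by decide +kernel))
noncomputable def rha97243d60f60b267 : CRef := CRef.mk (Pat.mk 0x100000001800000018 0x600000006000000ff000000ff0000001e 8 8) 0 0 (step_sound _ 37 [rh30b1045e318f0560, (rh4dc133ee0ba1420a.shift 1 0), rhd149b1ca8d686de3] (by decide +kernel))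
noncomputable def rh97119271ad5e1180 : CRef := CRef.mk (Pat.mk 0x10000000180000001c 0x1c0000001e000000770000007f0000001c 8 7) 0 0 (step_sound _ 37 [(rh18965a982d73c794.shift 2 0), rh94c22ac998723213] (by decide +kernel))
noncomputable def rhad6e678329670f10 : CRef := CRef.mk (Pat.mk 0x10000000180000001800000010 0x40000000e000000ff000000ff0000001e00000010 8 8) 0 0 (step_sound _ 99 [(rh50fbb5868c909700.shift 3 0), (rha0d95ad46a48be0b.shift 0 1)] (by decide +kernel))
noncomputable def rh739428567066054a : CRef := CRef.mk (Pat.mk 0x1c00000000000000080000000c00000000 0xe30000007e000000e70000001f0000000f00000001 8 8) 0 0 (step_sound _ 133 [(rh3fc3a7fb6866dcd4.shift 2 3), rhcc315457aa11eb51] (by decide +kernel))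
noncomputable def rhb87be740634f8d44 : CRef := CRef.mk (Pat.mk 0x10000000100000001000000000 0x280000003f000000fe000000ff000000700000003e00000028 8 8) 0 0 (step_sound _ 132 [(rh589345da44c3b4b3.shift 1 0), (rhc85cc95794737cf7.shift 3 1), (rhe1b9fa042009f4b7.shift 0 1)] (by decide +kernel))
noncomputable def rhc8965495dc1e7dca : CRef := CRef.mk (Pat.mk 0x1000000010000000100000000000000010 0x380000003f000000fe000000ff00000018000000180000001000000010 8 8) 0 0 (step_sound _ 164 [(rh5a06b520bd8fbc90.shift 3 0), (rh812afb51762f5f43.shift 3 0), (rhc85cc95794737cf7.shift 3 2), (rhe1b9fa042009f4b7.shift 0 2)] (by decide +kernel))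
noncomputable def rh7940040615e62580 : CRef := CRef.mk (Pat.mk 0x2000000020000000200000002000000000 0x5f0000007e000000fe000000380000003000000010 8 8) 0 0 (step_sound _ 134 [rh037b21d98e784ced, (rh2f68792b6b779e96.shift 5 1)] (by decide +kernel))
noncomputable def rh2ccbcdd175e415e6 : CRef := CRef.mk (Pat.mk 0x80000000c000000040000001000000010 0x1f0000001f0000007c0000000f0000000c0000001800000010 8 7) 0 0 (step_sound _ 67 [(rhbe0e43a3bc50a43f.shift 3 0), (rhd9902533efff65e5.shift 0 2)] (by decide +kernel))
noncomputable def rh540b2336fa02e9f0 : CRef := CRef.mk (Pat.mk 0x200000003000000030 0x7f000001fe000001fe0000003000000030 8 9) 0 0 (step_sound _ 101 [(rh5c5e593799055d58.shift 4 0), rh82f3230b7edbda86] (by decide +kernel))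
noncomputable def rh7c4e9aae26250d54 : CRef := CRef.mk (Pat.mk 0x180000000e0000002000000000 0x600000006000000070000001f0000001e0000003700000002 8 6) 0 0 (step_sound _ 68 [(rh96851dee118c1ba3.shift 1 1), rhc8d2c5075341eb0f] (by decide +kernel))
noncomputable def rh22d73a1d558680db : CRef := CRef.mk (Pat.mk 0x100000001e000000040000001000000010 0x1f0000001f0000001c0000001f0000000c0000001800000010 8 5) 0 0 (step_sound _ 131 [(rh53b3c253cb0c65f4.shift 0 3), rhb34714b2f65f7d7d] (by decide +kernel))
noncomputable def rhca94e4296beeadb3 : CRef := CRef.mk (Pat.mk 0x7000000018000000000000000000000000 0x1c0000001c0000001f0000007f000000f80000000c0000000c0000000c 8 8) 0 0 (step_sound _ 131 [(rh04adde65229dd8ca.shift 0 3), (rh89a182a5c191c2c5.shift 2 0), (rh944de33657f45c08.shift 1 0), (rhe15dbef4916f64a8.shift 2 1)] (by decide +kernel))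
noncomputable def rh7086dde1051b4ad4 : CRef := CRef.mk (Pat.mk 0x180000001c0000000000000000 0x600000006000000070000001f0000001f0000000700000002 8 5) 0 0 (step_sound _ 65 [(rh53b3c253cb0c65f4.shift 0 2), rhc8d2c5075341eb0f] (by decide +kernel))
noncomputable def rhe2338b92d405aeaa : CRef := CRef.mk (Pat.mk 0x1c0000001c000000000000000000000000 0xe0000000e0000000f0000001c0000007c000000060000000600000006 8 7) 0 0 (step_sound _ 101 [rh944de33657f45c08, (rhf48373e13d2bc128.shift 2 3)] (by decide +kernel))
noncomputable def rh7cd6f012962f6fd2 : CRef := CRef.mk (Pat.mk 0x1c000000180000000000000000 0x50000000700000007000000070000001f0000001f0000000600000004 8 5) 0 0 (step_sound _ 97 [rh01e961e130b854dc, (rhb739f4f82bb681b4.shift 0 2)] (by decide +kernel))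
noncomputable def rh2eab27ea9673d4c1 : CRef := CRef.mk (Pat.mk 0x3800000010000000500000005000000000 0xc7000000fe000000ff000000500000005800000008 8 8) 0 0 (step_sound _ 3 [(rh1c866b01e309412c.shift 0 1), (rh79877ebd3ef475dd.shift 3 0)] (by decide +kernel))
noncomputable def rhe281918520d9d44e : CRef := CRef.mk (Pat.mk 0x1c00000008000000200000002000000000 0x630000007e0000006f000000600000006000000040 8 7) 0 0 (step_sound _ 133 [(rh6e0d4a5e44329c0c.shift 2 1), rh8e97d36ec0373735, (rhaf9f2efc81a8312b.shift 1 3)] (by decide +kernel))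
noncomputable def rhee7e519fbb626e2a : CRef := CRef.mk (Pat.mk 0xa000000020000000a0000000a00000000 0x10000001b0000001f0000000b0000001e0000003a00000010 8 6) 0 0 (step_sound _ 160 [rh148640f070497bdb, (rhffd04209dc8ea796.shift 0 1)] (by decide +kernel))
noncomputable def rh29915e320c45e200 : CRef := CRef.mk (Pat.mk 0xf000000020 0x18e000000fe000001bf 8 9) 0 0 (step_sound _ 35 [(rh262e222f7a85cd8f.shift 1 0), rh58e9cfabac2588f8, (rh775ca1963e850b80.shift 1 0), (rheae1728ff4a56756.shift 2 0)] (by decide +kernel))
noncomputable def rh4ac3065d24cd280f : CRef := CRef.mk (Pat.mk 0x10000000a000000020000000a0000000200000000 0x1d0000000f0000001a0000007b0000003e0000007300000001 8 7) 0 0 (step_sound _ 161 [rh44e9ee161b094fa7, (rh50fbb5868c909700.shift 0 2)] (by decide +kernel))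
noncomputable def rh476e93239feff8f4 : CRef := CRef.mk (Pat.mk 0xa000000020000000a000000020000000000000000 0xc0000001e0000007b0000003e000000730000003100000020 8 7) 0 0 (step_sound _ 162 [(rh2f68792b6b779e96.shift 1 2), rh610d34efa1e388c9] (by decide +kernel))
noncomputable def rh9ff2a19673ada447 : CRef := CRef.mk (Pat.mk 0x700000000000000060000000200000000 0x8000000080000003c0000001f0000003c0000000e0000003e0000003c 8 6) 0 0 (step_sound _ 98 [(rh5c5e593799055d58.shift 1 1), rhc11819f263096dc9] (by decide +kernel))
noncomputable def rh47902d895605fd11 : CRef := CRef.mk (Pat.mk 0x1a000000020000000a0000000a0000000000000000 0x280000003a0000007b0000003e0000007b0000003100000020 8 7) 0 0 (step_sound _ 100 [(rh5710f30ba40ee3ec.shift 0 1), (rh92804a1c675173ab.shift 0 2), rhdc53e574537f7705] (by decide +kernel))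
noncomputable def rhd2ca8a9afddec731 : CRef := CRef.mk (Pat.mk 0x1c0000000a0000000a0000000a00000000 0x630000003f0000007a0000003e0000001b00000011 8 7) 0 0 (step_sound _ 36 [rh54ce74712cd95ab5, (rh55afc6a59410cf00.shift 3 0)] (by decide +kernel))
noncomputable def rhf54e3e423862e4ff : CRef := CRef.mk (Pat.mk 0x1000000060000000a000000020000001800000000 0x140000001f0000001b0000001e0000000a0000001a0000001800000010 8 5) 0 0 (step_sound _ 161 [rh1ba6b08dcadec62b, (rh50fbb5868c909700.shift 0 2)] (by decide +kernel))
noncomputable def rh3af5a91c4bbf7c3e : CRef := CRef.mk (Pat.mk 0xe00000002000000000000001000000000 0x700000003e00000063000000700000007000000050 8 7) 0 0 (step_sound _ 132 [(rhe50bd99f2331a850.shift 1 0), (rheb0810cc63b001d8.shift 0 3)] (by decide +kernel))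
noncomputable def rhc10531483b5e5038 : CRef := CRef.mk (Pat.mk 0x80000000a0000000200000002000000020 0x19e000000fe0000003f0000002000000020 8 9) 0 0 (step_sound _ 100 [(rh50fbb5868c909700.shift 4 0), (rh84604732c31d5928.shift 0 2)] (by decide +kernel))
noncomputable def rh6522e0f068b1d17f : CRef := CRef.mk (Pat.mk 0x30000000000000003000000010000000000000000 0x50000000700000007000000070000001f0000001e00000004 8 5) 0 0 (step_sound _ 65 [rh532bc91b445cede3, (rha1ccd5b02795e9b7.shift 0 1), (rhda6cc5da102e1723.shift 0 1), (rhdb2909ac5c854515.shift 0 2)] (by decide +kernel))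
noncomputable def rhef38121e2db1533d : CRef := CRef.mk (Pat.mk 0x300000000000000030000000100000000 0x70000000700000006000000070000001f0000001e 8 5) 0 0 (step_sound _ 97 [(rh5c5e593799055d58.shift 0 1), rh693164d9c3420dc3] (by decide +kernel))
noncomputable def rh29f8f70ff216278e : CRef := CRef.mk (Pat.mk 0x300000002000000030000000100000000 0x5000000070000001e0000001b0000001f0000000e 8 5) 0 0 (step_sound _ 33 [rh07facce60062c694, (rh50fbb5868c909700.shift 0 1)] (by decide +kernel))
noncomputable def rh2e873f8387c74544 : CRef := CRef.mk (Pat.mk 0x7000000010000000000000000 0xc0000007c0000003f0000007f0000001c0000001c 8 7) 0 0 (step_sound _ 99 [(rh3fc3a7fb6866dcd4.shift 0 2), rh6f509c88e1c24375, (rhd584a578337d0023.shift 0 2), (rhf2b3bcf1454375d8.shift 0 2), (rhf3baec4a0a3dd35e.shift 0 2)] (by decide +kernel))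
noncomputable def rhc9d6ddcc3d1fa168 : CRef := CRef.mk (Pat.mk 0x30000000a000000020000000a00000008 0x130000003e0000007b0000003e00000078 8 7) 0 0 (step_sound _ 100 [(rh5419adcd928dba20.shift 0 3), rh6458d358dc5638a2] (by decide +kernel))
noncomputable def rh0cf14686b7589cf4 : CRef := CRef.mk (Pat.mk 0xf0000000100000000000000000000000000000000 0x1c0000000f0000001f0000001e0000001c0000001c00000014 8 5) 0 0 (step_sound _ 195 [(rh33e738c4ed385b9f.shift 0 5), rh93db0c821291174d] (by decide +kernel))
noncomputable def rh1a138814b2521829 : CRef := CRef.mk (Pat.mk 0x1e0000000000000000 0x10000000300000007000000070000003f0000001e0000000700000006 8 6) 0 0 (step_sound _ 97 [(rh3244c3cc8379b070.shift 0 2), rhec1a7c90257cbe22] (by decide +kernel))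
noncomputable def rh73d929a11584eaf7 : CRef := CRef.mk (Pat.mk 0xf000000000 0xfc000000fe00000077 8 8) 0 0 (step_sound _ 67 [(rh3f8766e6ecb455ce.shift 3 1), rh5fecda5352eacbcd] (by decide +kernel))
noncomputable def rh2a67e9ab28afd833 : CRef := CRef.mk (Pat.mk 0x1e00000000000000100000000000000000 0x600000006000000070000001e000000070000001f0000000700000001 8 5) 0 0 (step_sound _ 97 [rh94ad9971cb38b6f8, (rheb0810cc63b001d8.shift 0 3)] (by decide +kernel))
noncomputable def rh75f22670d14fcf5d : CRef := CRef.mk (Pat.mk 0x80000000a000000180000000800000000 0x140000001f0000001b0000001c000000f800000030 8 8) 0 0 (step_sound _ 132 [(rh2f68792b6b779e96.shift 3 1), rh91af5f1d7f7229fb] (by decide +kernel))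
noncomputable def rh6cdbf983eca60bef : CRef := CRef.mk (Pat.mk 0x50000000c0000000400000000 0xa0000001e0000001f0000003f0000000c0000000c00000008 8 6) 0 0 (step_sound _ 130 [(rh1741680720c097b4.shift 1 1), rh987b92670e1dd42a, (rhd4b4beefcd67f51e.shift 2 0)] (by decide +kernel))
noncomputable def rh4c5bc0047c993f08 : CRef := CRef.mk (Pat.mk 0x100000001c0000001400000000 0x28000000380000003f0000003f0000001c0000001c0000001c00000018 8 6) 0 0 (step_sound _ 132 [(rh03dfdf12d5937476.shift 3 0), (rh32431e66bbf434a4.shift 3 1), (rh42ab489a1be3958e.shift 3 1), rhc1ff7075d7506c73] (by decide +kernel))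
noncomputable def rha3d6a246b25af5da : CRef := CRef.mk (Pat.mk 0x28000000100000001000000010 0x3cf000001ff000003fc0000001000000010 8 10) 0 0 (step_sound _ 100 [(rh50fbb5868c909700.shift 3 0), (rhc1acc4463e9e631a.shift 0 2)] (by decide +kernel))
noncomputable def rh3af542c85598a7cd : CRef := CRef.mk (Pat.mk 0xf0000000a000000000000000000000000 0xc0000000c0000001c0000000f0000000e0000001c0000001800000018 8 5) 0 0 (step_sound _ 163 [(rh33e738c4ed385b9f.shift 0 4), (rh7a0a1a326c6be395.shift 1 0)] (by decide +kernel))
noncomputable def rh57f1a2ae1172c9fe : CRef := CRef.mk (Pat.mk 0x10000000700000000000000000000000000000000 0xc0000000c0000003f0000001f0000003c0000001c0000001c00000014 8 6) 0 0 (step_sound _ 131 [(rh2aac33c566332a8c.shift 0 3), rh54c1c23e7f82c3d4, (rh790acd67f4fffd04.shift 0 4)] (by decide +kernel))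
noncomputable def rha3a305c7b91957a7 : CRef := CRef.mk (Pat.mk 0x1e00000010000000000000000000000000 0x1c0000001c0000001e0000007f00000018000000180000001800000008 8 7) 0 0 (step_sound _ 99 [(rhaf0004f793fd189f.shift 1 0), (rhb739f4f82bb681b4.shift 0 3)] (by decide +kernel))
noncomputable def rhd309aadad73b6463 : CRef := CRef.mk (Pat.mk 0xf000000020000000000000000 0x400000004000001ec000000ff000001fe0000000800000008 8 9) 0 0 (step_sound _ 100 [(rh4ad5fc38f1b69f65.shift 0 2), rh97da8dab41543d42, (rhf2b3bcf1454375d8.shift 1 2), (rhf3baec4a0a3dd35e.shift 1 2)] (by decide +kernel))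
noncomputable def rhf9a3a575449828cf : CRef := CRef.mk (Pat.mk 0x1a00000018 0x1c7000000ff000001dc 8 9) 0 0 (step_sound _ 34 [rh249666368fa84f05, rhb739f4f82bb681b4] (by decide +kernel))
noncomputable def rhe065c9778433b5f2 : CRef := CRef.mk (Pat.mk 0x8000000090000000c0000000400000000 0x10000000180000007f0000006e0000007c00000038 8 7) 0 0 (step_sound _ 35 [(rh07facce60062c694.shift 2 0), (rh36d4d92ef3dad5f8.shift 1 0), rh513d89344b0c09b5] (by decide +kernel))
noncomputable def rhd593118c49f12bd4 : CRef := CRef.mk (Pat.mk 0x400000004000000060000000200000000 0xa0000000f0000003c000000370000003e0000001c 8 6) 0 0 (step_sound _ 34 [(rh07facce60062c694.shift 1 0), rh36d4d92ef3dad5f8, rhab3c3f3ae8c9664f] (by decide +kernel))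
noncomputable def rh6631a7045649d78f : CRef := CRef.mk (Pat.mk 0x3000000004 0x1ff000000fe000001cf 8 9) 0 0 (step_sound _ 35 [(rh065cb709e7b956ff.shift 1 0), rh3cc5c7fb74c49f61, (rh3d54e7f933686048.shift 2 0), rha0f541aa9ffae9a1] (by decide +kernel))
noncomputable def rh15f028b27abea6f1 : CRef := CRef.mk (Pat.mk 0x100000000e00000008 0x1f7000000fe000001cc 8 9) 0 0 (step_sound _ 36 [rh249666368fa84f05, (rh33e738c4ed385b9f.shift 1 1)] (by decide +kernel))
noncomputable def rh7d376f9f843ebfd1 : CRef := CRef.mk (Pat.mk 0x20000000200000000c0000001000000010 0x140000001c0000001f0000007c0000007c0000001c0000001800000010 8 7) 0 0 (step_sound _ 100 [rh036961b3d98b0c02, (rh04253f50b6dd0619.shift 4 0)] (by decide +kernel))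
noncomputable def rh742192425fb243ad : CRef := CRef.mk (Pat.mk 0x140000001400000006 0xa0000000e0000000f0000001e000000fe00000006 8 8) 0 0 (step_sound _ 37 [(rhb2a0b9ccfb5cecd5.shift 1 0), rhc6ec607249fa4ef3] (by decide +kernel))
noncomputable def rha05add1b50938254 : CRef := CRef.mk (Pat.mk 0x12000000180000000800000000 0x3e0000003f000000fb00000038000000f8000000f0 8 8) 0 0 (step_sound _ 132 [(rh5c5e593799055d58.shift 3 1), rh76707f1ff073ed42] (by decide +kernel))
noncomputable def rhdf0563947aa3c381 : CRef := CRef.mk (Pat.mk 0x400000004000000060000000200000000 0xa0000000f0000003c0000003f0000003e0000003c 8 6) 0 0 (step_sound _ 34 [(rh07facce60062c694.shift 1 0), rh36d4d92ef3dad5f8, (rha068555654cd13ea.shift 1 0), rhab3c3f3ae8c9664f] (by decide +kernel))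
noncomputable def rhc49138087c256d88 : CRef := CRef.mk (Pat.mk 0x1800000003000000010000000000000000 0x1c0000001c0000001c000000180000001f0000001f0000001c00000010 8 5) 0 0 (step_sound _ 99 [(rh1c62b6193297d9e3.shift 0 3), rh921d272e6b6d8c66] (by decide +kernel))
noncomputable def rh525b3157adce5c01 : CRef := CRef.mk (Pat.mk 0x1400000006000000020000000000000000 0x1a0000003b0000001e0000007f0000007e0000003c00000010 8 7) 0 0 (step_sound _ 131 [(rh896ea6bf1f95c341.shift 0 1), (rh97d0766f3afe0efe.shift 0 3), rh97e5c234d74b2ba9, (rhf447a2a4bfcfcd1c.shift 0 1)] (by decide +kernel))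
noncomputable def rh512242d35446705d : CRef := CRef.mk (Pat.mk 0x800000008000000090000001800000000 0x1000000018000000180000007f0000007e00000064 8 7) 0 0 (step_sound _ 66 [(rhab22b5b56e7b3243.shift 0 1), (rhbf4b224610439307.shift 1 0)] (by decide +kernel))
noncomputable def rhdbaf569fba338b15 : CRef := CRef.mk (Pat.mk 0x20000000700000000000000000000000000000000 0xc0000000c0000003f0000003f0000007c0000001c0000001c00000014 8 7) 0 0 (step_sound _ 131 [rh54c1c23e7f82c3d4, (rhae8d21abc86b555a.shift 0 3), (rhb6f72982232a8164.shift 0 4), (rhb7c7938b7c3b8a55.shift 0 3)] (by decide +kernel))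
noncomputable def rh1652ac943c61eb59 : CRef := CRef.mk (Pat.mk 0x40000000e00000002000000000000000000000000 0x400000014000000f60000007f000000fa000000180000000800000008 8 8) 0 0 (step_sound _ 194 [(rh5c5e593799055d58.shift 1 3), rhe4a7aeaa9024ca7b] (by decide +kernel))
noncomputable def rhb514fd121f0ff209 : CRef := CRef.mk (Pat.mk 0x40000000e0000000200000000 0x1c0000001c0000007c0000003e0000000f0000001a00000018 8 7) 0 0 (step_sound _ 99 [rh0398cb284fad3d95, (rh4ee5a66b093bb3e4.shift 1 0), (rhf9d36e158778ce35.shift 0 2)] (by decide +kernel))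
noncomputable def rhf8c114645ca24e9a : CRef := CRef.mk (Pat.mk 0x40000001e0000000200000000 0x14000000fc0000003e0000001f0000000a00000008 8 8) 0 0 (step_sound _ 100 [(rh33e738c4ed385b9f.shift 1 2), rh7e294c416e376a1d] (by decide +kernel))
noncomputable def rh3779920618a66b3d : CRef := CRef.mk (Pat.mk 0x40000000e000000020000000000000000 0x180000001c0000001c0000003e0000007f0000007a0000001800000010 8 7) 0 0 (step_sound _ 162 [(rh5c5e593799055d58.shift 1 2), rh6beb5e6daf8dd1ff] (by decide +kernel))
noncomputable def rhbb0e5ae5c963f6de : CRef := CRef.mk (Pat.mk 0x7000000010000000000000000 0xc0000007c0000003f0000007f0000001c0000001c 8 7) 0 0 (step_sound _ 99 [rh40c0ca9c51edfbce, (rha93a5dd541ab8209.shift 0 2), (rhd584a578337d0023.shift 0 2), (rhf2b3bcf1454375d8.shift 0 2), (rhf3baec4a0a3dd35e.shift 0 2)] (by decide +kernel))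
noncomputable def rh10441b6882e13e50 : CRef := CRef.mk (Pat.mk 0x380000001c00000000 0xa0000000e0000000e000000070000003f0000007c00000008 8 7) 0 0 (step_sound _ 66 [(rh332b06877541c7f0.shift 1 0), (rha03f6e28ea70fc7d.shift 1 1), (rhba89ab7cb81bcc90.shift 0 1), (rhe2b63c00a3d7bb73.shift 0 1)] (by decide +kernel))
noncomputable def rh9d5216176cd8d8fc : CRef := CRef.mk (Pat.mk 0x160000001000000004 0x50000000700000007000000030000001e0000003700000004 8 6) 0 0 (step_sound _ 67 [rh31e1bc69abf86ee5, (rhe25b0a99195a5d59.shift 1 1)] (by decide +kernel))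
noncomputable def rh80edbf2ec0b0c92f : CRef := CRef.mk (Pat.mk 0x180000001c0000000000000004 0x500000007000000070000001b0000001f0000000700000004 8 5) 0 0 (step_sound _ 65 [rh31e1bc69abf86ee5, (rh53b3c253cb0c65f4.shift 0 2)] (by decide +kernel))
noncomputable def rhe354f151af23e5c9 : CRef := CRef.mk (Pat.mk 0x1c000000380000000000000008 0x1c0000003c0000000f0000001c0000003f0000000e0000000c 8 6) 0 0 (step_sound _ 130 [rh2bf26dad70895957, (rh9e07f76261b05888.shift 2 0)] (by decide +kernel))
noncomputable def rhc37d6510d657c00f : CRef := CRef.mk (Pat.mk 0x20000001e0000001800000002 0x10000000f0000001f0000000e0000001e0000001b00000012 8 5) 0 0 (step_sound _ 33 [rha6990a1df457e6e7, (rheb0810cc63b001d8.shift 0 1)] (by decide +kernel))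
noncomputable def rh7d5b300733936675 : CRef := CRef.mk (Pat.mk 0x5000000040000000400000000 0xa0000007e0000003e000000770000000c0000000c00000008 8 7) 0 0 (step_sound _ 130 [(rh1741680720c097b4.shift 1 1), (rh5abfc4c9d959be03.shift 1 0), (rh61c2555c8e5826c3.shift 0 1), (rhced6d86d2069808b.shift 2 0)] (by decide +kernel))
noncomputable def rhf98b800119c6ef20 : CRef := CRef.mk (Pat.mk 0x380000000000000008 0xa0000000e0000000e0000039e000001fc0000038f0000000c 8 10) 0 0 (step_sound _ 34 [(rh3cc5c7fb74c49f61.shift 0 1), (rh6d817a0391b86d65.shift 1 0), (rh73f5f7cdf41b5bc9.shift 1 0), (rh7b76ebee7720cec8.shift 2 1)] (by decide +kernel))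
noncomputable def rh1193e6ed9a8e1ad6 : CRef := CRef.mk (Pat.mk 0x100000001c0000000000000004 0x50000000700000007000000330000001e0000000700000004 8 6) 0 0 (step_sound _ 65 [rh31e1bc69abf86ee5, (rh33e738c4ed385b9f.shift 1 2)] (by decide +kernel))
noncomputable def rh76a132c804aee04b : CRef := CRef.mk (Pat.mk 0x80000000e0000000800000008 0x40000000e000001ff000000fe000000eb00000008 8 9) 0 0 (step_sound _ 130 [(rhe161524812068d9d.shift 0 1), (rhffd04209dc8ea796.shift 2 0)] (by decide +kernel))
noncomputable def rh9cf53d219962c6e9 : CRef := CRef.mk (Pat.mk 0x10000000180000001000000010 0x2f000000ff000000f80000001000000010 8 8) 0 0 (step_sound _ 99 [(rh50fbb5868c909700.shift 3 0), rhcb705c5d12ba6a2c] (by decide +kernel))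
noncomputable def rh6707a7d9a5e2262e : CRef := CRef.mk (Pat.mk 0x200000002000000070000000200000000 0xc0000003e0000003e000000070000001e0000000c 8 6) 0 0 (step_sound _ 34 [rh0f957c7ec1eb9943, (rh55afc6a59410cf00.shift 1 0)] (by decide +kernel))
noncomputable def rha229d189eee1ef7f : CRef := CRef.mk (Pat.mk 0xf0000000800000000 0x100000001c0000001c0000007c0000001e0000000f0000000c0000000c 8 7) 0 0 (step_sound _ 99 [(rh33e738c4ed385b9f.shift 0 2), (rhae277bdd7fa9d333.shift 1 0)] (by decide +kernel))
noncomputable def rh515034c0afbd1f9d : CRef := CRef.mk (Pat.mk 0xf00000002 0x1fe000000ff000001e6 8 9) 0 0 (step_sound _ 36 [(rh7b76ebee7720cec8.shift 1 0), (rh9890f9d77740bbed.shift 0 1), (rhf2b3bcf1454375d8.shift 1 0)] (by decide +kernel))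
noncomputable def rh943c1a88d79a2ada : CRef := CRef.mk (Pat.mk 0x700000009 0xe70000007f000000fb 8 8) 0 0 (step_sound _ 35 [rh7b76ebee7720cec8, rhe25b0a99195a5d59] (by decide +kernel))
noncomputable def rh6ce089df008688a1 : CRef := CRef.mk (Pat.mk 0x18000000180000000000000010 0x3c000000ff0000003c00000018000000180000001000000010 8 8) 0 0 (step_sound _ 131 [(rh9e07f76261b05888.shift 3 0), (rha4bfbdb50758729b.shift 0 2)] (by decide +kernel))
noncomputable def rh9c922bb8828d362d : CRef := CRef.mk (Pat.mk 0x100000001000000030000000700000000 0x1e0000001f0000001f0000000f0000000700000004 8 5) 0 0 (step_sound _ 129 [(rh2f68792b6b779e96.shift 0 1), rh72c7c51b6c8e078b] (by decide +kernel))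
noncomputable def rh3111b854098e5d9a : CRef := CRef.mk (Pat.mk 0x100000007000000000000000000000000 0x140000001c0000001c0000003f0000001f0000003c0000000c0000000c 8 6) 0 0 (step_sound _ 99 [rh09db8640fa28a310, (rh2aac33c566332a8c.shift 0 2), (rh790acd67f4fffd04.shift 0 3)] (by decide +kernel))
noncomputable def rh296529a57eadbeb0 : CRef := CRef.mk (Pat.mk 0x20000000e000000000000000000000000 0x2800000038000000380000003b0000001e000000380000001800000018 8 6) 0 0 (step_sound _ 100 [(rh09db8640fa28a310.shift 1 0), (rh3244c3cc8379b070.shift 0 3)] (by decide +kernel))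
noncomputable def rh3132b40b5a7ec4da : CRef := CRef.mk (Pat.mk 0x2000000160000001400000010 0x20000000380000003e0000003e000000330000001e0000001c00000010 8 6) 0 0 (step_sound _ 100 [(rh12d50e65fdd458b1.shift 0 2), (rh6bb57afa662e6b58.shift 0 1), (rhc7e7d47b3bc451f4.shift 1 0), (rhddcd04bb31546311.shift 1 0)] (by decide +kernel))
noncomputable def rh528577f1e6e821b4 : CRef := CRef.mk (Pat.mk 0x18000000500000005000000000 0x180000001c0000001f000000f80000007f000000df00000008 8 8) 0 0 (step_sound _ 67 [rh290b83d9dd633109, (rh58d6deb7f3eb6607.shift 0 1), (rhb02ca35181966ef3.shift 2 0), (rhd18828be79d827be.shift 1 1)] (by decide +kernel))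
noncomputable def rhe99f119400ecf923 : CRef := CRef.mk (Pat.mk 0x1800000018000000500000001000000000 0x40000001e000000f8000000df0000001f0000000c 8 8) 0 0 (step_sound _ 35 [(rh932754581e0f4330.shift 3 0), rhe050bba0a3857dcc] (by decide +kernel))
noncomputable def rh9f3cca1cb2499acf : CRef := CRef.mk (Pat.mk 0x18000000500000005000000000 0x180000001c0000001f00000038000000f8000000d800000008 8 8) 0 0 (step_sound _ 69 [rh4210ddbe79da0c25, (rhf48373e13d2bc128.shift 3 2)] (by decide +kernel))
noncomputable def rhc29a92d50f295542 : CRef := CRef.mk (Pat.mk 0x100000001e0000001000000000 0x340000003c000000170000003f0000001a00000002 8 6) 0 0 (step_sound _ 97 [(rh3244c3cc8379b070.shift 0 2), rha6981ac250fa0a83] (by decide +kernel))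
noncomputable def rhdb6281f9e649cd5f : CRef := CRef.mk (Pat.mk 0x20000000240000003c00000022 0x50000000760000007c0000006c0000002c0000007e00000023 8 7) 0 0 (step_sound _ 133 [(rh44f453b84f013105.shift 5 0), rh602a27f4419216ec, (rhc85cc95794737cf7.shift 4 1)] (by decide +kernel))
noncomputable def rhaa66aaf36a477a2e : CRef := CRef.mk (Pat.mk 0x20000000240000003c00000020 0x40000000700000007c00000034000000240000003e00000027 8 7) 0 0 (step_sound _ 1 [rh05aa8b34689c1cf6, (rh80fcd6d0a18cb2dd.shift 1 0)] (by decide +kernel))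
noncomputable def rh4be0cc7c87d37bfd : CRef := CRef.mk (Pat.mk 0x20000000240000003c00000022 0xa0000000e0000001e0000003c0000007e0000002c0000007e00000023 8 7) 0 0 (step_sound _ 130 [(rh12d1f9e454bf2196.shift 1 0), (rh41d0c3389f36d9fc.shift 1 0), rh8dab1aae2a2412cf] (by decide +kernel))
noncomputable def rhf713056d3dc0b806 : CRef := CRef.mk (Pat.mk 0x90000000e000000080000000800000000 0x140000001c0000001e0000001e0000000b0000001e0000000c0000001800000010 8 5) 0 0 (step_sound _ 129 [rh6bbb8895b698894e, (rhf48373e13d2bc128.shift 0 3)] (by decide +kernel))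
noncomputable def rh30af1a772699a0bf : CRef := CRef.mk (Pat.mk 0x1e000000000000000000000000 0x5000000070000000700000007000000070000001e000000070000000600000004 8 5) 0 0 (step_sound _ 129 [(rh3244c3cc8379b070.shift 0 3), rhfab199109b95367a] (by decide +kernel))
noncomputable def rhf29a436e373a8f95 : CRef := CRef.mk (Pat.mk 0x1e000000000000000000000000 0x5000000070000000700000007000000070000001e000000070000000600000004 8 5) 0 0 (step_sound _ 65 [rh856484bb386d17cf, (rheb0810cc63b001d8.shift 0 2)] (by decide +kernel))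
noncomputable def rhdf82111f076675e3 : CRef := CRef.mk (Pat.mk 0xe000000000000000000000000000000000 0x3000000030000000ff000000fe0000007f000000380000003800000028 8 8) 0 0 (step_sound _ 132 [(rh775ca1963e850b80.shift 2 3), (rh84efdb14278181c3.shift 3 0), (rhd13612592efaa228.shift 0 3), (rhd690071d9e563773.shift 1 3), (rhde1cd6752d019d3a.shift 0 3)] (by decide +kernel))
noncomputable def rh552831b670e2d1cf : CRef := CRef.mk (Pat.mk 0x40000003c0000000000000008 0x3e0000003e0000000f0000000c0000007c0000000800000008 8 7) 0 0 (step_sound _ 99 [rhcb629f674f699cb7, (rhf48373e13d2bc128.shift 2 2)] (by decide +kernel))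
noncomputable def rh5aab47f611b02709 : CRef := CRef.mk (Pat.mk 0x780000000000000000 0x8000000080000003f0000007f0000003700000010 8 7) 0 0 (step_sound _ 66 [rh451f450cff442619, (rh775ca1963e850b80.shift 0 1), (rhd5eb272e07a4e288.shift 1 2)] (by decide +kernel))
noncomputable def rh4738aadfadb2d01a : CRef := CRef.mk (Pat.mk 0x1e000000000 0x1f000001fe000000ff 8 9) 0 0 (step_sound _ 36 [(rh04797e9e06425c4e.shift 1 0), (rh775ca1963e850b80.shift 2 0), rh90fac31ea828a16d, (rheae1728ff4a56756.shift 3 0)] (by decide +kernel))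
noncomputable def rhb022498c8f789d2d : CRef := CRef.mk (Pat.mk 0x38000000000000000000000000 0x500000007000000070000000770000003e000000770000003000000030 8 7) 0 0 (step_sound _ 98 [(rh775ca1963e850b80.shift 0 2), (rhff321ade2fe2312d.shift 2 0)] (by decide +kernel))
noncomputable def rh8bd9b647bba87e13 : CRef := CRef.mk (Pat.mk 0x1800000018000000180000001800000000 0x70000001f0000001b0000001f0000001f00000004 8 5) 0 0 (step_sound _ 34 [(rh932754581e0f4330.shift 2 0), (rhf7b8a0a17b3ba00b.shift 0 1)] (by decide +kernel))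
noncomputable def rhe446bb21dbe1a919 : CRef := CRef.mk (Pat.mk 0x8000000180000001a000000180000000000000000 0x500000007000000070000000f0000001b0000001f0000001b0000000f00000005 8 5) 0 0 (step_sound _ 129 [rh90a9e620e3402202, rhaf5e0f624f9cac97, (rhb7674d85f64945d6.shift 0 2), rhff6ece9e9c262963] (by decide +kernel))
noncomputable def rhf1f41b615cb58961 : CRef := CRef.mk (Pat.mk 0x8000000180000001a0000001800000000000000000000000000000000 0x40000000f0000001b0000001e0000001f0000000f000000070000000400000004 8 5) 0 0 (step_sound _ 226 [(rh50fbb5868c909700.shift 2 4), rh77d2863636a3e199] (by decide +kernel))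
noncomputable def rh73729f5d67786108 : CRef := CRef.mk (Pat.mk 0x800000018000000500000001000000000 0xa0000001f0000001e000000f40000001e0000000c 8 8) 0 0 (step_sound _ 69 [rhc09f1cc8b50ae6cb, (rhf48373e13d2bc128.shift 3 2)] (by decide +kernel))
noncomputable def rh23faec912ebb5a9f : CRef := CRef.mk (Pat.mk 0x800000008000000080000000800000000 0x170000003f0000003f0000000c0000000c00000004 8 6) 0 0 (step_sound _ 130 [rh4bbdf9a50de13df6, (rh50fbb5868c909700.shift 2 1)] (by decide +kernel))
noncomputable def rhf3490897665ff330 : CRef := CRef.mk (Pat.mk 0x100000001000000010000000000000000000000000 0x200000002f000000fe000000ff0000001800000010000000180000001800000008 8 8) 0 0 (step_sound _ 197 [(rh08d50fe567eb1045.shift 4 2), (rh1725eba4bd36066a.shift 3 0), (rh22d86f446f3de558.shift 1 2), (rhed299ca130135d58.shift 0 3)] (by decide +kernel))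
noncomputable def rh417f1d57d7a01276 : CRef := CRef.mk (Pat.mk 0x180000003c0000000000000000 0x1c0000007e0000000f0000001e0000003c0000000c0000000c 8 7) 0 0 (step_sound _ 98 [(rh3244c3cc8379b070.shift 1 2), rh99bd63a2ec197916] (by decide +kernel))
noncomputable def rh995f26b13681956b : CRef := CRef.mk (Pat.mk 0x180000003c000000000000000000000000 0xc0000001f0000001f0000001e0000003c0000000c0000000c0000000c 8 6) 0 0 (step_sound _ 67 [(rh3f09e2870ec06b4b.shift 1 0), (rh6cc58692ec716844.shift 1 0), (rh9954101f0efffb9e.shift 2 0), (rha3e1d11cef3fbde8.shift 1 1), (rhea7a1800d6f053bd.shift 3 0), (rhf0df4d5345a94e48.shift 0 1)] (by decide +kernel))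
noncomputable def rh7a73eb9458f2741f : CRef := CRef.mk (Pat.mk 0x10000000180000003c0000000800000000 0xc0000000f0000007f0000001c0000003f0000006c00000004 8 7) 0 0 (step_sound _ 38 [(rh96851dee118c1ba3.shift 2 1), rhc2ba242ccb76d3cb] (by decide +kernel))
noncomputable def rh42b7bfc600da31dd : CRef := CRef.mk (Pat.mk 0x10000000100000003000000000 0x2f000000fe000000ff000000100000003000000020 8 8) 0 0 (step_sound _ 132 [(rh55afc6a59410cf00.shift 4 0), (rh922ca61c98517a19.shift 0 1)] (by decide +kernel))
noncomputable def rha725ab19f2744608 : CRef := CRef.mk (Pat.mk 0x10000000180000001c000000000000000000000000 0xc0000000f0000007f0000001b0000001f0000000c0000000c0000000c 8 7) 0 0 (step_sound _ 97 [(rh53b3c253cb0c65f4.shift 0 3), rhcb246767b211a413] (by decide +kernel))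
noncomputable def rhdbeff9653f52a1ed : CRef := CRef.mk (Pat.mk 0x1c0000003c000000200000000000000000 0xc0000001f0000007f0000001c0000003c0000002c0000000c0000000c 8 7) 0 0 (step_sound _ 164 [rh1d2218a61472485d, (rh2145e1d24b96a57e.shift 4 2)] (by decide +kernel))
noncomputable def rhbd2f63518e230f9f : CRef := CRef.mk (Pat.mk 0x80000001e000000000 0xcf000001fe0000007f 8 9) 0 0 (step_sound _ 36 [rh13471aeebea543dc, (rh551591afa7e9bd9a.shift 1 0), (rheae1728ff4a56756.shift 3 0)] (by decide +kernel))
noncomputable def rh24d425a8cf9e37a8 : CRef := CRef.mk (Pat.mk 0x20000000080000006800000140000000400000000000000000 0x140000001c0000001f0000007c0000000f0000006c000003dc0000007c0000001c00000004 8 10) 0 0 (step_sound _ 195 [(rh89fa36a8925dc189.shift 2 0), (rh980e8fd62ca49112.shift 2 1), (rha13e131ffd3e4b47.shift 0 3), (rhbd12c57242090754.shift 2 2), rhbe91d5dc370e9282, (rhc311f24698bec37f.shift 1 1)] (by decide +kernel))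
noncomputable def rh12520275854adb82 : CRef := CRef.mk (Pat.mk 0x28000000680000000000000000 0x140000001c0000001c0000001f0000007c0000006c0000000c00000004 8 7) 0 0 (step_sound _ 100 [rh305c59daa988c15c, (rhb739f4f82bb681b4.shift 2 2)] (by decide +kernel))
noncomputable def rhc4056fefc2c1d7af : CRef := CRef.mk (Pat.mk 0x100000001000000030 0x280000003f000000fe000000ff0000003000000030 8 8) 0 0 (step_sound _ 100 [(rh5bd4bc0c2c48140c.shift 3 0), (rh73f605273a09a9d0.shift 4 0), rh922ca61c98517a19] (by decide +kernel))
noncomputable def rhd019c24ed7ebbc13 : CRef := CRef.mk (Pat.mk 0x40000000d000000000000000000000000000000000 0x3000000030000000ff000000fe0000003f000000380000003800000028 8 8) 0 0 (step_sound _ 133 [(rh03c06803d1655eb6.shift 3 0), (rh4c063b89d42a2070.shift 2 3), (rh592c7139d2c44767.shift 2 3), (rhdda18f14314c6e63.shift 0 3)] (by decide +kernel))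
noncomputable def rh001afcf6edd61f74 : CRef := CRef.mk (Pat.mk 0xe0000001e000000000000000000000000 0x1300000013000000330000001e0000001e0000000f0000000300000003 8 6) 0 0 (step_sound _ 65 [rh0cfa0ece96434e29, (rheb0810cc63b001d8.shift 0 2)] (by decide +kernel))
noncomputable def rha8a18a116e39e6e3 : CRef := CRef.mk (Pat.mk 0x1e0000001a 0x3e0000003e000000370000001e0000001a 8 6) 0 0 (step_sound _ 68 [(rh33e738c4ed385b9f.shift 1 1), rh8702079aa408304c] (by decide +kernel))
noncomputable def rhb3e46d160c5090e3 : CRef := CRef.mk (Pat.mk 0x1e00000000000000100000000000000000 0x50000000700000007000000030000001e000000070000001f0000000700000001 8 5) 0 0 (step_sound _ 161 [(rh3244c3cc8379b070.shift 0 4), rh50519afd34fd994a] (by decide +kernel))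
noncomputable def rh2b2976d7da997dae : CRef := CRef.mk (Pat.mk 0x1e0000000000000000000000000000000000000000 0x400000006000000070000001e0000000700000007000000070000000700000005 8 5) 0 0 (step_sound _ 193 [(rh3244c3cc8379b070.shift 0 5), rhf286bf6d0c5110b5] (by decide +kernel))
noncomputable def rh79c9de40384c027b : CRef := CRef.mk (Pat.mk 0x80000001a00000012000000100000000000000000 0x140000001e0000001f0000001e0000001f0000000f00000004 8 5) 0 0 (step_sound _ 99 [rh0ac049706842611d, rh5165881033ea0320, (rhd8be3b7ca6adb62f.shift 0 3)] (by decide +kernel))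
noncomputable def rhb9281e53df718481 : CRef := CRef.mk (Pat.mk 0x80000001a00000012000000100000000000000000 0x140000001e0000001b0000001f0000001f0000000e00000004 8 5) 0 0 (step_sound _ 99 [rh5165881033ea0320, (rh6e1685e3533aff0e.shift 0 3), (rhe5fb709585f480ed.shift 0 1)] (by decide +kernel))
noncomputable def rh6367b184daa4c5ca : CRef := CRef.mk (Pat.mk 0x80000001a00000012000000100000000000000000 0x140000001d0000001f0000001e0000001f0000000f00000004 8 5) 0 0 (step_sound _ 99 [rh0ac049706842611d, rh7c30840a393ca09c, (rhd8be3b7ca6adb62f.shift 0 3)] (by decide +kernel))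
noncomputable def rh41118a77fab810a6 : CRef := CRef.mk (Pat.mk 0x80000001a00000012000000100000000000000000 0x10000000190000001b0000001f0000001f0000000f00000004 8 5) 0 0 (step_sound _ 99 [(rh6e1685e3533aff0e.shift 0 3), rh7c30840a393ca09c, (rhe5fb709585f480ed.shift 0 1)] (by decide +kernel))
noncomputable def rh74803ead6c3924f9 : CRef := CRef.mk (Pat.mk 0x2000000068000000000000000000000000 0x140000001c0000001c0000007f0000007e0000001e0000001800000018 8 7) 0 0 (step_sound _ 100 [(rh3e0b38310ac09007.shift 0 3), (rh55c4ed4acec0f063.shift 1 2), (rh775ca1963e850b80.shift 1 2), (rhd006db0d9f9b2ec7.shift 2 0), (rhedf6b6c69a16cbd5.shift 1 3)] (by decide +kernel))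
noncomputable def rha5f93e395a240bb6 : CRef := CRef.mk (Pat.mk 0x20000000200000002000000020000001000000000 0x50000000700000007000000020000000200000003000000070000001e00000004 8 5) 0 0 (step_sound _ 34 [(rhd3458b32566d63f7.shift 1 1), rhf06cb90132fcab1e] (by decide +kernel))
noncomputable def rhba267b76edd320d8 : CRef := CRef.mk (Pat.mk 0x80000000800000008000000480000000000000000 0xc0000000c0000003f0000007f0000001700000002 8 7) 0 0 (step_sound _ 68 [rh06f5b9411be2718b, (rh55afc6a59410cf00.shift 3 1)] (by decide +kernel))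
noncomputable def rh59b5fb48f23d60e1 : CRef := CRef.mk (Pat.mk 0x1000000010000000100000000000000000 0x2f000000fe000000ff00000010000000180000001800000008 8 8) 0 0 (step_sound _ 164 [(rh922ca61c98517a19.shift 0 2), (rhc4526fc8abf298b6.shift 3 0), (rhcab3157f7bdcba3e.shift 3 0)] (by decide +kernel))
noncomputable def rh2e551de98c187aa1 : CRef := CRef.mk (Pat.mk 0x10000000100000003000000000000000000000000000000000 0x2e000000ff0000003f0000003800000018000000180000001800000008 8 8) 0 0 (step_sound _ 100 [(rh3a61644a128cd4ab.shift 1 2), (rh403a1004e213188f.shift 0 2), (rh4d0677e78405f298.shift 3 0), (rh9266c031630b494d.shift 1 2), (rhcab3157f7bdcba3e.shift 3 1), (rhdb976da54a9306ab.shift 3 0)] (by decide +kernel))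
noncomputable def rhfdb452ca29256ea8 : CRef := CRef.mk (Pat.mk 0x2000000020000000600000006 0x7d0000003f0000003e0000000600000006 8 7) 0 0 (step_sound _ 98 [rh16e952e77ba29eea, (rh2f68792b6b779e96.shift 1 0)] (by decide +kernel))
noncomputable def rha02e6eb5c453d49c : CRef := CRef.mk (Pat.mk 0x4000000340000001400000000 0xa0000001e0000003e00000037000000360000003600000022 8 6) 0 0 (step_sound _ 130 [(rh20966da26a1c2ae8.shift 1 0), rh57d37688aa597e27, (rh968ba7b0df7e4096.shift 1 0), (rhc85cc95794737cf7.shift 1 1)] (by decide +kernel))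
noncomputable def rhd38511c7c5355d2b : CRef := CRef.mk (Pat.mk 0x1e00000008 0x10000000100000003f000000ff000000e8 8 8) 0 0 (step_sound _ 68 [(rh33e738c4ed385b9f.shift 1 1), rhf28915223af859e0] (by decide +kernel))
noncomputable def rh5429f996595c64b4 : CRef := CRef.mk (Pat.mk 0x1e000000140000000000000000 0x38000000380000003f0000001e0000001c0000003800000030 8 6) 0 0 (step_sound _ 132 [(rh33e738c4ed385b9f.shift 1 3), rhc22119311c606b72] (by decide +kernel))
noncomputable def rhb8a5106461518ce0 : CRef := CRef.mk (Pat.mk 0x20000000a0000000f00000000000000000000000000000000 0xc0000000e0000000e0000000f0000001c0000001c0000001c00000018 8 5) 0 0 (step_sound _ 99 [(rh0f31fd930b4a48fe.shift 1 0), (rhe25b0a99195a5d59.shift 0 3)] (by decide +kernel))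
noncomputable def rhd38638e54baea4e1 : CRef := CRef.mk (Pat.mk 0x40000000180000001a0000000000000000 0xa0000000e0000000e0000000c0000000ff000000fb000000c000000080 8 8) 0 0 (step_sound _ 98 [(rh5a7e15a6c3ebbe93.shift 2 0), (rh710860539a4c4362.shift 0 2)] (by decide +kernel))
noncomputable def rh7c4fb49feb276281 : CRef := CRef.mk (Pat.mk 0x1000000006000000060000000200000001 0x3f0000001f0000003a00000006000000060000000300000001 8 6) 0 0 (step_sound _ 129 [rh79877ebd3ef475dd, (rh89cd8a8f5017e5d6.shift 0 2)] (by decide +kernel))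
noncomputable def rhb32155389a4fa968 : CRef := CRef.mk (Pat.mk 0x180000001a0000000000000000 0x2000000020000000e0000000ff000000fb000000d0000000c0 8 8) 0 0 (step_sound _ 98 [(rh710860539a4c4362.shift 0 2), (rhe3b2cdaef41e1e00.shift 2 0)] (by decide +kernel))
noncomputable def rhbae27da6b2ee22e1 : CRef := CRef.mk (Pat.mk 0x4000000000000000f00000000000000000000000000000000 0x80000000c0000001c0000000f0000001c0000001c0000001800000018 8 5) 0 0 (step_sound _ 99 [rh94e8f48981f449f2, (rhe25b0a99195a5d59.shift 0 3)] (by decide +kernel))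
noncomputable def rhe7ef595edc57fc13 : CRef := CRef.mk (Pat.mk 0x2000000020000000000000002000000000000000000000000 0x7000000070000000700000006000000060000000700000003000000070000000700000005 8 3) 0 0 (step_sound _ 129 [(rh1726a00b0a8befd0.shift 0 2), (rh20966da26a1c2ae8.shift 0 2), rh49759b6975f15643, (rh549543a9bb5252b4.shift 0 2), (rhae682b69deb3d960.shift 0 2)] (by decide +kernel))
noncomputable def rh720668f5dce24209 : CRef := CRef.mk (Pat.mk 0x2000000010000000100000001000000000 0x2f000000fe000000ff000000100000003000000020 8 8) 0 0 (step_sound _ 132 [(rh2f68792b6b779e96.shift 4 1), rh4aa51076bcdcdcd3] (by decide +kernel))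
noncomputable def rh030b0a772dbcbf4e : CRef := CRef.mk (Pat.mk 0x1000000008000000180000001a00000000 0x28000000780000007e0000001f0000007b00000020 8 7) 0 0 (step_sound _ 131 [(rh2145e1d24b96a57e.shift 3 1), rh8eb8c3b0caa1ecb9] (by decide +kernel))
noncomputable def rhafbb7ba044af58b6 : CRef := CRef.mk (Pat.mk 0x10000000100000001000000000 0x280000003f000000fe000000ff000000300000003000000020 8 8) 0 0 (step_sound _ 132 [(rh5abfc4c9d959be03.shift 3 0), (rhc85cc95794737cf7.shift 3 1), (rhced6d86d2069808b.shift 4 0), (rhe1b9fa042009f4b7.shift 0 1)] (by decide +kernel))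
noncomputable def rh18decb29c4014b8f : CRef := CRef.mk (Pat.mk 0x2000000020000000200000002000000000000000000000000 0x10000000700000007000000060000000200000002000000070000000700000005 8 3) 0 0 (step_sound _ 194 [(rh2f68792b6b779e96.shift 1 3), rha53197535bf62ec1] (by decide +kernel))
noncomputable def rhaa9082efcff5d91f : CRef := CRef.mk (Pat.mk 0x80000000a0000000800000008000000000000000000000000 0x140000001e0000001b00000008000000080000001c0000001c00000014 8 5) 0 0 (step_sound _ 196 [(rh2f68792b6b779e96.shift 3 3), rh53d0136c721683b4] (by decide +kernel))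
noncomputable def rhcb2f4cf2786a7c04 : CRef := CRef.mk (Pat.mk 0x30000000140000001000000010000000100000000000000000 0xf0000003e000000160000001000000010000000380000003800000028 8 6) 0 0 (step_sound _ 195 [(rh50fbb5868c909700.shift 3 3), rh7f511eb04ae02907] (by decide +kernel))
noncomputable def rh5ff8ae99f6a2453f : CRef := CRef.mk (Pat.mk 0x280000000000000020000000000000000000000000 0x4000000050000000ff000000fe000001e700000020000000700000007000000050 8 9) 0 0 (step_sound _ 164 [rh10f9c677e85763dd, (rh1317c6ea28e6bacd.shift 2 2), (rh331be5abf1cbad56.shift 1 2), (rh5fcd8197f732a237.shift 0 2), (rh98ecf3849fe98d1a.shift 0 4), rhe2dd672fd5f75bef, rhedf8eaab163fa27e] (by decide +kernel))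
noncomputable def rh1a9c05f6eefc2e42 : CRef := CRef.mk (Pat.mk 0x3800000000 0x200000002000000060000000ff0000007e00000017 8 8) 0 0 (step_sound _ 34 [rh2cc7d62e70c02209, (rh56a24c72f1c55520.shift 1 1), rh9e97bba44c1b13e4, (rha08a008feb6a4b49.shift 1 0)] (by decide +kernel))
noncomputable def rh9b43accb1030d8da : CRef := CRef.mk (Pat.mk 0x20000000200000002000000020000000000000000 0x50000000700000007000000020000000200000003000000070000000700000004 8 3) 0 0 (step_sound _ 64 [(rh932754581e0f4330.shift 0 1), rh9a2ea87dbbcf3fa1] (by decide +kernel))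
noncomputable def rh4fcb12ec6d32da54 : CRef := CRef.mk (Pat.mk 0x50000000400000004000000000000000000000000 0x7a0000003f0000003e000000040000000c0000000c00000008 8 7) 0 0 (step_sound _ 66 [(rh6c59ce14113da07f.shift 2 0), (rh8ff3dde5b1c639e0.shift 1 0), (rha87a6c130fa64747.shift 0 2)] (by decide +kernel))
noncomputable def rh3f625ebad7211f27 : CRef := CRef.mk (Pat.mk 0x50000000400000004000000000000000000000000 0x7a0000003f0000003e000000040000000e0000000e0000000a 8 7) 0 0 (step_sound _ 66 [(rh8cdd36b03d57a2f6.shift 1 0), (rha87a6c130fa64747.shift 0 2), (rhc4526fc8abf298b6.shift 1 0), (rhf5152ac7cd56ad5c.shift 0 1)] (by decide +kernel))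
noncomputable def rhd4f21b126e34c016 : CRef := CRef.mk (Pat.mk 0x4000000050000000400000004 0x10000000100000003a0000001f0000003f0000000c00000004 8 6) 0 0 (step_sound _ 97 [rh3bf4014581d275cc, (rh50fbb5868c909700.shift 1 0)] (by decide +kernel))
noncomputable def rh713b67f4c594034a : CRef := CRef.mk (Pat.mk 0x80000000a000000080000000a00000000 0xe0000000f0000003e0000003c0000000e00000006 8 6) 0 0 (step_sound _ 34 [(rh932754581e0f4330.shift 2 0), rh981da9dd7f429643] (by decide +kernel))
noncomputable def rh9bba74fd5e29626e : CRef := CRef.mk (Pat.mk 0xa0000000800000008000000000000000000000000 0x40000001c0000001f0000001b0000000c0000000c0000001c0000001c00000014 8 5) 0 0 (step_sound _ 195 [(rh49759b6975f15643.shift 2 0), (rh771d065bdc85bf2d.shift 2 2), (rh80f396e5ebf765e5.shift 2 0), (rh9e78c8d0a6e73966.shift 0 2)] (by decide +kernel))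
noncomputable def rhb8c5c9f5b701b8f2 : CRef := CRef.mk (Pat.mk 0x38000000000000002000000000 0x2000000060000000fe0000007f000000370000003000000020 8 8) 0 0 (step_sound _ 98 [(rh2985e254e65d6bbb.shift 0 2), (rh56a24c72f1c55520.shift 1 3), (rh995975079ffd0394.shift 1 1), (rh9e97bba44c1b13e4.shift 0 2), rhc17f861d2679f45c, (rhe8dbc29e18a5d730.shift 0 2)] (by decide +kernel))
noncomputable def rh623b18951ad60c6c : CRef := CRef.mk (Pat.mk 0x1c0000000000000000 0x4000000060000007f000001fe000000e800000008 8 9) 0 0 (step_sound _ 69 [(rh2f1bf8dd352bbdb7.shift 1 0), (rh4c622fddc53a5f99.shift 0 2), (rha387be5ef5649a9c.shift 1 1), (rhe401600d466b97cd.shift 1 1)] (by decide +kernel))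
noncomputable def rh7e60159fcbbbbb6d : CRef := CRef.mk (Pat.mk 0x1c00000000000000100000000000000000 0x10000000300000007f0000003f00000038000000180000001000000010 8 7) 0 0 (step_sound _ 129 [(rh09d9f2ed3f61f767.shift 0 1), (rh995975079ffd0394.shift 0 2), rheb100aab8ed4573d, (rhfcffa0a9e99c8fd4.shift 1 1)] (by decide +kernel))
noncomputable def rh03931c7a812d00d1 : CRef := CRef.mk (Pat.mk 0x1c00000000000000100000000000000000 0x10000000300000007f0000003f00000038000000180000001000000010 8 7) 0 0 (step_sound _ 129 [(rh09d9f2ed3f61f767.shift 0 1), (rh8b7a45122b3e0f72.shift 0 2), rheb100aab8ed4573d, (rhfcffa0a9e99c8fd4.shift 1 1)] (by decide +kernel))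
noncomputable def rh1b70347634eb562d : CRef := CRef.mk (Pat.mk 0xc00000004000000040000001c000000000000000000000000 0x700000007c0000007f0000007f0000001c000000300000003000000030 8 7) 0 0 (step_sound _ 131 [(rh0d879c9ac8d6f930.shift 0 2), (rh4707b315013a5ed9.shift 0 2), (rh50a0af58b9cd1e22.shift 0 1), rh799601d9b2a88bff, (rh989d47d0e3b00ee1.shift 0 2), (rhc449c6f83c5d2070.shift 0 3)] (by decide +kernel))
noncomputable def rh21ccc6a3e61c0e99 : CRef := CRef.mk (Pat.mk 0x38000000100000001000000070 0x1c7000000fe000001de0000003e00000074 8 9) 0 0 (step_sound _ 102 [rh9819fa1480897963, (rha93a5dd541ab8209.shift 3 2), (rhaf9f2efc81a8312b.shift 2 2)] (by decide +kernel))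
noncomputable def rh996020ab42a45c0c : CRef := CRef.mk (Pat.mk 0x10000000100000001000000050 0x1ef000000fe000000f70000005000000050 8 9) 0 0 (step_sound _ 101 [(rh2f68792b6b779e96.shift 4 0), rh4c09abf7488361d6] (by decide +kernel))
noncomputable def rhdc9c804e6eb9052c : CRef := CRef.mk (Pat.mk 0x400000004000000040000001c 0x34000000340000007f0000007f0000001c 8 7) 0 0 (step_sound _ 35 [(rh2145e1d24b96a57e.shift 2 0), rhc449c6f83c5d2070] (by decide +kernel))
noncomputable def rh770fa90eaee97333 : CRef := CRef.mk (Pat.mk 0x6000000030000000200000002 0x50000000700000007000000030000000300000007000000070000000300000002 8 3) 0 0 (step_sound _ 128 [(rhaffb5111dc1d9f18.shift 0 1), rhffd04209dc8ea796] (by decide +kernel))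
noncomputable def rh8e3f8304ea6ca22f : CRef := CRef.mk (Pat.mk 0x1e0000000a00000000 0x16000000370000003f0000001e0000000e00000006 8 6) 0 0 (step_sound _ 97 [rh1200cd604cfcea06, (rh3244c3cc8379b070.shift 0 2)] (by decide +kernel))
noncomputable def rhc6f7467b19ddb303 : CRef := CRef.mk (Pat.mk 0x200000003000000010000000000000004000000000 0x80000007e7000003fe000007ff000000c00000004000000040 8 11) 0 0 (step_sound _ 134 [(rh47ca18175377b226.shift 0 1), (rh5f7fdd3fa995a688.shift 3 0), (rhdc1641106d7e5aa2.shift 3 3)] (by decide +kernel))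
noncomputable def rh3cf544e0ae97228c : CRef := CRef.mk (Pat.mk 0x200000003000000010000000000000004000000000 0x78000000fc000000fc000001f7000001fe000000cf0000004000000040 8 9) 0 0 (step_sound _ 197 [rh3f60ed6a4067388d, (rh5c5e593799055d58.shift 4 3)] (by decide +kernel))
noncomputable def rhb5e773e55f9d51a0 : CRef := CRef.mk (Pat.mk 0x4000000040000001c00000008000000000000002000000000 0x80000000c0000000c0000007e0000007f000000660000002000000020 8 7) 0 0 (step_sound _ 98 [(rh4dc133ee0ba1420a.shift 0 3), (rhf3bd7b3eebd6799d.shift 1 0), (rhf5094ad2a427d4d3.shift 0 2)] (by decide +kernel))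
noncomputable def rh6d7a5983fb7b2883 : CRef := CRef.mk (Pat.mk 0x30000000100000000000000050 0x1ef000000fe000000f70000005000000050 8 9) 0 0 (step_sound _ 36 [(rh2f68792b6b779e96.shift 4 0), rh4c09abf7488361d6] (by decide +kernel))
noncomputable def rh108df04e446997e1 : CRef := CRef.mk (Pat.mk 0x10000000300000001000000010 0x2800000038000000380000001800000018000000770000003e0000003f 8 7) 0 0 (step_sound _ 132 [(rh14e0829dc73b6804.shift 3 1), (rh3ca48e2a6d60153d.shift 3 0), rhbcf6aeee2bc08482] (by decide +kernel))
noncomputable def rh3f7d7f28d118cc3b : CRef := CRef.mk (Pat.mk 0x1000000010000000100000003000000010 0x1000000010000003ff000001fe0000039f 8 10) 0 0 (step_sound _ 38 [(rh4ef25bfa5e10fc62.shift 3 0), rh806b8393a0429ef7, (rh9c94213f6896c74a.shift 3 0)] (by decide +kernel))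
noncomputable def rha16c6b111c3b7dc5 : CRef := CRef.mk (Pat.mk 0x70000000100000001000000010 0x2000000020000000f0000007e0000003e0000001400000014 8 7) 0 0 (step_sound _ 99 [(rh50fbb5868c909700.shift 3 0), rh724ea3f6246e5db1] (by decide +kernel))
noncomputable def rhf7ba0e3c65676a71 : CRef := CRef.mk (Pat.mk 0xe00000004000000000000001800000000 0x700000007f0000007e000000380000001800000010 8 7) 0 0 (step_sound _ 99 [(rh383b1f6ea4f65307.shift 2 0), (rh6292bd8784ece55f.shift 0 3), (rh7e99bad398b5e81a.shift 1 0)] (by decide +kernel))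
noncomputable def rh3be6805473adae00 : CRef := CRef.mk (Pat.mk 0x1e0000000a000000080000002800000000 0x5000000070000000700000007000000030000001e0000000e0000001f0000003800000010 8 6) 0 0 (step_sound _ 161 [(rh3244c3cc8379b070.shift 0 4), rhdbb492719a02384b] (by decide +kernel))
noncomputable def rh0ffbd7db824b5729 : CRef := CRef.mk (Pat.mk 0x200000003000000010000000000000004000000000 0x600000006000000060000001f7000001fe000000ef0000006000000060 8 9) 0 0 (step_sound _ 197 [(rh5c5e593799055d58.shift 4 3), rhbe763ab3dc6dd69c] (by decide +kernel))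
noncomputable def rhae88588f2a5a9d28 : CRef := CRef.mk (Pat.mk 0x800000008000000080000000000000008 0x40000000c0000000c000000180000007c0000001f0000001c00000018 8 7) 0 0 (step_sound _ 163 [rh3a9d7602edb76c4e, (rh5abfc4c9d959be03.shift 2 1), (rh771d065bdc85bf2d.shift 2 1), (rhc4ec57a3756c3a6c.shift 2 1)] (by decide +kernel))
noncomputable def rh8a04f7c1407242d0 : CRef := CRef.mk (Pat.mk 0x800000008000000080000001800000000 0x100000001800000008000001ff000000fe000001c4 8 9) 0 0 (step_sound _ 34 [rh715057224d925851, (rh932754581e0f4330.shift 2 0)] (by decide +kernel))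
noncomputable def rhebb6f2a1ee336db0 : CRef := CRef.mk (Pat.mk 0x800000008000000080000001c00000000 0x140000001c00000008000001ff000000fe000001c0 8 9) 0 0 (step_sound _ 130 [(rh50fbb5868c909700.shift 2 1), rh715057224d925851] (by decide +kernel))
noncomputable def rhd9953aee96d8479d : CRef := CRef.mk (Pat.mk 0x800000010000000700000001000000040000000000000000000000000 0x1800000018000000f70000007e000000df00000040000000e0000000e0000000a0 8 8) 0 0 (step_sound _ 228 [(rh50fbb5868c909700.shift 3 4), rhc61f214186eea683] (by decide +kernel))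
noncomputable def rh7c525d8c2c015be6 : CRef := CRef.mk (Pat.mk 0x100000007000000000 0x3f7000001fe0000038e 8 10) 0 0 (step_sound _ 39 [(rh2aac33c566332a8c.shift 4 0), rh3a8a7f7df86d50d1, (rh3fc3a7fb6866dcd4.shift 4 0)] (by decide +kernel))
noncomputable def rhe3763633e98d7e43 : CRef := CRef.mk (Pat.mk 0x700000001000000040000000000000000000000000 0x200000002000000e70000007e000000ff00000044000000e4000000e0000000a0 8 8) 0 0 (step_sound _ 163 [(rh15b856e33c69f807.shift 0 4), (rh33d3f1ba39b8bd00.shift 3 0), (rh724ea3f6246e5db1.shift 0 2)] (by decide +kernel))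
noncomputable def rhfc58d542a4a1a765 : CRef := CRef.mk (Pat.mk 0x800000008000000080000000000000008 0x140000001c0000001c0000007e0000007f000000780000001f0000000c00000008 8 7) 0 0 (step_sound _ 163 [(rh1741680720c097b4.shift 2 2), (rh305945700f20b255.shift 1 1), (rh4509a6c8db78986d.shift 2 0), (rh5f431d3cea859888.shift 0 1), rha9c49d7bb509054d] (by decide +kernel))
noncomputable def rhf5107ec99ddc9dbe : CRef := CRef.mk (Pat.mk 0x800000018000000080000000800000000 0x740000003f0000001f000000180000001800000010 8 7) 0 0 (step_sound _ 132 [(rh2f68792b6b779e96.shift 3 1), rhcb9add4f1eb7f0f4] (by decide +kernel))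
noncomputable def rh0e91939bf4df5d5c : CRef := CRef.mk (Pat.mk 0x3000000030000000100000001000000000 0x40000001f00000007c000000770000003e0000002f 8 9) 0 0 (step_sound _ 37 [(rh55afc6a59410cf00.shift 4 0), rhffd3895021359a57] (by decide +kernel))
noncomputable def rhc786ef4f01b7c563 : CRef := CRef.mk (Pat.mk 0x400000004000000040000000400000000 0xfa0000007f0000003f0000000c0000000c00000008 8 8) 0 0 (step_sound _ 131 [rh2d36f38a5ec6a773, (rh2f68792b6b779e96.shift 2 1)] (by decide +kernel))
noncomputable def rh3923f4807a03dbc2 : CRef := CRef.mk (Pat.mk 0x7000000018000000000000004000000000 0x20000000200000007f0000007f000001f8000000c00000004000000040 8 9) 0 0 (step_sound _ 102 [(rh0e555e8b4aaee7e2.shift 3 0), (rh343f88471d009885.shift 0 1), (rh91eb3399626b81be.shift 3 0), (rhb518acca1753e1aa.shift 0 3)] (by decide +kernel))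
noncomputable def rhf338f2e71c3bfb47 : CRef := CRef.mk (Pat.mk 0x180000001e0000000000000000 0xe0000000f0000001b0000003e0000001700000010 8 6) 0 0 (step_sound _ 33 [rhc75bcda8b3cfc0d1, (rheb0810cc63b001d8.shift 0 1)] (by decide +kernel))
noncomputable def rhccbdec3f98d3aa3c : CRef := CRef.mk (Pat.mk 0x180000000c000000000000002000000000 0x2a0000003e0000003f0000001f0000001f000000370000003200000030 8 6) 0 0 (step_sound _ 97 [(rh53b3c253cb0c65f4.shift 0 3), rh8a1fb2f2a46c2ba8] (by decide +kernel))
noncomputable def rhba83a74241658d71 : CRef := CRef.mk (Pat.mk 0x180000000c000000000000002000000000 0x2800000038000000380000001e000000ff000000770000003000000030 8 8) 0 0 (step_sound _ 97 [(rh53b3c253cb0c65f4.shift 0 3), rhe985779d8af52329] (by decide +kernel))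
noncomputable def rh08eb58b4c84ee8e1 : CRef := CRef.mk (Pat.mk 0xe0000000c00000008 0x1e0000003f0000003f0000000e0000000c00000008 8 6) 0 0 (step_sound _ 99 [(rh4017de503635a93b.shift 1 0), (rh5fa50b509d4ce753.shift 2 0), (rh7f9f3607ee25a93b.shift 2 0), (rhb54a06ec479fcef8.shift 0 1)] (by decide +kernel))
noncomputable def rh386ae643bc4cbfaf : CRef := CRef.mk (Pat.mk 0xc000000040000003c0000000c00000000 0x320000007e0000006c0000003f0000001c00000014 8 7) 0 0 (step_sound _ 99 [rh3cfc1cefa9693505, (rh932754581e0f4330.shift 2 0)] (by decide +kernel))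
noncomputable def rh886435cb628e8d92 : CRef := CRef.mk (Pat.mk 0xc00000006000000000000001000000000 0x20000000600000016000000370000007f0000007e0000003a0000001800000010 8 7) 0 0 (step_sound _ 194 [(rh060911bddda555c9.shift 0 1), (rh6ecdfec06e7e2472.shift 1 2), (rh9f2c29147641364e.shift 1 0), (rhbb5a9587afe30530.shift 1 2)] (by decide +kernel))
noncomputable def rh881b9a50ea418089 : CRef := CRef.mk (Pat.mk 0x180000000c000000000000002000000000 0x4000000040000001f0000007f000000770000003200000032 8 7) 0 0 (step_sound _ 97 [rh3787b580e98cc3e3, (rh53b3c253cb0c65f4.shift 0 3)] (by decide +kernel))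
noncomputable def rh4057c5649a02fcd5 : CRef := CRef.mk (Pat.mk 0x100000001e000000000000000000000008 0x38000000380000001f0000001e000000380000001800000008 8 6) 0 0 (step_sound _ 67 [(rh9e3edb185cc347de.shift 3 0), (rhc39d6435eefdd4ad.shift 0 1)] (by decide +kernel))
noncomputable def rh192ac48bb4cc18ee : CRef := CRef.mk (Pat.mk 0x1800000038000000000000002000000000 0x4000000040000001e0000003f000000670000002200000022 8 7) 0 0 (step_sound _ 130 [(rhb739f4f82bb681b4.shift 1 3), rhc5e1009124c0724e] (by decide +kernel))
noncomputable def rhca1a940cbc919055 : CRef := CRef.mk (Pat.mk 0xc0000001c000000000000001000000000 0x14000000770000007f0000001c000000180000001800000010 8 7) 0 0 (step_sound _ 129 [rh13486c1c169a816c, (rhb739f4f82bb681b4.shift 0 3)] (by decide +kernel))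
noncomputable def rhb4787b9ea3baf2c6 : CRef := CRef.mk (Pat.mk 0xe00000000000000000000000800000000 0x10000000300000003f0000003f00000078000000080000000800000008 8 7) 0 0 (step_sound _ 132 [(rh1f7c3fb8d030b2f3.shift 0 1), (rh3947d1dfff0afc6c.shift 0 3), rh9edeb982515330c5, (rhf9fc252bb8290774.shift 0 1)] (by decide +kernel))
noncomputable def rh0a7695c45f8ca467 : CRef := CRef.mk (Pat.mk 0x3c0000000800000000 0xe0000000f0000003e0000003c0000000e00000004 8 6) 0 0 (step_sound _ 98 [(rh3244c3cc8379b070.shift 1 2), rh445acd1a351e6a2c] (by decide +kernel))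
noncomputable def rh75ca476f94ddea04 : CRef := CRef.mk (Pat.mk 0x800000008000000080000002800000000 0x340000007f0000007e000000180000003800000030 8 7) 0 0 (step_sound _ 130 [rh1102c9cb584a8094, (rh50fbb5868c909700.shift 2 1)] (by decide +kernel))
noncomputable def rh2c41cf00ed5d9469 : CRef := CRef.mk (Pat.mk 0x200000001000000010000000500000000000000000 0x200000003000000010000000770000003e0000002f 8 7) 0 0 (step_sound _ 36 [(rhbaefcd01e0a8bca3.shift 4 1), rhd92f1551f0fdfa3f] (by decide +kernel))
noncomputable def rh85f6ebb56b0a9599 : CRef := CRef.mk (Pat.mk 0x400000004000000040000001c 0x34000000340000007f0000007f0000001c 8 7) 0 0 (step_sound _ 35 [rh0954a71b97d09f2b, (rh2145e1d24b96a57e.shift 2 0)] (by decide +kernel))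
noncomputable def rhd05f886cdec46572 : CRef := CRef.mk (Pat.mk 0x40000000c000000040000001400000000 0x180000003c0000003f0000000f0000001c00000018 8 6) 0 0 (step_sound _ 131 [(rh2f68792b6b779e96.shift 2 1), rh3ef72ee7af504b6b] (by decide +kernel))
noncomputable def rh6a18c03acd14d392 : CRef := CRef.mk (Pat.mk 0x400000004000000040000001c00000000 0x1c0000003c0000003f0000000f0000001c00000010 8 6) 0 0 (step_sound _ 67 [(rh2145e1d24b96a57e.shift 2 1), rh5e7256c70c6d3c56] (by decide +kernel))
noncomputable def rh08edc9e7b0a29a3e : CRef := CRef.mk (Pat.mk 0xc00000004000000140000000400000000 0x720000007f0000003f0000001c0000000c00000008 8 7) 0 0 (step_sound _ 129 [rh31ddac2e8ed7a09f, (rh50fbb5868c909700.shift 1 1)] (by decide +kernel))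
noncomputable def rh3b0dc6ac008667cd : CRef := CRef.mk (Pat.mk 0x1800000008000000080000000800000000 0xe4000000fe0000007f000000080000000c00000004 8 8) 0 0 (step_sound _ 130 [rh2406511ecf80fd92, (rh50fbb5868c909700.shift 2 1)] (by decide +kernel))
noncomputable def rh4cf22c10e8d4b7e6 : CRef := CRef.mk (Pat.mk 0x180000001000000050000000000000000000000000 0x10000000180000003e000000770000003e0000003f00000008 8 7) 0 0 (step_sound _ 68 [(rh6477e5cdd5dd07fb.shift 1 1), (rhd92f1551f0fdfa3f.shift 0 1), (rhe4441baab75a6f73.shift 3 0)] (by decide +kernel))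
noncomputable def rhc6d6bedd644547c5 : CRef := CRef.mk (Pat.mk 0x180000001000000050000000000000000000000000 0x30000000f80000001c000000770000003e0000003f00000008 8 8) 0 0 (step_sound _ 68 [(rh4a2c29906411e3f2.shift 2 1), (rhd92f1551f0fdfa3f.shift 0 1), (rhe4441baab75a6f73.shift 3 0)] (by decide +kernel))
noncomputable def rhb88402c7634913f9 : CRef := CRef.mk (Pat.mk 0x1c0000000c000000080000002800000000 0x200000002000000030000001f0000007f0000006f0000003800000030 8 7) 0 0 (step_sound _ 97 [(rh53b3c253cb0c65f4.shift 0 3), rha9eb7ecbe57edd30] (by decide +kernel))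
noncomputable def rh1b03c48d0eb3d9ea : CRef := CRef.mk (Pat.mk 0x1c0000000e000000080000002000000000 0x8000000080000001f0000007e0000007f0000002300000023 8 7) 0 0 (step_sound _ 100 [(rh57356921bb808803.shift 2 0), (rh9f93e2b24091a43d.shift 1 2), rhf53205eaedf8267e] (by decide +kernel))
noncomputable def rh2581866dd197ac18 : CRef := CRef.mk (Pat.mk 0x3800000010000000100000001000000000 0x387000001fe000003ff000000100000001800000008 8 10) 0 0 (step_sound _ 35 [(rh0c17524af180dbb4.shift 0 3), (rh932754581e0f4330.shift 3 0)] (by decide +kernel))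
noncomputable def rh79e1194ba4b8d231 : CRef := CRef.mk (Pat.mk 0x18000000100000005000000000 0x2000000028000003ff000001fe000003df0000005000000040 8 10) 0 0 (step_sound _ 101 [(rh08f78c9b6a7123e9.shift 2 0), (rh115612bb4ee9993a.shift 2 1), (rh20238e41a74040ab.shift 0 2), (rh8a3bf51b49c40fef.shift 0 1), (rheb0f9d555ed888e9.shift 2 0), (rhef73e93368eb7f5c.shift 2 0)] (by decide +kernel))
noncomputable def rhf72b13ea2dc88416 : CRef := CRef.mk (Pat.mk 0x1e00000010000000140000000000000000 0x60000003f0000001f0000001c0000000f0000000a 8 6) 0 0 (step_sound _ 99 [(rhb739f4f82bb681b4.shift 0 3), rhff2b9ad6661b56e9] (by decide +kernel))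
noncomputable def rhf215b4e80b64703d : CRef := CRef.mk (Pat.mk 0x1e0000001000000028000000000000000000000000 0x80000000f0000001e0000001f000000380000001e0000001c00000004 8 6) 0 0 (step_sound _ 129 [rh12856764285a88fa, (rheb0810cc63b001d8.shift 0 4)] (by decide +kernel))
noncomputable def rhd2d63192949c6491 : CRef := CRef.mk (Pat.mk 0x1c00000000000000200000000000000000 0x4000000070000001fc000000fe000001f7000000300000003000000020 8 9) 0 0 (step_sound _ 133 [(rh0837bf74ccc9ef48.shift 1 1), (rh1317c6ea28e6bacd.shift 2 1), (rh22de5993038d04b0.shift 1 1), (rhd45e3ae46e6d7252.shift 2 1), (rheb100aab8ed4573d.shift 1 0), (rhed0e049269683b8d.shift 0 3)] (by decide +kernel))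
noncomputable def rhdc30226bcb2b3c47 : CRef := CRef.mk (Pat.mk 0x1c00000000000000200000000000000000 0x1de000000fe000001f7000000200000002000000020 8 9) 0 0 (step_sound _ 133 [(rh45f730bcf36fcf64.shift 1 3), (rhc17f861d2679f45c.shift 0 1), (rheb100aab8ed4573d.shift 1 0)] (by decide +kernel))
noncomputable def rh87fd15e60b2df632 : CRef := CRef.mk (Pat.mk 0x3800000000000000500000000000000000 0x370000007e000000ff000000700000003c00000028 8 8) 0 0 (step_sound _ 130 [(rh08d878f740f6890a.shift 1 0), (rh42d32bf970c9c157.shift 1 3), (rh592c7139d2c44767.shift 0 3)] (by decide +kernel))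
noncomputable def rhafc944b10edc7f81 : CRef := CRef.mk (Pat.mk 0x180000000000000050000000000000000000000000 0x2000000060000001ef000000fe000000ff00000070000000780000005800000008 8 9) 0 0 (step_sound _ 165 [(rh0345604f9dd81c00.shift 0 1), (rh0ac366295e5dc4df.shift 2 2), (rh11dc20e5a0378c82.shift 0 2), (rh1260a033a9ffa8a4.shift 0 2), (rh33d2ac197510fc74.shift 1 1), (rh6a5ed51e7edf5fdc.shift 2 2), rh93f002782d3a6993] (by decide +kernel))
noncomputable def rh68ec5d95f9d1abd2 : CRef := CRef.mk (Pat.mk 0xc000000080000002800000000 0x100000001c0000007e0000007f000000780000003800000030 8 7) 0 0 (step_sound _ 131 [(rh8b730aa53a771109.shift 1 0), (rhced6d86d2069808b.shift 3 0), rhec9768a6e44eac8b] (by decide +kernel))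
noncomputable def rh2a341ac14c5b8d6b : CRef := CRef.mk (Pat.mk 0x400000004000000040000001400000000 0xe0000000f0000003c0000000f0000001c00000018 8 6) 0 0 (step_sound _ 35 [(rh55afc6a59410cf00.shift 2 0), rh608d2c1be0dbd8a4] (by decide +kernel))
noncomputable def rh156cb2af3f7c7c5b : CRef := CRef.mk (Pat.mk 0x4000000060000000c0000001c000000000000000000000000 0x80000000c0000003e0000003f0000001c000000300000003000000030 8 6) 0 0 (step_sound _ 195 [(rh2f68792b6b779e96.shift 2 3), rhb883a8a19fe5b6cc] (by decide +kernel))
noncomputable def rhad1ca36b18ae3f16 : CRef := CRef.mk (Pat.mk 0x1800000010000000500000000000000000 0x80000001800000010000000770000003e0000002f 8 7) 0 0 (step_sound _ 36 [(rh50fbb5868c909700.shift 3 1), rhd92f1551f0fdfa3f] (by decide +kernel))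
noncomputable def rh62df4ca4cb2581ec : CRef := CRef.mk (Pat.mk 0x100000001000000050000000000000000000000000 0x300000003000000030000000770000003e0000003f00000028 8 7) 0 0 (step_sound _ 68 [(rh15f443a9a462a99b.shift 2 1), (rh6c59ce14113da07f.shift 4 0), (rhcab3157f7bdcba3e.shift 3 0), (rhd92f1551f0fdfa3f.shift 0 1)] (by decide +kernel))
noncomputable def rh3ccbc609178fda8d : CRef := CRef.mk (Pat.mk 0xc0000000800000028000000000000000000000000 0x1f0000000fe000001ff000000280000002c0000000c00000004 8 9) 0 0 (step_sound _ 67 [(rh7ffa779f303e6e3b.shift 0 2), (rhcab3157f7bdcba3e.shift 2 0), (rhd5f3672bdd02e5db.shift 1 1), (rhe4441baab75a6f73.shift 2 0)] (by decide +kernel))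
noncomputable def rh09db03e9943db905 : CRef := CRef.mk (Pat.mk 0x3000000060000000a000000000000000000000000 0xe0000001e0000000f0000001e0000000e0000003c0000001c00000018 8 6) 0 0 (step_sound _ 131 [rhbf03ffe2e8ac186b, (rhf48373e13d2bc128.shift 0 4)] (by decide +kernel))
noncomputable def rh8cd27bcf574a3df3 : CRef := CRef.mk (Pat.mk 0x1800000010000000500000000000000000 0xa0000000a0000003ff000001fe000003df00000070000001e0000000a0 8 10) 0 0 (step_sound _ 133 [(rh14b35b7f09ea2ac4.shift 0 1), (rh1fd9915b19fe5aad.shift 0 1), (rh20238e41a74040ab.shift 0 3), (rh29cdd0712f7a9dc2.shift 2 0), (rh8a3bf51b49c40fef.shift 0 2), (rhcb622b47ab969dd6.shift 2 0)] (by decide +kernel))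
noncomputable def rhe89cf3588560b8e7 : CRef := CRef.mk (Pat.mk 0xc000000080000000800000000 0x140000001c0000001c000000180000007c0000000f0000001c0000001800000010 8 7) 0 0 (step_sound _ 131 [(rh0f88566f1a09c677.shift 0 1), (rh6cda5be507bbac2a.shift 2 0), (rh7c90ebdd31e24436.shift 2 1), (rhced6d86d2069808b.shift 3 0)] (by decide +kernel))
noncomputable def rhb92057a14a8f59f8 : CRef := CRef.mk (Pat.mk 0xe00000018000000280000000000000000 0xef000000fe0000001f000000380000001000000010 8 8) 0 0 (step_sound _ 68 [(rh55a1f6c57a317ce6.shift 3 0), (rhc7aca66b9993ba9d.shift 0 2)] (by decide +kernel))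
noncomputable def rh7c355845136540ef : CRef := CRef.mk (Pat.mk 0x3000000060000000a0000000000000000 0xc0000001c0000003f0000001f0000000e0000003c0000001c 8 6) 0 0 (step_sound _ 99 [(rhf48373e13d2bc128.shift 0 3), rhff8b9f09bbf66651] (by decide +kernel))
noncomputable def rhe87be6ca2e581b4d : CRef := CRef.mk (Pat.mk 0xf000000000000000800000000 0x140000001c0000001c000000180000000f0000001c0000000c00000004 8 5) 0 0 (step_sound _ 67 [rh3a1321e80b23d298, (rhe25b0a99195a5d59.shift 0 2)] (by decide +kernel))
noncomputable def rh09d9155e06a661c5 : CRef := CRef.mk (Pat.mk 0x1c000000060000000400000018000000000000000000000000 0x100000001e0000003e0000003f00000018000000300000003000000030 8 6) 0 0 (step_sound _ 131 [(rh198ec020432d296e.shift 1 3), (rh85e0f5cc78e9cbe0.shift 3 2), rhb883a8a19fe5b6cc] (by decide +kernel))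
noncomputable def rhd1d822f7ef5b1050 : CRef := CRef.mk (Pat.mk 0xf0000000000000004 0x100000001c0000001c0000000c0000001c0000000f0000001c00000004 8 5) 0 0 (step_sound _ 99 [(rh33e738c4ed385b9f.shift 0 2), rhefc3a9cdd03ff119] (by decide +kernel))
noncomputable def rh4ef16ce6e68696a8 : CRef := CRef.mk (Pat.mk 0xc00000008000000140000000000000000 0x300000007f0000007e0000001c0000007800000038 8 7) 0 0 (step_sound _ 100 [(rh48e4dd4a6247bc52.shift 1 0), (rh4ca5dae25f5c14ff.shift 0 3), rh50720b69fae6d0e6, (rhdeca8db941583de2.shift 0 3)] (by decide +kernel))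
noncomputable def rh1b76276f217ac5bb : CRef := CRef.mk (Pat.mk 0x10000000180000000800000028000000000000000000000000 0x18000000ff000001ff00000038000000300000001000000010 8 9) 0 0 (step_sound _ 100 [(rh046c5eb18e55a239.shift 3 0), (rh55e3f09137f3062a.shift 0 2), (rh84e3b31efd5ce10d.shift 0 2)] (by decide +kernel))
noncomputable def rh66d42483be47dcf1 : CRef := CRef.mk (Pat.mk 0x300000001000000050000000000000000000000000 0x3000000030000000770000003e0000003f00000028 8 7) 0 0 (step_sound _ 68 [(rh8c3839f9b9075f23.shift 4 0), (rha8bc3cae4d77a08f.shift 3 0), (rhd92f1551f0fdfa3f.shift 0 1)] (by decide +kernel))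
noncomputable def rhd19d31b13e48b44b : CRef := CRef.mk (Pat.mk 0x3000000010000000500000000000000000 0x200000003000000010000000770000003e0000002f 8 7) 0 0 (step_sound _ 36 [(rh2f68792b6b779e96.shift 4 1), rhd92f1551f0fdfa3f] (by decide +kernel))
noncomputable def rh7018a0011c412a3f : CRef := CRef.mk (Pat.mk 0x400000007000000000 0x76f000003fe0000039f 8 11) 0 0 (step_sound _ 35 [(rh066e00cb98e43031.shift 2 0), (rh2591032a0e7f4182.shift 1 0), rh551591afa7e9bd9a, (rh775ca1963e850b80.shift 1 0), (rh7fb660bc21ce4329.shift 1 1)] (by decide +kernel))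
noncomputable def rhdd9761ac388fc631 : CRef := CRef.mk (Pat.mk 0x8000000080000000c00000000 0x140000001c0000001f0000003f0000003f0000001c0000001c00000008 8 6) 0 0 (step_sound _ 131 [(rh26de692f03d4cb57.shift 0 1), (rh32e32f03ae89b559.shift 2 0), (rhc23ec26ef2c84235.shift 2 1), (rhe16036ff578a11df.shift 2 1), (rhe62cab2ff5ad6fe2.shift 2 1)] (by decide +kernel))
noncomputable def rh073b5d8dca271bdb : CRef := CRef.mk (Pat.mk 0x200000007000000000 0x3f7000001fe0000038e 8 10) 0 0 (step_sound _ 39 [rh11780c0acc16ab08, (rh3fc3a7fb6866dcd4.shift 4 0), (rh75c6fff53e4cbd6e.shift 4 0)] (by decide +kernel))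
noncomputable def rh5a60ead3bb8ecb8c : CRef := CRef.mk (Pat.mk 0xe000000080 0xe000000fe000001ff 8 9) 0 0 (step_sound _ 36 [rh20c4d2a5d3665060, (rhe25b0a99195a5d59.shift 4 0)] (by decide +kernel))
noncomputable def rhe3d51701f00b224b : CRef := CRef.mk (Pat.mk 0x70000000400000005000000000000000000000000 0x50000000700000007000000770000003e0000007e00000008 8 7) 0 0 (step_sound _ 66 [(rh3058b7020828739c.shift 0 1), (rha613ffd40b6c9d24.shift 1 0), (rhc4f46c33f5dbf83b.shift 0 1)] (by decide +kernel))
noncomputable def rhdc640ecac38f286a : CRef := CRef.mk (Pat.mk 0x40000003800000008000000000000006000000040 0x60000003c000000080000000f0000007e000000e7 8 8) 0 0 (step_sound _ 130 [(rh3244c3cc8379b070.shift 1 4), rhab0776b498c641ba] (by decide +kernel))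
noncomputable def rhf4f2cd73e73cbe3f : CRef := CRef.mk (Pat.mk 0xc0000000c000000050000000000000000 0xc0000000c000000770000003e0000007e 8 7) 0 0 (step_sound _ 34 [rh3058b7020828739c, (rh71222050f2c63a3a.shift 2 0)] (by decide +kernel))
noncomputable def rh0cb5e592f3c6a269 : CRef := CRef.mk (Pat.mk 0x380000000000000040000000000000000000000000 0x1f7000000fe000000e000000040000000e0000000e0000000a0 8 9) 0 0 (step_sound _ 162 [(rh257411a10614b6c1.shift 2 0), (rh4c622fddc53a5f99.shift 0 5), (rhff137c455409f0e3.shift 2 2)] (by decide +kernel))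
noncomputable def rh8060b30c34762a50 : CRef := CRef.mk (Pat.mk 0x380000000000000040000000000000000000000000 0x270000007e000000e700000040000000e0000000e0000000a0 8 8) 0 0 (step_sound _ 162 [(rh257411a10614b6c1.shift 2 0), (rh775ca1963e850b80.shift 0 4)] (by decide +kernel))
noncomputable def rh43c5cbb4915750e2 : CRef := CRef.mk (Pat.mk 0x1e0000000000000010000000000000000000000000 0x300000001e0000003b00000018000000380000003800000020 8 6) 0 0 (step_sound _ 129 [(rhb1c7da47e5f900c4.shift 1 0), (rheb0810cc63b001d8.shift 0 4)] (by decide +kernel))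
noncomputable def rh1975a4f1936e255e : CRef := CRef.mk (Pat.mk 0x1e000000100000001000000000 0x6000000070000001e0000001f0000003700000006 8 6) 0 0 (step_sound _ 65 [rhb2a803517a35277d, (rheb0810cc63b001d8.shift 0 2)] (by decide +kernel))
noncomputable def rhd017e5d05bc63a95 : CRef := CRef.mk (Pat.mk 0x4000000060000000c0000000a000000000000000000000000 0x20000001b0000003e0000003e0000003e0000000e000000040000000400000004 8 6) 0 0 (step_sound _ 98 [(rh1202761e242e38e5.shift 1 0), (rh346e1a3094edffb9.shift 0 3), (rhf9a6286f1d5377a2.shift 1 2)] (by decide +kernel))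
noncomputable def rh709d740bed09ae1a : CRef := CRef.mk (Pat.mk 0xc0000000800000014000000000000000000000000 0x100000001c0000001c0000001c0000007c0000001f0000000c0000001c000000180000001800000010 8 7) 0 0 (step_sound _ 99 [(rh4393124d97fc5bce.shift 0 2), (rh817d4ba7eecccf7e.shift 2 2), (rh9e8522832c55f6c5.shift 2 2), (rhd1779d7de7f8215b.shift 2 0), (rhf9a6286f1d5377a2.shift 2 2)] (by decide +kernel))
noncomputable def rh650b6c88aa340ec5 : CRef := CRef.mk (Pat.mk 0x70000000400000008000000000000000000000000 0x1c0000001c000000fe0000007f0000007c000000080000001c0000001c00000014 8 8) 0 0 (step_sound _ 163 [(rh139c71ebfc6675d8.shift 0 4), rh33d3f1ba39b8bd00, rh7bf29ad584746bc0, (rhf3be144f86c87e65.shift 0 2)] (by decide +kernel))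
noncomputable def rhfa2c1fa607b1b044 : CRef := CRef.mk (Pat.mk 0xc0000000400000014000000000000000000000000 0x80000000e0000000e0000001e0000003c0000000f0000001f0000001c000000180000001000000010 8 6) 0 0 (step_sound _ 194 [(rh0386a6bf77289b72.shift 0 2), (rh20e56a1196e70fcc.shift 1 2), rh3bd6123e7a842bd9, (rh6141f9a78e6afc9e.shift 1 3), (rhced6d86d2069808b.shift 2 2)] (by decide +kernel))
noncomputable def rh7687fb18a17ebb5a : CRef := CRef.mk (Pat.mk 0x40000000c000000040000001400000000 0x140000003c0000003f0000000f0000001c00000018 8 6) 0 0 (step_sound _ 35 [(rh55afc6a59410cf00.shift 2 0), rhf0f83295c0c6a6d6] (by decide +kernel))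
noncomputable def rh6c2288d31b639b93 : CRef := CRef.mk (Pat.mk 0x80000000c000000040000001800000000 0x740000007c0000003c0000001f0000001800000010 8 7) 0 0 (step_sound _ 67 [(rh2ca417210cbe039e.shift 0 1), (rh55afc6a59410cf00.shift 3 0)] (by decide +kernel))
noncomputable def rhbf9b44d674263f0f : CRef := CRef.mk (Pat.mk 0x6000000020000000e000000000000000000000000 0x7a0000003e0000007b0000000e0000000c0000000400000004 8 7) 0 0 (step_sound _ 66 [(rh2145e1d24b96a57e.shift 1 2), rhd3cc6e0e506e7201] (by decide +kernel))
noncomputable def rh12b6ddcb95fbed41 : CRef := CRef.mk (Pat.mk 0x18000000080000002800000000 0x1000000010000001f0000000fe000001ff0000002800000020 8 9) 0 0 (step_sound _ 132 [rh46cfce042afcb7c3, (rh69755ef358ebfd54.shift 3 1), rh8ea7cc5a8f344736] (by decide +kernel))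
noncomputable def rh7cb421097af52dd8 : CRef := CRef.mk (Pat.mk 0x2000000020000000200000002 0x100000003000000070000000600000007000000070000000700000006 8 3) 0 0 (step_sound _ 130 [rh7c8adad5c2b1d8f7, (rhbaefcd01e0a8bca3.shift 1 0)] (by decide +kernel))
noncomputable def rhf6855f624a209376 : CRef := CRef.mk (Pat.mk 0xe00000010000000000000000600000002 0x700000003e00000030000000100000003e00000077 8 7) 0 0 (step_sound _ 132 [rh9bb8cf3050b876c3, (rhe25b0a99195a5d59.shift 1 3)] (by decide +kernel))
noncomputable def rh0aea1383914453af : CRef := CRef.mk (Pat.mk 0x18000000020000000a00000006000000010000000000000000 0x10000000180000001a0000000a0000001e0000001b0000001f00000014 8 5) 0 0 (step_sound _ 65 [rh0287e5fd92b580aa, (rh932754581e0f4330.shift 0 1)] (by decide +kernel))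
noncomputable def rh131333499c9413e3 : CRef := CRef.mk (Pat.mk 0x8000000080000000800000008000000000000000000000000 0x80000001c0000003c0000000f0000001c0000001c0000001c 8 6) 0 0 (step_sound _ 67 [(rh7928877f9bf74a91.shift 2 1), (rh8cdd36b03d57a2f6.shift 2 0), rha9036ee088616a5e] (by decide +kernel))
noncomputable def rh08f7cf7635d16c3f : CRef := CRef.mk (Pat.mk 0x100000001000000010000000000000000000000000 0x2f0000007e000000ff00000010000000180000001800000008 8 8) 0 0 (step_sound _ 68 [(rh6ee3d32a195f1a68.shift 0 2), (rhc4526fc8abf298b6.shift 3 0), (rhcab3157f7bdcba3e.shift 3 0)] (by decide +kernel))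
noncomputable def rh18ddf198229dcb35 : CRef := CRef.mk (Pat.mk 0x80000000a0000000a00000006000000010000000000000000 0x10000000180000001a0000000a0000001e0000001b0000001f00000014 8 5) 0 0 (step_sound _ 65 [rh60664d5181b9ed71, (rh932754581e0f4330.shift 0 1)] (by decide +kernel))
noncomputable def rh680a174d171f178d : CRef := CRef.mk (Pat.mk 0x4000000040000000500000000000000000000000000000000 0x80000000c0000000c000000770000003e0000007e0000000e0000000a 8 7) 0 0 (step_sound _ 98 [(rh1a6b2475faaa177a.shift 0 2), (rh367118e0bf0473e0.shift 1 1), (rh6c59ce14113da07f.shift 2 1), (rh8cdd36b03d57a2f6.shift 1 1), (rh95311890f436bcdc.shift 1 0)] (by decide +kernel))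
noncomputable def rh00d6233c7395182f : CRef := CRef.mk (Pat.mk 0xe00000000000000080000000000000008 0x1400000014000000ff0000007e000000f8000000080000000800000008 8 8) 0 0 (step_sound _ 132 [(rh45f730bcf36fcf64.shift 0 3), (rha93a5dd541ab8209.shift 1 3), (rhb18e6c78a554867d.shift 0 4), (rhb705031692dfe65f.shift 1 1), rhd8ef2554399fa231] (by decide +kernel))
noncomputable def rh11486e158f07d072 : CRef := CRef.mk (Pat.mk 0x7800000000 0x77000000fe000001ce 8 9) 0 0 (step_sound _ 7 [(rh96851dee118c1ba3.shift 3 0), rhe5658f65a0eb2463] (by decide +kernel))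
noncomputable def rhc34eeb5d230f7f3e : CRef := CRef.mk (Pat.mk 0x70000000000000004000000000 0x20000000200000007f000001fe000001ce0000004000000040 8 9) 0 0 (step_sound _ 99 [(rh00c1a02c588da1b0.shift 3 0), (rh592c7139d2c44767.shift 1 2), (rhaeac014a58998cf3.shift 0 2), (rhd955a0402bd7b38f.shift 1 2), rheaea716f222a54b6] (by decide +kernel))
noncomputable def rh3521467c6938cb29 : CRef := CRef.mk (Pat.mk 0x4000000060000000000000008000000000000000800000000 0x340000003c000000ff0000007e0000007800000018000000180000000800000008 8 8) 0 0 (step_sound _ 163 [rh848731a23411c1a7, (rh95a80f84f48ac358.shift 2 2), (rha06d18d7fffe56ca.shift 0 2), (rhd0ee659b92444cce.shift 0 2), (rhdc7b8648eed4c80d.shift 0 3)] (by decide +kernel))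
noncomputable def rh2a0fb091ad7417f9 : CRef := CRef.mk (Pat.mk 0x5000000010000000500000000000000000 0x3a0000001f000000398000000770000003e0000002f 8 10) 0 0 (step_sound _ 36 [(rh15c2321f8ed670ce.shift 3 1), rh333ab359bc9d6b4c] (by decide +kernel))
noncomputable def rhd1b81f45d5409315 : CRef := CRef.mk (Pat.mk 0x80000000800000008000000000000001800000000 0x80000000800000008000000ef0000007e000000ef 8 8) 0 0 (step_sound _ 34 [rh067465eba1292af8, (rh343a5d3670c5295a.shift 2 0), (rh9075e8e077f682b0.shift 1 0), (rhfe2ef4df6d347c09.shift 1 0)] (by decide +kernel))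
noncomputable def rhf4068f5c0235a19e : CRef := CRef.mk (Pat.mk 0x400000000000000070000000000000000000000000 0x4000000040000003ce000000fe000000770000002000000020 8 10) 0 0 (step_sound _ 134 [(rh104f927035e61ec9.shift 0 2), (rh281c6819542c66e6.shift 5 0), (rha11dfd15f08f96e3.shift 3 3)] (by decide +kernel))
noncomputable def rh4e0b704cfdcfcdf9 : CRef := CRef.mk (Pat.mk 0x8000000000000000e00000000000000000000000000000000 0x8000000780000003e00000077000000380000003800000028 8 7) 0 0 (step_sound _ 132 [(rh06db8ceda6269a47.shift 0 3), (rh27ce058b59d72f64.shift 0 3), (rhaa2eec4b46aa3a46.shift 1 0)] (by decide +kernel))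
noncomputable def rhb4840319d1e02ec9 : CRef := CRef.mk (Pat.mk 0x1e0000001800000000000000000000000000000000 0x30000001e0000001f00000007000000070000000700000001 8 5) 0 0 (step_sound _ 129 [rh5ac81adb47b5a2ce, (rheb0810cc63b001d8.shift 0 4)] (by decide +kernel))
noncomputable def rhbe017b2a4686d290 : CRef := CRef.mk (Pat.mk 0xc0000000c0000000000000004 0x1e0000003f0000003f0000000c0000000c0000000400000004 8 6) 0 0 (step_sound _ 131 [(rh9e3edb185cc347de.shift 2 0), (rhb54a06ec479fcef8.shift 0 2)] (by decide +kernel))
noncomputable def rhdc40e75446872ccf : CRef := CRef.mk (Pat.mk 0x280000000800000008 0x140000001c0000001c0000001c0000001c0000001f000000f8000001dc00000008 8 9) 0 0 (step_sound _ 99 [(rh1c77ecd867cfbd4a.shift 2 0), (rh674a3bab5c1a0de5.shift 2 0), (rh8f78aba0d3603b93.shift 2 0), (rhc85cc95794737cf7.shift 2 0), rhd5d193521cc593a5] (by decide +kernel))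
noncomputable def rhc0568ac7dfcc6b1b : CRef := CRef.mk (Pat.mk 0x280000000800000008 0x140000001c0000001c0000001c0000001c000001df000000f8000001dc00000008 8 9) 0 0 (step_sound _ 99 [(rh674a3bab5c1a0de5.shift 2 0), (rh68039b9f7987257b.shift 2 0), (rh8f78aba0d3603b93.shift 2 0), (rhc85cc95794737cf7.shift 2 0), rhd5d193521cc593a5] (by decide +kernel))
noncomputable def rh217e99b1ba8c2002 : CRef := CRef.mk (Pat.mk 0x2000000020000000a0000000a0000000600000003 0x3d0000001f0000007a0000001f0000000a0000001e0000000b 8 7) 0 0 (step_sound _ 35 [rh18965a982d73c794, rh35b9bf5acbcf4891] (by decide +kernel))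
noncomputable def rhccbb4d05a8275ce2 : CRef := CRef.mk (Pat.mk 0x1000000004000000140000001400000000 0x20000007e0000003e000000740000007f0000001c00000008 8 7) 0 0 (step_sound _ 130 [rh0d31c529c011c9c2, (rh5abfc4c9d959be03.shift 1 0), (rh9f1ff6a5f1324a28.shift 1 1), (rhd16fa635aa96ef56.shift 1 0), (rhe631a10314cdc015.shift 1 0)] (by decide +kernel))
noncomputable def rhbe2e2705e2f938ba : CRef := CRef.mk (Pat.mk 0xa000000020000000a0000000a 0x740000003e0000007f0000000a0000000a0000000a 8 7) 0 0 (step_sound _ 130 [(rhbaefcd01e0a8bca3.shift 1 0), rhd3dc39e4726db49b] (by decide +kernel))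
noncomputable def rh1cfb6e5374208f69 : CRef := CRef.mk (Pat.mk 0x1000000004000000140000001400000000 0xa0000006e0000003e000000740000007f0000001c00000008 8 7) 0 0 (step_sound _ 130 [rh0d31c529c011c9c2, (rh1741680720c097b4.shift 1 1), (rh5abfc4c9d959be03.shift 1 0), (rhe631a10314cdc015.shift 1 0)] (by decide +kernel))
noncomputable def rh15796d2d34ac7730 : CRef := CRef.mk (Pat.mk 0xa0000000a0000000200000002000000000000000000000000 0x7a0000001f0000000600000003000000070000000700000004 8 7) 0 0 (step_sound _ 64 [rh4fa469685d34aac5, (rh79877ebd3ef475dd.shift 0 2)] (by decide +kernel))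
noncomputable def rhbb408a8736c6d724 : CRef := CRef.mk (Pat.mk 0x2000000020000000200000002 0x50000000700000007000000070000000700000006000000060000000600000002 8 3) 0 0 (step_sound _ 129 [(rh44f453b84f013105.shift 1 0), (rh66ee4e4e1313f0fc.shift 0 1), (rhc85cc95794737cf7.shift 0 1), rhd660c73563d5b0d0] (by decide +kernel))
noncomputable def rh6de2f887e560e3a9 : CRef := CRef.mk (Pat.mk 0x400000004000000040000000400000000 0x7a0000007f0000007e0000001c0000000c00000008 8 7) 0 0 (step_sound _ 131 [(rh2f68792b6b779e96.shift 2 1), rha1a141ffbbdd3373] (by decide +kernel))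
noncomputable def rh0327eb2dfdcc5fa0 : CRef := CRef.mk (Pat.mk 0xa000000020000000a0000000a000000020000000000000000 0x3d0000001f000000320000001a0000000a000000030000000300000001 8 6) 0 0 (step_sound _ 32 [rh618a84b2ae90a53c, (rh79877ebd3ef475dd.shift 0 1)] (by decide +kernel))
noncomputable def rhe62b1c5762fa02bb : CRef := CRef.mk (Pat.mk 0x700000001000000000000000000000000 0x80000003c0000001f0000003f0000001c0000001c00000018 8 6) 0 0 (step_sound _ 131 [(rh3fc3a7fb6866dcd4.shift 0 3), rh4d4c255a162f3729, (rhd584a578337d0023.shift 0 3), (rhf3baec4a0a3dd35e.shift 0 3)] (by decide +kernel))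
noncomputable def rh1b365923bf53c7fe : CRef := CRef.mk (Pat.mk 0xf00000000000000000000000400000004 0x100000001c0000001c0000001c0000000f0000001c000000080000000c00000004 8 5) 0 0 (step_sound _ 99 [rh90b133bab17a7c04, (rhe25b0a99195a5d59.shift 0 3)] (by decide +kernel))
noncomputable def rh0fd246131828dcf9 : CRef := CRef.mk (Pat.mk 0xe0000000000000000 0x1000000038000000380000007f0000003e0000007800000010 8 7) 0 0 (step_sound _ 68 [rh5e730fc4234279e6, (rha93a5dd541ab8209.shift 1 1), (rhb18e6c78a554867d.shift 0 2), (rhe401600d466b97cd.shift 0 1)] (by decide +kernel))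
noncomputable def rh996885f3bb245fd1 : CRef := CRef.mk (Pat.mk 0x1e0000001000000000 0x280000003800000038000000fc0000003f0000001e0000001800000018 8 8) 0 0 (step_sound _ 100 [rh25f8246be790ad66, (rh33e738c4ed385b9f.shift 1 2)] (by decide +kernel))
noncomputable def rh74f16307d472c1bb : CRef := CRef.mk (Pat.mk 0x180000000a0000000a0000000000000000000000000000000000000000 0x10000000180000000f0000000e0000007c000000180000001c0000001c00000014 8 7) 0 0 (step_sound _ 131 [(rh2f68792b6b779e96.shift 3 4), rhe92e3876332d1c62] (by decide +kernel))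
noncomputable def rhb8efad548af926b0 : CRef := CRef.mk (Pat.mk 0x80000000a0000000800000000000000000000000000000000 0x10000000780000001f0000000c000000180000001c0000001c00000004 8 7) 0 0 (step_sound _ 196 [(rh0b786d94a31538a6.shift 0 5), (rh3820f35d5e705bec.shift 3 1), rhfa7f419e9e908d05] (by decide +kernel))
noncomputable def rhabdcd9af70d70cf3 : CRef := CRef.mk (Pat.mk 0xf0000000300000000000000000000000000000000 0x180000000f0000001f0000001c0000001c0000001c00000010 8 5) 0 0 (step_sound _ 131 [rhc51dc637e0a097eb, (rhe25b0a99195a5d59.shift 0 4)] (by decide +kernel))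
noncomputable def rhed031fc432258bdf : CRef := CRef.mk (Pat.mk 0x80000002800000028000000000000001800000000 0x80000002800000028000001ef000000fe000001ef 8 9) 0 0 (step_sound _ 34 [(rh343a5d3670c5295a.shift 2 0), rh5d3abd577faa14f2, (rh6af0d2fe1336a515.shift 1 0), (rh8e6fc4330c105df7.shift 1 0)] (by decide +kernel))
noncomputable def rh17345e286309aa1a : CRef := CRef.mk (Pat.mk 0x200000002000000020000000200000000000000000 0x3000000030000000ff000000fe0000005f00000008 8 8) 0 0 (step_sound _ 68 [(rh932754581e0f4330.shift 4 1), rhdc74a5e8f478aba0] (by decide +kernel))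
noncomputable def rh65712efb7eb55ce6 : CRef := CRef.mk (Pat.mk 0x30000000100000001000000010 0x1cf000001fe000003f70000001000000010 8 10) 0 0 (step_sound _ 99 [(rh389729f5258e1edc.shift 0 2), (rh50fbb5868c909700.shift 3 0)] (by decide +kernel))
noncomputable def rh6da3e570e08afacc : CRef := CRef.mk (Pat.mk 0x800000008000000080000000000000000 0x140000001c0000001c0000001c0000001f0000003800000018000000180000000800000008 8 6) 0 0 (step_sound _ 163 [(rh1741680720c097b4.shift 2 2), (rh2726962e49a46af1.shift 0 1), (rh66ee4e4e1313f0fc.shift 2 2), (rh8e2aac60c4a01220.shift 2 0), (rhcc3831a752ee843c.shift 2 1)] (by decide +kernel))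
noncomputable def rh8a43a98a0bd1d61a : CRef := CRef.mk (Pat.mk 0x400000004000000140000000000000000000000000000000000000000 0x4000000040000000c0000000c0000001c0000000f0000000e0000000e0000000e0000000a 8 5) 0 0 (step_sound _ 130 [(rh6eff4158bb400f47.shift 1 2), (rh9c6ef0ba0f8edd71.shift 0 3), (rhb4d78cd0e58cc17c.shift 1 1), (rhdf7ab2556787e0c9.shift 1 0), (rhff6b27c9612d7353.shift 1 2)] (by decide +kernel))
noncomputable def rhc57310a6e13fde96 : CRef := CRef.mk (Pat.mk 0x1000000010000000500000001000000000 0x200000003000000010000000770000003e0000002f 8 7) 0 0 (step_sound _ 133 [rh165a86214c6ca369, (rh2f68792b6b779e96.shift 4 1)] (by decide +kernel))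
noncomputable def rh5d695e256c425c87 : CRef := CRef.mk (Pat.mk 0x80000001000000010000000500000000000000000 0x80000001800000010000000770000003e0000002f 8 7) 0 0 (step_sound _ 36 [rh165a86214c6ca369, (rhffd04209dc8ea796.shift 3 1)] (by decide +kernel))
noncomputable def rh6408d10e8de6ef66 : CRef := CRef.mk (Pat.mk 0x1800000008000000080000000800000000000000000000000000000000 0x7c0000001f00000018000000180000000c0000001c0000001c00000010 8 7) 0 0 (step_sound _ 194 [(rh5ad0000f5e6995cd.shift 2 0), (rh8ce2f13debfaa789.shift 0 3), (rhd69c262cd33b94b3.shift 0 6)] (by decide +kernel))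
noncomputable def rh421ab6ed7422d33d : CRef := CRef.mk (Pat.mk 0x200000002000000020000000200000000000000000000000000000000 0x10000000300000007000000060000000600000003000000070000000700000004 8 3) 0 0 (step_sound _ 224 [(rh50fbb5868c909700.shift 0 4), rhf267cafeab58b428] (by decide +kernel))
noncomputable def rh4f10e8760ea878d2 : CRef := CRef.mk (Pat.mk 0x8000000080000002800000000 0x140000003c0000007f0000007e000000180000003800000030 8 7) 0 0 (step_sound _ 131 [(rh1741680720c097b4.shift 2 1), (rh5abfc4c9d959be03.shift 2 0), rh83581d2034ab21b9, (rhced6d86d2069808b.shift 3 0)] (by decide +kernel))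
noncomputable def rh5d96340f5291914f : CRef := CRef.mk (Pat.mk 0x100000001000000050000000000000000000000000 0x200000003000000030000000770000003e0000003f00000028 8 7) 0 0 (step_sound _ 68 [(rh165a86214c6ca369.shift 0 1), (rh6c59ce14113da07f.shift 4 0), (rh6eff4158bb400f47.shift 3 0), (rhcab3157f7bdcba3e.shift 3 0)] (by decide +kernel))
noncomputable def rh1dd8e165d195c88f : CRef := CRef.mk (Pat.mk 0x10000000100000005000000000000000000000000000000000 0x18000000180000003800000030000000770000003e0000003f0000003800000020 8 7) 0 0 (step_sound _ 100 [(rh165a86214c6ca369.shift 0 2), (rh4c7fdb9e4a27b169.shift 3 0), (rh5abfc4c9d959be03.shift 3 2), (rh6eff4158bb400f47.shift 3 1), (rhff6b27c9612d7353.shift 3 1)] (by decide +kernel))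
noncomputable def rha27b24f8155da443 : CRef := CRef.mk (Pat.mk 0x100000001000000050000000000000000000000000 0x28000000380000003800000010000000770000003e0000003f00000028 8 7) 0 0 (step_sound _ 68 [(rh165a86214c6ca369.shift 0 1), (rh1741680720c097b4.shift 3 2), (rh5abfc4c9d959be03.shift 3 1), (rh6eff4158bb400f47.shift 3 0)] (by decide +kernel))
noncomputable def rh8320115756cc6528 : CRef := CRef.mk (Pat.mk 0x40000000400000014000000000000000000000000 0xe0000000e0000001e0000003c0000000f0000000c0000001c0000001c0000000c00000008 8 6) 0 0 (step_sound _ 194 [(rh1a49299c8a143060.shift 0 2), (rh20e56a1196e70fcc.shift 1 2), (rh6c59ce14113da07f.shift 2 1), (rh81093e72fc40e835.shift 1 1), (rhaa3bece996244111.shift 2 0), (rhae682b69deb3d960.shift 1 2)] (by decide +kernel))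
noncomputable def rh6199a457ed2a1ddd : CRef := CRef.mk (Pat.mk 0x200000002000000020000000000000000 0x70000000700000007000000030000000300000007000000060000000600000004 8 3) 0 0 (step_sound _ 161 [(rh0197df2413bf9102.shift 0 1), (rh20e56a1196e70fcc.shift 0 1), (rh5abfc4c9d959be03.shift 0 1), rh5ad9898cc32ef511, (rhfb657409fbb16679.shift 0 1)] (by decide +kernel))
noncomputable def rh9d8e1e13fcc5df9a : CRef := CRef.mk (Pat.mk 0x400000004000000140000000400000000 0x3a0000003f0000003f0000001c0000000c00000008 8 6) 0 0 (step_sound _ 131 [(rh2f68792b6b779e96.shift 2 1), rhdfcae4e4ad7fb399] (by decide +kernel))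
noncomputable def rh0836cde4f02512f5 : CRef := CRef.mk (Pat.mk 0x800000008000000080000002800000000 0x340000007f0000007e000000180000003800000030 8 7) 0 0 (step_sound _ 132 [(rh2f68792b6b779e96.shift 3 1), rh9780873c30c6e323] (by decide +kernel))
noncomputable def rh959e8c42a8ee78fc : CRef := CRef.mk (Pat.mk 0x100000001000000050000000000000000000000000 0x20000000780000003e000000770000003e0000003f00000020 8 7) 0 0 (step_sound _ 68 [(rh54955cb182c4b1a5.shift 1 1), (rhc16750d25dcb9f19.shift 4 0), (rhd92f1551f0fdfa3f.shift 0 1)] (by decide +kernel))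
noncomputable def rhb8804ff200ed1fc0 : CRef := CRef.mk (Pat.mk 0x80000000800000008000000280000000000000000 0x8000000180000001c0000001f0000007e000000380000000800000008 8 7) 0 0 (step_sound _ 35 [(rh44f453b84f013105.shift 3 1), (rh9bb7d10ce98dcee4.shift 3 0), rhb01c8921475706a1, rhdd174a448dbb1cee] (by decide +kernel))
noncomputable def rhf22fc25c71a224dd : CRef := CRef.mk (Pat.mk 0x400000004000000040000000400000000 0xfa0000007e0000007f0000001c0000000c00000008 8 8) 0 0 (step_sound _ 129 [(rh50fbb5868c909700.shift 1 1), rh88e9cfcfcb578d0b] (by decide +kernel))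
noncomputable def rh5eea36df15175d94 : CRef := CRef.mk (Pat.mk 0x400000004000000040000001400000000 0x1a0000007f0000003e0000000c0000001c00000018 8 7) 0 0 (step_sound _ 129 [rh3e2f63099681de79, (rh50fbb5868c909700.shift 1 1)] (by decide +kernel))
noncomputable def rhd3f003f44d655a8f : CRef := CRef.mk (Pat.mk 0x400000004000000040000001c00000000 0x1c0000007c0000003e0000000f0000001c00000010 8 7) 0 0 (step_sound _ 67 [(rh2145e1d24b96a57e.shift 2 1), rhf3d84bc8fd8fc945] (by decide +kernel))
noncomputable def rh042be189e1ddf4b7 : CRef := CRef.mk (Pat.mk 0x400000004000000140000000400000000 0x3a0000003e000000370000001c0000000e0000000a 8 6) 0 0 (step_sound _ 129 [rh245a8a5d193b9627, (rh50fbb5868c909700.shift 1 1)] (by decide +kernel))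
noncomputable def rh3c9f0033f50e1e99 : CRef := CRef.mk (Pat.mk 0x400000004000000040000001400000000 0x1a0000003f0000003f0000000c0000001c00000018 8 6) 0 0 (step_sound _ 131 [(rh2f68792b6b779e96.shift 2 1), rh4f5f7f9826b8fd87] (by decide +kernel))
noncomputable def rh59f64393abefc566 : CRef := CRef.mk (Pat.mk 0x40000000400000014000000000000000000000000 0x3a0000003e000000370000001c0000000e0000000e0000000a 8 6) 0 0 (step_sound _ 66 [(rh5102b44fda03ad6c.shift 0 1), (rh6eff4158bb400f47.shift 1 0), (rh8ff3dde5b1c639e0.shift 1 0), (rhc4526fc8abf298b6.shift 1 0)] (by decide +kernel))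
noncomputable def rh83498cac11f44a2f : CRef := CRef.mk (Pat.mk 0x3800000010000000500000003000000000 0x3e00000074000000760000003e0000000f 8 7) 0 0 (step_sound _ 35 [(rh932754581e0f4330.shift 3 0), rhddd722bb28f2bb0f] (by decide +kernel))
noncomputable def rh24b77d00ba10c5f5 : CRef := CRef.mk (Pat.mk 0x3800000010000000500000003000000000 0x3e0000001e000000770000003e0000000e 8 7) 0 0 (step_sound _ 35 [rh171b9105a2a9b18e, (rh932754581e0f4330.shift 3 0)] (by decide +kernel))
noncomputable def rh40b663c4adca74e9 : CRef := CRef.mk (Pat.mk 0x1e000000100000000000000000 0x28000000380000003800000038000000380000001e0000001b0000001800000008 8 6) 0 0 (step_sound _ 132 [(rh33e738c4ed385b9f.shift 1 3), rh540e2897a8c1e909] (by decide +kernel))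
noncomputable def rh261e430d561e59e1 : CRef := CRef.mk (Pat.mk 0x1e0000001000000000000000000000000000000000 0x18000000180000003b0000001e0000001800000018000000380000003800000020 8 6) 0 0 (step_sound _ 196 [(rh33e738c4ed385b9f.shift 1 5), rh3887dee5b087ee3e] (by decide +kernel))
noncomputable def rheed44908b9ba57f4 : CRef := CRef.mk (Pat.mk 0x1e0000000200000000000000000000000000000000 0x5000000070000000700000007000000030000001e0000000600000007000000070000000700000004 8 5) 0 0 (step_sound _ 193 [(rh3244c3cc8379b070.shift 0 5), rhf4bffd8c2bd64345] (by decide +kernel))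
noncomputable def rhf74f6deebb838c8d : CRef := CRef.mk (Pat.mk 0x300000002000000020000000000000000000000000000000000000000 0x10000000300000007000000060000000600000003000000070000000700000004 8 3) 0 0 (step_sound _ 129 [(rh50fbb5868c909700.shift 0 4), rhf267cafeab58b428] (by decide +kernel))
noncomputable def rh5501593da1e94ca4 : CRef := CRef.mk (Pat.mk 0x100000001800000038000000100000000800000000 0x20000000f0000000180000003f000000770000001e00000014 8 8) 0 0 (step_sound _ 165 [(rh2f68792b6b779e96.shift 4 2), rh59be0c45255e4e0f] (by decide +kernel))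
noncomputable def rhf8ffff819bbdc349 : CRef := CRef.mk (Pat.mk 0xe0000000800000008000000000000000000000000 0x140000001c0000001c0000003c0000000e0000003e0000000f000000060000000200000002 8 6) 0 0 (step_sound _ 195 [(rh193da7fc9e1674f1.shift 2 2), (rh4017de503635a93b.shift 1 3), rh65421805b9300410] (by decide +kernel))
noncomputable def rhf36903c41873b9b5 : CRef := CRef.mk (Pat.mk 0x80000000e00000008000000080000000000000000 0x80000000e0000007f0000003f0000003700000012 8 7) 0 0 (step_sound _ 66 [(rh932754581e0f4330.shift 2 1), rha58cc508828ff7ef] (by decide +kernel))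
noncomputable def rh97f48aba5a09a1f7 : CRef := CRef.mk (Pat.mk 0x1000000010000000100000001000000000 0x1000000010000000ff000000fe000001ef 8 9) 0 0 (step_sound _ 35 [rh294e0e13a34c2bda, (rh932754581e0f4330.shift 3 0)] (by decide +kernel))
noncomputable def rh4d4c23457c449f34 : CRef := CRef.mk (Pat.mk 0x700000004000000040000000000000000 0xc0000000c0000000e000000070000001e0000000c0000000c0000000c 8 5) 0 0 (step_sound _ 34 [(rh50fbb5868c909700.shift 1 1), rheefc7cf392b299b1] (by decide +kernel))
noncomputable def rh9ecdf74367673727 : CRef := CRef.mk (Pat.mk 0x100000001000000018 0x28000000380000003f000000fe000000ff0000001800000018 8 8) 0 0 (step_sound _ 100 [rh6ab0f2d813d99d98, (rh9a369cb82ea472da.shift 3 0), (rh9fb9dc683e09b5f3.shift 3 0), (rhc85cc95794737cf7.shift 3 0), (rhe62cab2ff5ad6fe2.shift 3 0)] (by decide +kernel))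
noncomputable def rhd90de94ff75f85bd : CRef := CRef.mk (Pat.mk 0xe0000000e000000080000000000000000 0x8000000080000000e0000003e0000003b0000000f0000000e 8 6) 0 0 (step_sound _ 100 [rh63c692b6e11aecad, (rhf48373e13d2bc128.shift 1 3)] (by decide +kernel))
noncomputable def rh33af94cc9b490f5a : CRef := CRef.mk (Pat.mk 0x1c00000010000000100000001000000000 0x1c0000007f0000007f0000001600000016 8 7) 0 0 (step_sound _ 99 [(rh7b1f1fb55310c477.shift 3 0), rhc6fc4cf4d9a30d64] (by decide +kernel))
noncomputable def rhe27ed025ccf2ba9d : CRef := CRef.mk (Pat.mk 0x1c00000010000000100000001000000000 0x10000000100000001c0000007f000000f70000003800000018 8 8) 0 0 (step_sound _ 99 [rh0c2b516a37f32122, (rh7b1f1fb55310c477.shift 3 0)] (by decide +kernel))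
noncomputable def rh5bb6ce7868d5b14a : CRef := CRef.mk (Pat.mk 0x1400000010000000100000000800000000 0x1400000014000000ff000000fe0000002f 8 8) 0 0 (step_sound _ 36 [(rh932754581e0f4330.shift 3 0), rhee837c7bd721cacb] (by decide +kernel))
noncomputable def rhfbf72a87f9e2c85a : CRef := CRef.mk (Pat.mk 0xe0000000c000000080000000800000000 0xe0000003f0000007f0000001f00000007 8 7) 0 0 (step_sound _ 34 [rh2d8493f3539350af, (rh932754581e0f4330.shift 2 0)] (by decide +kernel))
noncomputable def rh1a9dbfddecbe682e : CRef := CRef.mk (Pat.mk 0xc00000000000000080000000800000000 0x40000000c0000000c0000003f0000003f00000017 8 6) 0 0 (step_sound _ 99 [rh20605be9cfe324a0, (rh50fbb5868c909700.shift 2 1)] (by decide +kernel))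
noncomputable def rhda3462937bcc2ee5 : CRef := CRef.mk (Pat.mk 0xc0000000000000008000000080000000000000000 0xc0000000c0000003f0000003f0000001f00000014 8 6) 0 0 (step_sound _ 131 [(rh1f3a6ba70a310ab1.shift 2 0), (rh20605be9cfe324a0.shift 0 1), (rh8cdd36b03d57a2f6.shift 2 0), (rha613ffd40b6c9d24.shift 2 0)] (by decide +kernel))
noncomputable def rhec1c94f854da7924 : CRef := CRef.mk (Pat.mk 0x1800000000000000300000002000000000 0x1000000018000003df000001fe000003ef0000000c 8 10) 0 0 (step_sound _ 100 [(rh2145e1d24b96a57e.shift 4 1), rh91b2e5081902b982] (by decide +kernel))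
noncomputable def rhbef9e572f83326c3 : CRef := CRef.mk (Pat.mk 0x180000001000000030000000200000000000000000 0x18000003df000001fe000003ef0000002c00000020 8 10) 0 0 (step_sound _ 37 [(rh7b1f1fb55310c477.shift 4 0), (rh91b2e5081902b982.shift 0 1)] (by decide +kernel))
noncomputable def rhca6aef56f6afdabf : CRef := CRef.mk (Pat.mk 0x1c0000000e000000000000000000000000 0x1c0000007e0000007f0000003c00000038 8 7) 0 0 (step_sound _ 100 [(rh0cb6a409506b34ea.shift 1 2), (rh8a88abf038d31fd2.shift 0 2), rhdc9af55f34419cd7] (by decide +kernel))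
noncomputable def rhda60b340019fd220 : CRef := CRef.mk (Pat.mk 0x40000000f000000000000000000000000 0x80000001c0000000f0000001e0000007c0000001c 8 7) 0 0 (step_sound _ 131 [(rh33e738c4ed385b9f.shift 0 3), rh5982e165b899595e] (by decide +kernel))
noncomputable def rh70f9a93b28fa8e45 : CRef := CRef.mk (Pat.mk 0x3800000000000000000000000000000000 0x2000000020000000700000003e0000007f000000700000007000000030 8 7) 0 0 (step_sound _ 130 [(rh185f35b8bd8ec37f.shift 0 3), (rh44fae8d9c1045ff0.shift 1 3), (rh9e97bba44c1b13e4.shift 0 3), (rhe46fa619a6b32d5b.shift 1 0)] (by decide +kernel))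
noncomputable def rh14b958b7e2fb9e59 : CRef := CRef.mk (Pat.mk 0x280000002000000030000000100000000000000000 0x28000001ef000000ff0000005e000000f800000050 8 9) 0 0 (step_sound _ 36 [(rh71222050f2c63a3a.shift 4 0), rh84e7f862d97be5ff] (by decide +kernel))
noncomputable def rhf7e1109fd03a53ae : CRef := CRef.mk (Pat.mk 0x800000008000000080000000800000000 0x800000008000001ff000000ff000001f4 8 9) 0 0 (step_sound _ 36 [(rh55afc6a59410cf00.shift 3 0), rh684b3d1f1078cd11] (by decide +kernel))
noncomputable def rh1152a9900ab681f6 : CRef := CRef.mk (Pat.mk 0xe000000000000000c000000000000000000000000 0x140000001c0000001c0000003c0000000e0000007f0000007f000000330000001200000002 8 7) 0 0 (step_sound _ 131 [(rh29401b16b566653c.shift 0 2), (rh33d9608436eba56a.shift 1 2), rh8b2fe9a292dcaa38, (rha58cc508828ff7ef.shift 0 1)] (by decide +kernel))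
noncomputable def rh32f70c8ecac77609 : CRef := CRef.mk (Pat.mk 0x2000000030000000200000007000000000000000000000000000000000 0x40000001e000000030000003bf000001fe0000038e0000001c0000001c00000014 8 10) 0 0 (step_sound _ 131 [(rh1f9701c4cf497514.shift 0 3), (rh2ec804fbe0df033a.shift 2 0), (rh45f730bcf36fcf64.shift 2 3), (rh592c7139d2c44767.shift 1 3), (rhc027e5d3a816f22c.shift 1 3)] (by decide +kernel))
noncomputable def rhecf16f72cf486af4 : CRef := CRef.mk (Pat.mk 0x380000000000000030000000000000000000000000 0x4000000070000000f000000038000001ef000000fe000001df0000001c00000014 8 9) 0 0 (step_sound _ 133 [(rh29401b16b566653c.shift 2 2), (rh802c7087213427b5.shift 3 2), (rh958ac04a5d3bcb36.shift 4 2), rh9a6334c6dd9d1dbc] (by decide +kernel))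
noncomputable def rh69d17144503de65e : CRef := CRef.mk (Pat.mk 0xc000000000000000e00000000000000000000000000000000 0x40000000c0000007c0000003e000000770000003a0000003800000028 8 7) 0 0 (step_sound _ 132 [(rh06db8ceda6269a47.shift 0 3), (rh2d9c817c453f955a.shift 0 2), (rh3fc3a7fb6866dcd4.shift 1 3), (rh8520369ac181def6.shift 1 0)] (by decide +kernel))
noncomputable def rh39d82f98251f0a7f : CRef := CRef.mk (Pat.mk 0x18000000000000003800000000000000000000000000000000 0x1000000010000000180000007f0000003e0000000f0000000e0000000e0000000a 8 7) 0 0 (step_sound _ 130 [(rh775ca1963e850b80.shift 0 3), (rh9962464840ec1c04.shift 1 3), (rha3708673ce6a5ec7.shift 1 0)] (by decide +kernel))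
noncomputable def rh261dc28fc4d94b96 : CRef := CRef.mk (Pat.mk 0x20000000200000002000000020 0x3df000001fe000001f70000002000000020 8 10) 0 0 (step_sound _ 100 [(rh50fbb5868c909700.shift 4 0), rhfedd269cf0f8f454] (by decide +kernel))
noncomputable def rhcf675a75acbab413 : CRef := CRef.mk (Pat.mk 0x2000000020000000300000002 0x50000000700000007000000070000000600000006000000070000000300000002 8 3) 0 0 (step_sound _ 129 [(rh3a8b0589b9272453.shift 0 1), (rh44f453b84f013105.shift 1 0), (rh9a369cb82ea472da.shift 0 1), (rh9fb9dc683e09b5f3.shift 0 1), (rha2ab2fca3f09ceb1.shift 0 1)] (by decide +kernel))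
noncomputable def rh4ec0eda6650dae32 : CRef := CRef.mk (Pat.mk 0x20000000200000002000000020 0x5f000000fe000001ff0000002000000020 8 9) 0 0 (step_sound _ 100 [(rh50fbb5868c909700.shift 4 0), rh68a885f9e0871dfc] (by decide +kernel))
noncomputable def rh64cd1b8a73ec7084 : CRef := CRef.mk (Pat.mk 0xe000000080000000800000000 0x1000000018000000180000000e000000ff0000007c000000f4 8 8) 0 0 (step_sound _ 131 [(rh0d9cd7152616d7dd.shift 1 0), (rh20966da26a1c2ae8.shift 2 0), rh641b5241be04eec6, (rhced6d86d2069808b.shift 3 0)] (by decide +kernel))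
noncomputable def rhe3b2d087b39027eb : CRef := CRef.mk (Pat.mk 0xc0000000800000008000000000000000000000000 0xc0000000c0000003f0000003f0000001f00000014 8 6) 0 0 (step_sound _ 67 [(rh1f3a6ba70a310ab1.shift 2 0), (rh20605be9cfe324a0.shift 0 1), (rh8cdd36b03d57a2f6.shift 2 0), (rha613ffd40b6c9d24.shift 2 0)] (by decide +kernel))
noncomputable def rhed2ee93fad53f9e5 : CRef := CRef.mk (Pat.mk 0x180000000000000018000000000000000000000000 0x100000001c0000001c0000001c0000001800000018000000080000007c0000001f0000001400000010 8 7) 0 0 (step_sound _ 131 [(rh215e11e099257d75.shift 3 2), (rh70e33bfdf511e144.shift 3 0), (rh7a6c9842e5ef5131.shift 2 2), (rh8da800ba2dfc5467.shift 0 1)] (by decide +kernel))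
noncomputable def rhecdcf4151e8aaf6f : CRef := CRef.mk (Pat.mk 0x7000000020000001e00000000 0x40000000700000007000000070000001e00000007000000020000001e00000034 8 6) 0 0 (step_sound _ 5 [rh7305c59d29b8b69c, (rh96851dee118c1ba3.shift 1 0)] (by decide +kernel))
noncomputable def rhec3939e5a6c9378e : CRef := CRef.mk (Pat.mk 0x600000003000000000000001e00000000 0x2800000038000000380000001e00000013000000380000001e00000008 8 6) 0 0 (step_sound _ 132 [(rh361cc68994bd8a63.shift 0 3), (rhaec50d031e07d148.shift 1 0)] (by decide +kernel))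
noncomputable def rhb6df8b8dcb7e8542 : CRef := CRef.mk (Pat.mk 0xf00000000 0x3f0000007f000000ee 8 8) 0 0 (step_sound _ 68 [(rh428265de8cd3cd2d.shift 0 1), rh5f74243f19a501cc] (by decide +kernel))
noncomputable def rh81c785e867525268 : CRef := CRef.mk (Pat.mk 0x1e00000000 0x1c7000000fe000001ce 8 9) 0 0 (step_sound _ 65 [(rh3244c3cc8379b070.shift 0 1), (rh6a789e94d4fd022c.shift 1 0)] (by decide +kernel))
noncomputable def rhd92d70cec27cfadf : CRef := CRef.mk (Pat.mk 0xf00000008000000000000000000000000 0x100000001c0000001c0000001c0000000f0000000c0000001c0000001c00000014 8 5) 0 0 (step_sound _ 163 [(rh33e738c4ed385b9f.shift 0 4), (rh7cc9054488bc6367.shift 2 0)] (by decide +kernel))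
noncomputable def rhc0c7dc1511bc783b : CRef := CRef.mk (Pat.mk 0x4000000000000003c0000002c000000000000000000000000 0x4000000240000003e0000003c000000380000001f0000001c 8 6) 0 0 (step_sound _ 100 [rh0d4c0a7b8b573f75, (rh3244c3cc8379b070.shift 1 3)] (by decide +kernel))
noncomputable def rh13e6857df8ac8e27 : CRef := CRef.mk (Pat.mk 0x1e000000000000000000000000 0x18000000380000001e0000003f0000003800000038 8 6) 0 0 (step_sound _ 68 [rh100e12abc80cf96f, (rhe25b0a99195a5d59.shift 1 2)] (by decide +kernel))
noncomputable def rh4a3a563bcd399856 : CRef := CRef.mk (Pat.mk 0x10000000000000007000000000000000000000000000000000 0x100000001f0000007e000000ef0000001c0000001c00000014 8 8) 0 0 (step_sound _ 131 [(rh0d378fd9e8917c5a.shift 1 3), (rh185f35b8bd8ec37f.shift 1 3), (rh592c7139d2c44767.shift 1 3), (rh708c3bc8fe2f3084.shift 0 3), (rha3708673ce6a5ec7.shift 2 0)] (by decide +kernel))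
noncomputable def rh9055668b1291285e : CRef := CRef.mk (Pat.mk 0x1e00000000 0xe7000000fe000001dc 8 9) 0 0 (step_sound _ 65 [(rh07626e6f9ebf1ede.shift 1 0), (rh3244c3cc8379b070.shift 0 1)] (by decide +kernel))
noncomputable def rh03d01d9e526269e8 : CRef := CRef.mk (Pat.mk 0x70000000000000004000000000000000000000000 0xa0000000e0000000e0000001e000000070000000e0000000e0000000e0000000e00000008 8 5) 0 0 (step_sound _ 130 [(rh7b24c4ccc068b0b2.shift 1 2), (rhb1a251d9bff81766.shift 1 2), (rhb4d89267a980be08.shift 1 1), (rhc73193a9d3429ed8.shift 0 2), (rhd1779d7de7f8215b.shift 1 0)] (by decide +kernel))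
noncomputable def rh00e722fc07b7126b : CRef := CRef.mk (Pat.mk 0x1e00000018000000000000000000000000 0x80000000c0000000c0000001e0000001e0000001f0000001e0000000c 8 5) 0 0 (step_sound _ 163 [(rh3e595262c1b737ad.shift 3 2), rh6f4d248d46b53b60, rhb8a31dd7586424cd] (by decide +kernel))
noncomputable def rh6e0595747358becb : CRef := CRef.mk (Pat.mk 0xf0000000000000000000000000000000000000000 0xc0000000c0000001c0000000f0000001c0000001c0000001c0000001c00000014 8 5) 0 0 (step_sound _ 131 [(rhe25b0a99195a5d59.shift 0 4), rhea7eb00a96038492] (by decide +kernel))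
noncomputable def rh8ea0c17d4ec8bf59 : CRef := CRef.mk (Pat.mk 0xf0000000800000000000000000000000000000000 0x140000001c0000001c000000180000000f0000000c0000001c0000001c0000001c00000004 8 5) 0 0 (step_sound _ 195 [(rh33e738c4ed385b9f.shift 0 5), (rhb0548aacfb5e990f.shift 2 0)] (by decide +kernel))
noncomputable def rh6e41144ddd0bdce9 : CRef := CRef.mk (Pat.mk 0x80000000b000000090000000800000000 0x100000001e0000001f0000000e0000000b0000000b0000000900000001 8 5) 0 0 (step_sound _ 162 [rhc1d1a37639376444, (rhffd04209dc8ea796.shift 2 1)] (by decide +kernel))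
noncomputable def rh19939c445ca29054 : CRef := CRef.mk (Pat.mk 0x100000001e000000120000003000000000000000000000000000000000 0x280000003800000038000000140000001e0000001e000000320000001f0000003b0000003900000028 8 6) 0 0 (step_sound _ 260 [rh0e70246fb8288c70, (rhc85cc95794737cf7.shift 3 5)] (by decide +kernel))
noncomputable def rhd0dc6c72874f161c : CRef := CRef.mk (Pat.mk 0x10000000100000001e00000012000000000000000000000000 0xc0000001c0000001c0000001e0000001e0000001f0000000200000002 8 5) 0 0 (step_sound _ 195 [(rh50fbb5868c909700.shift 3 3), rhf4d6db492c1add83] (by decide +kernel))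
noncomputable def rhcb68e47ea34f99bf : CRef := CRef.mk (Pat.mk 0x8000000080000000f0000000d0000000000000000 0xf70000007e000000ee0000000f0000000f0000000100000001 8 8) 0 0 (step_sound _ 162 [(rh50fbb5868c909700.shift 2 2), rhd6ca9a54bb6d386b] (by decide +kernel))
noncomputable def rhee6dd302fa2c0123 : CRef := CRef.mk (Pat.mk 0xe00000008000000000000000000000000000000000 0x140000001c0000001c0000001c00000018e000000fe000000ff000001c0000001c0000001c000000040 8 9) 0 0 (step_sound _ 199 [(rhc678ac2c53e8bd58.shift 6 0), (rhc88b97a7f8dd1e1a.shift 0 4), (rhf0104ee410e7a142.shift 4 1)] (by decide +kernel))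
noncomputable def rhf0e6be63c2dd8af6 : CRef := CRef.mk (Pat.mk 0x1c00000018000000100000000000000000 0x1c0000007f000000770000001e0000001c 8 7) 0 0 (step_sound _ 98 [(rh600f424625debaea.shift 1 0), (rh743e5764167214aa.shift 0 2), (rhf56e6bc5d2f7fe77.shift 0 2)] (by decide +kernel))
noncomputable def rh29c7f09abebff0dd : CRef := CRef.mk (Pat.mk 0x1c000000100000001000000000000000000000000000000000 0x3000000030000000300000001c0000007f000000f70000003c000000380000003800000028 8 8) 0 0 (step_sound _ 100 [(rh3ca4c10fdf355329.shift 2 2), (rh8cdd36b03d57a2f6.shift 3 1), (rha613ffd40b6c9d24.shift 3 1), (rhc05d451ce3dd5e48.shift 3 0), (rhe40a9a02be32212e.shift 0 2)] (by decide +kernel))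
noncomputable def rhd8995245121fc4d7 : CRef := CRef.mk (Pat.mk 0x2000000028000000200000003000000000 0x400000006800000028000001ff000001fe0000004f 8 9) 0 0 (step_sound _ 38 [rh4f334be581bcd1bc, (rh55afc6a59410cf00.shift 5 0)] (by decide +kernel))
noncomputable def rhd3cfa2e52fa8a995 : CRef := CRef.mk (Pat.mk 0x1000000010000000100000000800000000 0x1000000010000000ff000000ff0000002f 8 8) 0 0 (step_sound _ 36 [(rh932754581e0f4330.shift 3 0), rhabe5de228cbda256] (by decide +kernel))
noncomputable def rh39a5d150552cfe93 : CRef := CRef.mk (Pat.mk 0xe00000008000000080000000800000000 0x20000000e0000000e0000007f0000007e00000017 8 7) 0 0 (step_sound _ 34 [(rh932754581e0f4330.shift 2 0), rha7de2bb72f15c352] (by decide +kernel))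
noncomputable def rhf62b3c8a44b016a2 : CRef := CRef.mk (Pat.mk 0x3e0000002200000020000000300000000000000000 0x30000003e00000022000000270000007f0000006500000040 8 7) 0 0 (step_sound _ 38 [rhb7fa7e745106f1d9, (rhd3458b32566d63f7.shift 5 1)] (by decide +kernel))
noncomputable def rh596617e216d1ddc4 : CRef := CRef.mk (Pat.mk 0xe0000001800000008000000000000000000000000 0x140000001c0000001c0000000a0000000e0000007a0000001f000000060000000400000004 8 7) 0 0 (step_sound _ 133 [rh13a6e63ac0d760c0, (rhf48373e13d2bc128.shift 2 4)] (by decide +kernel))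
noncomputable def rhaba73f40b3c0aab8 : CRef := CRef.mk (Pat.mk 0x1e000000100000001000000000 0x340000001e000000170000003e0000002f 8 6) 0 0 (step_sound _ 132 [rh12e35db25aa48f6b, (rh33e738c4ed385b9f.shift 1 3)] (by decide +kernel))
noncomputable def rhb0009cdad6dfc78a : CRef := CRef.mk (Pat.mk 0x1400000010000000100000001000000000 0x1400000014000001de000000fe000001ef 8 9) 0 0 (step_sound _ 37 [(rh55afc6a59410cf00.shift 4 0), rh5c3709d01ec0287d] (by decide +kernel))
noncomputable def rh5bad644e5957f142 : CRef := CRef.mk (Pat.mk 0x800000018000000080000000800000000000000000000000000000000 0x8000000780000001f0000007c000000180000001c0000000c00000004 8 7) 0 0 (step_sound _ 162 [(rh42e615827c8908b1.shift 0 3), (rh574fdbf07bdd18b9.shift 0 5), (rhbc4512057a1936da.shift 2 0), (rhd98f0b8e29b2b9d5.shift 0 3)] (by decide +kernel))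
noncomputable def rh15ffc8334253bb1f : CRef := CRef.mk (Pat.mk 0xe00000008000000080000000800000000000000000000000000000000 0xf000000780000001c0000000c0000000c0000001c0000001c00000014 8 7) 0 0 (step_sound _ 196 [(rh6afafba221ecaf84.shift 2 0), (rhb739f4f82bb681b4.shift 0 6)] (by decide +kernel))
noncomputable def rha634674162a20ae2 : CRef := CRef.mk (Pat.mk 0x20000007a0000000200000000000000000000000000000000 0x100000003000000c30000007b0000000300000007000000070000000700000005 8 8) 0 0 (step_sound _ 198 [(rh33e738c4ed385b9f.shift 3 5), rh39570e86b45fcd48] (by decide +kernel))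
noncomputable def rhd82e81b6790a3a74 : CRef := CRef.mk (Pat.mk 0x400000034000000040000000000000000 0xa0000000e0000002e00000034000000370000003e0000003a 8 6) 0 0 (step_sound _ 34 [(rh771d065bdc85bf2d.shift 1 0), rh839d51deb08d401d, (rhc85cc95794737cf7.shift 1 1)] (by decide +kernel))
noncomputable def rhaa560afa73e1278e : CRef := CRef.mk (Pat.mk 0x200000002000000020000000200000000000000000000000000000000 0x40000000600000007000000030000000300000006000000070000000700000001 8 3) 0 0 (step_sound _ 226 [(rh2f68792b6b779e96.shift 1 4), rh45d62546a5be71e6] (by decide +kernel))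
noncomputable def rhe2de2da7254b6a91 : CRef := CRef.mk (Pat.mk 0x1000000010000000100000001000000000 0x2f0000003e0000003f0000001c0000001800000008 8 6) 0 0 (step_sound _ 131 [(rh50fbb5868c909700.shift 3 1), rh60514a1b5bb30e1e] (by decide +kernel))
noncomputable def rh20d373c27a2bd3bd : CRef := CRef.mk (Pat.mk 0x2000000020000000200000000000000000000000000000000 0x60000000600000007000000030000000300000007000000070000000700000001 8 3) 0 0 (step_sound _ 97 [rh187447a19d78efb5, (rh20966da26a1c2ae8.shift 0 2), rh2b830b066360bf5b, (rh6eff4158bb400f47.shift 0 1), rh8e3b1d976c2c4cbf, (rhf517b930ee0bd92d.shift 0 1)] (by decide +kernel))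
noncomputable def rhcefad22a75b02b0e : CRef := CRef.mk (Pat.mk 0x10000000100000001000000000 0x28000000380000003e0000007f0000003e000000180000001800000008 8 7) 0 0 (step_sound _ 132 [(rh1741680720c097b4.shift 3 1), (rh193da7fc9e1674f1.shift 3 0), (rh20966da26a1c2ae8.shift 3 0), (rh771d065bdc85bf2d.shift 3 0), rha3f3b747b96279f4] (by decide +kernel))
noncomputable def rh3a3768b6a78879cf : CRef := CRef.mk (Pat.mk 0x4000000340000000400000000000000000000000000000000 0xa0000002e00000036000000370000003e0000003e0000000e00000002 8 6) 0 0 (step_sound _ 98 [(rh2b830b066360bf5b.shift 1 0), (rh6eff4158bb400f47.shift 1 1), (rh839d51deb08d401d.shift 0 2), (rh8e3b1d976c2c4cbf.shift 1 0), (rh8ff3dde5b1c639e0.shift 1 1), (rhc4526fc8abf298b6.shift 1 1)] (by decide +kernel))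
noncomputable def rh0e30de877e2bccce : CRef := CRef.mk (Pat.mk 0x20000003a00000000000000000000000000000000 0x5000000070000000700000007000000060000003f00000003000000070000000700000005 8 6) 0 0 (step_sound _ 97 [(rh331f9544ec9699d1.shift 0 1), (rh7dc50071bdff3525.shift 0 3), (rh8b24269fce9ae942.shift 0 2), rhb0a09d1393ad970e] (by decide +kernel))
noncomputable def rh45d32bf0927cc6fa : CRef := CRef.mk (Pat.mk 0x300000005200000050000000400000004000000000 0xf0000003e000000570000005000000058000000f8000000a0 8 8) 0 0 (step_sound _ 37 [(rh932754581e0f4330.shift 5 0), rhd7670f2326d47b87] (by decide +kernel))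
noncomputable def rh419cc16c179c2123 : CRef := CRef.mk (Pat.mk 0x600000000000000030000000000000000000000000000000000000000 0x500000007000000070000000600000002000000030000000300000007000000070000000700000001 8 3) 0 0 (step_sound _ 193 [(rh215e11e099257d75.shift 1 4), (rh281c6819542c66e6.shift 0 2), (rh68a777751bfeafdf.shift 0 4), rhc27f6ac612f3c0df] (by decide +kernel))
noncomputable def rhfe2d5f0e8ff15324 : CRef := CRef.mk (Pat.mk 0x300000006000000020000000000000000000000000000000000000000 0x1000000030000001e000000060000000600000007000000070000000700000005 8 5) 0 0 (step_sound _ 195 [rh2f64a682f1ee9d69, (rhf48373e13d2bc128.shift 0 6)] (by decide +kernel))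
noncomputable def rhe0449c9bc04d836d : CRef := CRef.mk (Pat.mk 0x1c0000000c000000040000000000000000 0x10000000100000001c0000007f0000007f0000003400000034 8 7) 0 0 (step_sound _ 97 [rh466d2faa205d6173, (rh53b3c253cb0c65f4.shift 0 3)] (by decide +kernel))
noncomputable def rhe30531dc8bcf824f : CRef := CRef.mk (Pat.mk 0x1c0000000c000000040000000000000000 0x10000000100000001c0000007f000000770000003c0000003c 8 7) 0 0 (step_sound _ 97 [(rh53b3c253cb0c65f4.shift 0 3), rha5e64a573bca9af5] (by decide +kernel))
noncomputable def rhd307e07c07add9f4 : CRef := CRef.mk (Pat.mk 0xe0000000a00000008000000000000000000000000 0x60000000f0000007b0000000f000000070000000700000005 8 7) 0 0 (step_sound _ 132 [(rhb739f4f82bb681b4.shift 0 4), rhe6d9faf429a7eff1] (by decide +kernel))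
noncomputable def rhf3624d497048ea18 : CRef := CRef.mk (Pat.mk 0x180000001c000000100000001000000000 0x1c0000001f000000170000003e0000002f 8 6) 0 0 (step_sound _ 97 [rh12e35db25aa48f6b, (rh53b3c253cb0c65f4.shift 0 3)] (by decide +kernel))
noncomputable def rh4fdd3625796851ed : CRef := CRef.mk (Pat.mk 0x40000000e0000000d00000008000000000000000000000000 0x60000002e0000006f0000007e000000760000001600000010 8 7) 0 0 (step_sound _ 98 [(rh40241bd608e5be1a.shift 1 1), (rh46530d756bdf8511.shift 1 1), rhb730e59663c08f7d] (by decide +kernel))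
noncomputable def rh89e054f6ce081e29 : CRef := CRef.mk (Pat.mk 0x1e0000001a00000000000000000000000000000000 0x8000000080000001e0000001e000000ff0000003f0000003b00000028 8 8) 0 0 (step_sound _ 100 [(rh3cb04db3dd2b6a55.shift 3 1), (rh56259dd1390eee46.shift 3 0), (rh8ff70c14ec1346fb.shift 0 1), (rhd673f1c91a323839.shift 1 1)] (by decide +kernel))
noncomputable def rh88c38721de052629 : CRef := CRef.mk (Pat.mk 0x1c00000018000000000000000000000000 0x40000000c0000001f0000001f000000370000001200000012 8 6) 0 0 (step_sound _ 129 [rh7dfc989e3291e7a9, (rhb739f4f82bb681b4.shift 0 3)] (by decide +kernel))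
noncomputable def rhd79838f177684966 : CRef := CRef.mk (Pat.mk 0x80000001c000000180000000000000000000000000000000000000000 0x40000000c0000001c0000001c0000001f0000001f0000001c0000001c00000014 8 5) 0 0 (step_sound _ 132 [rh42fcf634a71f9f1f, (rh7b1f1fb55310c477.shift 3 3)] (by decide +kernel))
noncomputable def rh423befb80ca11fae : CRef := CRef.mk (Pat.mk 0x1e00000018000000000000000000000000 0xc0000000c0000000c0000001e0000001b0000001f0000001e0000000c 8 5) 0 0 (step_sound _ 97 [rhaad62ffdbe05ae94, (rheb0810cc63b001d8.shift 0 3)] (by decide +kernel))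
noncomputable def rhfdd402d256ef4c2f : CRef := CRef.mk (Pat.mk 0x1e00000018000000000000000000000000 0xc0000001e0000001f000000f30000003e0000001a 8 8) 0 0 (step_sound _ 97 [rh5dfe6bc9365d0df3, (rheb0810cc63b001d8.shift 0 3)] (by decide +kernel))
noncomputable def rh1309f2db2b3567e6 : CRef := CRef.mk (Pat.mk 0x600000006000000060000000200000000 0x600000006000000770000003f0000007d 8 7) 0 0 (step_sound _ 34 [(rh7b1f1fb55310c477.shift 1 0), rhad58310f0e23d245] (by decide +kernel))
noncomputable def rh0b65c1bc69af3667 : CRef := CRef.mk (Pat.mk 0xe0000001e000000000000000000000000 0x4000000060000000e0000001e0000003f0000003c00000014 8 6) 0 0 (step_sound _ 65 [(rh6db7a5c019519c35.shift 1 0), (rheb0810cc63b001d8.shift 0 2)] (by decide +kernel))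
noncomputable def rh7858b6e504f96d54 : CRef := CRef.mk (Pat.mk 0xe0000001c00000000000000080000000000000000 0x20000000e0000001c000000f40000007e000000ff00000020 8 8) 0 0 (step_sound _ 66 [rh167ba4041051b01e, (rh80c59fdbc00f388c.shift 1 1), (rh8556ce617a451e36.shift 2 1), (rhc93583770a36d0f1.shift 1 1)] (by decide +kernel))
noncomputable def rh866c43416f9b9231 : CRef := CRef.mk (Pat.mk 0xe0000001c00000000000000000000000000000000 0x4000000060000000e0000001c0000001f0000007e0000001c00000014 8 7) 0 0 (step_sound _ 99 [(rh3cb04db3dd2b6a55.shift 2 1), (rh3fb8e8d0c4e7ce04.shift 0 1), (rh56259dd1390eee46.shift 2 0), (rhace72e7b6ae46a25.shift 0 1)] (by decide +kernel))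
noncomputable def rh1377246c8c242c5d : CRef := CRef.mk (Pat.mk 0xe0000001e000000000000000000000000 0xe0000001e0000003b0000001f0000001f 8 6) 0 0 (step_sound _ 65 [rha7ce7f992fce752d, (rheb0810cc63b001d8.shift 0 2)] (by decide +kernel))
noncomputable def rhd46afc3cf5c241af : CRef := CRef.mk (Pat.mk 0x1c000000180000000000000000000000000000000000000000 0xc0000000c0000000c0000001c0000007c0000000f0000000c0000001c0000001c00000014 8 7) 0 0 (step_sound _ 165 [rh9cdf9676e0fa5106, (rhf48373e13d2bc128.shift 2 5)] (by decide +kernel))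
noncomputable def rhdc7c98cd5cfac196 : CRef := CRef.mk (Pat.mk 0x1c00000038000000000000000000000000 0x40000001c0000003f0000007f0000000e0000000e 8 7) 0 0 (step_sound _ 98 [(rhcc2be1f880c5ea3e.shift 0 2), (rhd76a433642d10763.shift 1 0), (rhe153806bfe3acc65.shift 0 2)] (by decide +kernel))
noncomputable def rha8ef0ff8f158dde2 : CRef := CRef.mk (Pat.mk 0x100000001c000000100000003800000000 0x20000000f40000001c000003de000001fe000003c7 8 10) 0 0 (step_sound _ 133 [(rh2f68792b6b779e96.shift 4 1), rh58fe8b47bce14042] (by decide +kernel))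
noncomputable def rhbc4e103f331ad4dd : CRef := CRef.mk (Pat.mk 0x1c00000010000000100000001000000000 0x40000001c000000780000003e0000001f0000001c 8 7) 0 0 (step_sound _ 99 [rh1509764e03038a0f, (rh7b1f1fb55310c477.shift 3 0)] (by decide +kernel))
noncomputable def rhd9cf0d04b0e7c0de : CRef := CRef.mk (Pat.mk 0xe000000000000000800000000000000000000000000000000 0x1c0000001c0000007c0000000e0000000c0000000f0000003c0000001c0000001c00000014 8 7) 0 0 (step_sound _ 163 [(rh56259dd1390eee46.shift 2 1), (rh76c97a59937af444.shift 1 3), (rh985335d5e81225b5.shift 2 0), rhef8b2808b3e7db63, (rhf9a6286f1d5377a2.shift 2 3)] (by decide +kernel))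
noncomputable def rhacc258dc5c092de0 : CRef := CRef.mk (Pat.mk 0x1c00000010000000100000003000000000 0x40000001c0000001c000000fe000000ff0000000f 8 8) 0 0 (step_sound _ 35 [rh0864b6bbdbb27162, (rh932754581e0f4330.shift 3 0)] (by decide +kernel))
noncomputable def rh426aaf67dbde11fc : CRef := CRef.mk (Pat.mk 0xe000000000000000800000000000000000000000000000000 0x140000001c0000001c0000003c0000000e0000007f0000007c000000180000001c0000001c00000014 8 7) 0 0 (step_sound _ 163 [(rh82064b552a8316fd.shift 1 3), rh95b45245f8c4f3cb, (rh985335d5e81225b5.shift 2 0), (rhf9a6286f1d5377a2.shift 2 3)] (by decide +kernel))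
noncomputable def rh274992fcaf6ea5dd : CRef := CRef.mk (Pat.mk 0x1c00000010000000140000000000000000 0x80000000c0000001c0000007f000000fc0000006f0000002e 8 8) 0 0 (step_sound _ 99 [(rh2751906a8b9f21b0.shift 1 0), (rh36256ee54d91ab35.shift 2 0), rh93fcd2ed44502ac8, (rhafbc5f83f07aee35.shift 0 1), (rhcf8648ec2c7370c4.shift 2 1)] (by decide +kernel))
noncomputable def rha8512d508a67e59b : CRef := CRef.mk (Pat.mk 0x18000000080000001800000000 0x140000001c0000001c0000000c0000001f0000007800000018000000180000001800000010 8 7) 0 0 (step_sound _ 131 [(rh55afc6a59410cf00.shift 3 0), (rh81e0b7aef308d358.shift 0 1)] (by decide +kernel))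
noncomputable def rhb37728899d61323f : CRef := CRef.mk (Pat.mk 0x4000000000000000e00000000000000000000000000000000 0x4000000770000003e00000073000000070000000700000005 8 7) 0 0 (step_sound _ 132 [(rh3fc3a7fb6866dcd4.shift 1 3), rha3708673ce6a5ec7, (rhc4658766f200b447.shift 0 2)] (by decide +kernel))
noncomputable def rh2fbccb60ff264241 : CRef := CRef.mk (Pat.mk 0x4000000000000001c00000000000000000000000000000000 0x4000000770000003e00000073000000070000000700000005 8 7) 0 0 (step_sound _ 129 [rha3708673ce6a5ec7, (rha93a5dd541ab8209.shift 1 3)] (by decide +kernel))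
noncomputable def rh8f93fc243832fa7d : CRef := CRef.mk (Pat.mk 0x80000000f00000004 0x1cc000000ff000001fe 8 9) 0 0 (step_sound _ 4 [(rh66f196286234366b.shift 1 0), rh96851dee118c1ba3] (by decide +kernel))
noncomputable def rh76f56089f5291246 : CRef := CRef.mk (Pat.mk 0x38000000000000003800000000 0x100000001800000018000000380000001f0000003f0000002c 8 6) 0 0 (step_sound _ 132 [(rh00d6a6e3c7e3bb40.shift 3 0), rh53c051f5046e57dc, (rh580df77fe152422b.shift 3 0), (rhbf726fa7097229f2.shift 3 0)] (by decide +kernel))
noncomputable def rh33bd60e2d49f5a27 : CRef := CRef.mk (Pat.mk 0x1e0000000000000000000000000000000000000000 0x2000000070000001e0000003f00000007000000070000000700000004 8 6) 0 0 (step_sound _ 129 [rh6707e7200746cc59, (rheb0810cc63b001d8.shift 0 4)] (by decide +kernel))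
noncomputable def rh60380fb368c50095 : CRef := CRef.mk (Pat.mk 0x2000000000000001c00000006000000000000000000000000 0x2000000330000001f0000003e0000003c0000001800000018 8 6) 0 0 (step_sound _ 129 [(rhb1085e0e51093b6e.shift 0 2), rhbdb58e596051a774] (by decide +kernel))
noncomputable def rh312f246eee46ebe0 : CRef := CRef.mk (Pat.mk 0x80000001e000000000000000000000000 0x380000001e0000003f0000003c00000038 8 6) 0 0 (step_sound _ 68 [(rhe25b0a99195a5d59.shift 1 2), rhe4bf6303bf1553f4] (by decide +kernel))
end Crest.Agent.S0047.Helper85.Cert
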