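import Crest.Agent.Lib.S0047.Helper85CertPL8F0
import Crest.Agent.Lib.S0047.Helper85CertPL8F1
import Crest.Agent.Lib.S0047.Helper85CertPL8F2
import Crest.Agent.Lib.S0047.Helper85CertPL8F3
import Crest.Agent.Lib.S0047.Helper85CertPL8F4
import Crest.Agent.Lib.S0047.Helper85CertPL8F5
import Crest.Agent.Lib.S0047.Helper85CertPL8F6
import Crest.Agent.Lib.S0047.Helper85CertPL8F7
import Crest.Agent.Lib.S0047.Helper85CertPL8F8
set_option autoImplicit false
set_option linter.all false
set_option Elab.async false
namespace Crest.Agent.S0047.Helper85.Cert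
open Crest.Agent.S0047.Helper85

noncomputable def rhf15a1ce756bbc45e : CRef := CRef.mk (Pat.mk 0x100000001000000050000000000000000000000000 0x80000001800000018000000770000003e0000003f00000028 9 7) 0 0 (step_sound _ 68 [(rh23bebe0e285dcedc.shift 0 1), (rh8ff3dde5b1c639e0.shift 3 0), (rhc4526fc8abf298b6.shift 3 0), (rhd92f1551f0fdfa3f.shift 0 1)] (by decide +kernel))
noncomputable def rhaa888255046f4cf0 : CRef := CRef.mk (Pat.mk 0x1000000010000000500000001000000000 0x280000003800000010000000770000003e0000002f 9 7) 0 0 (step_sound _ 133 [rh23bebe0e285dcedc, (rh2f68792b6b779e96.shift 4 1)] (by decide +kernel))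
noncomputable def rh34eef9ca963565ff : CRef := CRef.mk (Pat.mk 0x8000000080000002800000000 0x2000000160000003f0000007f0000003f0000001c0000003800000030 9 7) 0 0 (step_sound _ 131 [(rh1741680720c097b4.shift 2 1), (rh5abfc4c9d959be03.shift 2 0), (rhb82ee5f5b900d26d.shift 0 1), (rhc084dc44956ba4bb.shift 1 0)] (by decide +kernel))
noncomputable def rhbf323f01c0fc819b : CRef := CRef.mk (Pat.mk 0xc00000008000000080000002800000000 0x100000001f0000007f0000007f0000003800000030 9 7) 0 0 (step_sound _ 132 [(rh2f68792b6b779e96.shift 3 1), rha582339f082d9907] (by decide +kernel))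
noncomputable def rh95a595f69c3fdc53 : CRef := CRef.mk (Pat.mk 0x10000000100000001000000010 0x1ef000001fe000003be0000001000000010 9 10) 0 0 (step_sound _ 101 [rh05b99b3a55e8c0ce, (rh2f68792b6b779e96.shift 4 0)] (by decide +kernel))
noncomputable def rh54241ed066c05db2 : CRef := CRef.mk (Pat.mk 0x100000001000000050000000000000000000000000 0x8000000180000001800000018000000770000003e0000003f00000008 9 7) 0 0 (step_sound _ 68 [(rh23bebe0e285dcedc.shift 0 1), (rh5abfc4c9d959be03.shift 3 1), (rhc4526fc8abf298b6.shift 3 0), (rhd92f1551f0fdfa3f.shift 0 1)] (by decide +kernel))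
noncomputable def rh1ee02915ccf626de : CRef := CRef.mk (Pat.mk 0x100000001000000050000000000000000000000000 0x20000000300000003000000030000000770000003e0000003f00000028 9 7) 0 0 (step_sound _ 68 [(rh352fddbeae4809b8.shift 0 1), (rh6c59ce14113da07f.shift 4 0), (rhcab3157f7bdcba3e.shift 3 0), (rhced6d86d2069808b.shift 4 1), (rhd92f1551f0fdfa3f.shift 0 1)] (by decide +kernel))
noncomputable def rhccb2c52b045fb720 : CRef := CRef.mk (Pat.mk 0xc00000008000000080000002800000000 0x70000000ff0000007f0000003f0000003800000010 9 8) 0 0 (step_sound _ 100 [(rh211863601e18499a.shift 2 0), rh364da975ceff4842, (rhdeca8db941583de2.shift 0 3), (rhf5cd3c300f0364c1.shift 1 1)] (by decide +kernel))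
noncomputable def rh43cb184e902e5902 : CRef := CRef.mk (Pat.mk 0x1000000010000000500000001000000000 0x280000003800000010000000770000003e0000002f 9 7) 0 0 (step_sound _ 131 [rh352fddbeae4809b8, (rh50fbb5868c909700.shift 3 1)] (by decide +kernel))
noncomputable def rhf8d90cf890be5891 : CRef := CRef.mk (Pat.mk 0x2000000020000000a000000020 0x10000000100000007de000003fe000007bf000000a0000000a0 9 11) 0 0 (step_sound _ 100 [(rh50fbb5868c909700.shift 4 0), rh5f1db46351a58a84] (by decide +kernel))
noncomputable def rha96881e17a60b03a : CRef := CRef.mk (Pat.mk 0x500000001000000050000000000000000000000000 0x3e7000001ff000003fe00000070000001e0000000e0000000a0 9 10) 0 0 (step_sound _ 165 [(rh2820ca9a6c4f41b4.shift 1 4), (rh352b7f91eba0c81f.shift 3 4), (rh51e7fa61fe50fe55.shift 3 0), rh637081a0a0a17807, (rh6f8cc61885871185.shift 1 0)] (by decide +kernel))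
noncomputable def rh8785c6180af7a50d : CRef := CRef.mk (Pat.mk 0x20000000a000000020000000a000000000000000000000000 0x1a0000001a0000001b0000003e0000000e0000001c0000001800000018 9 6) 0 0 (step_sound _ 98 [(rh55afc6a59410cf00.shift 1 2), rh706b24dfea6e33aa] (by decide +kernel))
noncomputable def rh2e23ee94f3ec9f22 : CRef := CRef.mk (Pat.mk 0x500000001000000050000000000000000000000000 0x800000058000000ff0000007f000000ff00000070000001e0000000e0000000e0 9 9) 0 0 (step_sound _ 165 [(rh089d7f04331bd90e.shift 1 0), (rh633b3c7cb98e5f80.shift 0 3), rh637081a0a0a17807, (rh6f8cc61885871185.shift 1 0), (rh87509bc56932c1d3.shift 1 0), (rha82661e4da870e90.shift 1 0), (rhe74d14abeafd57f8.shift 1 0)] (by decide +kernel))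
noncomputable def rhefb997691363717d : CRef := CRef.mk (Pat.mk 0x280000002800000028000000000000000000000000 0x6c0000007c0000006f0000003e00000038000000700000007000000070 9 7) 0 0 (step_sound _ 132 [(rh29b7e98b94f1a2ca.shift 0 3), (rh54489ab9c44d42ce.shift 1 1), (rhc24f8d367658c081.shift 2 0), (rhc9cd60269625ea7e.shift 3 0)] (by decide +kernel))
noncomputable def rh77124603720f6fed : CRef := CRef.mk (Pat.mk 0x28000000280000002800000000000000000000000000000000 0x280000002f000000fc0000003800000070000000700000007000000010 9 8) 0 0 (step_sound _ 101 [(rh03cc326bf07d2d6d.shift 3 2), (rh8cdd36b03d57a2f6.shift 4 1), rhbc7834ae14787ee7, (rhd43c0afe6156a3bc.shift 2 1)] (by decide +kernel))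
noncomputable def rh3bf7f2e0caae78ff : CRef := CRef.mk (Pat.mk 0x10000000100000007000000010 0x2f000000ff000000fe0000007000000010 9 8) 0 0 (step_sound _ 101 [(rh2f68792b6b779e96.shift 4 0), rh80c6a9e3c08331f4] (by decide +kernel))
noncomputable def rh9a103c10e817c2ce : CRef := CRef.mk (Pat.mk 0x100000001000000050000000000000000000000000 0x200000003000000030000000770000003e0000003f00000028 9 7) 0 0 (step_sound _ 68 [(rh352fddbeae4809b8.shift 0 1), (rh6c59ce14113da07f.shift 4 0), (rh6eff4158bb400f47.shift 3 0), (rhcab3157f7bdcba3e.shift 3 0)] (by decide +kernel))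
noncomputable def rh85608fea03c74af2 : CRef := CRef.mk (Pat.mk 0x400000004000000040000001400000000 0x34000000340000007f0000007f0000001c00000008 9 7) 0 0 (step_sound _ 35 [(rh13c3b907dd8b5052.shift 0 1), (rh55afc6a59410cf00.shift 2 0)] (by decide +kernel))
noncomputable def rhd03a4a49349f4b84 : CRef := CRef.mk (Pat.mk 0xc0000002800000028000000000000001000000000 0x400000006c0000006c00000028000001ef000000fe000001ff 9 9) 0 0 (step_sound _ 35 [(rh46a9fe95438167a8.shift 2 0), (rh61737549170b20ff.shift 2 0), rh8ee406389d07532b, (rha3711ed12866f068.shift 2 0)] (by decide +kernel))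
noncomputable def rh6221b0f5dca2390f : CRef := CRef.mk (Pat.mk 0x20000000e0000000400000000000000000 0x140000001c0000001c0000007f000000fe000001ff0000001800000018 9 9) 0 0 (step_sound _ 100 [(rh3918eeb6c53434d8.shift 1 2), rh420e72f9aea10fa1, (rh97c2a40835de0979.shift 3 0), (rha03f6e28ea70fc7d.shift 3 2)] (by decide +kernel))
noncomputable def rh8661f9d68f18787f : CRef := CRef.mk (Pat.mk 0x200000003000000020000000a000000000 0x3a7000001fe000001ff000000e0000000c0 9 10) 0 0 (step_sound _ 38 [(rh55afc6a59410cf00.shift 5 0), rhe428ed1009d1c35f] (by decide +kernel))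
noncomputable def rhe634133f32aad99b : CRef := CRef.mk (Pat.mk 0xb0000000a0000000a00000000000000000000000000000000 0x20000000a0000000b0000001e000000ee0000007c000000fc0000001c00000004 9 8) 0 0 (step_sound _ 162 [(rh95fb0c0ce8b59f87.shift 1 0), (rhf48373e13d2bc128.shift 0 5)] (by decide +kernel))
noncomputable def rh18ed72313ed88b00 : CRef := CRef.mk (Pat.mk 0xe0000001800000010000000100000000000000000 0x3000000034000000370000001e0000001f0000003b000000370000002700000005 9 6) 0 0 (step_sound _ 164 [(rh1adc8391535f5fb2.shift 3 1), (rh5ba2d67652840f34.shift 1 3), rh84e88b560de35837] (by decide +kernel))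
noncomputable def rh3c9e0b3716fdbd0d : CRef := CRef.mk (Pat.mk 0x100000001000000010000000000000000000000000 0x8000000180000001c0000003f0000003e0000003f00000028 9 6) 0 0 (step_sound _ 68 [(rh02a5a8a45a7ec6b6.shift 0 1), (rh46baee19951a66e7.shift 3 0), (rh6eff4158bb400f47.shift 3 0), (rhc4526fc8abf298b6.shift 3 0)] (by decide +kernel))
noncomputable def rh051ffbf115d10406 : CRef := CRef.mk (Pat.mk 0x1000000010000000100000001000000000 0x8000000180000001c0000007f0000003e0000002f 9 7) 0 0 (step_sound _ 35 [(rh932754581e0f4330.shift 3 0), rhc5652bd1360849d8] (by decide +kernel))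
noncomputable def rhab2c53c47d2bd20d : CRef := CRef.mk (Pat.mk 0x1e00000018 0x3e0000003e000000370000001e0000001b 9 6) 0 0 (step_sound _ 68 [rh150f29b4f63a8238, (rh33e738c4ed385b9f.shift 1 1)] (by decide +kernel))
noncomputable def rh1f3be57e84bf30c2 : CRef := CRef.mk (Pat.mk 0x1000000010000000380000000000000000 0xc0000000c0000000c0000001c0000001f000000fc0000000f0000000c 9 8) 0 0 (step_sound _ 99 [(rh7478433a598f2371.shift 2 0), (rh79b3c29022acbdf3.shift 2 2), rh8e32e911d48d3f41, (rha9fbfd4bb8cf890b.shift 0 2)] (by decide +kernel))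
noncomputable def rhf02b481d084920bc : CRef := CRef.mk (Pat.mk 0x4000000000000001e0000000800000000 0x10000000f0000001f0000000b0000001e0000003b00000010 9 6) 0 0 (step_sound _ 36 [(rhe25b0a99195a5d59.shift 1 1), rhf0271f570d6b08b2] (by decide +kernel))
noncomputable def rh867fe764a6e7aa22 : CRef := CRef.mk (Pat.mk 0x7000000040000000400000000000000000 0xf000000fe0000007f000000dc0000001800000018 9 8) 0 0 (step_sound _ 131 [(rh0de499e0455c9c14.shift 1 3), (rh36eba2a3de447758.shift 0 3), (rh775ca1963e850b80.shift 1 3), (rhd1d05263fabc0227.shift 1 3), (rhf2e2e92d23699e49.shift 2 0)] (by decide +kernel))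
noncomputable def rhbef0fec683842d0b : CRef := CRef.mk (Pat.mk 0x7000000040000000400000000000000000 0x200000002000000077000000fe0000007f000000dc0000001800000008 9 8) 0 0 (step_sound _ 165 [(rhc89253ff58c66167.shift 5 2), rhcdc8b23e8c26b106, (rhe072fffdd2fccf38.shift 5 2)] (by decide +kernel))
noncomputable def rhc51b181c855cfac4 : CRef := CRef.mk (Pat.mk 0xe0000000000000020000000000000000000000000 0x10000000700000007000000e70000007e0000006700000023000000270000000700000004 9 8) 0 0 (step_sound _ 164 [(rh42b8b17b8abd5dad.shift 0 2), (rhc6558bd0b1119bd2.shift 0 2), rhfd802f0a7a7bdd68] (by decide +kernel))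
noncomputable def rh205fcf80f36c4401 : CRef := CRef.mk (Pat.mk 0x180000003000000040 0xa0000000e0000000e0000000c0000000f8000000ff00000067 9 8) 0 0 (step_sound _ 38 [rh865bf2056e57fb37, (rhf48373e13d2bc128.shift 3 1)] (by decide +kernel))
noncomputable def rh0151de16fedc93e3 : CRef := CRef.mk (Pat.mk 0xe0000001800000000000000000000000000000000 0xe7000000fe0000001f00000003000000070000000700000004 9 8) 0 0 (step_sound _ 164 [(rh36095876875a1ad2.shift 0 4), rh400241dd4322207f, (rh9115c4bb33f193b6.shift 0 4)] (by decide +kernel))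
noncomputable def rhbcebf686a5aa4c24 : CRef := CRef.mk (Pat.mk 0x3000000020000000a000000000 0xa0000000e0000002e000003af000003fe000007ff000000ec000000c8 9 11) 0 0 (step_sound _ 99 [(rh8ee80cc30e93a344.shift 2 2), rhaa42e81ac594cfa0, (rhfbeb1fb091bb1516.shift 2 0)] (by decide +kernel))
noncomputable def rha2311ca626712ce5 : CRef := CRef.mk (Pat.mk 0x3000000020000000a000000000 0x1800000018000003bf000001fe000001ff000000ac0000008c 9 10) 0 0 (step_sound _ 132 [rh8d23336aa0eb73f3, (rha3df16ea9c8576c8.shift 4 1), (rhc89253ff58c66167.shift 4 1)] (by decide +kernel))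
noncomputable def rhe8fbb80a53dcfec6 : CRef := CRef.mk (Pat.mk 0x1c00000000000000500000001c00000000 0x1c0000000fc000000e6000000740000005e00000003 9 9) 0 0 (step_sound _ 33 [rh11ae42dc5e2019af, (rh33e738c4ed385b9f.shift 1 1)] (by decide +kernel))
noncomputable def rh7de6d156408aa48a : CRef := CRef.mk (Pat.mk 0x80000000800000008000000280000000000000000000000000000000000000000 0x40000000c0000001c00000018000000380000001f0000000c0000001c0000001c00000014 9 6) 0 0 (step_sound _ 258 [(rh50fbb5868c909700.shift 2 5), rh76aa5422df03215e] (by decide +kernel))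
noncomputable def rh98206e597e425467 : CRef := CRef.mk (Pat.mk 0x100000001000000010000000500000000000000000 0x8000000180000001800000010000000770000003e0000002f 9 7) 0 0 (step_sound _ 163 [(rh50fbb5868c909700.shift 3 2), rh5125eacc46ff6bd2] (by decide +kernel))
noncomputable def rh2ad2172e3cf2a144 : CRef := CRef.mk (Pat.mk 0x180000004000000040000000000000003000000000000000000000000000000000 0xa0000000f0000000d80000004000000040000003ce000001fe000003ff000001c0000001c000000140 9 10) 0 0 (step_sound _ 134 [(rh5b4a17836e2be7b3.shift 1 3), (rh653928d0520f72bc.shift 0 3), (rh900144b0f9adb2af.shift 1 3), (rhc02bcff1bb4cbd8d.shift 3 0), (rhf03c2f52813be111.shift 3 3)] (by decide +kernel))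
noncomputable def rh6e92fbf156249ebf : CRef := CRef.mk (Pat.mk 0x1000000010000000100000000000000000000000000000000000000000 0x1800000038000000ff000000fe0000003f000000380000003800000028 9 8) 0 0 (step_sound _ 132 [(rh43000f16a4e76173.shift 3 1), (rh5f75ede74e37d837.shift 3 0), (rh7a62c4b2780c02e6.shift 3 0), (rh8455945beca1078e.shift 0 3), (rh8cdd36b03d57a2f6.shift 3 2)] (by decide +kernel))
noncomputable def rh88e993a798b2fb1d : CRef := CRef.mk (Pat.mk 0x2000000020000000a000000000000000f00000000 0xf30000007e000000ee000000180000000f00000004 9 8) 0 0 (step_sound _ 67 [(rh33e738c4ed385b9f.shift 0 1), rh4b013d4b08985841] (by decide +kernel))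
noncomputable def rh5d4520359f65dede : CRef := CRef.mk (Pat.mk 0x1e0000000400000000000000000000000000000000 0x300000001e0000003f00000038000000380000003800000020 9 6) 0 0 (step_sound _ 129 [(rhc0630e0d24a3fe7c.shift 1 0), (rheb0810cc63b001d8.shift 0 4)] (by decide +kernel))
noncomputable def rha10b0f8874ebe3ae : CRef := CRef.mk (Pat.mk 0x1c000000000000000000000000000000000 0x200000007f000001fe000003ff000000700000007000000020 9 10) 0 0 (step_sound _ 133 [(rh0d378fd9e8917c5a.shift 3 3), (rh185f35b8bd8ec37f.shift 3 3), (rh592c7139d2c44767.shift 3 3), (rhbb34eaf024a96af9.shift 0 3), (rhde32bc682637565f.shift 4 0)] (by decide +kernel))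
noncomputable def rh5b2b7fa5abf5ab54 : CRef := CRef.mk (Pat.mk 0x80000000800000038000000000000003000000010 0x7800000078000000ef000000fe00000038000000200000003000000010 9 8) 0 0 (step_sound _ 133 [(rh3c88ce959c0e423f.shift 4 0), (rhbc52701660e05c12.shift 0 3)] (by decide +kernel))
noncomputable def rhaba6d9a8917e807f : CRef := CRef.mk (Pat.mk 0x1e00000010000000000000000000000000 0x300000003000000070000001e0000001f000000070000000700000003 9 5) 0 0 (step_sound _ 97 [rh1d2139c51b4f96af, (rheb0810cc63b001d8.shift 0 3)] (by decide +kernel))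
noncomputable def rh89bb75cc4b094d9b : CRef := CRef.mk (Pat.mk 0x100000001000000010000000100000000000000000000000000000000000000000 0x100000003f000000fe000000ff0000001800000038000000380000003800000028 9 8) 0 0 (step_sound _ 132 [(rh34248906a10f8c00.shift 1 0), (rh7928877f9bf74a91.shift 3 3), (rh8d8bfe45b7d5275a.shift 3 1), (rh8f37fb46903c1ca8.shift 0 1)] (by decide +kernel))
noncomputable def rh205c0e7b51974562 : CRef := CRef.mk (Pat.mk 0x1000000010000000100000001000000000000000000000000000000000 0x100000003f0000007e000000ff00000030000000380000003800000028 9 8) 0 0 (step_sound _ 100 [(rh1fa67a9a5680aa2f.shift 1 1), rh8f37fb46903c1ca8, (rhd29a1fb688eae70f.shift 4 2), (rhe84e00c98653ad0c.shift 3 0)] (by decide +kernel))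
noncomputable def rh2d0bc67ea3ebe7bf : CRef := CRef.mk (Pat.mk 0x7000000080000000000000000 0x3f0000007f000000fc0000000800000008 9 8) 0 0 (step_sound _ 99 [(rhe25b0a99195a5d59.shift 0 2), rhe70551b994fa615e] (by decide +kernel))
noncomputable def rh011831950e257566 : CRef := CRef.mk (Pat.mk 0xe0000000000000000 0x8000000380000003800000038000000ff0000007e000000f800000010 9 8) 0 0 (step_sound _ 68 [(rh3fc3a7fb6866dcd4.shift 1 1), (rh45f730bcf36fcf64.shift 0 1), rh64f550cef0a6a548, (rhb18e6c78a554867d.shift 0 2), (rhe401600d466b97cd.shift 0 1)] (by decide +kernel))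
noncomputable def rhcb8ca8f27c2c9709 : CRef := CRef.mk (Pat.mk 0x600000007000000000000000000000000 0x1800000018000000180000003e0000003f0000003c0000000c0000000c 9 6) 0 0 (step_sound _ 99 [(rh0cb6a409506b34ea.shift 0 2), (rh3fc3a7fb6866dcd4.shift 0 2), rh4939d18c5bfc78c2, (rh8c2361c727ab1a01.shift 0 3)] (by decide +kernel))
noncomputable def rh911ac4e1dacbd724 : CRef := CRef.mk (Pat.mk 0x14000000070000000400000010000000000000000000000000 0xa0000000e0000000e0000003400000034000000370000003e00000018000000300000003000000030 9 6) 0 0 (step_sound _ 131 [(rh20cbb582b083f4f1.shift 1 0), (rh89ade209b3e28f13.shift 0 4), (rh921a8f8cd2437502.shift 1 3)] (by decide +kernel))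
noncomputable def rh7cc28d2a247e2c29 : CRef := CRef.mk (Pat.mk 0x600000002000000020000000a0000000800000000 0x730000003e0000007b0000007a0000001f0000000c00000008 9 7) 0 0 (step_sound _ 66 [(rh55afc6a59410cf00.shift 1 1), rhe23482ea5cd4648a] (by decide +kernel))
noncomputable def rh85b01d9584f512bf : CRef := CRef.mk (Pat.mk 0x4000000040000002000000030000000000000000000000000 0xa0000000e0000000e0000000e0000000600000006000000670000003e0000000f0000000e0000000a 9 7) 0 0 (step_sound _ 98 [(rh45eb2f6ec4380654.shift 1 1), (rh65240bd7dd963b90.shift 1 0), (rh7a88a3b0157c5fa1.shift 0 2), (rh7e7eaac9cbfb0eeb.shift 1 2)] (by decide +kernel))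
noncomputable def rh02bc46a7cf5f8ed5 : CRef := CRef.mk (Pat.mk 0x2000000020000000a0000000a00000000 0x1000000170000001f000000160000007a0000001f0000000e00000008 9 7) 0 0 (step_sound _ 162 [rh6e10795e6422839c, (rhbaefcd01e0a8bca3.shift 1 1)] (by decide +kernel))
noncomputable def rh6e3385719caa0e86 : CRef := CRef.mk (Pat.mk 0x12000000020000000a0000000a00000000000000000000000000000000 0x40000001e0000003b0000001a0000000a000000080000001c0000001c00000014 9 6) 0 0 (step_sound _ 226 [rh0937e66a398041cc, (rh2f68792b6b779e96.shift 1 4)] (by decide +kernel))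
noncomputable def rh9b2988a4b28705cf : CRef := CRef.mk (Pat.mk 0x800000008000000080000000800000000 0x77000000ff0000007c000000180000001800000010 9 8) 0 0 (step_sound _ 130 [rh28b5dc0c8949ca30, (rh50fbb5868c909700.shift 2 1)] (by decide +kernel))
noncomputable def rh9325dbf7239a344b : CRef := CRef.mk (Pat.mk 0x4000000040000000400000000 0xa0000003e0000003f0000003f0000000c0000000c00000008 9 6) 0 0 (step_sound _ 130 [rh507ee18cabc22909, (rh5abfc4c9d959be03.shift 1 0), (rhc85cc95794737cf7.shift 1 1), (rhced6d86d2069808b.shift 2 0)] (by decide +kernel))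
noncomputable def rhe8964f0a4e6e5167 : CRef := CRef.mk (Pat.mk 0x900000001000000050000000500000000000000000000000000000000 0x1a0000000f0000001d0000000d00000005000000040000000e0000000e0000000a 9 5) 0 0 (step_sound _ 225 [(rh2f68792b6b779e96.shift 0 4), rhd9fd99164604fadd] (by decide +kernel))
noncomputable def rhdb22b55b7fbb070f : CRef := CRef.mk (Pat.mk 0x2000000020000000a0000000a0000000000000000 0x340000001e000000fb000000ff000000ee0000000800000008 9 8) 0 0 (step_sound _ 162 [rh210aae2064012003, (rh2f68792b6b779e96.shift 1 2)] (by decide +kernel))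
noncomputable def rh8aec352348d38d0e : CRef := CRef.mk (Pat.mk 0x60000000a0000000a0000000a000000000000000000000000000000000 0x12000000120000001e0000001bf000000fe000000ee000001a0000001e0000001c000000040 9 9) 0 0 (step_sound _ 232 [(rh09801475d705d836.shift 7 3), (rha5e792840d70b272.shift 4 4), rhc01fd44f8119f485] (by decide +kernel))
noncomputable def rh1e30a2fbacc1c632 : CRef := CRef.mk (Pat.mk 0x4000000080000000a0000000a000000000 0x40000000c000000080000001bf000000fe0000004e 9 9) 0 0 (step_sound _ 135 [(rh50fbb5868c909700.shift 6 1), rh6d06b6265a51569c] (by decide +kernel))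
noncomputable def rhfcdb6927db14af1b : CRef := CRef.mk (Pat.mk 0x20000000a0000000a0000000a00000008 0x3d0000001f0000003b0000001a0000000a0000000e0000000c 9 6) 0 0 (step_sound _ 34 [rh3a2e558878aec50e, (rh55afc6a59410cf00.shift 1 0)] (by decide +kernel))
noncomputable def rh621a13966e3c372e : CRef := CRef.mk (Pat.mk 0x28000000280000002800000020 0x140000001c0000001c00000068000000780000002f0000003c00000030 9 7) 0 0 (step_sound _ 102 [(rh2f68792b6b779e96.shift 5 0), rhbcc5c33b8482c211] (by decide +kernel))
noncomputable def rhc479c29c136303c7 : CRef := CRef.mk (Pat.mk 0x4000000020000000a0000000a000000000 0x400000006000000020000001bf000000fe0000004e 9 9) 0 0 (step_sound _ 133 [(rh2f68792b6b779e96.shift 5 1), rha75483ba58b49c97] (by decide +kernel))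
noncomputable def rh8a8cec1e081b70ce : CRef := CRef.mk (Pat.mk 0x6000000020000000a0000000e0000002000000000 0x390000005f000000fa0000007e0000002e0000002000000020 9 8) 0 0 (step_sound _ 160 [rh0d93b80dbbc621ea, (rh50fbb5868c909700.shift 0 2)] (by decide +kernel))
noncomputable def rhe4aaa8a948caed0b : CRef := CRef.mk (Pat.mk 0x1800000000000000180000000800000000 0x180000001800000010000000f8000000ff00000027 9 8) 0 0 (step_sound _ 100 [(rh5c5e593799055d58.shift 3 1), rh8585554cb985644e] (by decide +kernel))
noncomputable def rh65798d1d5ff04bc8 : CRef := CRef.mk (Pat.mk 0x7000000010 0x7c7000003fe000007f7 9 11) 0 0 (step_sound _ 39 [(rh3e1b7b343686dca1.shift 3 0), rhbc4279d6bffad7f8, (rhf2b3bcf1454375d8.shift 4 0), (rhf3baec4a0a3dd35e.shift 4 0)] (by decide +kernel))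
noncomputable def rh18fd744912747430 : CRef := CRef.mk (Pat.mk 0x400000000000000060000000200000000000000000 0x4000000040000007ce000003fe000007bf0000008000000080 9 11) 0 0 (step_sound _ 103 [(rh10f4fa53c4a509e9.shift 0 1), (rh2820ca9a6c4f41b4.shift 2 2), (rh352b7f91eba0c81f.shift 4 2), (rhf6de93de3ce300a0.shift 4 0)] (by decide +kernel))
noncomputable def rhd0fa2a17490a5abb : CRef := CRef.mk (Pat.mk 0x2000000020000000200000002000000000 0x2000000020000003ff000001fe000003d7 9 10) 0 0 (step_sound _ 36 [(rh932754581e0f4330.shift 4 0), rhb663078f9269b206] (by decide +kernel))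
noncomputable def rh4436aed01aabf9b9 : CRef := CRef.mk (Pat.mk 0x100000000000000008000000080000000800000000000000000000000000000000 0x1000000010000000100000001800000018000000ff000000ff000001fc0000001c00000014 9 9) 0 0 (step_sound _ 196 [rh22c1ddc0b42107f2, (rha5c1ac488360e009.shift 3 3), (rhb009278fdd334770.shift 3 4)] (by decide +kernel))
noncomputable def rh3462e300be246a20 : CRef := CRef.mk (Pat.mk 0x800000008000000080000000000000000000000000000000000000000 0x80000001c0000007f0000007f0000001c0000001c0000001c0000001c00000014 9 7) 0 0 (step_sound _ 131 [(rh07f6632ef696322a.shift 0 2), (rh2a208ee7d1302cc0.shift 0 1), (rh5f1c7693341f5f3e.shift 2 0), (rh7a62c4b2780c02e6.shift 2 0), (rh8cdd36b03d57a2f6.shift 2 2), (rhc9ac229b3c77cd55.shift 2 3)] (by decide +kernel))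
noncomputable def rh5c7e58494a2980ac : CRef := CRef.mk (Pat.mk 0x1000000010000000100000001000000000000000000000000000000000 0x100000003f0000007e000000ff00000030000000380000003800000028 9 8) 0 0 (step_sound _ 100 [(rh1fa67a9a5680aa2f.shift 1 1), rh8f37fb46903c1ca8, (rha9036ee088616a5e.shift 1 1), (rhd29a1fb688eae70f.shift 4 2)] (by decide +kernel))
noncomputable def rh00cd22a051b99f5a : CRef := CRef.mk (Pat.mk 0x40000000000000003000000000000000000000000000000000 0x4000000040000007ce000003fe000007ff000001e0000001e000000140 9 11) 0 0 (step_sound _ 134 [(rh4b80de9e25f44385.shift 1 1), (rh653928d0520f72bc.shift 0 3), (rh8cdbc6b29d83aefd.shift 1 3), (rh9e077aa9b986abf1.shift 3 1), (rhc02bcff1bb4cbd8d.shift 3 0), (rhcead9ce7584d6492.shift 0 1)] (by decide +kernel))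
noncomputable def rhebf92a14d849ab81 : CRef := CRef.mk (Pat.mk 0x30000000100000001000000070 0x1cf000000fe000001de0000003e00000074 9 9) 0 0 (step_sound _ 99 [rh0f922e9d60d2a7f2, (rh50fbb5868c909700.shift 3 0)] (by decide +kernel))
noncomputable def rhef05a465ca648b3b : CRef := CRef.mk (Pat.mk 0x40000001e000000000000000000000000 0x300000003000000030000003f0000001e000000070000000300000003 9 6) 0 0 (step_sound _ 129 [(rh3244c3cc8379b070.shift 0 3), rh86a8e9bae779fdf9] (by decide +kernel))
noncomputable def rha24fb0d48ef58c8d : CRef := CRef.mk (Pat.mk 0x3000000020000000a0000000000000000000000000 0x10000000100000007cf000003fe000007bf000000ee000000fc0000007e00000040 9 11) 0 0 (step_sound _ 69 [(rh56c0f4e5c1f16d90.shift 0 2), (rha613ffd40b6c9d24.shift 4 0), (rhd92f1551f0fdfa3f.shift 1 1)] (by decide +kernel))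
noncomputable def rha93e7f24c48cc3e2 : CRef := CRef.mk (Pat.mk 0x3000000020000000a000000000 0x10000000100000007df000003fe000007bf000000a0000000a0 9 11) 0 0 (step_sound _ 5 [(rh50fbb5868c909700.shift 4 0), rh56c0f4e5c1f16d90] (by decide +kernel))
noncomputable def rh546e0e4132b4fd3d : CRef := CRef.mk (Pat.mk 0x180000001000000010 0x28000000380000003800000038000000380000007f0000007e0000001800000010 9 7) 0 0 (step_sound _ 100 [(rh047c0c3b0047a487.shift 3 0), (rh20ee5c2c4c3a9878.shift 1 0), (rh39af83765499c4d3.shift 3 0), rh9e2a10b982f346d6, (rhc85cc95794737cf7.shift 3 0), (rhcf91cfb7d3e875de.shift 3 0)] (by decide +kernel))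
noncomputable def rh56afbd62fb0ef66e : CRef := CRef.mk (Pat.mk 0x1c0000000c000000080000002800000000 0x20000000200000003000001df000000ff000001ef0000003800000030 9 9) 0 0 (step_sound _ 97 [(rh53b3c253cb0c65f4.shift 0 3), rhf89ca3b03e18dbe7] (by decide +kernel))
noncomputable def rh39476ad20857d178 : CRef := CRef.mk (Pat.mk 0xe00000000000000080000000000000000000000000 0x100000005f000001fe000000ff000000a0000001e0000001c000000140 9 9) 0 0 (step_sound _ 164 [(rh51b16c7ae9f903d3.shift 2 0), (rh95c71a0aa953ef64.shift 0 4), (rhafa5a7051d37b143.shift 3 2), (rhf4cb023ff02d09cf.shift 2 0)] (by decide +kernel))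
noncomputable def rh4b0ff723e9fe8124 : CRef := CRef.mk (Pat.mk 0x700000000000000040000000000000000000000000 0x10000000100000007f000001fe0000006e00000048000000e0000000e0000000a0 9 9) 0 0 (step_sound _ 163 [(rh43dc67402634d54f.shift 2 3), (rh51b16c7ae9f903d3.shift 1 0), (rh775ca1963e850b80.shift 1 4), (rh875ee7c4c1e718c0.shift 0 5), (rhf4cb023ff02d09cf.shift 1 0)] (by decide +kernel))
noncomputable def rh96f9fa58983f7f52 : CRef := CRef.mk (Pat.mk 0x40000000e0000000000000008000000000 0x9000000090000001b8000000ff000001fe000000e7000000a000000080 9 9) 0 0 (step_sound _ 71 [(rh7b1f1fb55310c477.shift 6 0), (rh9a100038179704e7.shift 0 1)] (by decide +kernel))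
noncomputable def rh7e53074b0f9ceec1 : CRef := CRef.mk (Pat.mk 0x18000000380000000000000000 0x3c0000003f0000007f00000038000000f80000001800000008 9 8) 0 0 (step_sound _ 71 [(rh2fe78cc5ca4405d8.shift 3 2), rhea2130d68f7199bf] (by decide +kernel))
noncomputable def rh05209a6010a853be : CRef := CRef.mk (Pat.mk 0x14000000050000000000000000000000000 0x1ce000001ff000001fe000001e0000000a0 9 9) 0 0 (step_sound _ 101 [(rh4139b8a3376ba1ae.shift 3 0), (rha6e835daeafe3b76.shift 0 2), (rhddb24c61d0a0d35a.shift 3 3), (rhfd01510815188b45.shift 1 2)] (by decide +kernel))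
noncomputable def rh4c69d5f686de0454 : CRef := CRef.mk (Pat.mk 0xe00000000000000080000000000000000000000000 0x30000000300000007f000000fe000000ff000000b8000001f8000001e800000140 9 9) 0 0 (step_sound _ 164 [(rh2446f9f0d49f4f86.shift 0 4), (rh61aef1e967b8dd77.shift 3 1), (rh775ca1963e850b80.shift 2 4), (rhf4cb023ff02d09cf.shift 2 0)] (by decide +kernel))
noncomputable def rhfff41a1969d0984b : CRef := CRef.mk (Pat.mk 0x1c0000000000000050000000000000000000000000 0x2800000028000003fc000001ff000003d700000050000000f0000000e0000000a0 9 10) 0 0 (step_sound _ 165 [(rh0f504d42397edf01.shift 0 2), (rha3cd6e417638cbd6.shift 2 0), (rhb705031692dfe65f.shift 2 2), (rheb0f9d555ed888e9.shift 2 2), (rhef5e99fdac153561.shift 0 2)] (by decide +kernel))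
noncomputable def rh18e39bc34e431067 : CRef := CRef.mk (Pat.mk 0x1e0000000000000020000000000000000000000000 0x570000007e0000006000000020000000700000007000000050 9 7) 0 0 (step_sound _ 193 [(rh080b1d3b1241ea6d.shift 1 0), (rh3244c3cc8379b070.shift 0 5)] (by decide +kernel))
noncomputable def rhe8ed4a60f97eb95a : CRef := CRef.mk (Pat.mk 0x6000000040000001400000000 0xa0000000e0000000e0000000e0000000e0000003f0000003e000000360000001400000010 9 6) 0 0 (step_sound _ 130 [(rh047c0c3b0047a487.shift 1 1), (rh39af83765499c4d3.shift 1 1), rh8b730aa53a771109, (rhb74085b2bf8cf106.shift 1 1), (rhc85cc95794737cf7.shift 1 1), (rhcf91cfb7d3e875de.shift 1 1)] (by decide +kernel))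
noncomputable def rhb61ad485c4336967 : CRef := CRef.mk (Pat.mk 0xf000000000000001400000000 0x80000000a000000fb0000007f000000f60000001400000014 9 8) 0 0 (step_sound _ 131 [rh0e8597787097384d, (rh33e738c4ed385b9f.shift 0 3)] (by decide +kernel))
noncomputable def rh1e11cfbacd396af1 : CRef := CRef.mk (Pat.mk 0x100000001e0000000100000008000000000 0x177000001fe000000df0000008000000080 9 9) 0 0 (step_sound _ 71 [(rh71222050f2c63a3a.shift 7 0), (rhaee1681682e7784e.shift 0 2)] (by decide +kernel))
noncomputable def rhc1cdb717631e51b6 : CRef := CRef.mk (Pat.mk 0x380000000400000020000000000000000000000000 0x170000003e0000003600000020000000700000007000000050 9 7) 0 0 (step_sound _ 162 [rh51b16c7ae9f903d3, (rheb0810cc63b001d8.shift 1 4)] (by decide +kernel))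
noncomputable def rh21b4edfe567084cf : CRef := CRef.mk (Pat.mk 0x7800000008000000500000000000000000 0xf800000018000000770000003e0000003f 9 8) 0 0 (step_sound _ 100 [(rh18965a982d73c794.shift 3 3), rhf5a58a0d5e109957] (by decide +kernel))
noncomputable def rh00dd5c091ea25502 : CRef := CRef.mk (Pat.mk 0xf00000000000000140000000000000000000000000 0x2000000020000000b7000000fe0000007f000001dc000000f8000000fc000000a0 9 9) 0 0 (step_sound _ 134 [(rh1b9022be4f7af407.shift 5 0), (rh261f868a429ae0e3.shift 5 2), (rha321187b1b18b0a1.shift 2 0), (rhfb97bf7ff250e6b2.shift 0 2)] (by decide +kernel))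
noncomputable def rhc6f906647714ecf9 : CRef := CRef.mk (Pat.mk 0x1e00000000000000280000000000000000000000000 0x17f000001fe000000cf000003b8000001f0000001f800000140 9 10) 0 0 (step_sound _ 135 [(rh1b9022be4f7af407.shift 6 0), (rh261f868a429ae0e3.shift 6 2), (rha321187b1b18b0a1.shift 3 0), (rhf77b8674d969a4cf.shift 0 4)] (by decide +kernel))
noncomputable def rhbd3720b905002a09 : CRef := CRef.mk (Pat.mk 0x1c0000000000000040000000000000000000000000 0x1ef000000fe000000cf00000040000000e0000000e0000000a0 9 9) 0 0 (step_sound _ 165 [(rh2a535ce68d5cfc5d.shift 1 2), (rh3d9ccce8f1410f87.shift 1 0), (rh775ca1963e850b80.shift 0 4)] (by decide +kernel))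
noncomputable def rhf7aeba75fcdcc417 : CRef := CRef.mk (Pat.mk 0x700000000000000000 0x140000001c0000001c000000ff0000007e0000001f00000008 9 8) 0 0 (step_sound _ 67 [(rh15b856e33c69f807.shift 0 1), (rh4c622fddc53a5f99.shift 1 2), (rh775ca1963e850b80.shift 1 1), (rh9e97bba44c1b13e4.shift 1 1), (rhcb20b56284a22647.shift 2 0)] (by decide +kernel))
noncomputable def rh7f8d226f8f3f7d29 : CRef := CRef.mk (Pat.mk 0x7800000000000000000000003000000020 0x70000007e0000000e000000040000003e00000077 9 7) 0 0 (step_sound _ 98 [rh33cd80cc4af0a78d, (rh80fcd6d0a18cb2dd.shift 2 3)] (by decide +kernel))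
noncomputable def rh9cf22e794dde129c : CRef := CRef.mk (Pat.mk 0x70000000400000004000000000 0x18000000180000001f0000007e0000007f000000dc0000001c 9 8) 0 0 (step_sound _ 99 [(rh0de499e0455c9c14.shift 1 2), (rh6c6e95cd770ee366.shift 2 0), (rh775ca1963e850b80.shift 1 2), (rh88c620441a3a17ea.shift 0 2), (rhd1d05263fabc0227.shift 1 2)] (by decide +kernel))
noncomputable def rhd62cf25b3bad2193 : CRef := CRef.mk (Pat.mk 0x3000000020000000a000000000 0x15000000150000007ff000003fe000007bf000000a000000080 9 11) 0 0 (step_sound _ 132 [rh9db1476117718991, (rha3df16ea9c8576c8.shift 4 1), (rhc89253ff58c66167.shift 4 1), (rhe072fffdd2fccf38.shift 4 1)] (by decide +kernel))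
noncomputable def rh63cef41256499e05 : CRef := CRef.mk (Pat.mk 0x180000000000000050000000000000000000000000 0x28000000380000003800000038000000f80000003e00000018000000770000003e0000003f00000028 9 8) 0 0 (step_sound _ 132 [rha321187b1b18b0a1, (rhb1a251d9bff81766.shift 3 2), (rhe9f0d31914778383.shift 1 3)] (by decide +kernel))
noncomputable def rhbca03447fd1147ca : CRef := CRef.mk (Pat.mk 0x20000000100000000000000050000000000000000000000000 0x1ef000000fe000000ff0000005800000050000000380000003800000028 9 9) 0 0 (step_sound _ 132 [(rh22d86f446f3de558.shift 1 2), (rh8dd9f845b93871d9.shift 3 0), (rh984bfc6de6c2c524.shift 3 0), (rhda2b33052fa7331d.shift 0 3)] (by decide +kernel))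
noncomputable def rhde92465d9171ba26 : CRef := CRef.mk (Pat.mk 0xc00000002000000000000000800000000 0x10000000fe000000fe000001ff000000180000000800000008 9 9) 0 0 (step_sound _ 132 [(rh0f4a0920b9f47778.shift 1 3), (rh7d07c3f29f4a92af.shift 1 1), rh8235b9011e7ea27b] (by decide +kernel))
noncomputable def rh92ad2395f211b1ca : CRef := CRef.mk (Pat.mk 0x80000000c0000001000000010 0x140000001f0000003f0000003f0000000c0000000c0000001800000010 9 6) 0 0 (step_sound _ 131 [(rhae98e7f3d7bf7674.shift 0 2), (rhbe0e43a3bc50a43f.shift 3 0)] (by decide +kernel))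
noncomputable def rh48ef9bec5fdb65bd : CRef := CRef.mk (Pat.mk 0x600000007000000000000000000000001 0x30000000f0000003f0000000700000007000000070000000700000001 9 6) 0 0 (step_sound _ 32 [rh04253f50b6dd0619, rh4f20a92624c833c0] (by decide +kernel))
noncomputable def rh030d18d4526240d6 : CRef := CRef.mk (Pat.mk 0x180000003800000010 0x100000003f000000ff000000f80000003800000030 9 8) 0 0 (step_sound _ 99 [(rh2145e1d24b96a57e.shift 3 0), rh3b8712a97cc21ae1] (by decide +kernel))
noncomputable def rh71cc6777d493ddb5 : CRef := CRef.mk (Pat.mk 0x40000001c0000000400000000 0x2800000038000000380000003f0000007f0000001c0000007c00000074 9 7) 0 0 (step_sound _ 99 [(rh341e64f6d4895941.shift 2 0), rh55fe96b0f08b4b29, (rha6a38c5104621387.shift 0 1)] (by decide +kernel))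
noncomputable def rh2ca9e2afd3b62ea9 : CRef := CRef.mk (Pat.mk 0x1000000070000000000000000 0x140000001c0000001c0000007c0000007f0000003f0000007c0000000c 9 7) 0 0 (step_sound _ 67 [(rh167fff566cb27b75.shift 0 1), (rh2aac33c566332a8c.shift 0 1), (rh3fc3a7fb6866dcd4.shift 0 1), rh568e38204266cde5, (rh790acd67f4fffd04.shift 0 2)] (by decide +kernel))
noncomputable def rhc065ce05e4db385f : CRef := CRef.mk (Pat.mk 0xc00000006000000000000000800000000 0x18000000180000003c0000003f0000007e000000780000000800000008 9 7) 0 0 (step_sound _ 132 [(rh18965a982d73c794.shift 1 3), rhc90e59084ddd3e6c] (by decide +kernel))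
noncomputable def rhb2ebb3552c03abf4 : CRef := CRef.mk (Pat.mk 0x2000000060000000500000000 0xf0000001f0000001b0000001e0000000700000003 9 5) 0 0 (step_sound _ 129 [(rh2145e1d24b96a57e.shift 1 1), rh476eccd3e581668b] (by decide +kernel))
noncomputable def rh273de0f74ff4268c : CRef := CRef.mk (Pat.mk 0x800000008000000180000001800000000 0x37000000ff000000f8000000180000001800000008 9 8) 0 0 (step_sound _ 132 [(rh2f68792b6b779e96.shift 3 1), rhf9b738624531b123] (by decide +kernel))
noncomputable def rh566e60ad7acb0f99 : CRef := CRef.mk (Pat.mk 0x8000000080000001c00000004 0x62000000620000007f0000007f0000007e00000004 9 7) 0 0 (step_sound _ 66 [rh4a0a4c05c024ef72, (rh5c5a2014709044d0.shift 0 1), (rh7ddd7de04b8018d0.shift 1 1), (rhe2b63c00a3d7bb73.shift 0 1)] (by decide +kernel))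
noncomputable def rh369b46dbf20fdf3c : CRef := CRef.mk (Pat.mk 0x800000008000000040000000000000004 0x1e0000007f0000007f0000000f0000000c0000000c00000004 9 7) 0 0 (step_sound _ 98 [(rh17f22511abe7f664.shift 0 1), (rh9e3edb185cc347de.shift 2 0)] (by decide +kernel))
noncomputable def rh78368606192af159 : CRef := CRef.mk (Pat.mk 0x8000000180000001400000000 0x1c0000007c0000001f0000007e000000fc000000e8 9 8) 0 0 (step_sound _ 131 [(rh2145e1d24b96a57e.shift 3 1), rhe25bcd8cfbc390dc] (by decide +kernel))
noncomputable def rhebb5820f6eb3fe9c : CRef := CRef.mk (Pat.mk 0x20000000700000005000000000 0x70000001f00000073f000003fe0000077700000020 9 11) 0 0 (step_sound _ 71 [rh69688ec0dcf89356, (rhe3060b190bc0bc78.shift 3 2), (rhf2b3bcf1454375d8.shift 4 1)] (by decide +kernel))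
noncomputable def rh5a7cbc297b3dbb5f : CRef := CRef.mk (Pat.mk 0x10000000300000002800000000 0x3e000000ff0000007e0000003c000000f800000050 9 8) 0 0 (step_sound _ 132 [(rh2145e1d24b96a57e.shift 4 1), rh76a8ba1681c97d5d] (by decide +kernel))
noncomputable def rh491933ef68eb578f : CRef := CRef.mk (Pat.mk 0x40000000e000000020000000000000008 0x34000000340000007f0000007e000000fa0000000800000008 9 8) 0 0 (step_sound _ 162 [(rh5c5e593799055d58.shift 1 2), rh8d35d8ba1320570e] (by decide +kernel))
noncomputable def rhad2087c6ea64dad5 : CRef := CRef.mk (Pat.mk 0x380000001800000000 0x28000000680000007f0000003f0000001f00000014 9 7) 0 0 (step_sound _ 66 [(rh775ca1963e850b80.shift 0 1), (rh7e9cde87700d8a52.shift 1 0), (rhb14e2588a8d71db8.shift 0 1), (rhba89ab7cb81bcc90.shift 0 1)] (by decide +kernel))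
noncomputable def rh50af7c1d370bc830 : CRef := CRef.mk (Pat.mk 0x18000000180000000000000020 0x40000003c0000003c000000f80000007f0000001f0000003700000020 9 8) 0 0 (step_sound _ 66 [(rh0bb882ba86b2372d.shift 0 2), (rh25d9cddd94f3a268.shift 2 0), (rh8b9fc029f18d345b.shift 0 1), (rhab2ad169e49f9c5e.shift 0 2)] (by decide +kernel))
noncomputable def rha11d463422d801c9 : CRef := CRef.mk (Pat.mk 0x380000001800000000 0xe0000000e0000007f0000003f0000001e00000004 9 7) 0 0 (step_sound _ 34 [(rh53b3c253cb0c65f4.shift 1 1), rh6e7c215ac1cd3c6e] (by decide +kernel))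
noncomputable def rhf07a80ac774c33a0 : CRef := CRef.mk (Pat.mk 0x380000001800000000 0x24000000660000007f0000003f0000001e00000010 9 7) 0 0 (step_sound _ 33 [(rh24ae073cf30720c4.shift 1 1), rh63f323293b12edd6] (by decide +kernel))
noncomputable def rh502ebe4528afa123 : CRef := CRef.mk (Pat.mk 0x380000001800000000 0x3c0000003e000000770000003f0000001800000010 9 7) 0 0 (step_sound _ 66 [(rh15c6bd118a09e701.shift 0 1), (rhba89ab7cb81bcc90.shift 0 1), (rhc1f4f9346221d791.shift 1 0)] (by decide +kernel))
noncomputable def rh3b25217cebd6199e : CRef := CRef.mk (Pat.mk 0x80000001e00000000 0x280000003e0000003e000000ff0000003f0000001e0000000a 9 8) 0 0 (step_sound _ 68 [(rh33e738c4ed385b9f.shift 1 1), rh7db3173121f0d8f7] (by decide +kernel))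
noncomputable def rh0863c667dc067013 : CRef := CRef.mk (Pat.mk 0xe000000020000000000000002000000000 0x38000000780000001e000000fe0000003f000000380000002000000020 9 8) 0 0 (step_sound _ 132 [(rh0da3f8d18d3a0dfd.shift 3 1), (rh7b21d1b29bac71a5.shift 1 1), (rh7c446a5779c6be66.shift 0 3), (rhb77b6b67800ceea6.shift 3 0)] (by decide +kernel))
noncomputable def rhc08d54fc844db899 : CRef := CRef.mk (Pat.mk 0x20000001e0000000600000000 0x3f0000003f000000360000001e0000000e00000002 9 6) 0 0 (step_sound _ 129 [(rh2145e1d24b96a57e.shift 1 1), rhb56d8be8c37e7f30] (by decide +kernel))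
noncomputable def rh9d9962228ee1b88c : CRef := CRef.mk (Pat.mk 0x180000001800000008 0x1c000000fc000000ff0000001f0000001800000008 9 8) 0 0 (step_sound _ 99 [(rh2ddd6c94c59240f8.shift 3 0), rh5c4644d8c858bef1, (rh7b9fbdf6d2d059e4.shift 2 0)] (by decide +kernel))
noncomputable def rhfb3464debfd4cf1e : CRef := CRef.mk (Pat.mk 0xe000000040000000000000010 0xa0000000f0000007f0000003e000000740000001000000010 9 7) 0 0 (step_sound _ 100 [(rha93a5dd541ab8209.shift 1 2), rhaa219727ceed7996, (rhb18e6c78a554867d.shift 0 3), (rhe401600d466b97cd.shift 0 2)] (by decide +kernel))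
noncomputable def rhdac8bbfddbb129b2 : CRef := CRef.mk (Pat.mk 0x1e000000040000000000000010 0xa0000000f0000003f0000001e000000370000001000000010 9 6) 0 0 (step_sound _ 68 [rh86a166494f2b0a6d, (rhe25b0a99195a5d59.shift 1 2)] (by decide +kernel))
noncomputable def rhd98fd69e946f3c61 : CRef := CRef.mk (Pat.mk 0x400000006000000000000000a00000000 0x1400000014000000fc0000007e0000007b0000000a0000000a 9 8) 0 0 (step_sound _ 65 [(rh71222050f2c63a3a.shift 1 0), rhb9cbfcf3b062c9ab] (by decide +kernel))
noncomputable def rh91008cbe81795929 : CRef := CRef.mk (Pat.mk 0xe0000001800000000000000000000000000000000 0x60000000600000007000000fe0000001f0000000f000000070000000700000005 9 8) 0 0 (step_sound _ 164 [rh1cd41dccea7cabb0, (rh21460d2d48a35cb8.shift 0 3), (rh3a69dc315759d1b4.shift 0 3), (rh412d230494194d0a.shift 0 4), (rh41b813ae66f111d8.shift 0 1)] (by decide +kernel))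
noncomputable def rh9573bebbd0dfe75e : CRef := CRef.mk (Pat.mk 0x180000003000000000000000a000000000 0xc0000001c0000001c000000d8000000f8000000df000000ec000000ac 9 8) 0 0 (step_sound _ 102 [rha8aff73eac1626b1, (rhf48373e13d2bc128.shift 3 3)] (by decide +kernel))
noncomputable def rh8dc3840b1b211ab7 : CRef := CRef.mk (Pat.mk 0x8000000080000000800000000 0x140000001f0000003f0000003f0000000c0000000c00000004 9 6) 0 0 (step_sound _ 131 [(rh20966da26a1c2ae8.shift 2 0), (rh771d065bdc85bf2d.shift 2 0), rh96199f16815d842c, (rhc85cc95794737cf7.shift 2 1)] (by decide +kernel))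
noncomputable def rhb4d9c7cfc7ae1653 : CRef := CRef.mk (Pat.mk 0x200000006000000040000001000000000000000000 0x180000001800000fff000007fe00000fff0000019c0000011c00000014 9 12) 0 0 (step_sound _ 132 [(rh3918eeb6c53434d8.shift 1 3), (rh554009a2f490582e.shift 0 3), (rh9d4ac935437e7079.shift 3 1), rha97a0273060d881a, (rhb2afcb5db661472f.shift 1 3), (rhcf21ecda606592f8.shift 2 1)] (by decide +kernel))
noncomputable def rh7876ea52724da128 : CRef := CRef.mk (Pat.mk 0x400000006000000020000000800000000 0x1000000010000000fc000000ff000001ff0000000800000008 9 9) 0 0 (step_sound _ 99 [rh08061ce37c0b8068, rh1a6590498224160a, (rh6287b81491833f3f.shift 0 2), rhbcb65e134dea9887] (by decide +kernel))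
noncomputable def rh8a4191860a6caed0 : CRef := CRef.mk (Pat.mk 0x10000000100000001800000038 0x1ec000000ff000001fe0000001e00000038 9 9) 0 0 (step_sound _ 34 [rh338cdbabe058347d, (rhb739f4f82bb681b4.shift 1 0)] (by decide +kernel))
noncomputable def rh4b7ec831af7df170 : CRef := CRef.mk (Pat.mk 0x1800000010000000180000003800000000 0x270000003e0000007700000038000000f8000000c0 9 8) 0 0 (step_sound _ 133 [rh1cd9eb259a9d30b6, (rh2f68792b6b779e96.shift 4 1)] (by decide +kernel))
noncomputable def rhb925458b0041c7ff : CRef := CRef.mk (Pat.mk 0x40000000c000000080000002000000000 0x500000007000000070000000e7000001ff0000007f0000003300000022 9 9) 0 0 (step_sound _ 68 [(rh3c3e23a02e82b2ed.shift 0 2), (rh5c5a2014709044d0.shift 0 2), rha2a8389f91207085, (rhc52fe94a5fc1f73d.shift 2 0)] (by decide +kernel))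
noncomputable def rh52dce483c4240cd8 : CRef := CRef.mk (Pat.mk 0xe000000040000000000000010 0xa0000000f000000ff0000007e000000f40000001000000010 9 8) 0 0 (step_sound _ 100 [rh1608ddb21bd65595, (rh394e80a462af5b2f.shift 0 2), (rha93a5dd541ab8209.shift 1 2), (rhb18e6c78a554867d.shift 0 3), (rhe401600d466b97cd.shift 0 2)] (by decide +kernel))
noncomputable def rhd357eaa9d62389b0 : CRef := CRef.mk (Pat.mk 0x300000002000000000000000a000000000 0x4000000040000007ee000003fe000007bf000000a0000000a000000020 9 11) 0 0 (step_sound _ 134 [(rh51373e140f002442.shift 1 1), (rh58f04f31e8d442df.shift 2 0), (rh709d334d22ae84c4.shift 0 3), (rhcdeeee30b5ae227a.shift 2 3), (rhddeb2ab65ae900f0.shift 3 1)] (by decide +kernel))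
noncomputable def rh3876d507952a5dd4 : CRef := CRef.mk (Pat.mk 0xe0000000400000000 0x7000000070000007f0000007e000000e700000002 9 8) 0 0 (step_sound _ 68 [(rh551f2e378d429d2a.shift 1 1), rh610b8fe03de92cf6, (rhaf9f2efc81a8312b.shift 0 1), (rhb18e6c78a554867d.shift 0 2)] (by decide +kernel))
noncomputable def rhdc1b9eef1fe59768 : CRef := CRef.mk (Pat.mk 0x1e0000000800000000 0x160000003f0000003f0000001e0000000f00000006 9 6) 0 0 (step_sound _ 33 [rh170ec006f2f607e7, (rheb0810cc63b001d8.shift 0 1)] (by decide +kernel))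
noncomputable def rh3b76f64de0a0f3e8 : CRef := CRef.mk (Pat.mk 0x80000000800000018000000100000000000000000 0x140000003c0000001f0000001f0000001f0000000f00000004 9 6) 0 0 (step_sound _ 67 [(rh7804cc5007dcb340.shift 0 1), (rh900a894640be090c.shift 0 1), (rhcab3157f7bdcba3e.shift 2 0), (rhf0de6c8aa2cd780d.shift 0 1), (rhfb48bea540f6436d.shift 2 0)] (by decide +kernel))
noncomputable def rh87724bcd580e758d : CRef := CRef.mk (Pat.mk 0x18000000100000000000000010 0x1c0000001f0000007c000000380000001f0000001c00000010 9 7) 0 0 (step_sound _ 131 [(rh97440edde7818d26.shift 0 1), (rh9e07f76261b05888.shift 3 0)] (by decide +kernel))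
noncomputable def rh7fafa38d284ba744 : CRef := CRef.mk (Pat.mk 0x8000000180000001000000000 0x3c000000ff0000007f000000780000001800000008 9 8) 0 0 (step_sound _ 131 [(rh2145e1d24b96a57e.shift 3 1), rhd41b2ce965aed414] (by decide +kernel))
noncomputable def rhe9078f4ea52f96b0 : CRef := CRef.mk (Pat.mk 0x8000000080000001800000018000000000000004000000000 0x800000008000001df000000ff000000e40000004000000040 9 9) 0 0 (step_sound _ 98 [rh1c777d2fe263dafe, (rh932754581e0f4330.shift 2 2)] (by decide +kernel))
noncomputable def rh8df9cd58bb9400a6 : CRef := CRef.mk (Pat.mk 0x180000001800000010 0x3c0000003e0000003e0000007e0000001f00000030 9 7) 0 0 (step_sound _ 34 [(rhbb7600562b9f5fc8.shift 1 0), (rhd69c262cd33b94b3.shift 0 1), rhf56e6bc5d2f7fe77] (by decide +kernel))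
noncomputable def rhd12d34199b2ae564 : CRef := CRef.mk (Pat.mk 0x3800000018000000000000000000000000 0xc0000000c0000000f0000003f0000001f000000060000000600000006 9 6) 0 0 (step_sound _ 130 [(rh4592e78c73a42485.shift 1 0), (rh775ca1963e850b80.shift 0 3), (rhb14e2588a8d71db8.shift 0 3), (rhba89ab7cb81bcc90.shift 0 3)] (by decide +kernel))
noncomputable def rhf4ab106f55040ec2 : CRef := CRef.mk (Pat.mk 0x80000000800000018000000100000000000000000 0x30000000340000007f0000001f0000007f000000770000002600000002 9 7) 0 0 (step_sound _ 130 [rh1cb8d27c59f48eac, (rh4ca5dae25f5c14ff.shift 0 3), (rh8c42ab291949935b.shift 0 1)] (by decide +kernel))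
noncomputable def rhe5f532e6778f6df4 : CRef := CRef.mk (Pat.mk 0x40000000c00000008000000280000000000000000 0x10000001df000000ff000001ff0000003b0000002200000020 9 9) 0 0 (step_sound _ 100 [(rh1f093de53970941d.shift 1 0), (rh25e6bea3988c424f.shift 0 1), (rh3c3e23a02e82b2ed.shift 0 3), (rh5c5a2014709044d0.shift 0 3), (rhb0121edee88fe839.shift 0 3)] (by decide +kernel))
noncomputable def rh4c5707b71b997e38 : CRef := CRef.mk (Pat.mk 0xe000000040000000400000000000000000 0x9800000098000001df000000fe0000007f0000005c0000001c00000014 9 9) 0 0 (step_sound _ 132 [(rh49606a42a30c7ac4.shift 4 2), (rh4c622fddc53a5f99.shift 2 4), (rh592c7139d2c44767.shift 2 3), (rh9e97bba44c1b13e4.shift 2 3), rha97a0273060d881a] (by decide +kernel))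
noncomputable def rh42039d63e14b8725 : CRef := CRef.mk (Pat.mk 0x200000006000000040000001400000000000000000 0x9800000098000001ff000000fe000001ff000001dc0000001c00000014 9 9) 0 0 (step_sound _ 132 [(rh3918eeb6c53434d8.shift 1 3), (rh4753ea4696c32881.shift 3 1), (rh554009a2f490582e.shift 0 3), rha97a0273060d881a, (rhb2afcb5db661472f.shift 1 3)] (by decide +kernel))
noncomputable def rh0cd5fedcc3eba98a : CRef := CRef.mk (Pat.mk 0x1800000018000000100000004000000000 0x140000009400000097000000ff000000fb000000fa0000006000000040 9 8) 0 0 (step_sound _ 164 [(rh503dd4575245365b.shift 3 2), (rh6655c67851f4b756.shift 3 1), rhd70156aad596f2ad] (by decide +kernel))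
noncomputable def rh392a866a6f2bc66d : CRef := CRef.mk (Pat.mk 0xc0000000c000000080000002000000000 0x1800000058000000780000006f0000007c0000007c0000003000000020 9 7) 0 0 (step_sound _ 163 [rh26b5737ecac43ea8, (rh503dd4575245365b.shift 2 2), (rh5fa50b509d4ce753.shift 2 2), (rh769be3fe24eee174.shift 2 2)] (by decide +kernel))
noncomputable def rhc42c93de32193a68 : CRef := CRef.mk (Pat.mk 0xc0000000c0000001800000030000000000000000000000000 0x600000007c0000006f0000007800000030000000600000006000000060 9 7) 0 0 (step_sound _ 161 [(rhb662c787b8e01f2a.shift 1 0), (rhb739f4f82bb681b4.shift 0 4)] (by decide +kernel))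
noncomputable def rh209c92336c6b27b4 : CRef := CRef.mk (Pat.mk 0x18000000300000004000000000000000000000000000000000 0xa0000000e0000000e0000000f0000000d8000000ff00000067000000c0000000e0000000e000000020 9 8) 0 0 (step_sound _ 166 [rh7f65dc8651c12d64, (rhf48373e13d2bc128.shift 3 5)] (by decide +kernel))
noncomputable def rheecce81cd6fa2e82 : CRef := CRef.mk (Pat.mk 0x10000000700000000000000020 0xa0000000e0000000e0000000fe0000007e000000ef00000020 9 8) 0 0 (step_sound _ 67 [(rh14ee58c1672e9101.shift 0 1), (rh4c622fddc53a5f99.shift 1 2), (rh592c7139d2c44767.shift 1 1), (rh9e97bba44c1b13e4.shift 1 1), (rhf1a7a62c7f58aaa0.shift 2 0)] (by decide +kernel))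
noncomputable def rhf51732ec74f316b5 : CRef := CRef.mk (Pat.mk 0x100000003800000000000000a000000000 0xa0000000e0000000e0000000f70000007e000000c7000000e0000000a0 9 8) 0 0 (step_sound _ 98 [(rh356c202f6712dcf6.shift 2 0), (rh775ca1963e850b80.shift 0 2), (rhec46bd5500c722c9.shift 1 3)] (by decide +kernel))
noncomputable def rh0623385017d64262 : CRef := CRef.mk (Pat.mk 0x100000003000000000000000a00000000000000000 0x1000000050000001df000000fe000001ef000000e0000000a000000080 9 9) 0 0 (step_sound _ 101 [rh2b1b005051b4325a, (rh7b1f1fb55310c477.shift 4 1)] (by decide +kernel))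
noncomputable def rh86b5c0a2812410cc : CRef := CRef.mk (Pat.mk 0x400000018000000000000002800000000 0x200000003c0000003c000000ff000000ff000000fb000000320000003800000028 9 8) 0 0 (step_sound _ 132 [(rh1865c0650619c6ee.shift 3 0), (rh459a846e13271890.shift 3 0), rh59e888f6278cc4cd, rh831e791bb3b93075, (rhad1bbd317a2f71dd.shift 0 1)] (by decide +kernel))
noncomputable def rh8fd9dccc504587e6 : CRef := CRef.mk (Pat.mk 0xe0000000c00000000 0x7000000070000003f0000007e0000000f00000002 9 7) 0 0 (step_sound _ 68 [(rh4dc133ee0ba1420a.shift 0 1), rh610b8fe03de92cf6, (rh771383521b68d2cd.shift 0 1)] (by decide +kernel))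
noncomputable def rh55c75d82b1c35d1c : CRef := CRef.mk (Pat.mk 0x180000000000000028000000000000000000000000 0x40000002c0000007f0000007e0000007e000000380000003c0000002c00000024 9 7) 0 0 (step_sound _ 131 [rh1b29d1267387500a, (rh274a837cd7eaa569.shift 2 0), (rh288cf6fbb8cd8def.shift 1 0), (rhd8480aedf4075c15.shift 2 0)] (by decide +kernel))
noncomputable def rh895d8c53fa9ed3ab : CRef := CRef.mk (Pat.mk 0xe000000000000000200000000 0x50000000700000007000000730000003e000000770000000600000004 9 7) 0 0 (step_sound _ 100 [rh2a63ef67bf8452dc, (rh3fc3a7fb6866dcd4.shift 1 2), (rh8db7f7558b75b2b1.shift 0 2)] (by decide +kernel))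
noncomputable def rh6a0b830e2b229893 : CRef := CRef.mk (Pat.mk 0xc00000000000000140000000000000000 0x1800000018000000f80000007f000000fe0000001c0000001400000010 9 8) 0 0 (step_sound _ 163 [rh0e6e4e5cab66942c, rh56d24753411e8705, (rh580df77fe152422b.shift 2 1), rh82e3ca078808ad41, (rhc3d3cf151ba06fc5.shift 1 1)] (by decide +kernel))
noncomputable def rhbf2fee8a436ab7ae : CRef := CRef.mk (Pat.mk 0x1800000000000000200000000000000000 0x580000007c000001fe000000ff000001f7000000300000003000000020 9 9) 0 0 (step_sound _ 133 [rh10b9c8cdfe6c2114, (rh1317c6ea28e6bacd.shift 2 1), (rh469d06c1c765a655.shift 1 2), (rh9c2721ba684235a7.shift 1 1), (rhdf07e0d5c2c3a82e.shift 1 3), (rhe0f3df1c6efaec8e.shift 1 1), rhefb326fe551078ac] (by decide +kernel))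
noncomputable def rh6e6b5b7cf818a6af : CRef := CRef.mk (Pat.mk 0x1c000000000000001400000000 0xa0000002e0000002e000000770000003e0000001e0000001c00000018 9 7) 0 0 (step_sound _ 101 [(rh2a63ef67bf8452dc.shift 1 0), (rh4c622fddc53a5f99.shift 0 3), (rhb705031692dfe65f.shift 2 0)] (by decide +kernel))
noncomputable def rhf70d9dcc8fa1ff4b : CRef := CRef.mk (Pat.mk 0x1c000000000000000400000000 0xa0000000e0000000e000000f70000007e000000ee0000000c00000008 9 8) 0 0 (step_sound _ 101 [(rh2a63ef67bf8452dc.shift 1 0), (rh3fc3a7fb6866dcd4.shift 2 2), (rh4c622fddc53a5f99.shift 0 3)] (by decide +kernel))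
noncomputable def rhc1be6f43375112bd : CRef := CRef.mk (Pat.mk 0xe000000000000000a00000000 0x500000017000000170000007b0000003e0000007f0000000e0000000c 9 7) 0 0 (step_sound _ 100 [rh2a63ef67bf8452dc, (rh3fc3a7fb6866dcd4.shift 1 2), (rhb705031692dfe65f.shift 1 0)] (by decide +kernel))
noncomputable def rh3e099eb8f3146e2a : CRef := CRef.mk (Pat.mk 0x800000008000000080000000800000000 0x1f4000000fe000001ff000000080000000c00000004 9 9) 0 0 (step_sound _ 132 [(rh2f68792b6b779e96.shift 3 1), rhe117a95be6c28f70] (by decide +kernel))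
noncomputable def rh811879258ec07936 : CRef := CRef.mk (Pat.mk 0x7000000000000000500000000000000000000000000000000 0xa0000000e0000001e0000000700000006000000770000003e0000007e0000000e0000000a 9 7) 0 0 (step_sound _ 162 [rh60f319a717b57e10, (rhb1a251d9bff81766.shift 1 3), (rhb6bb7e5edd28140f.shift 0 2), (rhd3815271ee404dcc.shift 0 3)] (by decide +kernel))
noncomputable def rha68a661fca447d92 : CRef := CRef.mk (Pat.mk 0x1c000000040000001400000000000000000000000000000000 0x8000000080000001f000000fc000001dc000000f8000001f80000003800000028 9 9) 0 0 (step_sound _ 164 [(rh0a6888916bcef86b.shift 3 1), (rh565855a8a81f37f3.shift 0 2), (rh60f319a717b57e10.shift 2 0), (rhb6bb7e5edd28140f.shift 2 2), (rhc21a95c499b3efdb.shift 1 5)] (by decide +kernel))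
noncomputable def rha41401a7cc3555ce : CRef := CRef.mk (Pat.mk 0x70000000100000004000000000 0x40000001cf000001fe000003f70000006000000060 9 10) 0 0 (step_sound _ 99 [(rh0837bf74ccc9ef48.shift 2 0), (rh7ad82e5e8d3f9d02.shift 2 2), (rhbb13f9e1d387f64a.shift 0 2), rhc6a078acb4a185d9, (rhdbe30b89b8872db3.shift 3 2), (rhfcffa0a9e99c8fd4.shift 3 0)] (by decide +kernel))
noncomputable def rh8a07daf359dc93eb : CRef := CRef.mk (Pat.mk 0x70000000000000005000000000000000000000000 0xa0000000e0000001e0000000f0000001e000000770000003e0000007e0000000a 9 7) 0 0 (step_sound _ 130 [rha144af756f8ec5e0, (rhb6bb7e5edd28140f.shift 0 1), (rhd3815271ee404dcc.shift 0 2), (rhebb306d4866abd5e.shift 0 1)] (by decide +kernel))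
noncomputable def rhf2709668cd0fcafc : CRef := CRef.mk (Pat.mk 0x1e000000100000001000000000 0x60000000e0000000f0000001e0000001f0000003700000007 9 6) 0 0 (step_sound _ 65 [rh56de50ba5d3c5a63, (rheb0810cc63b001d8.shift 0 2)] (by decide +kernel))
noncomputable def rh78bf6bc37ec794d0 : CRef := CRef.mk (Pat.mk 0x28000000280000002800000000000000000000000000000000 0x5000000070000000700000002f000000fc0000003800000070000000700000007000000010 9 8) 0 0 (step_sound _ 101 [(rh193da7fc9e1674f1.shift 4 2), (rh78450026ae2f86e2.shift 0 1), (rh8cdd36b03d57a2f6.shift 4 1), rhbc7834ae14787ee7] (by decide +kernel))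
noncomputable def rha32f38d62fab7886 : CRef := CRef.mk (Pat.mk 0x5000000040000000400000000 0xa0000007e0000003e00000077000000060000000600000002 9 7) 0 0 (step_sound _ 130 [(rh1741680720c097b4.shift 1 1), (rh20966da26a1c2ae8.shift 1 0), rh50c568dcb4e0f10b, (rh771d065bdc85bf2d.shift 1 0)] (by decide +kernel))
noncomputable def rh9f963fcd9baeddf5 : CRef := CRef.mk (Pat.mk 0xa00000002000000020 0x4000000050000007df000003fe0000077f00000020 9 11) 0 0 (step_sound _ 70 [rh01dc198b1d9ba7b5, (rh2820ca9a6c4f41b4.shift 2 1), (rh352b7f91eba0c81f.shift 4 1), rh81d03a4c34a33e1b] (by decide +kernel))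
noncomputable def rh3e29bb4200de43d2 : CRef := CRef.mk (Pat.mk 0x28000000280000002000000000000000000000000000000000 0x40000000ef0000007c0000003000000060000000700000007000000010 9 8) 0 0 (step_sound _ 101 [(rh0bd7bcfc41843595.shift 2 0), (rh431ac01d143f4d95.shift 2 3), (rh6c59ce14113da07f.shift 5 1), rhbc7834ae14787ee7] (by decide +kernel))
noncomputable def rh2a523f71167b51c4 : CRef := CRef.mk (Pat.mk 0xa000000020000000a000000000000000000000000 0x140000001c0000007c0000003f0000007e000000ee0000007c000000fc00000014 9 8) 0 0 (step_sound _ 131 [(rh0e909d28448826a3.shift 0 2), (rh890ce6f38a570d9c.shift 1 1), (rha144af756f8ec5e0.shift 1 0), (rha448e4252868b3e6.shift 0 2), (rhc667d5c1fee3bec0.shift 2 0)] (by decide +kernel))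
noncomputable def rhea2ba74c72eaf5cf : CRef := CRef.mk (Pat.mk 0x10000000100000005000000010 0x48000000ef000000ff000000fe0000007600000034 9 8) 0 0 (step_sound _ 101 [rh0199b432a0217fb2, (rh2f68792b6b779e96.shift 4 0)] (by decide +kernel))
noncomputable def rhef9cf8a777c9956a : CRef := CRef.mk (Pat.mk 0x680000000000000028000000000000000000000000 0x500000007000000070000003b0000003ff0000007e000001f700000038000000f80000007000000040 9 10) 0 0 (step_sound _ 133 [(rh07ba56e210b48f89.shift 0 2), (rh3820f35d5e705bec.shift 5 0), (rh5579856b848a2cdf.shift 3 0), (rh72eb7d2c6ecb4211.shift 2 2), (rhcd75c6b6cd6e185f.shift 3 1)] (by decide +kernel))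
noncomputable def rhddad7f96365a0eb2 : CRef := CRef.mk (Pat.mk 0x18000000000000000a000000000000000000000000 0x140000001c0000001c0000000c0000001f000000780000007c0000000e0000003c0000001c00000010 9 7) 0 0 (step_sound _ 131 [(rh3820f35d5e705bec.shift 3 0), (rh3a7936a5b2cbe76b.shift 0 2), (rh5579856b848a2cdf.shift 1 0), (rhcd75c6b6cd6e185f.shift 1 1)] (by decide +kernel))
noncomputable def rh6bae3fa3cdc703b8 : CRef := CRef.mk (Pat.mk 0xf000000000000000a0000000000000000 0x40000000f00000018000000ee0000007c000000f4 9 8) 0 0 (step_sound _ 99 [(rhb6bb7e5edd28140f.shift 1 0), (rhe25b0a99195a5d59.shift 0 3)] (by decide +kernel))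
noncomputable def rh98736ede9d7bce97 : CRef := CRef.mk (Pat.mk 0xe000000000000000a000000000000000000000000 0x140000001c0000001e0000000f0000003e0000007c000000ee0000007e000000fc00000014 9 8) 0 0 (step_sound _ 131 [(rhb1a251d9bff81766.shift 2 2), (rhb6bb7e5edd28140f.shift 1 1), (rhd0deadfa4ee2bfb6.shift 0 2), (rhe6bb7469ca7a5510.shift 1 0)] (by decide +kernel))
noncomputable def rh25624a63347a2bad : CRef := CRef.mk (Pat.mk 0x7800000008 0x3c0000007c0000001f0000007c000000f800000028 9 8) 0 0 (step_sound _ 67 [(rh3244c3cc8379b070.shift 2 1), rh759e1eae6bfa6fcd] (by decide +kernel))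
noncomputable def rh05fb646b315bad6b : CRef := CRef.mk (Pat.mk 0x400000002000000020000001e00000000 0x21000000370000003e000000120000003e0000001e00000008 9 6) 0 0 (step_sound _ 129 [(rh2f68792b6b779e96.shift 1 1), rh9768de03810438db] (by decide +kernel))
noncomputable def rh3955ed2f8caf1676 : CRef := CRef.mk (Pat.mk 0x4000000040000003c 0xa0000000e0000003e0000003f0000003f0000006c0000003c 9 7) 0 0 (step_sound _ 38 [rh22ac5414f01273ac, (rh428265de8cd3cd2d.shift 2 0)] (by decide +kernel))
noncomputable def rhfa4d26132d0c3219 : CRef := CRef.mk (Pat.mk 0x14000000100000001000000000 0x1000000038000000ff0000003f000000180000001800000010 9 8) 0 0 (step_sound _ 132 [(rh9935478c09cd7ebd.shift 2 0), (rh9e78c8d0a6e73966.shift 1 0), (rhb034511df68c2fcf.shift 1 1), rhc3ce67b2956aec18, (rhe5c446e6f9c46d72.shift 1 0), (rhf26e0cd23e9b8fcd.shift 1 0)] (by decide +kernel))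
noncomputable def rhbf0e5b4a6c481b57 : CRef := CRef.mk (Pat.mk 0x280000002000000028000000000000000000000000 0x1df000001fe000003b7000003b8000001f0000003f000000050 9 10) 0 0 (step_sound _ 69 [(rh3058b7020828739c.shift 3 1), (rh46a28115ca83879d.shift 0 2), (rh8cdd36b03d57a2f6.shift 4 0), (rhae9e91dbf306c82a.shift 3 1)] (by decide +kernel))
noncomputable def rhbc884cd6b2f4d5ca : CRef := CRef.mk (Pat.mk 0x400000000000000080000000f8000000000000005000000000 0x40000000e0000000b7000000fe000001ae0000007000000050 9 9) 0 0 (step_sound _ 66 [(rh80fcd6d0a18cb2dd.shift 2 2), rhc58c367ce2bd3103] (by decide +kernel))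
noncomputable def rhfe11e02935a828dd : CRef := CRef.mk (Pat.mk 0x2000000000000000000000007c000000000000002800000000 0x140000003c0000003c000000380000001c0000007f000000170000003800000028 9 7) 0 0 (step_sound _ 131 [(rh3244c3cc8379b070.shift 2 3), rh70076f2521bf0769] (by decide +kernel))
noncomputable def rhad5725d305857d70 : CRef := CRef.mk (Pat.mk 0x40000000000000000000000038000000040000005000000000 0x500000007000000070000000370000003e000000260000007000000050 9 7) 0 0 (step_sound _ 98 [rh58dfc639bb7cb280, (rheb0810cc63b001d8.shift 1 2)] (by decide +kernel))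
noncomputable def rh9c396e67d16488c5 : CRef := CRef.mk (Pat.mk 0x200000006000000000000000040000003c00000000 0x20000000200000007c000001ff0000001c000000140000003e00000007 9 9) 0 0 (step_sound _ 164 [(rh3c3e23a02e82b2ed.shift 2 4), rh3cac2ea604ee602b, rh3f1d6195ad6111ae, (rh5c5a2014709044d0.shift 2 4)] (by decide +kernel))
noncomputable def rh045df984d142a049 : CRef := CRef.mk (Pat.mk 0x6000000000000000440000007c00000000 0x3de000001fc000003de000000440000007e000000c7 9 10) 0 0 (step_sound _ 1 [(rh80fcd6d0a18cb2dd.shift 1 0), rhc134cdb55eefb8fe] (by decide +kernel))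
noncomputable def rh91b534ad72ec4b0e : CRef := CRef.mk (Pat.mk 0x1e000000000000000000000004 0x70000000f0000003f0000001e000000070000000400000004 9 6) 0 0 (step_sound _ 132 [(rh33e738c4ed385b9f.shift 1 3), rh88a8a612e317ffad] (by decide +kernel))
noncomputable def rhade32c46069ec829 : CRef := CRef.mk (Pat.mk 0x1a000000000000000000000004 0xa0000000f0000007f000000ff000000e60000000400000004 9 8) 0 0 (step_sound _ 98 [rh1182f4eba70209eb, rh5e0ac8b51e5bef38, rh7bbaf4fdbe85db75, rhb096730a301e2fc8, (rhb18e6c78a554867d.shift 0 3)] (by decide +kernel))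
noncomputable def rh65b89aeea0165deb : CRef := CRef.mk (Pat.mk 0x6800000000000000040000003800000000 0x1f7000003fe0000039f000000160000003e00000007 9 10) 0 0 (step_sound _ 34 [(rh3244c3cc8379b070.shift 1 1), rhcfcc5b23be9dbe88] (by decide +kernel))
noncomputable def rh71d5d9dafbd00c55 : CRef := CRef.mk (Pat.mk 0x6000000000000000400000007c00000002 0xe00000007c0000005c0000005c0000007f000000d3 9 8) 0 0 (step_sound _ 33 [rh2138d7074e76bc3a, rheb0810cc63b001d8] (by decide +kernel))
noncomputable def rh71068f89da094bbd : CRef := CRef.mk (Pat.mk 0x1a00000010000000000000000f000000000 0x330000001e0000003400000006f000000fe0000001f 9 10) 0 0 (step_sound _ 134 [rhaf583c47bc4d7905, (rhe25b0a99195a5d59.shift 5 3)] (by decide +kernel))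
noncomputable def rh40370607ccd579e7 : CRef := CRef.mk (Pat.mk 0xd000000000000000000000003800000004 0x2800000078000000d800000010000000370000003e00000026 9 8) 0 0 (step_sound _ 34 [rhdd3cf9ab6387837e, (rheb0810cc63b001d8.shift 1 0)] (by decide +kernel))
noncomputable def rh66e5cbf0ef4f6adb : CRef := CRef.mk (Pat.mk 0x400000000000000000000001e000000000000001400000000 0x840000008e000001fb000000fe000000eb0000005c00000054 9 9) 0 0 (step_sound _ 131 [(rh88039cb9ab3194cc.shift 1 0), rh9e12ef6a90912d02] (by decide +kernel))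
noncomputable def rhb27ac1d984d11ca6 : CRef := CRef.mk (Pat.mk 0x200000000000000000000001f000000000000000a00000000 0xa0000000e0000000e0000001c0000007f000000740000000e0000000a 9 7) 0 0 (step_sound _ 69 [rh82af87b93df8324d, (rh96851dee118c1ba3.shift 1 2)] (by decide +kernel))
noncomputable def rh0c5633dc8178b6f4 : CRef := CRef.mk (Pat.mk 0x100000000000000200000001e000000100000000500000000 0x50000002700000027000000660000003e000000120000001700000015 9 7) 0 0 (step_sound _ 101 [(rh33e738c4ed385b9f.shift 2 3), rhb55aad5153a8c06a] (by decide +kernel))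
noncomputable def rh9c2eb78e4e5584a8 : CRef := CRef.mk (Pat.mk 0x10000000000000002000000078000000000000005000000000 0x1ff000000fe000001ef0000002c000000780000002c0000007000000050 9 9) 0 0 (step_sound _ 197 [(rh09aafa2ce0e6d2c2.shift 0 2), (rh21c1af9a930fa3b7.shift 1 0), (rh7c5f8bd8036bfd64.shift 0 2), (rha94fe8851f545460.shift 1 3), (rhc645f9bc0f88d7aa.shift 4 0)] (by decide +kernel))
noncomputable def rh6b744d2682882a7b : CRef := CRef.mk (Pat.mk 0x10000000000000002000000078000000000000005000000000 0x40000001ff000000fe000001ef0000006c000000780000002c0000007000000050 9 9) 0 0 (step_sound _ 197 [(rh09aafa2ce0e6d2c2.shift 0 2), (rh21c1af9a930fa3b7.shift 1 0), (rh46d5d5138b86b44a.shift 4 3), (rh7c5f8bd8036bfd64.shift 0 2)] (by decide +kernel))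
noncomputable def rhb1349aa1b9bef081 : CRef := CRef.mk (Pat.mk 0x800000000000000400000003c00000000 0x20000000250000007f0000007f000000cb000000fe000001d7 9 9) 0 0 (step_sound _ 99 [rh28ba43c675a7fc26, (rh3a40240e3b39aee7.shift 2 0), (rhbf726fa7097229f2.shift 2 0)] (by decide +kernel))
noncomputable def rhb7bb0e5286b8297f : CRef := CRef.mk (Pat.mk 0x200000002000000020000000f00000000 0x740000003f0000007f0000007a0000003f00000070 9 7) 0 0 (step_sound _ 36 [(rh3fc3a7fb6866dcd4.shift 1 0), rh8753fa30e52828ac, (rh9890f9d77740bbed.shift 0 1)] (by decide +kernel))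
noncomputable def rh87d3f480906643fc : CRef := CRef.mk (Pat.mk 0x1000000000000000000000007800000000 0x400000006f000000fe000000ff000001d6000001fc000003ae 9 10) 0 0 (step_sound _ 100 [(rh57e98d8e05f75bdb.shift 1 0), (rhbf726fa7097229f2.shift 3 0), rhc343a4e3c05d5e2e] (by decide +kernel))
noncomputable def rh9213876b576aa1f5 : CRef := CRef.mk (Pat.mk 0x3800000000 0xa0000000e0000001e0000007f0000003e0000000f 9 7) 0 0 (step_sound _ 34 [(rh4c622fddc53a5f99.shift 0 1), (rh5a5335e7de19126f.shift 1 0), rh7654d7b92c96fe12, rh775ca1963e850b80] (by decide +kernel))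
noncomputable def rh19a2f9cbc5e41178 : CRef := CRef.mk (Pat.mk 0x2800000020000000000000007800000000 0x70000003e000000740000000e0000007e00000007 9 7) 0 0 (step_sound _ 66 [(rh3f8766e6ecb455ce.shift 2 1), rhf66a1586011df8b6] (by decide +kernel))
noncomputable def rh10d5de7a802bf432 : CRef := CRef.mk (Pat.mk 0x200000002000000100000001e00000020 0x3d0000001f0000003b00000012000000120000003e00000064 9 7) 0 0 (step_sound _ 132 [(rh82be616e028c1db2.shift 2 0), rha80795488aba2e4c] (by decide +kernel))
noncomputable def rhea70dd32bcecdfd7 : CRef := CRef.mk (Pat.mk 0x60000000200000002000000120000000e00000000 0x390000001f0000003a00000012000000320000003e00000070 9 7) 0 0 (step_sound _ 160 [(rh50fbb5868c909700.shift 0 2), rhf84c4180f4eeeb0b] (by decide +kernel))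
noncomputable def rh08d3e3a9583442f4 : CRef := CRef.mk (Pat.mk 0x800000008000000000000007c00000004 0x70000007f0000007f000000240000007c000000c4 9 8) 0 0 (step_sound _ 98 [(rh04253f50b6dd0619.shift 2 0), rhf8928d22ff08a669] (by decide +kernel))
noncomputable def rha01132ba9679020b : CRef := CRef.mk (Pat.mk 0xc00000000000000400000007e00000002 0x40000007e0000007700000043000000fe000001c2 9 9) 0 0 (step_sound _ 7 [(rh96851dee118c1ba3.shift 3 0), rhe18636ea113f9b70] (by decide +kernel))
noncomputable def rh070612d8451b67e7 : CRef := CRef.mk (Pat.mk 0x300000000000000100000000f000000008 0x80000003ff000001fe000003f40000032e000003fc0000070c 9 11) 0 0 (step_sound _ 101 [(rh0e15a09e6f52da8c.shift 2 1), (rh91d7e89670e3608f.shift 4 0), rhbc82e353a92a1af3] (by decide +kernel))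
noncomputable def rhcb7e1b4cad5f0408 : CRef := CRef.mk (Pat.mk 0x40000000c00000000000000000000001e 0xa0000000e0000000e0000003e0000003e0000000f0000000c0000000e0000000b0000001e 9 6) 0 0 (step_sound _ 162 [rh41c622e14aa3a70c, (rh66845b7b577256ef.shift 2 0), (rh9459e2fc5f65a4e9.shift 1 2)] (by decide +kernel))
noncomputable def rh494e19837eefd001 : CRef := CRef.mk (Pat.mk 0x80000001800000000000000800000007c00000004 0x1400000014000000370000017f000001fb000001ce00000186000000fc00000184 9 9) 0 0 (step_sound _ 162 [(rh4ca5dae25f5c14ff.shift 0 4), (rh7e9bae83f0451b24.shift 1 0), (rhbc5bc522fba78b48.shift 0 3)] (by decide +kernel))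
noncomputable def rh9ffa5089f48f0a9f : CRef := CRef.mk (Pat.mk 0xe0000000000000000 0x500000007000000070000007f0000003e0000007700000002 9 7) 0 0 (step_sound _ 68 [(rh06db8ceda6269a47.shift 0 1), (rh3fc3a7fb6866dcd4.shift 1 1), rh9b962e551b6880fb] (by decide +kernel))
noncomputable def rh5b0bc1cb02827bf2 : CRef := CRef.mk (Pat.mk 0x1e000000000000000000000008 0x380000003c0000003f0000001e000000380000000800000008 9 6) 0 0 (step_sound _ 132 [(rh33e738c4ed385b9f.shift 1 3), rhbd76b281123ea18e] (by decide +kernel))
noncomputable def rh065e768ae349e763 : CRef := CRef.mk (Pat.mk 0xc00000000000000000000001c00000002 0x390000001f0000001f0000000b0000001e00000003 9 6) 0 0 (step_sound _ 33 [rh5f7fdb28fa358219, rheb0810cc63b001d8] (by decide +kernel))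
noncomputable def rh703cb031b2368e93 : CRef := CRef.mk (Pat.mk 0xc00000000000000000000003e00000002 0x390000003f00000077000000230000003e00000002 9 7) 0 0 (step_sound _ 65 [rh1f2697a7c394b8fa, (rh3244c3cc8379b070.shift 0 1)] (by decide +kernel))
noncomputable def rh00685b67778e3e5e : CRef := CRef.mk (Pat.mk 0x1800000000000000400000006000000000 0xa0000007ff000003fe000003e7000000400000006000000020 9 11) 0 0 (step_sound _ 134 [(rh15173fcb5d0c051a.shift 3 0), (rh348b7c738943dbea.shift 1 3), (rh3f4a8c3fe761b121.shift 0 3), (rh773b1c89a0295a9b.shift 2 0), (rhc0fc249f4916f1ee.shift 3 0)] (by decide +kernel))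
noncomputable def rhf3dbdd77a4b5bcd0 : CRef := CRef.mk (Pat.mk 0x5800000000000000020000007c00000000 0x1dc000000f800000080000001c3000001fe00000380 9 10) 0 0 (step_sound _ 33 [(rh3244c3cc8379b070.shift 0 1), (rh4ad21d851f9eb40c.shift 2 0)] (by decide +kernel))
noncomputable def rhd38fe5b7e506027c : CRef := CRef.mk (Pat.mk 0x1600000000 0x2000000038000000380000003c000000ff0000007e000000f8 9 8) 0 0 (step_sound _ 35 [rh394e80a462af5b2f, rh3a21f3045b0e192e, (rha93a5dd541ab8209.shift 1 0), (rhb18e6c78a554867d.shift 0 1), rhe401600d466b97cd] (by decide +kernel))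
noncomputable def rh2716b32aa25355c7 : CRef := CRef.mk (Pat.mk 0x400000000000000000000003800000000 0x50000000700000007000001cf000000fe000001c7 9 9) 0 0 (step_sound _ 34 [rh1383627ed4ac30b8, (rh394e80a462af5b2f.shift 1 0), rh6a9f2ea73aa3529f] (by decide +kernel))
noncomputable def rh7e2a1c6ffe812e02 : CRef := CRef.mk (Pat.mk 0x70000000000000000000000000 0x1e0000001e0000001e000000ff0000007e0000001f0000000c0000000c 9 8) 0 0 (step_sound _ 99 [(rh4c622fddc53a5f99.shift 1 3), rh576aa160452ebcdb, (rh7654d7b92c96fe12.shift 1 2), (rh775ca1963e850b80.shift 1 2), (rh9b962e551b6880fb.shift 2 1)] (by decide +kernel))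
noncomputable def rh6751015dfcbdc85d : CRef := CRef.mk (Pat.mk 0xe00000000 0x2000000038000000380000003c0000007f0000003e00000078 9 7) 0 0 (step_sound _ 36 [rh3a21f3045b0e192e, (rha93a5dd541ab8209.shift 1 0), (rhb18e6c78a554867d.shift 0 1), rhe401600d466b97cd] (by decide +kernel))
noncomputable def rh4ecc4482b3424888 : CRef := CRef.mk (Pat.mk 0x1e00000000 0x50000000f0000000f0000003f0000001e00000037 9 6) 0 0 (step_sound _ 65 [(rh3244c3cc8379b070.shift 0 1), rhd4407d4635410f61] (by decide +kernel))
noncomputable def rh63f21671f1ecc769 : CRef := CRef.mk (Pat.mk 0x200000002000000020000000e00000000 0x8000000090000001f0000001e0000003a0000003f00000071 9 7) 0 0 (step_sound _ 32 [rh596d8a5a56e415ea, rh932754581e0f4330] (by decide +kernel))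
noncomputable def rhb3b1d512942a53b2 : CRef := CRef.mk (Pat.mk 0x200000002000000000000001f800000000 0x14000001ff000000ff000001ff0000008c000001f800000310 9 10) 0 0 (step_sound _ 67 [(rh3244c3cc8379b070.shift 2 1), rhee43a4c7c2d82180] (by decide +kernel))
noncomputable def rh531a2dcadbf12e2f : CRef := CRef.mk (Pat.mk 0x100000001800000008000000000000003c 0x140000001e0000007f0000003e0000002f000000600000003c 9 7) 0 0 (step_sound _ 37 [(rh33e738c4ed385b9f.shift 2 0), rh8ee0d278a96ace7b] (by decide +kernel))
noncomputable def rha419374a63c09110 : CRef := CRef.mk (Pat.mk 0x18000000080000000000000008 0x3c0000007f0000003e0000001e000000780000002800000008 9 7) 0 0 (step_sound _ 132 [(rh92c00192e7711ad5.shift 0 1), (rh9e3edb185cc347de.shift 3 0)] (by decide +kernel))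
noncomputable def rh5596e294f7d67678 : CRef := CRef.mk (Pat.mk 0x18000000080000000000000008 0x140000001e000003ff000001fe0000039f0000000800000008 9 10) 0 0 (step_sound _ 132 [(rh9e3edb185cc347de.shift 3 0), (rhe7410f7e267fcec9.shift 0 2)] (by decide +kernel))
noncomputable def rh00912069ccfeaeac : CRef := CRef.mk (Pat.mk 0x600000000000000000000000f00000000 0x280000007f0000003e0000003c000000380000003f00000070 9 7) 0 0 (step_sound _ 68 [(rh428265de8cd3cd2d.shift 0 1), rhae4721d097b4bc84] (by decide +kernel))
noncomputable def rh24b767d1f7a981dd : CRef := CRef.mk (Pat.mk 0x38000000000000000000000020 0x2000000070000001f00000007f0000003e000000770000002000000020 9 9) 0 0 (step_sound _ 98 [(rh0d378fd9e8917c5a.shift 0 2), (rh185f35b8bd8ec37f.shift 0 2), (rh4c622fddc53a5f99.shift 0 3), (rhd30de6d05072b71e.shift 2 0)] (by decide +kernel))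
noncomputable def rh31778edecfb69d82 : CRef := CRef.mk (Pat.mk 0x600000002000000000000000f00000000 0x700000003e00000017000000380000003f00000070 9 7) 0 0 (step_sound _ 68 [(rh428265de8cd3cd2d.shift 0 1), rha1c005314ce86d00] (by decide +kernel))
noncomputable def rh0cf91e2fd451cbe7 : CRef := CRef.mk (Pat.mk 0x3800000008 0xe0000001e0000007f0000003e0000000f 9 7) 0 0 (step_sound _ 34 [(rh4c622fddc53a5f99.shift 0 1), (rh7370b1aef9478fb1.shift 1 0), rh775ca1963e850b80, rh9e97bba44c1b13e4] (by decide +kernel))
noncomputable def rhe965f83822c1691e : CRef := CRef.mk (Pat.mk 0x30000000200000002000000120000000e00000000 0x3c0000001f0000003a00000012000000320000003e00000070 9 7) 0 0 (step_sound _ 162 [(rh2f68792b6b779e96.shift 1 2), rhf84c4180f4eeeb0b] (by decide +kernel))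
noncomputable def rhdf39ffc9889a54dd : CRef := CRef.mk (Pat.mk 0x5000000000000000000000007800000000 0x270000007e000000e7000000c00000007800000020 9 8) 0 0 (step_sound _ 70 [(rh33e738c4ed385b9f.shift 3 1), rh3e7d13c1d4d72f84] (by decide +kernel))
noncomputable def rh39f125fc24374e90 : CRef := CRef.mk (Pat.mk 0x3800000000 0xa0000000e0000000e0000000e0000001e0000007f0000003e0000000f 9 7) 0 0 (step_sound _ 34 [(rh4c622fddc53a5f99.shift 0 1), rh592c7139d2c44767, (rh9ba68b27cf0df333.shift 1 0), rh9e97bba44c1b13e4] (by decide +kernel))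
noncomputable def rhe107ca3c5ab37a55 : CRef := CRef.mk (Pat.mk 0xe00000000 0x100000007000000070000000f0000007f0000003e00000077 9 7) 0 0 (step_sound _ 36 [rh3947d1dfff0afc6c, (rh3fc3a7fb6866dcd4.shift 1 0), (rhb18e6c78a554867d.shift 0 1), rhcb92109e41df5f65] (by decide +kernel))
noncomputable def rh3e7564e334cd6e27 : CRef := CRef.mk (Pat.mk 0x2000000000000000000000007800000004 0x50000000700000007000000020000000370000007e00000046 9 7) 0 0 (step_sound _ 34 [rh6dc252c70f120a1e, (rheb0810cc63b001d8.shift 1 0)] (by decide +kernel))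
noncomputable def rh1df40ebb1ee60bd0 : CRef := CRef.mk (Pat.mk 0x800000000000000000000003c00000000 0x5c000001fc000000fe000000ff0000006c0000003c00000014 9 9) 0 0 (step_sound _ 99 [rh0ee994e2f4e9b198, (rh1a9a2ae96d17eb8e.shift 2 0), rh55b014ea56dab7f1, (rhdf86f8fc00fe0e3f.shift 2 0), (rheff22c0435ae1049.shift 0 1)] (by decide +kernel))
noncomputable def rh347cd48e044256c4 : CRef := CRef.mk (Pat.mk 0x1c0000001e0000000000000000 0xfc0000007f000000ff0000001e0000001e0000001400000004 9 8) 0 0 (step_sound _ 131 [rh48e3b10271527168, (rhca8c9f0c61adce92.shift 0 2), (rhde10baa3043a2b46.shift 2 1)] (by decide +kernel))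
noncomputable def rha66e402f67392012 : CRef := CRef.mk (Pat.mk 0x1c0000000c00000004 0x7e0000003e0000007f0000001c0000000c00000004 9 7) 0 0 (step_sound _ 98 [rh2b8d30a06730aa00, (rh2ddd6c94c59240f8.shift 2 0), (rh58ab3eb898d6f7ec.shift 0 1), (rh7b9fbdf6d2d059e4.shift 1 0), (rh8fe46d04008547ec.shift 0 1), (rhc85cc95794737cf7.shift 1 0)] (by decide +kernel))
noncomputable def rhc3f7ddbd03cd8319 : CRef := CRef.mk (Pat.mk 0x3c000000000000000800000000 0x3800000038000000780000003e0000007f000000100000001800000018 9 7) 0 0 (step_sound _ 130 [(rh3244c3cc8379b070.shift 1 3), rhdbf0c76719c88fcd] (by decide +kernel))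
noncomputable def rh37d74995d23ae592 : CRef := CRef.mk (Pat.mk 0x80000007800000000 0x7c0000007c0000001f00000078000000f80000000c 9 8) 0 0 (step_sound _ 3 [rh1b5c20e66105236d, (rheb0810cc63b001d8.shift 2 0)] (by decide +kernel))
noncomputable def rhe6a1ffcf7d66535d : CRef := CRef.mk (Pat.mk 0x3e000000000000000800000000 0x3800000038000000780000003c0000007f000000100000001800000018 9 7) 0 0 (step_sound _ 132 [(rh33e738c4ed385b9f.shift 1 3), rh5d4b02074d89e6f9] (by decide +kernel))
noncomputable def rh39e90de3d144e37b : CRef := CRef.mk (Pat.mk 0x10000000100000001000000014 0x1ef000000fe000001de0000001400000014 9 9) 0 0 (step_sound _ 99 [(rh50fbb5868c909700.shift 3 0), rhd77a46f68e40544b] (by decide +kernel))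
noncomputable def rh54030528928a0efb : CRef := CRef.mk (Pat.mk 0x800000010000000100000001e00000000 0x210000003b0000001f000000120000001f0000001e00000004 9 6) 0 0 (step_sound _ 132 [rh0881ea81ce10f04a, (rh50fbb5868c909700.shift 3 1)] (by decide +kernel))
noncomputable def rhc944cd2cfc78062d : CRef := CRef.mk (Pat.mk 0x3000000010000000100000001e000000000000000000000000 0xc0000001e000000f60000001e0000001f0000001e000000040000000400000004 9 8) 0 0 (step_sound _ 228 [(rh79877ebd3ef475dd.shift 3 3), rhd697ffe9e7974ddd] (by decide +kernel))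
noncomputable def rh2a71f4fe88df0ca7 : CRef := CRef.mk (Pat.mk 0x50000000000000004000000000 0x140000001e0000001e0000003fe000001ff000003ee0000006000000020 9 10) 0 0 (step_sound _ 101 [(rh1153b3bda13123c4.shift 1 2), (rh2b3f2b63c1856561.shift 1 0), (rh48fced331f22553e.shift 3 1), (rh62872b31fba8d6a5.shift 1 2), (rh728a6adf3f1c7a62.shift 1 1), (rhc6c4de3e02f96982.shift 1 0), (rhd8af9ab4d0866b3e.shift 0 2), (rhddf97ab2dd79135f.shift 1 2)] (by decide +kernel))
noncomputable def rh58d5c56560dc8b66 : CRef := CRef.mk (Pat.mk 0x380000000000000000 0x2000000060000001fe000000ff000001d700000010 9 9) 0 0 (step_sound _ 66 [(rh45f730bcf36fcf64.shift 1 1), (rh5e98f7ab8993b949.shift 0 1), (rh995975079ffd0394.shift 1 0), (rh9e97bba44c1b13e4.shift 0 1), (rhe8dbc29e18a5d730.shift 0 1)] (by decide +kernel))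
noncomputable def rh690dcb20da11cb1b : CRef := CRef.mk (Pat.mk 0x380000000000000000 0x2000000060000001fe000000ff000001d700000010 9 9) 0 0 (step_sound _ 66 [(rh45f730bcf36fcf64.shift 1 1), (rh58b172df0588d916.shift 1 0), (rh5e98f7ab8993b949.shift 0 1), (rh9e97bba44c1b13e4.shift 0 1), (rhe8dbc29e18a5d730.shift 0 1)] (by decide +kernel))
noncomputable def rh8dc8f8b5c39f830b : CRef := CRef.mk (Pat.mk 0x28000000200000002000000000 0x4000000040000007ef000003fe000001f70000002000000020 9 11) 0 0 (step_sound _ 100 [(rh1ca10515223f4ae2.shift 1 2), rh23a8fd4eb0919778, (rhc92c11e8da6c894f.shift 0 2), (rhd248ebf62c762181.shift 3 1)] (by decide +kernel))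
noncomputable def rhc9f150a1a2770a60 : CRef := CRef.mk (Pat.mk 0x280000002000000028000000000000000000000000 0x2f0000003e00000077000003b8000001f0000003f000000040 9 10) 0 0 (step_sound _ 69 [(rh3058b7020828739c.shift 3 1), (rhc72cd35dcf638731.shift 0 1), rhe7987087bc14def5] (by decide +kernel))
noncomputable def rh7c2082ca27fd285e : CRef := CRef.mk (Pat.mk 0x280000002000000028000000000000000000000000 0x470000007e000000f7000003b8000001f0000003f000000040 9 10) 0 0 (step_sound _ 69 [(rh0e88c4a9e4614eb0.shift 2 1), (rh3058b7020828739c.shift 3 1), (rh6c59ce14113da07f.shift 5 0), rhe7987087bc14def5] (by decide +kernel))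
noncomputable def rh9d786c652d2a3547 : CRef := CRef.mk (Pat.mk 0x20000000280000000000000020000000000000000000000000 0x10000000370000007e000001ef0000007000000030000000700000007000000050 9 9) 0 0 (step_sound _ 133 [(rh111632ce0d46c4c2.shift 0 2), (rh771d065bdc85bf2d.shift 4 2), rh921c53f95b1d8708, (rh9f00ea52f2dcae26.shift 4 0)] (by decide +kernel))
noncomputable def rhe002ea7e82322165 : CRef := CRef.mk (Pat.mk 0x20000000200000002000000000000000000000000 0x4000000060000000e0000007f0000003f0000003f00000005 9 7) 0 0 (step_sound _ 65 [(rh32faae336d0a644a.shift 0 1), (rh6c59ce14113da07f.shift 1 0), rh8cdd36b03d57a2f6, rhcab3157f7bdcba3e] (by decide +kernel))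
noncomputable def rh7822f39691d9fa76 : CRef := CRef.mk (Pat.mk 0x1000000012000000120000000200000002 0x20000000340000003f0000001700000033000000320000002200000002 9 6) 0 0 (step_sound _ 128 [(rh6a4e298f8c49b17e.shift 0 1), rhffd04209dc8ea796] (by decide +kernel))
noncomputable def rhc344d70ca8d80280 : CRef := CRef.mk (Pat.mk 0x40000000400000004000000000000000000000000 0x7a0000003f0000007e0000000c0000000c0000000c00000008 9 7) 0 0 (step_sound _ 66 [(rh6c59ce14113da07f.shift 2 0), (rh8ff3dde5b1c639e0.shift 1 0), (rhc4055b4872d6fb38.shift 1 1), (rhd9a2bda40f764301.shift 0 1)] (by decide +kernel))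
noncomputable def rh921250f1c4155b7c : CRef := CRef.mk (Pat.mk 0x2000000020000000200000000 0x50000003f0000001f0000003f0000000e0000000600000004 9 6) 0 0 (step_sound _ 129 [rh7eb4a07d72ad7934, (rhc85cc95794737cf7.shift 0 1), (rhced6d86d2069808b.shift 1 0), rhedc41c706221966a] (by decide +kernel))
noncomputable def rh48b776ad86852eb8 : CRef := CRef.mk (Pat.mk 0x2000000020000000200000000 0x4000000070000003f0000001f0000003f0000000e0000000600000004 9 6) 0 0 (step_sound _ 129 [rh7eb4a07d72ad7934, (rhc2034d656568cc12.shift 0 1), (rhc85cc95794737cf7.shift 0 1), (rhced6d86d2069808b.shift 1 0), rhedc41c706221966a] (by decide +kernel))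
noncomputable def rhc8efe632eb26fc62 : CRef := CRef.mk (Pat.mk 0x20000000200000002000000000000000000000000 0x5000000070000000f0000007f0000003f0000003f00000005 9 7) 0 0 (step_sound _ 65 [(rh32faae336d0a644a.shift 0 1), rh8cdd36b03d57a2f6, (rhc4055b4872d6fb38.shift 0 1), rhc4526fc8abf298b6] (by decide +kernel))
noncomputable def rh394540f84b1687a9 : CRef := CRef.mk (Pat.mk 0x20000000200000012000000120000000300000002000000000000000000000000 0xc0000003e0000003b0000003200000032000000330000003e0000003c0000003800000028 9 6) 0 0 (step_sound _ 98 [(rh55afc6a59410cf00.shift 1 2), rh5f88db603a5caff2] (by decide +kernel))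
noncomputable def rh1b9192da3dbac079 : CRef := CRef.mk (Pat.mk 0x20000000200000012000000120000000200000002000000000000000000000000 0x2c0000003e0000003b00000032000000320000007b0000003e0000007c0000003800000028 9 7) 0 0 (step_sound _ 98 [rh4171fe6851ef5b7e, (rh55afc6a59410cf00.shift 1 2)] (by decide +kernel))
noncomputable def rh46d5d64dc638990b : CRef := CRef.mk (Pat.mk 0x120000001e0000000200000002000000000000000000000000 0x10000000120000001e0000003a0000001e0000001f0000000f00000001 9 6) 0 0 (step_sound _ 132 [rh33bdba352ff017bf, (rhe25b0a99195a5d59.shift 1 4)] (by decide +kernel))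
noncomputable def rh551c9788a16f2e59 : CRef := CRef.mk (Pat.mk 0x4c00000008000000480000000800000000 0x80000000d0000000f8000000df000000c8000000e8000000f800000020 9 8) 0 0 (step_sound _ 164 [rh805944d2ba535cec, (rhbaefcd01e0a8bca3.shift 3 1)] (by decide +kernel))
noncomputable def rh0afa86867cf1f68e : CRef := CRef.mk (Pat.mk 0x1000000002000000120000000200000002000000020000000400000000 0x50000000f0000001f0000003b000000120000001a0000001a0000000a0000000600000004 9 6) 0 0 (step_sound _ 225 [(rh3ca48e2a6d60153d.shift 0 3), rh685f0c3cf447ba66, (rh934fac0f6c2e83a8.shift 0 3), (rhc85cc95794737cf7.shift 0 4)] (by decide +kernel))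
noncomputable def rh4563e094c6f42837 : CRef := CRef.mk (Pat.mk 0x80000000800000008000000010000000000000000 0x740000007c000000fc000000180000001f0000001c00000014 9 8) 0 0 (step_sound _ 67 [(rh2deaa0b169edae37.shift 0 1), (rh6c59ce14113da07f.shift 3 0), rhbf404de0ef1b873d, (rhcab3157f7bdcba3e.shift 2 0)] (by decide +kernel))
noncomputable def rhb8fbfad1bf87afe2 : CRef := CRef.mk (Pat.mk 0x120000001200000002000000030000000000000000 0x3e0000001e00000032000000370000003e00000024 9 6) 0 0 (step_sound _ 34 [(rhd3458b32566d63f7.shift 1 1), rhf394f93d986b3378] (by decide +kernel))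
noncomputable def rh726ec40df15dbc78 : CRef := CRef.mk (Pat.mk 0x8000000090000000900000001000000010000000000000000 0x140000001c0000001c000000080000001b0000000f00000005000000030000000300000002 9 5) 0 0 (step_sound _ 33 [rh9c1fa04ff60d4ad6, (rhd3458b32566d63f7.shift 0 1)] (by decide +kernel))
noncomputable def rh9683226d80df13c5 : CRef := CRef.mk (Pat.mk 0x2000000020000000200000000 0x500000007000000070000000e0000007f0000003f0000003d 9 7) 0 0 (step_sound _ 129 [rh20966da26a1c2ae8, rh32faae336d0a644a, rh5abfc4c9d959be03] (by decide +kernel))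
noncomputable def rhb66bf574ab92bae8 : CRef := CRef.mk (Pat.mk 0x90000000900000001000000010000000200000000 0x40000000c0000001c0000000f0000001f0000001d0000001d0000001f00000006 9 5) 0 0 (step_sound _ 32 [rh026499e91bb176bb, rh55afc6a59410cf00] (by decide +kernel))
noncomputable def rhceae80e86c500cde : CRef := CRef.mk (Pat.mk 0x120000001200000002000000010000000000000000 0x360000001e0000003a0000001f0000001f00000004 9 6) 0 0 (step_sound _ 65 [(rh932754581e0f4330.shift 0 1), rha29b7c4d4d1d874f] (by decide +kernel))
noncomputable def rhce1b50de119e89db : CRef := CRef.mk (Pat.mk 0x90000000900000001000000010000000000000000 0x100000001800000018000000180000001f0000001b0000001d0000001f0000001700000002 9 5) 0 0 (step_sound _ 195 [rh686d18da490f0af5, (rhd60a9635b04b5467.shift 2 1), rhd89111f4dccb804f, rhfac25dc95a824135] (by decide +kernel))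
noncomputable def rhca3fa98ce2dab132 : CRef := CRef.mk (Pat.mk 0x90000000900000001000000010000000100000000 0x40000000c0000001c0000001f0000001f0000000d0000001d0000001d00000014 9 5) 0 0 (step_sound _ 161 [rh9e118434456f0bb0, (rhbaefcd01e0a8bca3.shift 0 1)] (by decide +kernel))
noncomputable def rheb0604e873b76a8a : CRef := CRef.mk (Pat.mk 0x4000000040000000400000000 0xa0000007e0000003f0000007e0000000c0000000c00000008 9 7) 0 0 (step_sound _ 130 [rh577313766a6b7038, (rh7eb4a07d72ad7934.shift 1 0), (rhc85cc95794737cf7.shift 1 1), (rhced6d86d2069808b.shift 2 0)] (by decide +kernel))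
noncomputable def rh4171c0915f58a82e : CRef := CRef.mk (Pat.mk 0x20000000200000002000000000000000000000000 0x4000000060000000e0000003f0000001f0000003f00000005 9 6) 0 0 (step_sound _ 65 [(rh6c59ce14113da07f.shift 1 0), rh8cdd36b03d57a2f6, (rhabe032c9c2d6651d.shift 0 1), rhcab3157f7bdcba3e] (by decide +kernel))
noncomputable def rh3ab89b489d2aa7e6 : CRef := CRef.mk (Pat.mk 0x2000000120000000200000002000000000000000000000000 0x50000000f0000001f0000007b0000003e0000007e0000003a000000380000003800000008 9 7) 0 0 (step_sound _ 162 [(rh457fa95969acc1da.shift 1 0), (rh91964a127ffb2d17.shift 0 4), (rhb6f7e56bf89163d9.shift 0 3)] (by decide +kernel))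
noncomputable def rhbdc9bb3684621056 : CRef := CRef.mk (Pat.mk 0x40000000400000000000000040000000000000000 0x80000000c0000000c0000007e0000003f0000007e0000000a 9 7) 0 0 (step_sound _ 98 [(rh6c59ce14113da07f.shift 2 0), (rh8cdd36b03d57a2f6.shift 1 0), (rhcab3157f7bdcba3e.shift 1 0), (rhd0b1a50b89c79525.shift 0 1)] (by decide +kernel))
noncomputable def rh6e4d49ee4edb95ab : CRef := CRef.mk (Pat.mk 0x20000000200000003000000000000000000000000 0x4000000060000000e0000001f0000001f0000001f00000005 9 5) 0 0 (step_sound _ 65 [rh367118e0bf0473e0, (rh5a5cd7dddb61760b.shift 0 1), (rh6c59ce14113da07f.shift 1 0), rh8cdd36b03d57a2f6] (by decide +kernel))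
noncomputable def rh1f375fa23778ceca : CRef := CRef.mk (Pat.mk 0x4000000240000000400000007000000000000000000000000 0x4000000240000003c0000003e000000170000003c0000003c0000002c 9 6) 0 0 (step_sound _ 129 [(rh5c5e593799055d58.shift 1 3), rhf1b0752ff6e0bc1d] (by decide +kernel))
noncomputable def rh59b591ae1044ce7b : CRef := CRef.mk (Pat.mk 0x2000000120000000200000002000000010000000000000000 0x730000003e0000007600000002000000070000000700000004 9 7) 0 0 (step_sound _ 65 [rh2e805b317eec6888, (rh932754581e0f4330.shift 0 1)] (by decide +kernel))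
noncomputable def rhea878feee2aca591 : CRef := CRef.mk (Pat.mk 0x2000000020000001200000012000000000000000000000000 0x28000000380000007c0000003e0000007b0000003200000032000000380000003800000028 9 7) 0 0 (step_sound _ 194 [(rh2f68792b6b779e96.shift 1 3), rha146e33b9bb88230] (by decide +kernel))
noncomputable def rh36a395922248ccca : CRef := CRef.mk (Pat.mk 0x20000000200000012000000160000000300000000000000000000000000000000 0x2a0000003a0000003a00000036000000360000003b0000003e0000003f0000003f0000002d 9 6) 0 0 (step_sound _ 97 [(rh237041c41aecf93d.shift 1 2), rh4164e9348317bf5b, rhffb8e5993241bf15] (by decide +kernel))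
noncomputable def rh34cf6fe47673ef0d : CRef := CRef.mk (Pat.mk 0x2000000120000000a0000000100000000 0x280000003d0000007f0000003e000000730000003a0000003b0000003900000020 9 7) 0 0 (step_sound _ 161 [(rh79877ebd3ef475dd.shift 0 1), rhade84723515a6a6b] (by decide +kernel))
noncomputable def rh36938655dd43f618 : CRef := CRef.mk (Pat.mk 0x20000000200000003000000000000000000000000 0x4000000060000000e0000001f0000001f0000001f00000005 9 5) 0 0 (step_sound _ 65 [(rh5a5cd7dddb61760b.shift 0 1), (rh6c59ce14113da07f.shift 1 0), rh8cdd36b03d57a2f6, rhcab3157f7bdcba3e] (by decide +kernel))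
noncomputable def rhf6bb009bd8456816 : CRef := CRef.mk (Pat.mk 0xc0000001c000000050000000000000000 0xc0000001e000000f70000007c000000fc 9 8) 0 0 (step_sound _ 68 [(rh0ded9cf36d1984b9.shift 0 2), (rh419c1df1c0e446e7.shift 1 0), (rhb9bbb3d68fd71a36.shift 1 0), rhfac0bdac2a955d95] (by decide +kernel))
noncomputable def rh3c2dc8c3c3cf95a2 : CRef := CRef.mk (Pat.mk 0x12000000020000001200000006000000020000000000000000 0x2800000038000000380000003200000032000000320000003f0000003b0000003800000028 9 6) 0 0 (step_sound _ 64 [rh5942b7b9a7db3da1, (rh79877ebd3ef475dd.shift 0 2)] (by decide +kernel))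
noncomputable def rhb618d92c8ad5e1f0 : CRef := CRef.mk (Pat.mk 0x40000001200000002000000120000000000000000 0x21000000370000003f000000320000003a0000003a0000003800000008 9 6) 0 0 (step_sound _ 161 [(rh2f68792b6b779e96.shift 1 2), rh3796c6b00caf5d3a] (by decide +kernel))
noncomputable def rhf6452db69911b7bf : CRef := CRef.mk (Pat.mk 0x2000000020000000200000000 0x50000003f0000001f0000003f0000000e0000000600000004 9 6) 0 0 (step_sound _ 129 [(rh1741680720c097b4.shift 0 1), rh5abfc4c9d959be03, (rhced6d86d2069808b.shift 1 0), rhedc41c706221966a] (by decide +kernel))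
noncomputable def rhb3cf4ad290383e67 : CRef := CRef.mk (Pat.mk 0x20000000200000012000000030000000000000000 0x740000003e0000007b0000001e0000000f0000000800000008 9 7) 0 0 (step_sound _ 162 [rh1ceb81cad9e534cc, (rh2f68792b6b779e96.shift 1 2)] (by decide +kernel))
noncomputable def rh970c74f43af7ded3 : CRef := CRef.mk (Pat.mk 0x20000001200000002000000020000000300000000 0x7b0000007e0000007f0000003a0000001f0000003c 9 7) 0 0 (step_sound _ 131 [(rh01e48cd9f335aa73.shift 0 3), rh4a1271cc7ee72461, (rh92804a1c675173ab.shift 0 3), (rhc42297b4a2656f14.shift 0 3), (rhc6338602faf8e7de.shift 0 3), (rhdacff0e0b97ba728.shift 0 3)] (by decide +kernel))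
noncomputable def rh194ca416ff2f60e4 : CRef := CRef.mk (Pat.mk 0x8000000080000004800000008000000080000000000000000 0x1f0000000fc000001ef000000f8000001ec000000ec000000e0000000a0 9 9) 0 0 (step_sound _ 133 [(rh3cb858112107d39a.shift 2 0), (rh422b1a35dc9c72a3.shift 0 1), (rh5710f30ba40ee3ec.shift 2 2), (rh92804a1c675173ab.shift 2 3)] (by decide +kernel))
noncomputable def rhfc0f1336f6c55368 : CRef := CRef.mk (Pat.mk 0x200000003000000120000000200000000000000000 0x140000001e7000001be000001e7000000f00000009000000080 9 9) 0 0 (step_sound _ 131 [(rh5bb78067c54b222b.shift 2 3), (rh602fb647602ff9bd.shift 4 0), (rhb12ffaec36122c99.shift 0 3), (rhcf86d050071af9b3.shift 2 3)] (by decide +kernel))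
noncomputable def rh64615109d910cd4d : CRef := CRef.mk (Pat.mk 0x4800000008000000480000004800000008 0x90000000f8000000df0000004c000000d8000000d800000088 9 8) 0 0 (step_sound _ 164 [(rhbaefcd01e0a8bca3.shift 3 1), rhf0b93d692079a772] (by decide +kernel))
noncomputable def rh45562cf244c73875 : CRef := CRef.mk (Pat.mk 0x4000000040000000400000000 0xa0000007e0000003f0000007e0000000c0000000c00000008 9 7) 0 0 (step_sound _ 130 [(rh1741680720c097b4.shift 1 1), (rh7eb4a07d72ad7934.shift 1 0), (rhced6d86d2069808b.shift 2 0), rhd9a2bda40f764301] (by decide +kernel))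
noncomputable def rh470ff633790fa3af : CRef := CRef.mk (Pat.mk 0x20000000200000002000000000000000000000000 0x4000000060000000e0000003f0000001f0000003f00000005 9 6) 0 0 (step_sound _ 65 [(rh6c59ce14113da07f.shift 1 0), rh6eff4158bb400f47, (rhabe032c9c2d6651d.shift 0 1), rhcab3157f7bdcba3e] (by decide +kernel))
noncomputable def rh515666b242b035a9 : CRef := CRef.mk (Pat.mk 0x20000000200000012000000160000000300000000000000000000000000000000 0x2a0000003a0000003a00000036000000360000003b0000003e0000003e0000003c00000028 9 6) 0 0 (step_sound _ 97 [(rh237041c41aecf93d.shift 1 2), (rh301a6b3a9154ed36.shift 1 1), rh4164e9348317bf5b] (by decide +kernel))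
noncomputable def rh1678462628eab72f : CRef := CRef.mk (Pat.mk 0x1000000010000000b0000000100000000000000000000000000000000 0xd0000000d0000001d0000001f0000001f0000001c0000001c0000001c00000010 9 5) 0 0 (step_sound _ 129 [rh0ac5d9fac803fd69, (rh2145e1d24b96a57e.shift 0 4)] (by decide +kernel))
noncomputable def rh53ac6395e79a04a9 : CRef := CRef.mk (Pat.mk 0x2c0000000c00000005000000000000000000000000 0x200000006c0000007e000000f70000003c0000007c00000020 9 8) 0 0 (step_sound _ 132 [rh257c975aac7a713f, (rh834ef1c974e4840e.shift 1 1), (rh9c0ab0af19c4d8a6.shift 0 3), (rha9e1a5d55b907abf.shift 1 3)] (by decide +kernel))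
noncomputable def rhdd463df38d033ffa : CRef := CRef.mk (Pat.mk 0x180000000800000048000000680000000800000000 0x20000000e0000000e0000000fc000000cf000000e8000000e8000000c800000080 9 8) 0 0 (step_sound _ 130 [(rh50fbb5868c909700.shift 2 1), rh6b8771cc3b1e10bb] (by decide +kernel))
noncomputable def rh4ea8f5d28ad8f66a : CRef := CRef.mk (Pat.mk 0x600000002000000120000000a0000000200000000 0x200000003f00000033000000120000003f0000003b00000020 9 6) 0 0 (step_sound _ 128 [(rh50fbb5868c909700.shift 0 1), rhcde9a3c600849019] (by decide +kernel))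
noncomputable def rh400ed575eb1e61c2 : CRef := CRef.mk (Pat.mk 0x200000002000000120000000a0000000200000000 0x28000000380000003c0000003f000000330000003a0000003a0000003a00000020 9 6) 0 0 (step_sound _ 162 [(rh2f68792b6b779e96.shift 1 2), rhb78c9d8b69fd19fa] (by decide +kernel))
noncomputable def rhed92615b1200cd11 : CRef := CRef.mk (Pat.mk 0x8000000070000000000000000000000000000000000000000 0x18000000180000001c0000001c0000000f0000001c0000001c0000001c0000001c00000004 9 5) 0 0 (step_sound _ 163 [(rh33e738c4ed385b9f.shift 0 5), rhf88a5f806e4257d2] (by decide +kernel))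
noncomputable def rh0d5561b8141f5755 : CRef := CRef.mk (Pat.mk 0x40000000200000002000000120000001e0000000200000000000000000000000000000000 0x40000001e0000001b0000001b0000001a0000001e0000003a00000018000000380000003800000028 9 6) 0 0 (step_sound _ 132 [rh4033ff587a83e1c9, (rhe25b0a99195a5d59.shift 1 4)] (by decide +kernel))
noncomputable def rhc293f81622c2423b : CRef := CRef.mk (Pat.mk 0x2000000120000000200000002000000000000000000000000 0x5000000070000001f0000001f0000003b0000001e0000003f0000003a000000380000003800000020 9 6) 0 0 (step_sound _ 162 [rh3ee77e877858dffb, (rh51246ab843efda05.shift 0 4), (rh5a634c360f901c77.shift 0 3), rhabeab8eb65fa13cd] (by decide +kernel))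
noncomputable def rh68700e15a28fd743 : CRef := CRef.mk (Pat.mk 0x800000008000000090000000100000001000000010000000000000000 0x140000001c0000001c0000001c00000018000000190000001900000019000000130000000300000002 9 5) 0 0 (step_sound _ 33 [rh299353116a511572, (rhd3458b32566d63f7.shift 0 1)] (by decide +kernel))
noncomputable def rhd5660c4ff705507b : CRef := CRef.mk (Pat.mk 0x4000000120000000200000012000000000000000000000000 0x200000003c0000003e0000003b0000003a0000003a000000380000003800000020 9 6) 0 0 (step_sound _ 193 [(rh2f68792b6b779e96.shift 1 3), rhb7acfc79cb25344f] (by decide +kernel))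
noncomputable def rh032820e79f73202f : CRef := CRef.mk (Pat.mk 0x1100000002000000120000000200000000 0x20000000340000003f000000370000003a0000003a0000003a00000008 9 6) 0 0 (step_sound _ 129 [(rh50fbb5868c909700.shift 0 1), rhf6005a1b7564f0cf] (by decide +kernel))
noncomputable def rh2fe2f93220e5e36e : CRef := CRef.mk (Pat.mk 0x100000000200000012000000020000000200000000 0x3d0000001f0000003b00000012000000320000003200000020 9 6) 0 0 (step_sound _ 160 [rhe2decb3f7c9150bc, (rhffd04209dc8ea796.shift 0 1)] (by decide +kernel))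
noncomputable def rhecad2d6c0846949b : CRef := CRef.mk (Pat.mk 0x10000000020000001200000002000000020000000000000000 0x20000000750000003f0000003b000000360000003e0000003a0000003800000020 9 7) 0 0 (step_sound _ 192 [rh60986a1989c204d7, (rhffd04209dc8ea796.shift 0 2)] (by decide +kernel))
noncomputable def rhd8d255a57609ea7d : CRef := CRef.mk (Pat.mk 0x130000001200000012000000020000000000000000 0x240000003e0000003700000012000000120000003e0000003800000020 9 6) 0 0 (step_sound _ 194 [(rhbaefcd01e0a8bca3.shift 1 2), rhfe9bfc4f99d5032c] (by decide +kernel))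
noncomputable def rh267f365d229f52c0 : CRef := CRef.mk (Pat.mk 0x13000000120000001200000002 0x28000000380000003c0000001e00000017000000320000003200000022 9 6) 0 0 (step_sound _ 130 [(rhbaefcd01e0a8bca3.shift 1 0), rhf0b831e160fee11d] (by decide +kernel))
noncomputable def rh5a286173e26e7942 : CRef := CRef.mk (Pat.mk 0x1100000012000000120000000200000000 0x240000003f0000003700000012000000360000001e00000008 9 6) 0 0 (step_sound _ 129 [(rh50fbb5868c909700.shift 0 1), rhb5fba15d56a20ada] (by decide +kernel))
noncomputable def rhf016f36053b61700 : CRef := CRef.mk (Pat.mk 0x13000000020000001200000002000000000000000000000000 0x2c0000003f0000003a000000360000003e000000380000003800000020 9 6) 0 0 (step_sound _ 194 [(rh2f68792b6b779e96.shift 1 3), rheb280ac903ad3cf9] (by decide +kernel))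
noncomputable def rh780785a24c8baaf8 : CRef := CRef.mk (Pat.mk 0x800000009000000080000000800000000 0x740000007c0000007f000000380000001800000010 9 7) 0 0 (step_sound _ 132 [(rh2f68792b6b779e96.shift 3 1), rhfc048fbdd32a0ed9] (by decide +kernel))
noncomputable def rhab1f09f154e392a1 : CRef := CRef.mk (Pat.mk 0x13000000100000001000000000 0x28000001f8000000fe000000fb000000300000003000000020 9 9) 0 0 (step_sound _ 132 [(rh038f9d2164b25720.shift 0 1), (rh1741680720c097b4.shift 3 1), (rh7eb4a07d72ad7934.shift 3 0), (rhced6d86d2069808b.shift 4 0)] (by decide +kernel))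
noncomputable def rhe1cc67bf9939dde5 : CRef := CRef.mk (Pat.mk 0x4000000040000000400000000 0xa0000003e0000003f0000003f0000000c0000000c00000008 9 6) 0 0 (step_sound _ 130 [(rh1741680720c097b4.shift 1 1), rh507ee18cabc22909, (rh7eb4a07d72ad7934.shift 1 0), (rhced6d86d2069808b.shift 2 0)] (by decide +kernel))
noncomputable def rh4adacaafccab99e8 : CRef := CRef.mk (Pat.mk 0x800000008000000080000000100000001000000010000000200000000 0x140000001c0000001c0000001c0000001a0000000f0000001d0000001d0000001300000002 9 5) 0 0 (step_sound _ 32 [rh55afc6a59410cf00, (rhe7db86ab34eb6d2d.shift 0 1)] (by decide +kernel))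
noncomputable def rh490a71534ac14742 : CRef := CRef.mk (Pat.mk 0x1300000002000000120000000200000002000000000000000000000000 0x20000000340000003f0000003a0000003a0000003e0000003a0000002f0000000700000005 9 6) 0 0 (step_sound _ 65 [(rh463e09b0219ff51a.shift 0 2), rh6eff4158bb400f47, rh7999aeb39a274f8d] (by decide +kernel))
noncomputable def rha2eb6e78fb577e13 : CRef := CRef.mk (Pat.mk 0x1300000002000000120000000200000002000000000000000000000000 0x28000000380000003c0000001f0000003a0000003a0000003e0000003a0000002f0000000700000005 9 6) 0 0 (step_sound _ 65 [(rh3b19739dad0d325e.shift 0 2), rh6eff4158bb400f47] (by decide +kernel))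
noncomputable def rh806115297c6424d2 : CRef := CRef.mk (Pat.mk 0x170000000000000010000000020000000000000000 0x280000003f0000003800000038000001fe000000f800000028 9 9) 0 0 (step_sound _ 132 [(rh193a45b58d1e033e.shift 1 0), rh235deda90e08f6c5, (rh657a1db8e51f65d6.shift 1 0), (rhc13e87f7835e0776.shift 0 4)] (by decide +kernel))
noncomputable def rhde7de826561b7a3e : CRef := CRef.mk (Pat.mk 0x200000002000000020000000200000000 0x3d0000001f0000003f0000000e0000000700000005 9 6) 0 0 (step_sound _ 130 [(rh2f68792b6b779e96.shift 1 1), rhd3790ece22951f8c] (by decide +kernel))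
noncomputable def rhb954f8826de0114f : CRef := CRef.mk (Pat.mk 0x13000000100000001000000000 0x28000001f8000000fe000000fb000000380000003800000028 9 9) 0 0 (step_sound _ 132 [(rh038f9d2164b25720.shift 0 1), (rh1741680720c097b4.shift 3 1), (rhc4ec57a3756c3a6c.shift 3 0)] (by decide +kernel))
noncomputable def rh8ddcedac4a07ffb5 : CRef := CRef.mk (Pat.mk 0x2000000020000001a0000000200000000 0x3d0000001f0000003a0000007a0000001f00000008 9 7) 0 0 (step_sound _ 130 [(rh2f68792b6b779e96.shift 1 1), rha950dfd760a035fe] (by decide +kernel))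
noncomputable def rh709cb7832460a264 : CRef := CRef.mk (Pat.mk 0x1a0000000200000002000000030000000000000000 0x800000018000000780000003e0000007e0000003a0000003f0000003c00000020 9 7) 0 0 (step_sound _ 66 [(rh55afc6a59410cf00.shift 1 1), rhb9a6af205155cb73] (by decide +kernel))
noncomputable def rh58729217e40e56fa : CRef := CRef.mk (Pat.mk 0x4000000040000001c00000005000000040000000000000000 0x3000000030000000360000007c0000001e000000370000003c0000003400000020 9 7) 0 0 (step_sound _ 164 [(rh2b724a2e7de4dbca.shift 0 3), rh36ff2447e8ef108f, (rhfc326055ff4c5110.shift 1 1)] (by decide +kernel))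
noncomputable def rh009f223673506971 : CRef := CRef.mk (Pat.mk 0x3000000020000000e0000000000000000 0x28000000380000003b0000003e0000003f0000003800000008 9 6) 0 0 (step_sound _ 100 [rh545a2d8fab4a3b5f, (rh57de2bd817fe9a4e.shift 0 2), (rh83b5fed75f19d7cc.shift 0 2)] (by decide +kernel))
noncomputable def rh0d90cab399c6527a : CRef := CRef.mk (Pat.mk 0x6000000040000001c0000000500000004000000000000000000000000 0x36000000fc0000001e000000f70000007c000000f80000003800000028 9 8) 0 0 (step_sound _ 100 [rh25013a4d2a52900f, (rh4a2be0f3b680dec3.shift 0 2), (rh746fc5daa067837b.shift 1 1), (rhc2d38a69b00a9b0b.shift 1 2), (rhd82bbd56f80856ff.shift 0 1)] (by decide +kernel))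
noncomputable def rh542d2d174726cbe7 : CRef := CRef.mk (Pat.mk 0xe0000000200000002000000040000000000000000 0x8000000380000003f0000007a0000001a0000001f0000001700000001 9 7) 0 0 (step_sound _ 65 [rh445b4ecba8a203b6, (rh55afc6a59410cf00.shift 1 1)] (by decide +kernel))
noncomputable def rh4b2fa90264316c66 : CRef := CRef.mk (Pat.mk 0x1c0000000500000004000000080000000000000000 0x300000001e00000037000001f4000000fe000001fe00000002 9 9) 0 0 (step_sound _ 161 [(rh359b8ed8e0dd1cb8.shift 1 0), (rh80fcd6d0a18cb2dd.shift 0 4)] (by decide +kernel))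
noncomputable def rh8cf80b17881022f8 : CRef := CRef.mk (Pat.mk 0x800000010000000100000001000000000 0x180000001800000010000000770000003e0000002f 9 7) 0 0 (step_sound _ 132 [rh3a40cfe198d8ea4a, (rh50fbb5868c909700.shift 3 1)] (by decide +kernel))
noncomputable def rh5c98447450ab0bb0 : CRef := CRef.mk (Pat.mk 0x10000000180000001000000000 0x28000000380000003800000030000000100000007f000000fe0000002f 9 8) 0 0 (step_sound _ 132 [(rh32431e66bbf434a4.shift 3 1), rh3a40cfe198d8ea4a, (rh7fe11f484215afaf.shift 1 0), (rhced6d86d2069808b.shift 4 0)] (by decide +kernel))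
noncomputable def rhf9f2ece05253ad41 : CRef := CRef.mk (Pat.mk 0x1000000010000000100000003800000000 0x280000003800000010000001ff000000fe000001c7 9 9) 0 0 (step_sound _ 131 [(rh50fbb5868c909700.shift 3 1), rh9baeadd9205a17f7] (by decide +kernel))
noncomputable def rh634e51356066b621 : CRef := CRef.mk (Pat.mk 0x8000000000000001e00000000000000000000000000000000 0x10000000180000003b0000001e00000038000000380000003000000030 9 6) 0 0 (step_sound _ 100 [rh2b5f81e0ea7d7048, (rhe25b0a99195a5d59.shift 1 3)] (by decide +kernel))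
noncomputable def rhb019108111c2f994 : CRef := CRef.mk (Pat.mk 0x1000000010000000500000005000000000 0xef000000ff0000007e000000f0000000d000000080 9 8) 0 0 (step_sound _ 133 [(rh2f68792b6b779e96.shift 4 1), rh5827312cabb5649a] (by decide +kernel))
noncomputable def rh0d9af7ba6955f82c : CRef := CRef.mk (Pat.mk 0x800000008000000380000002800000000 0x140000003c0000003c000000f8000000ff0000003f000000380000002c00000004 9 8) 0 0 (step_sound _ 34 [(rh932754581e0f4330.shift 2 0), (rh9a5ae1defea6c870.shift 0 1)] (by decide +kernel))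
noncomputable def rh724ce3824aaac864 : CRef := CRef.mk (Pat.mk 0x20000001e0000000a00000000 0x1a0000003f0000003e0000001e0000003e0000003a00000010 9 6) 0 0 (step_sound _ 98 [rhd18bfed091c76cc9, (rhf48373e13d2bc128.shift 1 2)] (by decide +kernel))
noncomputable def rhfeab431f3a3df3cf : CRef := CRef.mk (Pat.mk 0x400000004000000140000001400000000 0x3a0000007f0000003e000000340000003600000022 9 7) 0 0 (step_sound _ 129 [rh12cfb4f7a6f48224, (rh50fbb5868c909700.shift 1 1)] (by decide +kernel))
noncomputable def rh104091c9a6cd0fcc : CRef := CRef.mk (Pat.mk 0x6000000020000000a0000000a000000000 0x19e000001fe000001f7000000a0000000b000000010 9 9) 0 0 (step_sound _ 132 [(rh50fbb5868c909700.shift 4 1), rhb31e3f01a1492835] (by decide +kernel))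
noncomputable def rh195287f5ec253469 : CRef := CRef.mk (Pat.mk 0x4000000300000001400000000 0x1ff000000fe000001fe000000f40000003400000020 9 9) 0 0 (step_sound _ 100 [(rh9ebd639649ea671c.shift 1 2), (rhcbd2411023dbfaa2.shift 2 0), rhe0bcc5c91a66a0e5] (by decide +kernel))
noncomputable def rhd4f2f9f1049fd380 : CRef := CRef.mk (Pat.mk 0x30000000c00000004000000000000000000000000 0x3000000030000001f3000000fe000001fc000000700000007000000050 9 9) 0 0 (step_sound _ 132 [(rh09d4dfe75d4407d6.shift 0 4), (rh13c831a31e00735f.shift 2 0)] (by decide +kernel))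
noncomputable def rh7cd55773ce0ce062 : CRef := CRef.mk (Pat.mk 0xf000000020000000000000000 0x400000004000001ec000000ff000001fe0000000800000008 9 9) 0 0 (step_sound _ 100 [rh23eabaffb8ccdbcb, (rh4ad5fc38f1b69f65.shift 0 2), (rhf2b3bcf1454375d8.shift 1 2), (rhf3baec4a0a3dd35e.shift 1 2)] (by decide +kernel))
noncomputable def rh377c6eee367306bd : CRef := CRef.mk (Pat.mk 0xf00000002000000000000000000000000 0xc0000000c0000001c0000000f0000001e0000001c0000001800000018 9 5) 0 0 (step_sound _ 99 [rh48197ccbf8cdb5d5, (rhe25b0a99195a5d59.shift 0 3)] (by decide +kernel))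
noncomputable def rh0115001eecc541d4 : CRef := CRef.mk (Pat.mk 0x4000000380000001000000000 0x40000007e0000007c000001ff00000038000000f000000060 9 9) 0 0 (step_sound _ 133 [rh2cbbcff545323bac, (rh5bc9c4ecd5ded39d.shift 0 1), rh764c121d528cde77, (rh8ff5fe930dd74c90.shift 3 0), (rha6864009d57c1d37.shift 3 0), (rhab2ade96d5bfcd84.shift 0 1)] (by decide +kernel))
noncomputable def rh388fe786a49364d0 : CRef := CRef.mk (Pat.mk 0x4000000300000001400000000 0x10000000780000007c000001ff0000003e000000f600000060 9 9) 0 0 (step_sound _ 67 [(rh50cd11c9ca068ca2.shift 1 1), (rhcb763b151dc90fdc.shift 1 1), rhce3fbee2bb574b5c, (rhd526f9b20c752965.shift 1 1), (rhe0b35af09c3d563c.shift 1 0)] (by decide +kernel))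
noncomputable def rhddcd7d52d5cf0fa8 : CRef := CRef.mk (Pat.mk 0xa000000180000000800000000 0x14000000fc0000007e000000fb000000180000001800000010 9 8) 0 0 (step_sound _ 131 [rh1607a558eadddaa0, (rhc85cc95794737cf7.shift 2 1), (rhd4b4beefcd67f51e.shift 3 0)] (by decide +kernel))
noncomputable def rhcfa4f94ec29b47f5 : CRef := CRef.mk (Pat.mk 0x8000000080000003800000028 0x140000001c0000007c00000078000001ff000000fc0000003800000028 9 9) 0 0 (step_sound _ 131 [(rh44f453b84f013105.shift 3 0), (rhba97f7f4ade5e136.shift 2 1), rhde3a2ab8ca2b1376] (by decide +kernel))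
noncomputable def rhf140e636b2a5b0c1 : CRef := CRef.mk (Pat.mk 0x380000003c00000028 0x60000000f7000000ff0000003c0000003c00000028 9 8) 0 0 (step_sound _ 100 [(rh5c5e593799055d58.shift 3 0), rh8c3ebffa57875f1b] (by decide +kernel))
noncomputable def rhd48e48931b5d5668 : CRef := CRef.mk (Pat.mk 0x4000000140000001400000000 0x380000007800000078000001fe000000ff000001f600000020 9 9) 0 0 (step_sound _ 67 [(rh352b7f91eba0c81f.shift 1 1), (rh56980d4b3c6ac23a.shift 0 1), (rh8ee80cc30e93a344.shift 1 1), (rha099d6ddaa3f2b29.shift 1 0), (rhe3f612f8f5dcfdf1.shift 1 1)] (by decide +kernel))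
noncomputable def rh7afae663994167fb : CRef := CRef.mk (Pat.mk 0xc000000040000000400000004000000000 0x3f000001fe000000ff000000600000006000000020 9 9) 0 0 (step_sound _ 133 [(rh50fbb5868c909700.shift 5 1), rh71fd488dc14881c6] (by decide +kernel))
noncomputable def rhdaf27697920aa2f2 : CRef := CRef.mk (Pat.mk 0x3000000020000001a00000002000000000 0x1ce000000fe000001bf000001a00000013000000010 9 9) 0 0 (step_sound _ 134 [(rh2f68792b6b779e96.shift 5 1), rh9817d0488f2d4b01] (by decide +kernel))
noncomputable def rh4a614fd7f0458c43 : CRef := CRef.mk (Pat.mk 0x2000000020000001a0000000200000000 0x30000000300000007000000060000001f0000007b0000000300000001 9 7) 0 0 (step_sound _ 32 [rh932754581e0f4330, (rhd0ee0d16a6e2b3c1.shift 0 1)] (by decide +kernel))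
noncomputable def rhcd2860e2c89e9c5d : CRef := CRef.mk (Pat.mk 0x20000000a0000001a0000000a000000000 0xce000000fe000001bf000001a0000001a000000100 9 9) 0 0 (step_sound _ 134 [(rh2f68792b6b779e96.shift 5 1), rhbedfae0e3ee5c942] (by decide +kernel))
noncomputable def rh832347b9d6666db9 : CRef := CRef.mk (Pat.mk 0x3000000020000001800000008000000000 0x8e000000fe000001ff000001800000018000000100 9 9) 0 0 (step_sound _ 103 [(rh126557da767e56cc.shift 2 3), (rh5a79679a2bc404fc.shift 2 2), rh9dc9cae80a7c161f, (rha844442475d131dc.shift 4 2)] (by decide +kernel))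
noncomputable def rh09760273efc37d63 : CRef := CRef.mk (Pat.mk 0x6000000040000000400000004000000000 0x9f000001fe000000ff000000600000006000000020 9 9) 0 0 (step_sound _ 135 [(rh2f68792b6b779e96.shift 6 1), rh71fd488dc14881c6] (by decide +kernel))
noncomputable def rh61995f3f36265d3b : CRef := CRef.mk (Pat.mk 0x20000000a0000001800000008000000000 0x100000001c0000001ce000000fe000001bf000001800000018000000100 9 9) 0 0 (step_sound _ 135 [(rh64bc0dab78a08b48.shift 6 1), (rhd4b4beefcd67f51e.shift 7 0), (rhdd8fc9a9576db644.shift 0 1)] (by decide +kernel))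
noncomputable def rhc48b162cc725b300 : CRef := CRef.mk (Pat.mk 0x10000000100000001000000000 0x28000000380000003f0000007e0000007f000000180000001800000008 9 7) 0 0 (step_sound _ 132 [(rh1741680720c097b4.shift 3 1), (rh193da7fc9e1674f1.shift 3 0), (rh20966da26a1c2ae8.shift 3 0), (rh968ba7b0df7e4096.shift 3 0), rhe0e3b9396e3fac2a] (by decide +kernel))
noncomputable def rhcae42d2559ea5e7a : CRef := CRef.mk (Pat.mk 0x1000000010000000c00000001000000000 0x28000000380000003f000000fe000000ff00000070000000fe000003d80000001800000008 9 10) 0 0 (step_sound _ 164 [(rh2dce3db23f940f6f.shift 1 0), (rh2e803d2a68b77fc5.shift 3 0), (rh3abf20406e03c374.shift 1 0), (rh7d997dcbd9866387.shift 0 1), (rh9f9a788a061f22d9.shift 0 2), (rha227e5c849a93908.shift 3 0)] (by decide +kernel))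
noncomputable def rh8e9cd547f7d25ecd : CRef := CRef.mk (Pat.mk 0x28000000280000006000000020000000000000000000000000 0x190000001bc000007bf000003e0000007e0000003c00000038000000280 9 11) 0 0 (step_sound _ 135 [(rh4a0cb3a9508b05dd.shift 4 3), (rh7a2645c41de6bb59.shift 0 3), (rhe733026cd9f55f1f.shift 5 0), (rhf818473beb431028.shift 5 1)] (by decide +kernel))
noncomputable def rh3b06a77c36898faf : CRef := CRef.mk (Pat.mk 0x100000003800000000 0x20000000600000006000000060000007f0000003e0000000f 9 7) 0 0 (step_sound _ 34 [rh775ca1963e850b80, (rhec46bd5500c722c9.shift 1 1), (rhfedd88f1ac44a924.shift 1 0)] (by decide +kernel))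
noncomputable def rhdade15c283d7c7ca : CRef := CRef.mk (Pat.mk 0x1000000018000000c000000008 0x28000000380000007c0000001f0000001800000078000000d800000008 9 8) 0 0 (step_sound _ 70 [(rhc10214bf3fe8094a.shift 3 1), rhdadf1bb9a3d613d0] (by decide +kernel))
noncomputable def rh86a5c1b7696c298c : CRef := CRef.mk (Pat.mk 0x200000007000000000000000100000000000000000 0x140000001c0000001c000000ff0000007e0000001f0000001e0000000e0000000a 9 8) 0 0 (step_sound _ 131 [(rh31e1bc69abf86ee5.shift 2 2), (rh55c4ed4acec0f063.shift 1 3), rh6428b278b6cb4c86, (rhec46bd5500c722c9.shift 2 4)] (by decide +kernel))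
noncomputable def rh75e1de0d168295b9 : CRef := CRef.mk (Pat.mk 0x18000000380000000000000010 0x7c0000007c0000001f0000007e000000380000001000000010 9 7) 0 0 (step_sound _ 131 [(rh04d6508409a134b1.shift 0 2), (rh9e07f76261b05888.shift 3 0)] (by decide +kernel))
noncomputable def rhdd1d21edd2f0f758 : CRef := CRef.mk (Pat.mk 0x1000000018000000000000001800000000 0x80000000c0000001f0000003f0000001f0000001e0000001c00000004 9 6) 0 0 (step_sound _ 131 [rh1d679f00083c2f98, (rh6f98fbe6b3afe1f5.shift 2 1), (rhc5de389ce0cd865a.shift 0 1), (rhec4c3a03451814c9.shift 0 1)] (by decide +kernel))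
noncomputable def rh9b2271b8e043f7e8 : CRef := CRef.mk (Pat.mk 0x200000007000000000000000100000000000000000 0x2c0000002c0000007f0000007e0000003f0000001e0000000e0000000a 9 7) 0 0 (step_sound _ 131 [(rh3e0b38310ac09007.shift 0 4), (rh55c4ed4acec0f063.shift 1 3), rh6428b278b6cb4c86, (rh82f6cf61a959c131.shift 2 2)] (by decide +kernel))
noncomputable def rhbee6b38b538d7f6c : CRef := CRef.mk (Pat.mk 0x2000000020000000200000002000000000 0x5f0000007e000000fe000000380000003000000010 9 8) 0 0 (step_sound _ 132 [(rh50fbb5868c909700.shift 4 1), rhf55d66087eae07c9] (by decide +kernel))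
noncomputable def rh7f1d8a9ee86abb38 : CRef := CRef.mk (Pat.mk 0x200000002000000020000001a00000008 0x3f0000001f0000003b0000003e0000001f0000001a00000008 9 6) 0 0 (step_sound _ 160 [rhe82aef993300b54f, (rhffd04209dc8ea796.shift 0 1)] (by decide +kernel))
noncomputable def rhb334f16b68211afc : CRef := CRef.mk (Pat.mk 0x40000000200000002000000020000001a0000000a00000000 0x10000003f0000001f0000003a0000007b0000001f0000001a0000001b00000011 9 7) 0 0 (step_sound _ 99 [rh1a6fe6519f520918, (rh57c29731da5dbf9c.shift 0 2), (rh67e470e54af65d94.shift 0 1), rh9fa0a71de2694e11] (by decide +kernel))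
noncomputable def rhe99651033129f31f : CRef := CRef.mk (Pat.mk 0x40000000d0000000c0000000400000000 0x680000006c0000007f0000007c0000007c00000018 9 7) 0 0 (step_sound _ 131 [(rh5c5e593799055d58.shift 2 1), rh6abb87f2b1a1ba29] (by decide +kernel))
noncomputable def rh00c8c792145accd6 : CRef := CRef.mk (Pat.mk 0x3000000030000000100000000 0x7000000070000000f0000001f0000001f0000001e 9 5) 0 0 (step_sound _ 129 [rh4653a4234f2d57f0, (rh5c5e593799055d58.shift 0 1)] (by decide +kernel))
noncomputable def rh32850ca9821febc7 : CRef := CRef.mk (Pat.mk 0x3000000014000000300000003400000000 0x7c7000003fe000007f6000001b4000001f4000001c0 9 11) 0 0 (step_sound _ 134 [(rh484d49066dff40f2.shift 0 1), (rh65d87c48f8f8faa7.shift 0 1), (rhacf396cb74a9c22f.shift 4 0), (rheda9fcd4453cf563.shift 0 1)] (by decide +kernel))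
noncomputable def rhe23054e99b6042c1 : CRef := CRef.mk (Pat.mk 0x10000000140000003000000014 0x280000003800000078000001f7000001fe000001f60000003400000014 9 9) 0 0 (step_sound _ 132 [(rh44f453b84f013105.shift 4 0), (rh73f605273a09a9d0.shift 4 1), (rhba97f7f4ade5e136.shift 3 1), rhbeb4de020087bfb7] (by decide +kernel))
noncomputable def rhefa5ca9f2c87d7f1 : CRef := CRef.mk (Pat.mk 0x4000000180000001000000000 0x2000000068000000ff000000ff0000007f0000007000000020 9 8) 0 0 (step_sound _ 99 [(rh3c3e23a02e82b2ed.shift 0 2), (rh5c5a2014709044d0.shift 0 2), rh6fccf4a9fb9fc4e2, rhbfb1fa7143f3393b, (rhe615ebeefbbb1f4c.shift 1 1)] (by decide +kernel))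
noncomputable def rhbc589f8107a30eff : CRef := CRef.mk (Pat.mk 0x180000003000000028 0xc0000001c000000ff000000ff0000001f0000003f00000068 9 8) 0 0 (step_sound _ 99 [(rh65109c9da211b236.shift 2 0), rh734392b2850f65ff, rh9a732ea054d6073e, rhb4f7de0ce209ceb0, rhdecbba4bf851f904] (by decide +kernel))
noncomputable def rh3d1eac8d6644b400 : CRef := CRef.mk (Pat.mk 0x1c0000001800000010 0x6000000160000003f0000001f0000003f0000001800000010 9 6) 0 0 (step_sound _ 99 [(rh2145e1d24b96a57e.shift 3 0), (rh3d92b942c7111fca.shift 0 1)] (by decide +kernel))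
noncomputable def rhcc94f4c922311f06 : CRef := CRef.mk (Pat.mk 0x100000003000000038000000100000000000000000 0x10000002b0000003f000000370000003f000000170000000700000005 9 6) 0 0 (step_sound _ 129 [(rh1aa6872d24f2424f.shift 1 2), (rh3f2340e00dbd80d3.shift 1 3), rh9be3acab444ebcd7] (by decide +kernel))
noncomputable def rh1b4545df667d6f4e : CRef := CRef.mk (Pat.mk 0x180000003800000028 0x3c000000ff000000ff000000f80000003800000028 9 8) 0 0 (step_sound _ 99 [rh0c19015a1dce5028, (rh2ddd6c94c59240f8.shift 3 0), (rh7b9fbdf6d2d059e4.shift 2 0)] (by decide +kernel))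
noncomputable def rhceaf5cc33f956dc7 : CRef := CRef.mk (Pat.mk 0x80000000c0000001800000014 0x600000016000000370000001f0000003f0000001f00000034 9 6) 0 0 (step_sound _ 65 [rha2319230ec48a15b, (rhb739f4f82bb681b4.shift 0 1)] (by decide +kernel))
noncomputable def rh0c86bfa952ccac03 : CRef := CRef.mk (Pat.mk 0xc000000180000001400000000 0x300000003f000000ff000000fe0000001f0000003400000020 9 8) 0 0 (step_sound _ 131 [(rh2145e1d24b96a57e.shift 3 1), rha723a58c35a063b8] (by decide +kernel))
noncomputable def rh8d156d05d98f5d75 : CRef := CRef.mk (Pat.mk 0x1000000010000000020000000c00000008 0x50000000700000007000001fb000000fe000000ee0000000c00000008 9 9) 0 0 (step_sound _ 99 [(rh0183573b3b51379d.shift 0 1), (rh04253f50b6dd0619.shift 3 0)] (by decide +kernel))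
noncomputable def rh22577acb9628a4ed : CRef := CRef.mk (Pat.mk 0x4000000180000001400000000 0x100000007b0000007f0000007f0000007f0000007400000020 9 7) 0 0 (step_sound _ 99 [(rh3c3e23a02e82b2ed.shift 0 2), (rh5c5a2014709044d0.shift 0 2), rha57e4aef11cc7b75, (rhe615ebeefbbb1f4c.shift 1 1)] (by decide +kernel))
noncomputable def rha1c437843a0b2b61 : CRef := CRef.mk (Pat.mk 0x6000000040000003400000014000000000 0x28000000388000003880000030f00000ffe000007ff000003500000036000000220 9 12) 0 0 (step_sound _ 37 [rh543dae3edfb90d8d, (rh932754581e0f4330.shift 5 0)] (by decide +kernel))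
noncomputable def rh47c02ea38af98a60 : CRef := CRef.mk (Pat.mk 0x100000002000000020000001a000000080000000000000000 0x1000000fb000000fe000000ff0000001b000000380000003000000020 9 8) 0 0 (step_sound _ 193 [rh444b158271a39a5f, (rh50fbb5868c909700.shift 0 3)] (by decide +kernel))
noncomputable def rh2b605128fb777884 : CRef := CRef.mk (Pat.mk 0x80000007800000000000000200000000000000000 0x140000001c0000001c0000001c000000d8000000780000001c0000003c0000001f00000004 9 8) 0 0 (step_sound _ 99 [rhb2ba5756d6a81925, (rheb0810cc63b001d8.shift 2 3)] (by decide +kernel))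
noncomputable def rh54731e519da5c0a7 : CRef := CRef.mk (Pat.mk 0x2000000020000000a00000002000000000 0x5e0000007e000000ff000001e00000003000000010 9 9) 0 0 (step_sound _ 36 [(rh8be7216a715a226c.shift 0 1), (rh932754581e0f4330.shift 4 0)] (by decide +kernel))
noncomputable def rh6a209b4f2eb5c02f : CRef := CRef.mk (Pat.mk 0x800000008000000280000000800000000 0x140000001c0000001c0000000c0000001f000001fc000000f8000001cf00000004 9 9) 0 0 (step_sound _ 68 [(rh157b220518f94713.shift 2 0), rh53e23c80db671be1, (rh9c94213f6896c74a.shift 2 1)] (by decide +kernel))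
noncomputable def rhae50c1447d90cfc4 : CRef := CRef.mk (Pat.mk 0xb00000006000000000000000000000000 0x1c0000001c0000001c0000001c0000001c0000003f0000001e0000007c0000001800000018 9 7) 0 0 (step_sound _ 99 [rh45b74732518eb408, (rhf48373e13d2bc128.shift 0 3)] (by decide +kernel))
noncomputable def rhc7478261c0110095 : CRef := CRef.mk (Pat.mk 0x80000000b0000000c00000000 0x40000001c0000001c0000001c0000000c0000001e0000001b0000000c0000000c 9 5) 0 0 (step_sound _ 131 [rh42307a8a707d80d4, (rh932754581e0f4330.shift 2 0)] (by decide +kernel))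
noncomputable def rh5b98a983f484c0f7 : CRef := CRef.mk (Pat.mk 0x1000000010000000100000001000000000 0x2f0000003e0000007f0000001c0000001800000008 9 7) 0 0 (step_sound _ 131 [rh35d3b7fc4fca41e3, (rh50fbb5868c909700.shift 3 1)] (by decide +kernel))
noncomputable def rh934e1f6ad2bef15c : CRef := CRef.mk (Pat.mk 0x38000000100000005000000018 0x7000000ff000000fe000000f00000001e 9 8) 0 0 (step_sound _ 37 [(rh18965a982d73c794.shift 3 0), rh940267b698d30cdb] (by decide +kernel))
noncomputable def rh265b88005cf52942 : CRef := CRef.mk (Pat.mk 0x100000000800000008000000380000000c 0x3800000078000000ee000000fe000000380000000f 9 8) 0 0 (step_sound _ 68 [rh49378f3c38b2efd1, rh5096c6d467774a2a, (rh82bd946b1709a78e.shift 3 1)] (by decide +kernel))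
noncomputable def rh77b275d3994047e5 : CRef := CRef.mk (Pat.mk 0x800000010000000300000005000000040 0x30000000fa0000009e000007f7000003fe000007d700000040 9 11) 0 0 (step_sound _ 70 [(rh0e79bd058094bf5b.shift 3 0), (rh8ee80cc30e93a344.shift 3 1), (rh981da095d1d353ed.shift 4 0), (rhcb5b4f5b13e0e6f3.shift 0 1)] (by decide +kernel))
noncomputable def rhe1b11de4d3d31816 : CRef := CRef.mk (Pat.mk 0x400000002000000020000000a00000008 0x100000003000000170000001e0000001b0000007f0000001f00000008 9 7) 0 0 (step_sound _ 129 [(rh2f68792b6b779e96.shift 1 1), rhdd6a87aab056c192] (by decide +kernel))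
noncomputable def rh8336fa4509209a4d : CRef := CRef.mk (Pat.mk 0x300000002000000020000000a0 0x4000000060000001e000000130000003e7000001fe000001f7 9 10) 0 0 (step_sound _ 36 [rh5094f5b6d91699c8, (rh6cc46d109d872927.shift 3 0), (rh8c25cb665ab79ec0.shift 2 0), (rha3962df8618c0763.shift 4 0)] (by decide +kernel))
noncomputable def rh365d01bc6912ea11 : CRef := CRef.mk (Pat.mk 0x100000007000000040 0x80000000e0000000e0000000e0000000fe0000007f0000004e 9 8) 0 0 (step_sound _ 35 [(rh2cc7d62e70c02209.shift 1 0), rh7ea7fc06b99fa11c, (rh96d62daca6f59697.shift 2 0), (rh9e97bba44c1b13e4.shift 1 0)] (by decide +kernel))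
noncomputable def rh5b1fc0a2d32aa767 : CRef := CRef.mk (Pat.mk 0x10000000100000001000000000 0x2c0000003f0000007e0000003f000000180000001800000008 9 7) 0 0 (step_sound _ 132 [(rh1741680720c097b4.shift 3 1), (rh3b734c5288922837.shift 3 0), (rh6597e2501da570a6.shift 0 1), (rh968ba7b0df7e4096.shift 3 0)] (by decide +kernel))
noncomputable def rhddf15ea06778bc2e : CRef := CRef.mk (Pat.mk 0x50000000400000005000000000 0x68000003ef000003fe000003ff000001d800000080 9 10) 0 0 (step_sound _ 101 [(rh15c050e172d75993.shift 3 0), (rh6287ec5fcea77cda.shift 0 1), (rh8ee80cc30e93a344.shift 3 2), (rhb2afcb5db661472f.shift 1 2)] (by decide +kernel))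
noncomputable def rhf16b404934f95d17 : CRef := CRef.mk (Pat.mk 0x50000000400000005000000000 0xa0000000e0000000e0000000e80000006f000003fe000003ff000001d800000080 9 10) 0 0 (step_sound _ 101 [(rh268dfd99917ddbd2.shift 3 0), (rh6287ec5fcea77cda.shift 0 1), (rh8ee80cc30e93a344.shift 3 2), (rhb2afcb5db661472f.shift 1 2)] (by decide +kernel))
noncomputable def rh416af53ed4dacf43 : CRef := CRef.mk (Pat.mk 0x500000004000000050 0xa0000000e0000000e0000007e8000003ef000007fe0000007f000000d0 9 11) 0 0 (step_sound _ 102 [(rh0363d47a46978688.shift 3 0), (rh1741680720c097b4.shift 5 0), (rha9871193becf60de.shift 4 0), (rhb034511df68c2fcf.shift 3 0), rheec6db5e955f75d9, (rhfa744325fd0800b5.shift 5 0)] (by decide +kernel))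
noncomputable def rhdbecf6e82b4a78ac : CRef := CRef.mk (Pat.mk 0xe00000012000000020000000200000000 0x600000003e00000036000000170000003e00000074 9 7) 0 0 (step_sound _ 132 [rh284de4f4a71f1d2d, (rhe25b0a99195a5d59.shift 1 3)] (by decide +kernel))
noncomputable def rhc0017de48d353459 : CRef := CRef.mk (Pat.mk 0x400000006000000020000000000000000 0xc0000000c0000003c0000007f0000003e0000007c00000008 9 7) 0 0 (step_sound _ 162 [(rh5c5e593799055d58.shift 1 2), rha736278549156a8f] (by decide +kernel))
noncomputable def rh6da3f0b814478e0a : CRef := CRef.mk (Pat.mk 0x400000002000000120000000a0000000800000000 0x770000003e0000007b0000003e0000003e000000f800000030 9 8) 0 0 (step_sound _ 161 [(rh2f68792b6b779e96.shift 1 2), rh57863f10d441b9ac] (by decide +kernel))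
noncomputable def rhbe37b956991eb9b3 : CRef := CRef.mk (Pat.mk 0x200000003000000010000000000000000 0x7000000070000000f0000001f0000001f0000001e00000004 9 5) 0 0 (step_sound _ 161 [rh1f44a8eea5f9a4d9, (rh5c5e593799055d58.shift 0 2)] (by decide +kernel))
noncomputable def rh0c7fb373f2e16ee2 : CRef := CRef.mk (Pat.mk 0x100000002000000020000000e00000008 0x4000000070000001b0000001e000000f60000007e000000f8 9 8) 0 0 (step_sound _ 129 [rh24c513eceb6268d9, (rh50fbb5868c909700.shift 0 1)] (by decide +kernel))
noncomputable def rh5f87670a0c35cc29 : CRef := CRef.mk (Pat.mk 0x100000001000000010000000500000004000000000 0x90000000d0000001d8000007f7000003fe000007c700000080 9 11) 0 0 (step_sound _ 69 [(rh15b17f6271df0ca6.shift 0 1), (rh7e7b959b4f850690.shift 3 1), (rh8ee80cc30e93a344.shift 3 1), (rhc39b97830e29895a.shift 3 0)] (by decide +kernel))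
noncomputable def rhe0ead8196299825b : CRef := CRef.mk (Pat.mk 0x1800000010000000100000005000000040 0x20000000b0000000d8000001f0000007f7000003fe000007c7 9 11) 0 0 (step_sound _ 37 [rh15b17f6271df0ca6, (rh24c513eceb6268d9.shift 3 0), (rh7e7b959b4f850690.shift 3 0), (rh8ee80cc30e93a344.shift 3 0)] (by decide +kernel))
noncomputable def rhcbde3f6b5aae5a95 : CRef := CRef.mk (Pat.mk 0x2000000020000000a0000000a000000000 0x1df000001fe000001ef000000a0000000b000000010 9 9) 0 0 (step_sound _ 134 [(rh2f68792b6b779e96.shift 5 1), rha683fdf548817616] (by decide +kernel))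
noncomputable def rh4164cb854d599f9e : CRef := CRef.mk (Pat.mk 0x10000000700000001000000000 0x2800000038000000380000003f000000fe0000003e000000700000001800000008 9 8) 0 0 (step_sound _ 132 [(rh1741680720c097b4.shift 3 1), (rh35c5f1c53251aa1b.shift 3 1), (rhd55400fb477fb774.shift 1 0), (rhe346c1ec33f0ee92.shift 3 0), (rhf09cad7dfd230418.shift 0 1)] (by decide +kernel))
noncomputable def rhe1b9385ad0fe0b1e : CRef := CRef.mk (Pat.mk 0x20000000200000002000000000 0x500000007e000000fe0000007f000000300000003000000010 9 8) 0 0 (step_sound _ 133 [(rh1741680720c097b4.shift 4 1), (rh3b734c5288922837.shift 4 0), (rh968ba7b0df7e4096.shift 4 0), rhed645b885de017e4] (by decide +kernel))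
noncomputable def rhdf2b45be7a8e6fdc : CRef := CRef.mk (Pat.mk 0xe000000040000001000000010 0x280000003800000038000001f0000000ff000001ff0000001800000010 9 9) 0 0 (step_sound _ 100 [(rh44f661c7c07a4115.shift 0 1), (rhaafcef250512bad1.shift 1 0), (rhad562696acd1db6f.shift 1 2), (rhaf9f2efc81a8312b.shift 0 2)] (by decide +kernel))
noncomputable def rh991092217beaee6b : CRef := CRef.mk (Pat.mk 0x18000000100000001800000018000000000000000000000000 0x40000001f0000007f0000001f0000001f000000070000000200000002 9 7) 0 0 (step_sound _ 163 [(rh49dc6ff8ea18768c.shift 0 2), (rhc647a25a08ddf0ec.shift 0 3), (rhca405e350c462817.shift 0 3), rhfc5101f9980ad4a5] (by decide +kernel))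
noncomputable def rh17b8e30e669e54a0 : CRef := CRef.mk (Pat.mk 0x3000000010000000100000005000000010 0x1000000010000000f80000001e0000007f0000007f00000010 9 8) 0 0 (step_sound _ 99 [(rh50fbb5868c909700.shift 3 0), (rh9dc77922ed55261c.shift 0 1)] (by decide +kernel))
noncomputable def rh7d554b7ee4fde594 : CRef := CRef.mk (Pat.mk 0x4000000060000001000000000000000000 0x140000003c0000003c0000007f000003fe0000019f0000001800000018 9 10) 0 0 (step_sound _ 100 [(rh029af04a046f0a53.shift 1 2), (rh332fc90e2c699cd5.shift 3 1), (rh3882dad07822b32a.shift 1 0), (rh8180e95f64eccbc4.shift 2 2), (rhb1b5db3d9517e810.shift 2 2), (rhb7fd16c784376ff1.shift 0 2)] (by decide +kernel))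
noncomputable def rhe8d13608ca197954 : CRef := CRef.mk (Pat.mk 0x3000000020000000a000000030000000000000000000000000 0x20000004e0000007e0000003e000000ff0000003e0000000f0000000c0000000c 9 8) 0 0 (step_sound _ 99 [(rh38631c5d48a280b7.shift 1 2), rh7eba6c7a1e09598a, (rhb12ffaec36122c99.shift 0 2), (rhf4585caa3b13e38a.shift 2 3)] (by decide +kernel))
noncomputable def rha533a3b68ab3d5d2 : CRef := CRef.mk (Pat.mk 0x1800000008000000280000002800000000 0x670000007e0000006f0000003e0000006e00000004 9 7) 0 0 (step_sound _ 130 [(rh50fbb5868c909700.shift 2 1), rhf0d08257d778e970] (by decide +kernel))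
noncomputable def rh25811a0dc9b48c40 : CRef := CRef.mk (Pat.mk 0x100000003800000018 0x3e0000003e000000f70000003f0000001e 9 8) 0 0 (step_sound _ 100 [rh4feca7b3d5dcf93a, (rh5c5e593799055d58.shift 3 0)] (by decide +kernel))
noncomputable def rhe62f67010eafc473 : CRef := CRef.mk (Pat.mk 0x70000000180000000000000010 0xa0000000e0000000e0000000cf0000007f000000f80000003000000010 9 8) 0 0 (step_sound _ 99 [(rh04adde65229dd8ca.shift 0 2), (rh0da3f8d18d3a0dfd.shift 2 0), (rhe93911991caef741.shift 2 1)] (by decide +kernel))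
noncomputable def rheeb232cfd22c46b1 : CRef := CRef.mk (Pat.mk 0x100000001000000010000000100000004000000040 0x100000001000000010000000ff0000007e000000cf 9 8) 0 0 (step_sound _ 35 [rh26f93e0e6fd46816, (rh79877ebd3ef475dd.shift 3 1)] (by decide +kernel))
noncomputable def rh43ccc41834552a6b : CRef := CRef.mk (Pat.mk 0x4000000060000001000000000000000000 0x140000001c0000001c000003ff000003fe0000019f0000001800000018 9 10) 0 0 (step_sound _ 100 [(rh029af04a046f0a53.shift 1 2), (rh3882dad07822b32a.shift 1 0), (rh3e0b38310ac09007.shift 1 3), (rh7ae73416e8bb7191.shift 3 2), (rh8180e95f64eccbc4.shift 2 2), (rhb1b5db3d9517e810.shift 2 2), (rhb7fd16c784376ff1.shift 0 2)] (by decide +kernel))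
noncomputable def rhe9fea304b342d764 : CRef := CRef.mk (Pat.mk 0x2000000010000000100000005000000040 0x800000018000000f8000000f0000001dc000001ff0000007e000000c7 9 9) 0 0 (step_sound _ 37 [rh15b17f6271df0ca6, (rh1f34efedaafb3af9.shift 3 1), (rh38db31790e1ec42d.shift 2 0), (rhcb9ff6f57bcb2d14.shift 2 0)] (by decide +kernel))
noncomputable def rh3c2f6aff010acda4 : CRef := CRef.mk (Pat.mk 0x100000001800000018 0x1600000016000000ff000000ff0000001e 9 8) 0 0 (step_sound _ 100 [(rh5c5e593799055d58.shift 3 0), rha97243d60f60b267] (by decide +kernel))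
noncomputable def rh61256dc498b13311 : CRef := CRef.mk (Pat.mk 0x2000000030000000300000000000000000 0x380000003e000000ee000000ff0000003e0000000f00000008 9 8) 0 0 (step_sound _ 67 [(rh97119271ad5e1180.shift 1 2), (rha4e887c2a2a0f60b.shift 0 1), (rhab2ad169e49f9c5e.shift 1 2), (rhbb7213d4724395ac.shift 1 0)] (by decide +kernel))
noncomputable def rh852df7cd22e202b0 : CRef := CRef.mk (Pat.mk 0xc00000008000000080000000c00000000 0xf30000007e000000ef0000001f0000000f00000001 9 8) 0 0 (step_sound _ 132 [(rh2f68792b6b779e96.shift 3 1), rh739428567066054a] (by decide +kernel))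
noncomputable def rh46a0f7870e65bd4d : CRef := CRef.mk (Pat.mk 0x20000000200000002000000000 0x50000000700000007f0000007e000000fe000000380000003000000010 9 8) 0 0 (step_sound _ 133 [(rh1741680720c097b4.shift 4 1), (rh193da7fc9e1674f1.shift 4 0), (rh20966da26a1c2ae8.shift 4 0), (rh771d065bdc85bf2d.shift 4 0), rh7940040615e62580] (by decide +kernel))
noncomputable def rh10044f02f9896361 : CRef := CRef.mk (Pat.mk 0x18000000080000002000000020 0x3e0000003e000000f80000007e0000003f0000003000000020 9 8) 0 0 (step_sound _ 132 [(rh2ccbcdd175e415e6.shift 1 0), rh82ad08b8602b1d20, (rhb0e53d8c2bdf7515.shift 3 0)] (by decide +kernel))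
noncomputable def rhe1f06a53300c5e51 : CRef := CRef.mk (Pat.mk 0x2000000030000000100000004000000040 0x7f000001fe000001fe00000030000000300000006000000040 9 9) 0 0 (step_sound _ 69 [(rh540b2336fa02e9f0.shift 0 2), (rhbe0e43a3bc50a43f.shift 5 0)] (by decide +kernel))
noncomputable def rhaba4a92584cac50e : CRef := CRef.mk (Pat.mk 0x180000000c0000002000000000 0x600000006000000070000001f0000001f0000003700000002 9 6) 0 0 (step_sound _ 65 [(rh53b3c253cb0c65f4.shift 0 2), rh7c4e9aae26250d54] (by decide +kernel))
noncomputable def rhb486c36514eb1572 : CRef := CRef.mk (Pat.mk 0x1e000000040000001000000010 0x1f0000001f0000003c0000001f0000000c0000001800000010 9 6) 0 0 (step_sound _ 132 [rh22d73a1d558680db, (rh33e738c4ed385b9f.shift 1 3)] (by decide +kernel))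
noncomputable def rh369b8455ad0ead07 : CRef := CRef.mk (Pat.mk 0x3000000018000000000000000000000000 0x1c0000001c0000001f000000ff000000f80000000c0000000c0000000c 9 8) 0 0 (step_sound _ 134 [(rh18965a982d73c794.shift 3 3), rhca94e4296beeadb3] (by decide +kernel))
noncomputable def rhd3bad48da87daf97 : CRef := CRef.mk (Pat.mk 0x180000001c000000000000000000000000 0xe0000000e0000000f0000001f0000007c000000060000000600000006 9 7) 0 0 (step_sound _ 130 [rh944de33657f45c08, (rhad5d8fc3675c15dd.shift 0 3), rhe2338b92d405aeaa] (by decide +kernel))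
noncomputable def rhca94c012be5d171c : CRef := CRef.mk (Pat.mk 0x18000000180000002000000000 0x5000000070000000f0000000f0000001f0000007f0000003700000004 9 7) 0 0 (step_sound _ 98 [rh1e47a38224bfb03f, rh7cd6f012962f6fd2, (rhad5d8fc3675c15dd.shift 0 2)] (by decide +kernel))
noncomputable def rh2224b98d94401a3b : CRef := CRef.mk (Pat.mk 0x3000000010000000500000005000000000 0xcf000000fe000000ff000000500000005800000008 9 8) 0 0 (step_sound _ 131 [rh2eab27ea9673d4c1, (rh50fbb5868c909700.shift 3 1)] (by decide +kernel))
noncomputable def rh339c3cddfc657521 : CRef := CRef.mk (Pat.mk 0x1c00000008000000280000002800000000 0x630000007e0000006f000000680000006c00000044 9 7) 0 0 (step_sound _ 34 [(rh932754581e0f4330.shift 2 0), rhe281918520d9d44e] (by decide +kernel))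
noncomputable def rh435a3cb4400b8d27 : CRef := CRef.mk (Pat.mk 0xe0000000200000002000000020 0x19e000000fe000001bf0000002000000020 9 9) 0 0 (step_sound _ 100 [(rh29915e320c45e200.shift 0 2), (rh50fbb5868c909700.shift 4 0)] (by decide +kernel))
noncomputable def rh050ba4845bc36a47 : CRef := CRef.mk (Pat.mk 0xa000000020000000a0000000200000000 0x1d0000000f0000001b0000007b0000003e0000007300000001 9 7) 0 0 (step_sound _ 160 [rh4ac3065d24cd280f, (rhffd04209dc8ea796.shift 0 1)] (by decide +kernel))
noncomputable def rh1f86d0bc2bf67a4d : CRef := CRef.mk (Pat.mk 0x8000000020000000a0000000a00000000 0x3d0000003f0000001f0000000b0000001e0000003a00000010 9 6) 0 0 (step_sound _ 129 [(rh1741680720c097b4.shift 0 1), (rh8cced43fc58d1ba9.shift 0 1), (rha9a823f1b3d79c28.shift 0 1), rhee7e519fbb626e2a] (by decide +kernel))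
noncomputable def rh69a35ea19953c2b7 : CRef := CRef.mk (Pat.mk 0x18000000020000001a0000000a00000000 0x2000000020000000f70000007f000000f30000003a000000fa000000f0 9 8) 0 0 (step_sound _ 130 [(rh1da0b1a9875f0c00.shift 0 1), (rh85432018c7d7e334.shift 0 1), (rh9ff2a19673ada447.shift 2 0)] (by decide +kernel))
noncomputable def rh8b5f9dc65a2a03ad : CRef := CRef.mk (Pat.mk 0x30000000a000000020000000a0000000a0000000000000000 0x2b0000003e0000007b0000003e0000007b0000003100000020 9 7) 0 0 (step_sound _ 164 [rh47902d895605fd11, (rh5419adcd928dba20.shift 0 5)] (by decide +kernel))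
noncomputable def rh500ee6eca7384204 : CRef := CRef.mk (Pat.mk 0xc0000000a0000000a0000000a00000000 0x730000003f0000007a0000003e0000001b00000011 9 7) 0 0 (step_sound _ 132 [(rh2f68792b6b779e96.shift 3 1), rhd2ca8a9afddec731] (by decide +kernel))
noncomputable def rh6aa61af91cff1d72 : CRef := CRef.mk (Pat.mk 0x60000000a000000020000001a00000000 0x140000001f0000001b0000001f0000000a0000001a0000001a00000010 9 5) 0 0 (step_sound _ 160 [rhf54e3e423862e4ff, (rhffd04209dc8ea796.shift 0 1)] (by decide +kernel))
noncomputable def rhf1f64de8edf28271 : CRef := CRef.mk (Pat.mk 0xc00000002000000020000001200000000 0x740000003e00000063000000720000007200000050 9 7) 0 0 (step_sound _ 129 [(rh2f68792b6b779e96.shift 1 1), rh3af5a91c4bbf7c3e] (by decide +kernel))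
noncomputable def rh7ab5ff745eee22b1 : CRef := CRef.mk (Pat.mk 0xa00000002000000020000001200000000 0x740000003e00000063000000720000007200000050 9 7) 0 0 (step_sound _ 130 [(rh2f68792b6b779e96.shift 1 1), rh3af5a91c4bbf7c3e] (by decide +kernel))
noncomputable def rh79eff9a8f0cc7408 : CRef := CRef.mk (Pat.mk 0xa000000020000001a000000020 0x140000001c0000001c00000019e000000fe000001bf000001a000000120 9 9) 0 0 (step_sound _ 135 [(rh9c8f00d278e046ae.shift 7 0), (rhadd570ecb99b15d2.shift 6 0), rhc10531483b5e5038] (by decide +kernel))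
noncomputable def rh2126bca40e396666 : CRef := CRef.mk (Pat.mk 0x10000000000000003000000010000000000000000 0x70000000700000007000000070000001f0000001e00000004 9 5) 0 0 (step_sound _ 161 [(rh368871123aeae58d.shift 0 1), rh6522e0f068b1d17f, (rh7d7eaefe27cdd7b0.shift 0 2), (rhef38121e2db1533d.shift 0 1)] (by decide +kernel))
noncomputable def rh103c430155319631 : CRef := CRef.mk (Pat.mk 0x300000000000000030000000100000000 0x7000000070000001e0000001b0000001f0000000e 9 5) 0 0 (step_sound _ 97 [rh29f8f70ff216278e, (rh5c5e593799055d58.shift 0 1)] (by decide +kernel))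
noncomputable def rhf847d5d22aa3ed6e : CRef := CRef.mk (Pat.mk 0x700000001000000010000000100000000 0xc0000007c0000003f0000007f0000001d0000001f00000002 9 7) 0 0 (step_sound _ 1 [(rh2e873f8387c74544.shift 0 1), rhd3458b32566d63f7] (by decide +kernel))
noncomputable def rhf197c41d58be72af : CRef := CRef.mk (Pat.mk 0x10000000a000000020000000a00000008 0x1000000130000003e0000007b0000003e00000078 9 7) 0 0 (step_sound _ 129 [(rh50fbb5868c909700.shift 0 1), rhc9d6ddcc3d1fa168] (by decide +kernel))
noncomputable def rhc5aa910fb6c62d6f : CRef := CRef.mk (Pat.mk 0x70000000100000000000000000000000000000000 0x3c0000001f0000003f0000001e0000001c0000001c00000014 9 6) 0 0 (step_sound _ 163 [rh0cf14686b7589cf4, (rha93a5dd541ab8209.shift 0 4), (rhd584a578337d0023.shift 0 4), (rhf3baec4a0a3dd35e.shift 0 4)] (by decide +kernel))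
noncomputable def rhc63fbf9f15d8e212 : CRef := CRef.mk (Pat.mk 0xe000000000000000800000000000000000 0x3000000030000001fc000000fe0000007f000000f80000003800000008 9 9) 0 0 (step_sound _ 132 [(rh2a67e9ab28afd833.shift 3 0), (rh4c622fddc53a5f99.shift 2 4), (rh73d929a11584eaf7.shift 0 3), (rh9e97bba44c1b13e4.shift 2 3)] (by decide +kernel))
noncomputable def rh4864c628c62a3cc2 : CRef := CRef.mk (Pat.mk 0xa000000180000000800000000 0x140000001c0000001c0000001f0000001b0000001c000000f800000030 9 8) 0 0 (step_sound _ 131 [(rh1741680720c097b4.shift 2 1), (rh35c5f1c53251aa1b.shift 2 1), (rh64bc0dab78a08b48.shift 2 1), rh75f22670d14fcf5d, (rhd4b4beefcd67f51e.shift 3 0)] (by decide +kernel))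
noncomputable def rhc4c7d63b0843ffdf : CRef := CRef.mk (Pat.mk 0x2000000380000000800000000 0x100000001c0000003c0000003f0000007f000000380000001800000010 9 7) 0 0 (step_sound _ 99 [rh06492cc5cdc11bb8, (rh075211c3608a5a57.shift 0 2), (rh6cdbf983eca60bef.shift 1 0), rh85b7d3560b3cc9c9] (by decide +kernel))
noncomputable def rh8611469af202623a : CRef := CRef.mk (Pat.mk 0x100000001c00000004000000000000000000000000 0x28000000380000003f0000003f0000001c0000001e000000fc000000380000002000000020 9 8) 0 0 (step_sound _ 100 [(rh4c5bc0047c993f08.shift 0 2), (rh5a8abb721f11b584.shift 1 0), (rhc21a95c499b3efdb.shift 1 3)] (by decide +kernel))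
noncomputable def rh3d5314ba4f42a18b : CRef := CRef.mk (Pat.mk 0x2000000010000000100000001000000000 0x8000003cf000001ff000003fc000000100000001000000010 9 10) 0 0 (step_sound _ 131 [(rh114f4abf4ea101c9.shift 3 0), (rh2e02ae96d64880aa.shift 3 0), (rh6a53fb15660216ce.shift 2 0), (rha3d6a246b25af5da.shift 0 1)] (by decide +kernel))
noncomputable def rh9f436463298f9da7 : CRef := CRef.mk (Pat.mk 0xf00000002000000000000000000000000 0xc0000000c0000001c0000000f0000001e0000001c0000001800000018 9 5) 0 0 (step_sound _ 99 [rh3af542c85598a7cd, (rhe25b0a99195a5d59.shift 0 3)] (by decide +kernel))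
noncomputable def rh877b9c6732d1c2e9 : CRef := CRef.mk (Pat.mk 0x20000003800000000000000000000000000000000 0x6000000060000001ff000000f8000001e0000000e0000000e0000000a0 9 9) 0 0 (step_sound _ 163 [(rh05d00e7cfdb5e850.shift 0 4), (rh075211c3608a5a57.shift 0 4), (rh57f1a2ae1172c9fe.shift 3 0)] (by decide +kernel))
noncomputable def rh5969f0bde7114a9c : CRef := CRef.mk (Pat.mk 0x1e00000000000000000000000000000000 0x1c0000001c0000001e0000007f00000038000000180000001800000008 9 7) 0 0 (step_sound _ 100 [rha3a305c7b91957a7, (rhe25b0a99195a5d59.shift 1 3)] (by decide +kernel))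
noncomputable def rhcb314c62841a3e20 : CRef := CRef.mk (Pat.mk 0x30000000c00000004000000000000000000000000 0x3000000030000000f30000007e000000fc000000700000007000000050 9 8) 0 0 (step_sound _ 132 [(rh09d4dfe75d4407d6.shift 0 4), (rhe733026cd9f55f1f.shift 2 0)] (by decide +kernel))
noncomputable def rhae4c82ca5f1dd73d : CRef := CRef.mk (Pat.mk 0x2000000180000000800000000 0x100000001c0000003c0000003f0000007f000000780000001800000010 9 7) 0 0 (step_sound _ 99 [rh60e803859a58f51c, (rh6cdbf983eca60bef.shift 1 0), rh85b7d3560b3cc9c9, (rh9ebd639649ea671c.shift 0 2)] (by decide +kernel))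
noncomputable def rh3eaae551e8b43605 : CRef := CRef.mk (Pat.mk 0x10000001c000000040000000000000000 0x800000008000003db000001fe000003fc0000001000000010 9 10) 0 0 (step_sound _ 97 [(rh3f8766e6ecb455ce.shift 0 3), (rhd309aadad73b6463.shift 1 0)] (by decide +kernel))
noncomputable def rhb672eeb7638a6f28 : CRef := CRef.mk (Pat.mk 0x10000001c00000004 0x3fb000001fe000003cc 9 10) 0 0 (step_sound _ 33 [(rh3f8766e6ecb455ce.shift 0 1), (rh7f19faacb25ccadc.shift 1 0)] (by decide +kernel))
noncomputable def rh9ace774d995a3d2b : CRef := CRef.mk (Pat.mk 0x100000000a0000001800000008 0x10000001d7000000ff000001dc00000008 9 9) 0 0 (step_sound _ 68 [(rh5c5e593799055d58.shift 3 0), (rhf9a3a575449828cf.shift 0 1)] (by decide +kernel))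
noncomputable def rh04612df9e53636ea : CRef := CRef.mk (Pat.mk 0x8000000010000000c0000000400000000 0x18000000180000007f0000006e0000007c00000038 9 7) 0 0 (step_sound _ 99 [(rh5c5e593799055d58.shift 2 1), rhe065c9778433b5f2] (by decide +kernel))
noncomputable def rh6b6fbbe594355c65 : CRef := CRef.mk (Pat.mk 0x400000000000000060000000200000000 0xe0000000f0000003c000000370000003e0000001c 9 6) 0 0 (step_sound _ 98 [(rh5c5e593799055d58.shift 1 1), rhd593118c49f12bd4] (by decide +kernel))
noncomputable def rh091dbdc4bb287c04 : CRef := CRef.mk (Pat.mk 0x2000000004000000300000001000000000 0x1ff000000fe000001df000000300000003000000020 9 9) 0 0 (step_sound _ 132 [(rh368871123aeae58d.shift 4 0), (rh6631a7045649d78f.shift 0 3), (rh84ce78a497965109.shift 1 0), (rhe07dac2d53c4661b.shift 1 1)] (by decide +kernel))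
noncomputable def rh37190fdbbbf66000 : CRef := CRef.mk (Pat.mk 0x100000000a00000018 0x1f7000000ff000001dc 9 9) 0 0 (step_sound _ 34 [rh15f028b27abea6f1, rhb739f4f82bb681b4] (by decide +kernel))
noncomputable def rh4556bbf5bfc484ff : CRef := CRef.mk (Pat.mk 0x1000000014000000060000000800000008 0xa0000000e0000000f0000001e000000fe000000060000000c00000008 9 8) 0 0 (step_sound _ 130 [(rh742192425fb243ad.shift 0 2), (rhbe0e43a3bc50a43f.shift 2 0)] (by decide +kernel))
noncomputable def rh67c925e0c32d8015 : CRef := CRef.mk (Pat.mk 0x4000000060000000200000000 0xe0000000f0000003c0000003f0000003e0000003c 9 6) 0 0 (step_sound _ 130 [(rh5c5e593799055d58.shift 1 1), rhdf0563947aa3c381] (by decide +kernel))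
noncomputable def rh1dbed1036dd1b793 : CRef := CRef.mk (Pat.mk 0xa00000003000000010000000000000000 0x1c0000001c0000001c0000001e0000001f0000001f0000001c00000010 9 5) 0 0 (step_sound _ 132 [(rhb2a0b9ccfb5cecd5.shift 0 3), rhc49138087c256d88] (by decide +kernel))
noncomputable def rh39c4dac85e6334e1 : CRef := CRef.mk (Pat.mk 0x800000008000000090000000800000000 0x1000000018000000180000007f0000007e00000074 9 7) 0 0 (step_sound _ 36 [rh512242d35446705d, (rh55afc6a59410cf00.shift 3 0)] (by decide +kernel))
noncomputable def rhe3cb97eeeaa29970 : CRef := CRef.mk (Pat.mk 0x20000000700000001000000000000000000000000 0xe0000000e0000003f0000003f0000007d0000001c0000001c00000014 9 7) 0 0 (step_sound _ 193 [(rh5c5e593799055d58.shift 0 3), rhdbaf569fba338b15] (by decide +kernel))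
noncomputable def rhaabfdb379b856816 : CRef := CRef.mk (Pat.mk 0x40000000e0000000200000000 0x14000000fc0000007e0000007f000000ea00000008 9 8) 0 0 (step_sound _ 68 [(rhae8d21abc86b555a.shift 1 1), (rhb6f72982232a8164.shift 1 2), (rhb7c7938b7c3b8a55.shift 1 1), rhf8c114645ca24e9a] (by decide +kernel))
noncomputable def rh5464b7b11ed67cae : CRef := CRef.mk (Pat.mk 0x30000000c000000040000000000000000 0x30000001f3000000fe000001fc0000007000000070 9 9) 0 0 (step_sound _ 100 [(rh09d4dfe75d4407d6.shift 0 3), (rhbb0e5ae5c963f6de.shift 2 0)] (by decide +kernel))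
noncomputable def rha616231e71a6ba37 : CRef := CRef.mk (Pat.mk 0x380000001c000000100000001000000000 0xa0000000e0000000e000000070000003f0000007c000000180000003000000020 9 7) 0 0 (step_sound _ 37 [(rh10441b6882e13e50.shift 0 2), (rh55afc6a59410cf00.shift 4 0)] (by decide +kernel))
noncomputable def rha30c358bb2d0b915 : CRef := CRef.mk (Pat.mk 0x30000000280000002000000008 0xa0000000e0000038e000001fe000003bf0000006e00000008 9 10) 0 0 (step_sound _ 66 [(rh9d5216176cd8d8fc.shift 1 0), (rhbd2e91c3fdbfa961.shift 0 2), (rhedb5257a62f09c47.shift 2 2)] (by decide +kernel))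
noncomputable def rh7b83db2af9c81183 : CRef := CRef.mk (Pat.mk 0x80000001c0000001000000014 0x5000000070000000f0000001b0000001f0000001700000014 9 5) 0 0 (step_sound _ 100 [(rh50fbb5868c909700.shift 3 0), rh80edbf2ec0b0c92f] (by decide +kernel))
noncomputable def rh4a37fcc05bf4b929 : CRef := CRef.mk (Pat.mk 0x18000000380000000000000008 0x1c0000003c0000000f0000001e0000003f0000000e0000000c 9 6) 0 0 (step_sound _ 98 [(rhb739f4f82bb681b4.shift 1 2), rhe354f151af23e5c9] (by decide +kernel))
noncomputable def rh31504761ffee3e1b : CRef := CRef.mk (Pat.mk 0x1e0000001800000002 0x10000000f0000001f0000000f0000001e0000001b00000012 9 5) 0 0 (step_sound _ 97 [(rh3244c3cc8379b070.shift 0 2), rhc37d6510d657c00f] (by decide +kernel))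
noncomputable def rh12590a4f5e701f3c : CRef := CRef.mk (Pat.mk 0x280000002000000028 0xa0000004e0000005e000003df000001fe000003ef0000002c 9 10) 0 0 (step_sound _ 68 [(rh8ee80cc30e93a344.shift 2 1), (rhb1e7e204f6df838b.shift 2 0), (rhc92c11e8da6c894f.shift 0 1), rhf98b800119c6ef20] (by decide +kernel))
noncomputable def rha4ffd25f9824109a : CRef := CRef.mk (Pat.mk 0x1c0000001000000014 0x80000003d0000003f0000003f0000003b0000001e0000001700000014 9 6) 0 0 (step_sound _ 100 [rh1193e6ed9a8e1ad6, (rh1741680720c097b4.shift 3 0), (rhca9122a6bf90113c.shift 3 0), (rhdab32775f5c78fcf.shift 1 0)] (by decide +kernel))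
noncomputable def rh6a87e52bf395dfbc : CRef := CRef.mk (Pat.mk 0x100000001c0000001000000014 0x5000000070000000f0000001b0000001f0000001700000014 9 5) 0 0 (step_sound _ 99 [(rh50fbb5868c909700.shift 3 0), rh80edbf2ec0b0c92f] (by decide +kernel))
noncomputable def rhe48623413666a5c2 : CRef := CRef.mk (Pat.mk 0xe0000000800000008 0x40000001c0000001c0000001e000001ff000000fe000000eb00000008 9 9) 0 0 (step_sound _ 99 [(rh1741680720c097b4.shift 2 0), (rh684e729394fba19d.shift 1 0), rh76a132c804aee04b, (rhca9122a6bf90113c.shift 2 0)] (by decide +kernel))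
noncomputable def rh5a26aba7ad6b4fee : CRef := CRef.mk (Pat.mk 0x2000000070000000200000000 0x1000000070000000f0000003e0000003e000000070000001e0000000c 9 6) 0 0 (step_sound _ 129 [rh6707a7d9a5e2262e, (rhccb3a79fd989e123.shift 0 1), (rhd4b4beefcd67f51e.shift 1 0)] (by decide +kernel))
noncomputable def rh7f4e5aa53559cacc : CRef := CRef.mk (Pat.mk 0xf0000000000000000 0x100000001c0000001c0000007c0000001e0000000f0000001c0000000c 9 7) 0 0 (step_sound _ 35 [rha229d189eee1ef7f, (rhe25b0a99195a5d59.shift 0 1)] (by decide +kernel))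
noncomputable def rh343e6a8ac8e426ac : CRef := CRef.mk (Pat.mk 0xf00000002 0x1ce000000ff000001fe 9 9) 0 0 (step_sound _ 4 [(rh943c1a88d79a2ada.shift 1 0), rh96851dee118c1ba3] (by decide +kernel))
noncomputable def rhd3237108b29eb13d : CRef := CRef.mk (Pat.mk 0x10000000e00000004 0x3fb000001fe000003cc 9 10) 0 0 (step_sound _ 36 [(rh3f8766e6ecb455ce.shift 0 1), (rh7f19faacb25ccadc.shift 1 0)] (by decide +kernel))
noncomputable def rh0690e09a9568ed2d : CRef := CRef.mk (Pat.mk 0x8000000780000000000000010 0x3c000000ff0000003c00000018000000f80000001000000010 9 8) 0 0 (step_sound _ 100 [rh6ce089df008688a1, (rhf48373e13d2bc128.shift 3 2)] (by decide +kernel))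
noncomputable def rh980ba5e64a46d0f0 : CRef := CRef.mk (Pat.mk 0x80000000b0000000a0000003800000000 0xf0000000f8000000fb0000007e0000003800000020 9 8) 0 0 (step_sound _ 68 [(rh5419adcd928dba20.shift 0 2), (rh9c922bb8828d362d.shift 3 0)] (by decide +kernel))
noncomputable def rhb6a5426ec4efb2da : CRef := CRef.mk (Pat.mk 0x160000001400000014 0x20000000380000003e0000003e000001f7000000fe000001dc00000014 9 9) 0 0 (step_sound _ 97 [rh3132b40b5a7ec4da, (rh53fbe5973d4cbb0f.shift 0 1), (rhc89253ff58c66167.shift 1 0)] (by decide +kernel))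
noncomputable def rh66206545663ce75c : CRef := CRef.mk (Pat.mk 0x1000000018000000500000001000000000 0xc0000001e000000f8000000df0000001f0000000c 9 8) 0 0 (step_sound _ 131 [(rh50fbb5868c909700.shift 3 1), rhe99f119400ecf923] (by decide +kernel))
noncomputable def rh81abde10d1631cda : CRef := CRef.mk (Pat.mk 0x1e0000001000000000 0x340000003c000000370000003f0000001a00000002 9 6) 0 0 (step_sound _ 100 [(rh33e738c4ed385b9f.shift 1 2), rhc29a92d50f295542] (by decide +kernel))
noncomputable def rhbbc1ffe0dcbef1ff : CRef := CRef.mk (Pat.mk 0x20000000240000003c00000020 0x50000000760000007c0000006c0000002c0000007e00000027 9 7) 0 0 (step_sound _ 1 [(rh80fcd6d0a18cb2dd.shift 1 0), rhdb6281f9e649cd5f] (by decide +kernel))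
noncomputable def rh19b47f8f78473e2a : CRef := CRef.mk (Pat.mk 0x20000000240000003c00000020 0xa0000000e0000001e0000003c0000007e0000002c0000007e00000027 9 7) 0 0 (step_sound _ 1 [rh4be0cc7c87d37bfd, (rh80fcd6d0a18cb2dd.shift 1 0)] (by decide +kernel))
noncomputable def rh64a2a70c6bec3c46 : CRef := CRef.mk (Pat.mk 0x120000001e000000100000001000000000 0x28000000380000003c0000003c000000160000003e0000001b0000003000000020 9 6) 0 0 (step_sound _ 65 [(rheb0810cc63b001d8.shift 0 2), (rhf713056d3dc0b806.shift 1 0)] (by decide +kernel))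
noncomputable def rh1744c2123d616bf8 : CRef := CRef.mk (Pat.mk 0x1c000000200000000000000000 0x5000000070000000700000007000000070000001e000000370000000600000004 9 6) 0 0 (step_sound _ 97 [rh30af1a772699a0bf, (rh96851dee118c1ba3.shift 1 2)] (by decide +kernel))
noncomputable def rhd5db50bcd5e16af9 : CRef := CRef.mk (Pat.mk 0xe000000200000000000000000 0x5000000070000000700000007000000070000001e000000370000000600000004 9 6) 0 0 (step_sound _ 100 [(rh96851dee118c1ba3.shift 1 2), rhf29a436e373a8f95] (by decide +kernel))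
noncomputable def rh27c114630095723f : CRef := CRef.mk (Pat.mk 0x3c0000000000000008 0x3e0000003e0000000f0000000e0000007c0000000800000008 9 7) 0 0 (step_sound _ 98 [(rh3244c3cc8379b070.shift 1 2), rh552831b670e2d1cf] (by decide +kernel))
noncomputable def rhda16565f48725a35 : CRef := CRef.mk (Pat.mk 0xf0000000000000000000000000 0x50000000700000007000000077000000fe0000007f0000003000000030 9 8) 0 0 (step_sound _ 99 [rh1214907e735010fd, (rh451f450cff442619.shift 1 1), rhb022498c8f789d2d, (rheae1728ff4a56756.shift 2 2)] (by decide +kernel))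
noncomputable def rh72826c7472a6d18f : CRef := CRef.mk (Pat.mk 0xf0000000000000000000000000 0x5000000070000000700000007f000000fe000000770000003000000030 9 8) 0 0 (step_sound _ 99 [rh01f57ad5d3969588, (rh04797e9e06425c4e.shift 0 2), rhb022498c8f789d2d, (rhd5eb272e07a4e288.shift 2 3)] (by decide +kernel))
noncomputable def rh8f4230d2bb6fb591 : CRef := CRef.mk (Pat.mk 0xe0000000000000000000000000 0x280000003800000038000000fc000000fe0000007f0000003000000030 9 8) 0 0 (step_sound _ 100 [(rh0d97fc46e2a2ead4.shift 0 2), (rh132224b2333f091b.shift 1 2), (rh6c7f258014e76fe7.shift 3 0), (rh73d929a11584eaf7.shift 0 2), (rh775ca1963e850b80.shift 2 2)] (by decide +kernel))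
noncomputable def rh96bbcf655fa21584 : CRef := CRef.mk (Pat.mk 0x800000018000000180000001800000000 0x170000001f0000001b0000001f0000001f00000004 9 5) 0 0 (step_sound _ 132 [(rh5c5e593799055d58.shift 3 1), rh8bd9b647bba87e13] (by decide +kernel))
noncomputable def rhef8eb3b515126df8 : CRef := CRef.mk (Pat.mk 0x800000018000000180000001800000000000000000000000000000000 0x500000007000000070000000f0000001b0000001f0000001f0000000f000000070000000400000004 9 5) 0 0 (step_sound _ 161 [(rh114380420d2c6317.shift 0 3), (rh4e595d372ef6c4b9.shift 0 4), (rhe446bb21dbe1a919.shift 0 2), rhf1f41b615cb58961, (rhfaef1e6f89cbbc67.shift 0 3)] (by decide +kernel))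
noncomputable def rh681e7139c0ae4fca : CRef := CRef.mk (Pat.mk 0x800000018000000400000005000000000 0xa0000001f0000001e000000fc000000de0000000c 9 8) 0 0 (step_sound _ 68 [(rh4b687b01c54530ec.shift 2 1), rh73729f5d67786108, (rha3df16ea9c8576c8.shift 3 1)] (by decide +kernel))
noncomputable def rhc42d113393796eba : CRef := CRef.mk (Pat.mk 0x8000000080000000800000000 0x140000001f0000003f0000003f0000000c0000000c00000004 9 6) 0 0 (step_sound _ 131 [(rh20966da26a1c2ae8.shift 2 0), rh23faec912ebb5a9f, (rh771d065bdc85bf2d.shift 2 0), (rhc85cc95794737cf7.shift 2 1)] (by decide +kernel))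
noncomputable def rh18edc56de38101d9 : CRef := CRef.mk (Pat.mk 0x10000000180000003c0000000000000000 0xc0000000f0000007f0000001c0000003f0000006c0000000c 9 7) 0 0 (step_sound _ 35 [(rh71222050f2c63a3a.shift 3 0), rh7a73eb9458f2741f] (by decide +kernel))
noncomputable def rhe79bdd8180e84326 : CRef := CRef.mk (Pat.mk 0x180000003c000000200000000000000000 0xc0000001f0000007f0000001b0000003f0000002c0000000c0000000c 9 7) 0 0 (step_sound _ 164 [(rh2145e1d24b96a57e.shift 4 2), rha725ab19f2744608] (by decide +kernel))
noncomputable def rhbd2fff31164335a4 : CRef := CRef.mk (Pat.mk 0x1c0000003c000000000000000000000000 0xc0000001f0000007f0000001c0000003c0000006c0000000c0000000c 9 7) 0 0 (step_sound _ 69 [rhdbeff9653f52a1ed, (rhe25b0a99195a5d59.shift 2 2)] (by decide +kernel))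
noncomputable def rh52d73c7a54ff9084 : CRef := CRef.mk (Pat.mk 0x80000001e000000000 0xcf000001fe0000037f 9 10) 0 0 (step_sound _ 8 [rhbd2f63518e230f9f, (rhe25b0a99195a5d59.shift 5 0)] (by decide +kernel))
noncomputable def rhf04564436056a1f8 : CRef := CRef.mk (Pat.mk 0x20000000280000006800000100000000400000000000000000 0x140000001c0000001f0000007c0000006f0000006c000003dc0000007c0000001c00000004 9 10) 0 0 (step_sound _ 102 [rh24d425a8cf9e37a8, (rhcfdf45280693d3da.shift 5 2)] (by decide +kernel))
noncomputable def rhf519c3f723b208bc : CRef := CRef.mk (Pat.mk 0xc0000001e000000000000000000000000 0x1300000013000000330000001f0000001e0000000f0000000300000003 9 6) 0 0 (step_sound _ 129 [rh001afcf6edd61f74, (rh3244c3cc8379b070.shift 0 3)] (by decide +kernel))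
noncomputable def rh1a8d474f2f190ef6 : CRef := CRef.mk (Pat.mk 0x1a0000001a 0x3e0000003e000000370000001e0000001b 9 6) 0 0 (step_sound _ 34 [rha8a18a116e39e6e3, rheb0810cc63b001d8] (by decide +kernel))
noncomputable def rh19874ad97b903eb2 : CRef := CRef.mk (Pat.mk 0x100000003400000000000000200000000000000000 0xa0000000e0000000e000000370000003e0000007e0000003e0000000e00000002 9 7) 0 0 (step_sound _ 131 [(rh01d64f4b25e9d366.shift 1 3), (rhb3e46d160c5090e3.shift 1 0), (rhedf6b6c69a16cbd5.shift 0 4)] (by decide +kernel))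
noncomputable def rh3e7172690c709385 : CRef := CRef.mk (Pat.mk 0xe0000001a000000100000001000000000 0x3e0000003e000000370000001e0000001a0000001a0000001a00000008 9 6) 0 0 (step_sound _ 132 [(rh5ba2d67652840f34.shift 1 2), (rha8a18a116e39e6e3.shift 0 3), (rhb41395ed40c12f9c.shift 1 0)] (by decide +kernel))
noncomputable def rh4a86b4d24d30d64d : CRef := CRef.mk (Pat.mk 0x40000000d000000080000000800000000000000000 0xa0000000f7000000fe000000ff000000f80000007800000020 9 8) 0 0 (step_sound _ 100 [(rh2b612b3d3510db85.shift 3 1), (rh2d1e3d1dcfb22285.shift 0 3), (rh79c9de40384c027b.shift 3 0), (rhb9281e53df718481.shift 3 0), (rhf81b2b99b531f92f.shift 0 3)] (by decide +kernel))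
noncomputable def rh8bd8338849b30a9b : CRef := CRef.mk (Pat.mk 0x40000000d000000080000000800000000000000000 0xa0000000ef000000fe000000ff000000f80000007800000020 9 8) 0 0 (step_sound _ 100 [(rh2b612b3d3510db85.shift 3 1), (rh2d1e3d1dcfb22285.shift 0 3), (rh41118a77fab810a6.shift 3 0), (rh6367b184daa4c5ca.shift 3 0), (rhf81b2b99b531f92f.shift 0 3)] (by decide +kernel))
noncomputable def rhfc75c186be107521 : CRef := CRef.mk (Pat.mk 0xe0000001a 0x3e0000003e000000370000001e0000001b 9 6) 0 0 (step_sound _ 36 [rha8a18a116e39e6e3, rheb0810cc63b001d8] (by decide +kernel))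
noncomputable def rhfd7a169c3554f0b5 : CRef := CRef.mk (Pat.mk 0x2800000068000000080000004000000000 0x140000005c0000005c000000df000000780000006c0000003c0000007800000010 9 8) 0 0 (step_sound _ 163 [(rh7eb809fb0cbb3ab7.shift 2 0), (rha5f93e395a240bb6.shift 2 0), (rhc85cc95794737cf7.shift 2 2), (rhd45941d7f68403cf.shift 2 1), (rhd5d193521cc593a5.shift 0 2)] (by decide +kernel))
noncomputable def rh8346ce1b329d02fa : CRef := CRef.mk (Pat.mk 0x20000000200000002000000100000000000000000 0x50000000700000007000000060000000200000003000000070000001f0000000700000001 9 5) 0 0 (step_sound _ 193 [(rh3b734c5288922837.shift 0 2), (rha5f93e395a240bb6.shift 0 1), rhef3ba3c62dc7a15c] (by decide +kernel))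
noncomputable def rha5b6e8eaac5a56bd : CRef := CRef.mk (Pat.mk 0x200000002000000020000001000000000 0x50000000700000007000000070000000300000003000000070000001e00000006 9 5) 0 0 (step_sound _ 161 [rh0798174041532c23, rh8ff3dde5b1c639e0, rha5f93e395a240bb6, (rhc85cc95794737cf7.shift 0 2)] (by decide +kernel))
noncomputable def rh3656176dffcbe3d2 : CRef := CRef.mk (Pat.mk 0x80000000800000008000000400000000000000000 0x40000000c0000000c0000003f0000007f0000001f00000016 9 7) 0 0 (step_sound _ 67 [(rh8cdd36b03d57a2f6.shift 2 0), (rh8ff3dde5b1c639e0.shift 2 0), rhba267b76edd320d8, (rhc4526fc8abf298b6.shift 2 0)] (by decide +kernel))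
noncomputable def rh2312a7536bd6576c : CRef := CRef.mk (Pat.mk 0x40000000d00000000000000000000000000000000000000000 0x2000000030000000ff000000fe0000003f00000038000000380000003800000028 9 8) 0 0 (step_sound _ 165 [(rh2b2976d7da997dae.shift 3 0), (rh4c063b89d42a2070.shift 2 4), (rhdda18f14314c6e63.shift 0 4)] (by decide +kernel))
noncomputable def rhd0cd418f94b9f057 : CRef := CRef.mk (Pat.mk 0x100000003000000000000000000000000000000000 0x28000000380000003f000000fe000000ff0000003f0000003800000018000000180000001800000008 9 8) 0 0 (step_sound _ 196 [rh2e551de98c187aa1, (rh4567ecf37c4cb49b.shift 3 2), (rh59b5fb48f23d60e1.shift 0 2), (rh744d69d4ecbe6787.shift 3 2), (rha5e6fd29cc0b64f8.shift 3 2), (rhc4056fefc2c1d7af.shift 0 4)] (by decide +kernel))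
noncomputable def rhea40a8e3f819e452 : CRef := CRef.mk (Pat.mk 0x200000002000000060000000200000000 0x7d0000003f0000003e000000060000000600000004 9 7) 0 0 (step_sound _ 34 [(rh55afc6a59410cf00.shift 1 0), (rhfdb452ca29256ea8.shift 0 1)] (by decide +kernel))
noncomputable def rhc7dc28b00ef23689 : CRef := CRef.mk (Pat.mk 0x4000000300000001400000000 0xa0000001e0000003e000000370000003e0000007600000022 9 7) 0 0 (step_sound _ 66 [(rh01e48cd9f335aa73.shift 1 1), (rh5f6f4b204f5806fb.shift 1 1), rha02e6eb5c453d49c, (rhe32601bd65ae7334.shift 1 1)] (by decide +kernel))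
noncomputable def rh0d5016f56fe25621 : CRef := CRef.mk (Pat.mk 0x1c0000000a 0x10000000100000003f000000ff000000eb 9 8) 0 0 (step_sound _ 33 [rhd38511c7c5355d2b, rheb0810cc63b001d8] (by decide +kernel))
noncomputable def rhbd30bdb383425db0 : CRef := CRef.mk (Pat.mk 0x1e000000040000000000000000 0x38000000380000003f0000001e0000003c0000003800000030 9 6) 0 0 (step_sound _ 68 [rh5429f996595c64b4, (rhe25b0a99195a5d59.shift 1 2)] (by decide +kernel))
noncomputable def rh320e6b949c52ef05 : CRef := CRef.mk (Pat.mk 0x2000000020000000f00000000000000000000000000000000 0xc0000000e0000001e0000000f0000001c0000001c0000001c00000018 9 5) 0 0 (step_sound _ 163 [(rh33e738c4ed385b9f.shift 0 4), rhb8a5106461518ce0] (by decide +kernel))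
noncomputable def rha91d10702d308d10 : CRef := CRef.mk (Pat.mk 0x48000000180000001a0000000000000000 0xa0000000e8000000e8000000c8000000ff000000fb000000c000000080 9 8) 0 0 (step_sound _ 195 [(rh6f1cbe15c631ee70.shift 3 2), rhd38638e54baea4e1] (by decide +kernel))
noncomputable def rha4feeb4d1020219e : CRef := CRef.mk (Pat.mk 0x100000000600000006000000020000000200000000 0x3f0000001f0000003a0000000600000006000000030000000300000001 9 6) 0 0 (step_sound _ 32 [(rh7c4fb49feb276281.shift 0 1), rh932754581e0f4330] (by decide +kernel))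
noncomputable def rh3f7776e2f2a592ca : CRef := CRef.mk (Pat.mk 0x1e00000004000000000000000000000000 0x80000007c0000001f0000003c0000001e0000003c000000380000003000000030 9 7) 0 0 (step_sound _ 195 [(rh65dc9ac2eea86f24.shift 1 2), (rh90a1f3818c95778d.shift 0 3), (rhbae27da6b2ee22e1.shift 1 0), (rhcafd34cbf83fdf34.shift 1 3), (rhfd0f5594b61bce04.shift 1 1)] (by decide +kernel))
noncomputable def rh7dbf3fadd5e38bb3 : CRef := CRef.mk (Pat.mk 0x1000000010000000100000000000000010 0x200000002f000000fe000000ff00000018000000300000003000000010 9 8) 0 0 (step_sound _ 165 [(rh08d50fe567eb1045.shift 4 1), (rh22d86f446f3de558.shift 1 1), (rh30fb2b4c25596139.shift 3 0), (rh720668f5dce24209.shift 0 1)] (by decide +kernel))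
noncomputable def rh1704642ef30bb35f : CRef := CRef.mk (Pat.mk 0x1000000008000000180000000a00000000 0x28000000780000007e000000ff0000007b00000030 9 8) 0 0 (step_sound _ 36 [rh030b0a772dbcbf4e, rh1b2cc4ba122a7e24, (rh3e595262c1b737ad.shift 3 0)] (by decide +kernel))
noncomputable def rh191bc8c3b1d3238f : CRef := CRef.mk (Pat.mk 0x2000000020000000000000002000000000000000000000000 0x2000000030000000700000007000000060000000700000003000000070000000700000005 9 3) 0 0 (step_sound _ 129 [rh18decb29c4014b8f, (rh435cb8dadc8af256.shift 0 2), (rh771d065bdc85bf2d.shift 0 2), (rhcab3157f7bdcba3e.shift 0 1)] (by decide +kernel))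
noncomputable def rhc066099128559961 : CRef := CRef.mk (Pat.mk 0x80000000a0000000000000008000000000000000000000000 0x40000001c0000001f0000001b0000000c0000000c0000001c0000001c00000014 9 5) 0 0 (step_sound _ 131 [(rh771d065bdc85bf2d.shift 2 2), (rh9e78c8d0a6e73966.shift 0 2), rhaa9082efcff5d91f, (rhcab3157f7bdcba3e.shift 2 1)] (by decide +kernel))
noncomputable def rh3c405defb7733e0f : CRef := CRef.mk (Pat.mk 0x30000000140000001000000010000000000000000000000000 0xf0000003e000000360000001000000010000000380000003800000028 9 6) 0 0 (step_sound _ 68 [(rhbaefcd01e0a8bca3.shift 4 2), rhcb2f4cf2786a7c04] (by decide +kernel))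
noncomputable def rh7d33f85242d52be3 : CRef := CRef.mk (Pat.mk 0x3800000000 0x200000002000000060000001ff000000fe000001d7 9 9) 0 0 (step_sound _ 34 [rh2cc7d62e70c02209, (rh45f730bcf36fcf64.shift 1 0), rh5e98f7ab8993b949, rh9e97bba44c1b13e4, (rha08a008feb6a4b49.shift 1 0)] (by decide +kernel))
noncomputable def rh29acc7bffd853119 : CRef := CRef.mk (Pat.mk 0x380000000000000000 0x2000000060000001ff000000fe000001d700000010 9 9) 0 0 (step_sound _ 66 [(rh2cc7d62e70c02209.shift 0 1), (rh45f730bcf36fcf64.shift 1 1), (rh5e98f7ab8993b949.shift 0 1), (rh995975079ffd0394.shift 1 0), (rh9e97bba44c1b13e4.shift 0 1)] (by decide +kernel))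
noncomputable def rhfb76df4b358b3fb0 : CRef := CRef.mk (Pat.mk 0x40000000400000005000000000000000000000000 0xa0000000e0000000e0000000c0000000c000000070000001e0000000e00000008 9 5) 0 0 (step_sound _ 66 [(rh20966da26a1c2ae8.shift 1 1), (rh6c59ce14113da07f.shift 2 0), (rh934b7b499abbb98b.shift 0 1), (rh9b43accb1030d8da.shift 1 0)] (by decide +kernel))
noncomputable def rhdf3284aa7c4c5a0c : CRef := CRef.mk (Pat.mk 0xa000000080000000a00000000 0x20000000340000007e0000003f0000007e0000003c0000000e00000006 9 7) 0 0 (step_sound _ 131 [(rh20966da26a1c2ae8.shift 2 0), rh713b67f4c594034a, (rhc85cc95794737cf7.shift 2 1), (rhd4f21b126e34c016.shift 1 1)] (by decide +kernel))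
noncomputable def rhf0fedc326e9d0103 : CRef := CRef.mk (Pat.mk 0xa0000000000000008000000000000000000000000 0x40000001c0000007f0000001f0000007c0000000c0000001c0000001c00000014 9 7) 0 0 (step_sound _ 131 [(rh4ec6bb9391b3c474.shift 2 0), rh5b04d8d497d184b3, (rh70b214074ddc619f.shift 0 1), rh9bba74fd5e29626e, (rhc10ead4194dbdc10.shift 0 2), (rhe3506fd8bfa5d1eb.shift 0 2)] (by decide +kernel))
noncomputable def rhc89dead4efd5ae52 : CRef := CRef.mk (Pat.mk 0x2800000000000000200000000000000000 0x780000007c000001fe000003ff000001f7000000300000003000000030 9 10) 0 0 (step_sound _ 132 [(rh1317c6ea28e6bacd.shift 2 1), (rh623b18951ad60c6c.shift 1 2), rh6e24b884f2fad11f, (rh7e60159fcbbbbb6d.shift 1 0), (rhab9a5849f2aba49b.shift 2 1), (rhb8c5c9f5b701b8f2.shift 0 1), (rhb91335287086cf76.shift 2 1), rhc9e50f8f9601f67b] (by decide +kernel))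
noncomputable def rhe70847ca07618147 : CRef := CRef.mk (Pat.mk 0x2800000000000000280000000000000000 0x780000007c000001ff000003fe000001f0000000380000003800000030 9 10) 0 0 (step_sound _ 132 [(rh03931c7a812d00d1.shift 1 0), (rh1317c6ea28e6bacd.shift 2 1), (rh623b18951ad60c6c.shift 1 2), (rhab9a5849f2aba49b.shift 2 1), rhb8e8b0397797ec5d, (rhb91335287086cf76.shift 2 1), rhbdf237b41f10648e, (rhd6a56415c7f55304.shift 1 0)] (by decide +kernel))
noncomputable def rh88963db6dd1e71c9 : CRef := CRef.mk (Pat.mk 0xc000000040000000400000014000000000000000000000000 0x700000007c0000007f0000007f0000001c000000380000003000000030 9 7) 0 0 (step_sound _ 99 [rh1b70347634eb562d, (rh55afc6a59410cf00.shift 2 2)] (by decide +kernel))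
noncomputable def rh0aabccbb1f849353 : CRef := CRef.mk (Pat.mk 0x18000000100000001000000070 0x1e7000000fe000001de0000003e00000074 9 9) 0 0 (step_sound _ 101 [rh21ccc6a3e61c0e99, (rh2f68792b6b779e96.shift 4 0)] (by decide +kernel))
noncomputable def rhf5ff7163cec1ca85 : CRef := CRef.mk (Pat.mk 0x1000000010000000100000005000000000 0x1ef000000fe000000f7000000500000007000000020 9 9) 0 0 (step_sound _ 37 [(rh55afc6a59410cf00.shift 4 0), (rh996020ab42a45c0c.shift 0 1)] (by decide +kernel))
noncomputable def rh124e7d11b64cb66b : CRef := CRef.mk (Pat.mk 0x400000004000000040000001400000000 0x34000000340000007f0000007f0000001c00000008 9 7) 0 0 (step_sound _ 35 [(rh55afc6a59410cf00.shift 2 0), (rhdc9c804e6eb9052c.shift 0 1)] (by decide +kernel))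
noncomputable def rh3e4e08eac35cb0a4 : CRef := CRef.mk (Pat.mk 0x18000000080000000800000008 0x140000001c0000001c0000000c0000000c0000007c0000001f0000000c00000008 9 7) 0 0 (step_sound _ 66 [(rh574fdbf07bdd18b9.shift 0 2), (rh770fa90eaee97333.shift 2 0), (rhd69c262cd33b94b3.shift 0 2)] (by decide +kernel))
noncomputable def rha2283e44254f7544 : CRef := CRef.mk (Pat.mk 0x1e0000000800000000 0x16000000370000003f0000001e0000000f00000006 9 6) 0 0 (step_sound _ 33 [rh8e3f8304ea6ca22f, (rheb0810cc63b001d8.shift 0 1)] (by decide +kernel))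
noncomputable def rh87ebf31130753293 : CRef := CRef.mk (Pat.mk 0x200000003000000010000000000000004000000000 0x20000000a0000007e7000003fe000007ff000000c00000004000000040 9 11) 0 0 (step_sound _ 197 [(rh5c5e593799055d58.shift 4 3), rhc6f7467b19ddb303] (by decide +kernel))
noncomputable def rh55c562420b73604d : CRef := CRef.mk (Pat.mk 0x3000000010000000000000005000000000 0x78000000fc000000fc000001f7000001fe000000df0000005000000040 9 9) 0 0 (step_sound _ 165 [rh3cf544e0ae97228c, (rh9e3edb185cc347de.shift 4 1)] (by decide +kernel))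
noncomputable def rh30ccf5721cbc4bf2 : CRef := CRef.mk (Pat.mk 0x40000001c00000008000000000000002000000000 0xc0000000c0000000c0000007e0000007f000000660000002000000020 9 7) 0 0 (step_sound _ 194 [(rh2145e1d24b96a57e.shift 2 3), rhb5e773e55f9d51a0] (by decide +kernel))
noncomputable def rh4b28f426cd4a9b08 : CRef := CRef.mk (Pat.mk 0x1000000010000000100000001000000010 0x2800000038000000380000001800000038000000770000003e0000003f00000010 9 7) 0 0 (step_sound _ 101 [(rh108df04e446997e1.shift 0 1), (rh2f68792b6b779e96.shift 4 0)] (by decide +kernel))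
noncomputable def rhda98c6b2e0ab7b18 : CRef := CRef.mk (Pat.mk 0x1000000010000000100000001000000010 0x1000000010000003ff000001fe000003bf 9 10) 0 0 (step_sound _ 37 [rh3f7d7f28d118cc3b, (rh55afc6a59410cf00.shift 4 0)] (by decide +kernel))
noncomputable def rha444322710ed9504 : CRef := CRef.mk (Pat.mk 0x3000000010000000100000005000000000 0x200000002000007cf000003fe0000073e000000340000007400000060 9 11) 0 0 (step_sound _ 134 [(rh7b481907aa436fee.shift 3 0), (rha16c6b111c3b7dc5.shift 0 1), (rhdc1641106d7e5aa2.shift 3 3), (rhe991b0a7f5491f5b.shift 2 1)] (by decide +kernel))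
noncomputable def rh6c0d42cf59e774d9 : CRef := CRef.mk (Pat.mk 0xe00000004000000040000001400000000 0x700000007f0000007e0000003c0000001c00000018 9 7) 0 0 (step_sound _ 35 [(rh55afc6a59410cf00.shift 2 0), rhf7ba0e3c65676a71] (by decide +kernel))
noncomputable def rh9b9ca67d285c237a : CRef := CRef.mk (Pat.mk 0x3800000010000000100000005000000000 0x1c7000000fe000001de0000003e0000007400000020 9 9) 0 0 (step_sound _ 37 [(rh21ccc6a3e61c0e99.shift 0 1), (rh55afc6a59410cf00.shift 4 0)] (by decide +kernel))
noncomputable def rh3f1d1994594ba9a5 : CRef := CRef.mk (Pat.mk 0x1e00000008000000080000002800000000 0x5000000070000000700000007000000030000001e0000000f0000001f0000003800000010 9 6) 0 0 (step_sound _ 97 [rh3be6805473adae00, (rheb0810cc63b001d8.shift 0 3)] (by decide +kernel))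
noncomputable def rhda8a56a5b2b3c35e : CRef := CRef.mk (Pat.mk 0x3000000010000000000000005000000000 0x600000006000000060000001f7000001fe000000ff0000007000000060 9 9) 0 0 (step_sound _ 165 [rh0ffbd7db824b5729, (rh9e3edb185cc347de.shift 4 1)] (by decide +kernel))
noncomputable def rh42f5c90eaeec7b1c : CRef := CRef.mk (Pat.mk 0x800000008000000080000000800000000 0x100000001800000008000001ff000000fe000001d4 9 9) 0 0 (step_sound _ 36 [(rh55afc6a59410cf00.shift 3 0), rh8a04f7c1407242d0] (by decide +kernel))
noncomputable def rh80f534633a717011 : CRef := CRef.mk (Pat.mk 0x800000008000000080000001800000000 0x140000001c00000008000001ff000000fe000001c4 9 9) 0 0 (step_sound _ 34 [(rh932754581e0f4330.shift 2 0), rhebb6f2a1ee336db0] (by decide +kernel))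
noncomputable def rh845474cc3558894c : CRef := CRef.mk (Pat.mk 0x800000010000000300000001000000040000000000000000000000000 0x9800000098000003f7000001fe000003df00000040000000e0000000e0000000a0 9 10) 0 0 (step_sound _ 166 [(rh1a6590498224160a.shift 3 2), (rh4ef25bfa5e10fc62.shift 3 4), (rh7c525d8c2c015be6.shift 0 4), (rhd881a62c5ec8a717.shift 4 2), rhd9953aee96d8479d] (by decide +kernel))
noncomputable def rh00aab137d548847e : CRef := CRef.mk (Pat.mk 0x10000000300000001000000040000000000000000000000000 0x8200000082000003f7000001fe000003ff00000044000000e4000000e0000000a0 9 10) 0 0 (step_sound _ 166 [(rh1a6590498224160a.shift 3 2), (rh7c525d8c2c015be6.shift 0 4), (rhb02f9c2bd63f56db.shift 3 4), (rhd881a62c5ec8a717.shift 4 2), rhe3763633e98d7e43] (by decide +kernel))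
noncomputable def rh3e4d7fe503ccc40b : CRef := CRef.mk (Pat.mk 0x8000000080000000800000000 0x140000001f0000003f0000003f0000000c0000000c00000004 9 6) 0 0 (step_sound _ 131 [(rh1741680720c097b4.shift 2 1), (rh20966da26a1c2ae8.shift 2 0), rh23faec912ebb5a9f, (rh771d065bdc85bf2d.shift 2 0)] (by decide +kernel))
noncomputable def rh04611074f205119f : CRef := CRef.mk (Pat.mk 0x1000000030000000100000001000000000 0x60000001f00000007c000000770000003e0000002f 9 9) 0 0 (step_sound _ 133 [rh0e91939bf4df5d5c, (rh2f68792b6b779e96.shift 4 1)] (by decide +kernel))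
noncomputable def rhbbdfe2b64221e21e : CRef := CRef.mk (Pat.mk 0x400000004000000000000000400000000 0xa000000fe0000007f0000003f0000000c0000000c00000008 9 8) 0 0 (step_sound _ 66 [(rh1741680720c097b4.shift 1 1), (rh5abfc4c9d959be03.shift 1 0), rhc786ef4f01b7c563, (rhced6d86d2069808b.shift 2 0)] (by decide +kernel))
noncomputable def rh299a3423a963484a : CRef := CRef.mk (Pat.mk 0x3000000018000000000000004000000000 0x20000000200000007f000000ff000001f8000000c00000004000000040 9 9) 0 0 (step_sound _ 134 [(rh18965a982d73c794.shift 3 3), rh3923f4807a03dbc2] (by decide +kernel))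
noncomputable def rh3464c1b609444672 : CRef := CRef.mk (Pat.mk 0x180000001c0000000000000000 0xe0000000f0000001b0000003f0000001700000010 9 6) 0 0 (step_sound _ 65 [(rh53b3c253cb0c65f4.shift 0 2), rhf338f2e71c3bfb47] (by decide +kernel))
noncomputable def rh94c23756c135caea : CRef := CRef.mk (Pat.mk 0x3000000010000000000000004000000000 0x5000000070000000f7000000ff000001fe000000ee0000006000000060 9 9) 0 0 (step_sound _ 99 [(rh0bb882ba86b2372d.shift 1 3), (rh574fdbf07bdd18b9.shift 1 3), (rhba83a74241658d71.shift 1 0), rhd1aa3c71574611aa] (by decide +kernel))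
noncomputable def rh5b7cd96a91c00004 : CRef := CRef.mk (Pat.mk 0xc0000000c00000008 0x1e0000003f0000003f0000000f0000003c00000008 9 6) 0 0 (step_sound _ 65 [rh08eb58b4c84ee8e1, (rh6292bd8784ece55f.shift 0 1)] (by decide +kernel))
noncomputable def rh197397f0fb1ebc82 : CRef := CRef.mk (Pat.mk 0x4000000040000003c0000000c00000000 0x3a0000007e0000006c0000003f0000001c00000014 9 7) 0 0 (step_sound _ 131 [(rh2f68792b6b779e96.shift 2 1), rh386ae643bc4cbfaf] (by decide +kernel))
noncomputable def rha10ef072ed3da70f : CRef := CRef.mk (Pat.mk 0x1800000008000000000000002000000000 0x40000000c0000002c0000006e000000ff000000ff000000770000003200000032 9 8) 0 0 (step_sound _ 98 [(rh0bb882ba86b2372d.shift 0 3), (rh574fdbf07bdd18b9.shift 0 3), rh881b9a50ea418089, (rh886435cb628e8d92.shift 1 0)] (by decide +kernel))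
noncomputable def rh5aaab6754f512267 : CRef := CRef.mk (Pat.mk 0x1e000000000000000000000008 0x38000000380000003f0000001e000000380000001800000008 9 6) 0 0 (step_sound _ 132 [(rh33e738c4ed385b9f.shift 1 3), rh4057c5649a02fcd5] (by decide +kernel))
noncomputable def rhbc0d04e7358c8004 : CRef := CRef.mk (Pat.mk 0x1800000018000000000000002000000000 0x4000000040000001f000000ff000000e70000002200000022 9 8) 0 0 (step_sound _ 101 [rh192ac48bb4cc18ee, (rh79b3c29022acbdf3.shift 2 3), (rha9fbfd4bb8cf890b.shift 0 3), (rhabf5497ec964aa6c.shift 2 0)] (by decide +kernel))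
noncomputable def rhd68a8a38de7a9755 : CRef := CRef.mk (Pat.mk 0xc0000000c000000000000001000000000 0x34000000770000007f0000007c000000380000001800000010 9 7) 0 0 (step_sound _ 100 [(rh64a9fd7e6d5009df.shift 1 0), (rh6ef7308397abfdcd.shift 2 0), (rh79b3c29022acbdf3.shift 1 3), rhca1a940cbc919055] (by decide +kernel))
noncomputable def rhd17f457aadd3fcce : CRef := CRef.mk (Pat.mk 0x380000000800000000 0xe0000000f0000007f0000003e0000000f00000004 9 7) 0 0 (step_sound _ 66 [rh0a7695c45f8ca467, (rh4c622fddc53a5f99.shift 0 2), (rh7654d7b92c96fe12.shift 0 1), (rh775ca1963e850b80.shift 0 1)] (by decide +kernel))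
noncomputable def rhddb9c5eee6c488ff : CRef := CRef.mk (Pat.mk 0x100000001000000010000000500000000000000000 0x20000000300000003000000010000000770000003e0000002f 9 7) 0 0 (step_sound _ 165 [rh2c41cf00ed5d9469, (rh2f68792b6b779e96.shift 4 2)] (by decide +kernel))
noncomputable def rh54f5c44d3864cbf9 : CRef := CRef.mk (Pat.mk 0x400000004000000040000001400000000 0x34000000340000007f0000007f0000001c00000008 9 7) 0 0 (step_sound _ 35 [(rh55afc6a59410cf00.shift 2 0), (rh85f6ebb56b0a9599.shift 0 1)] (by decide +kernel))
noncomputable def rh1192961775e0a372 : CRef := CRef.mk (Pat.mk 0x800000008000000080000002800000000 0x340000007f0000007e0000001e0000003800000030 9 7) 0 0 (step_sound _ 100 [(rh0386a6bf77289b72.shift 1 0), (rhca405e350c462817.shift 0 1), (rhd05f886cdec46572.shift 1 0), (rhfc21d93c70905a0f.shift 1 1)] (by decide +kernel))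
noncomputable def rhe79b379be7af4928 : CRef := CRef.mk (Pat.mk 0x400000004000000040000001400000000 0x1c0000003c0000003f0000000f0000001c00000018 9 6) 0 0 (step_sound _ 35 [(rh55afc6a59410cf00.shift 2 0), rh6a18c03acd14d392] (by decide +kernel))
noncomputable def rh5edb78e436218eb5 : CRef := CRef.mk (Pat.mk 0x400000004000000140000000400000000 0x7a0000007f0000003f0000001c0000000c00000008 9 7) 0 0 (step_sound _ 131 [rh08edc9e7b0a29a3e, (rh2f68792b6b779e96.shift 2 1)] (by decide +kernel))
noncomputable def rh98d57711d47e689d : CRef := CRef.mk (Pat.mk 0x800000008000000080000000800000000 0xf4000000fe0000007f000000080000000c00000004 9 8) 0 0 (step_sound _ 132 [(rh2f68792b6b779e96.shift 3 1), rh3b0dc6ac008667cd] (by decide +kernel))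
noncomputable def rhf64af9225b2a979d : CRef := CRef.mk (Pat.mk 0xc0000000c000000080000002800000000 0x200000002000000130000001f0000007f0000006f0000003800000030 9 7) 0 0 (step_sound _ 132 [(rh2f68792b6b779e96.shift 3 1), rhb88402c7634913f9] (by decide +kernel))
noncomputable def rhe09774b9bf1e6720 : CRef := CRef.mk (Pat.mk 0x1c0000000c000000080000002000000000 0x8000000080000001f0000007f0000007f0000002300000023 9 7) 0 0 (step_sound _ 97 [rh1b03c48d0eb3d9ea, (rh53b3c253cb0c65f4.shift 0 3)] (by decide +kernel))
noncomputable def rh360e7ef4c686fe69 : CRef := CRef.mk (Pat.mk 0x1800000010000000100000001000000000 0x3a7000001fe000003ff000000100000001800000008 9 10) 0 0 (step_sound _ 133 [rh2581866dd197ac18, (rh2f68792b6b779e96.shift 4 1)] (by decide +kernel))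
noncomputable def rh866783ec810c60b4 : CRef := CRef.mk (Pat.mk 0x3800000010000000100000001000000000 0x387000001fe000003ff000000100000003800000028 9 10) 0 0 (step_sound _ 37 [rh2581866dd197ac18, (rh55afc6a59410cf00.shift 4 0)] (by decide +kernel))
noncomputable def rhc1d7ceb330a46a84 : CRef := CRef.mk (Pat.mk 0x180000000000000050000000000000000000000000 0x2000000028000003ff000001fe000003df000000770000007e0000003f00000008 9 10) 0 0 (step_sound _ 132 [(rh01483ff9cba2f6ac.shift 3 0), (rh79e1194ba4b8d231.shift 0 2), rhc6d6bedd644547c5, (rhdc59ba418ff98db2.shift 2 1)] (by decide +kernel))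
noncomputable def rh4e148717cf90e805 : CRef := CRef.mk (Pat.mk 0x180000000000000050000000000000000000000000 0x100000003000000038000000f80000003e0000003e000000770000003e0000003f00000028 9 8) 0 0 (step_sound _ 132 [(rh01483ff9cba2f6ac.shift 3 0), rh310d8c1897d86d09, rh4cf22c10e8d4b7e6, (rh9b323ef5a488003e.shift 3 0), (rha32e3cfdc8d48254.shift 1 2), (rhdc59ba418ff98db2.shift 2 1)] (by decide +kernel))
noncomputable def rh54cd72eae0f9ffb7 : CRef := CRef.mk (Pat.mk 0x1e00000000000000140000000000000000 0x60000003f0000003f0000001c0000000f0000000a 9 6) 0 0 (step_sound _ 100 [(rhe25b0a99195a5d59.shift 1 3), rhf72b13ea2dc88416] (by decide +kernel))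
noncomputable def rh04612f1597389aa0 : CRef := CRef.mk (Pat.mk 0x1e0000000000000028000000000000000000000000 0x80000000f0000001e0000003f000000380000001e0000001c00000004 9 6) 0 0 (step_sound _ 132 [(rhe25b0a99195a5d59.shift 1 4), rhf215b4e80b64703d] (by decide +kernel))
noncomputable def rha2a73e2431e335e5 : CRef := CRef.mk (Pat.mk 0x1800000000000000500000000000000000 0x80000000e0000003ff000001fe000003ef000000700000007000000040 9 10) 0 0 (step_sound _ 133 [(rh1260a033a9ffa8a4.shift 0 1), (rh20238e41a74040ab.shift 0 3), (rh36d3c305ab2d14a2.shift 0 1), (rhd2d63192949c6491.shift 1 0), (rhdc30226bcb2b3c47.shift 1 0), (rhe2253acbf49ec480.shift 2 1)] (by decide +kernel))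
noncomputable def rhb41b4c93e8796302 : CRef := CRef.mk (Pat.mk 0x180000000000000050000000000000000000000000 0x2000000038000000f80000001e000000fe000000770000003e0000003f00000008 9 8) 0 0 (step_sound _ 132 [(rh01483ff9cba2f6ac.shift 3 0), rh4cf22c10e8d4b7e6, (rh4e5b1113d03b1bb9.shift 1 2), (rhdc59ba418ff98db2.shift 2 1)] (by decide +kernel))
noncomputable def rh27e60716db3dcbb1 : CRef := CRef.mk (Pat.mk 0x1800000000000000500000000000000000 0x90000000f0000003ff000001fe000003ff000000700000006000000040 9 10) 0 0 (step_sound _ 133 [(rh20238e41a74040ab.shift 0 3), (rh36d3c305ab2d14a2.shift 0 1), (rh40c10ee78eb47d23.shift 0 1), (rh7f06ae0d8d70b0ae.shift 0 1), (rhd2d63192949c6491.shift 1 0), (rhdc30226bcb2b3c47.shift 1 0), (rhe2253acbf49ec480.shift 2 1)] (by decide +kernel))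
noncomputable def rh0efaa870087dda73 : CRef := CRef.mk (Pat.mk 0x1800000000000000500000000000000000 0x3000000070000001f7000000fe000000ff000000700000007c00000028 9 9) 0 0 (step_sound _ 133 [(rh0ac366295e5dc4df.shift 2 1), (rh11dc20e5a0378c82.shift 0 1), (rh1260a033a9ffa8a4.shift 0 1), (rh3981cef1b92f475b.shift 0 1), (rh40c10ee78eb47d23.shift 0 1), (rh6a5ed51e7edf5fdc.shift 2 1), rh87fd15e60b2df632, (rhd404a62a581ef695.shift 2 1)] (by decide +kernel))
noncomputable def rh388f32a13ea03d43 : CRef := CRef.mk (Pat.mk 0x180000000000000050000000000000000000000000 0x2000000038000000fc000000fe000000f0000000770000007e0000003f00000028 9 8) 0 0 (step_sound _ 132 [rh310d8c1897d86d09, (rh68ec5d95f9d1abd2.shift 1 2), (rh9b323ef5a488003e.shift 3 0), (rhdc59ba418ff98db2.shift 2 1)] (by decide +kernel))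
noncomputable def rh5eb41dae3b4c76bd : CRef := CRef.mk (Pat.mk 0x6000000040000001400000000 0x40000000c0000000e0000003f0000003e0000003f0000001c00000018 9 6) 0 0 (step_sound _ 130 [rh2a341ac14c5b8d6b, rh8b730aa53a771109, (rhced6d86d2069808b.shift 2 0), (rhf15f1e29f6f0aa1f.shift 1 0)] (by decide +kernel))
noncomputable def rh27b4f8fc0394455c : CRef := CRef.mk (Pat.mk 0x4000000060000000c00000014000000000000000000000000 0x80000000c0000003e0000003f0000001c000000380000003000000030 9 6) 0 0 (step_sound _ 99 [rh156cb2af3f7c7c5b, (rh55afc6a59410cf00.shift 2 2)] (by decide +kernel))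
noncomputable def rh2ea55c248ab23f66 : CRef := CRef.mk (Pat.mk 0x3000000000000000a0000000000000000000000000 0x4000000040000007fe000003fe000007ff000000a0000000b00000003000000010 9 11) 0 0 (step_sound _ 133 [(rh01483ff9cba2f6ac.shift 4 0), (rh07fb19e62505db57.shift 0 3), (rh3ccbc609178fda8d.shift 2 0), (rh9b323ef5a488003e.shift 4 0)] (by decide +kernel))
noncomputable def rhce051de4cdae7e42 : CRef := CRef.mk (Pat.mk 0xc0000000800000028000000000000000000000000 0x1000000038000000ff000000ff0000007800000038000000f00000007000000060 9 8) 0 0 (step_sound _ 132 [(rh07bfa7562cddc968.shift 0 2), (rh09db03e9943db905.shift 2 0), (rh4ca5dae25f5c14ff.shift 0 4), (rh53f9e724b5377399.shift 0 2)] (by decide +kernel))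
noncomputable def rh1427e6997eba4e30 : CRef := CRef.mk (Pat.mk 0x180000000000000050000000000000000000000000 0xa0000000a0000003ff000001fe000003df00000077000001fe000000bf00000008 9 10) 0 0 (step_sound _ 132 [(rh01483ff9cba2f6ac.shift 3 0), (rh8cd27bcf574a3df3.shift 0 1), (rhad1ca36b18ae3f16.shift 0 1), rhc6d6bedd644547c5] (by decide +kernel))
noncomputable def rh2b28655c4069c9c0 : CRef := CRef.mk (Pat.mk 0x180000000000000050000000000000000000000000 0x28000000380000003800000030000000f80000001e0000003e000000770000003e0000003f00000008 9 8) 0 0 (step_sound _ 132 [(rh01483ff9cba2f6ac.shift 3 0), (rha3e58f5f7aaf8466.shift 1 0), (rhad1ca36b18ae3f16.shift 0 1), (rhe89cf3588560b8e7.shift 1 2)] (by decide +kernel))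
noncomputable def rhbc2c148c24437511 : CRef := CRef.mk (Pat.mk 0xc00000018000000280000000000000000 0xef000000ff0000001f000000380000001000000010 9 8) 0 0 (step_sound _ 129 [(rhb739f4f82bb681b4.shift 0 3), rhb92057a14a8f59f8] (by decide +kernel))
noncomputable def rhdd125fd7a83ce7de : CRef := CRef.mk (Pat.mk 0xc00000008000000280000000000000000 0x3000000070000000ff0000007f00000038000000f000000070 9 8) 0 0 (step_sound _ 100 [(rh4815ff8218b48055.shift 0 2), (rh4ca5dae25f5c14ff.shift 0 3), (rh7c355845136540ef.shift 2 0), (rhdeca8db941583de2.shift 0 3)] (by decide +kernel))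
noncomputable def rhb8577a9c05db876d : CRef := CRef.mk (Pat.mk 0xc000000060000000400000018000000000000000000000000 0x100000003e0000003e0000003f00000018000000300000003000000030 9 6) 0 0 (step_sound _ 196 [rh09d9155e06a661c5, (rh18965a982d73c794.shift 1 5)] (by decide +kernel))
noncomputable def rh86ef9fb48b8a989e : CRef := CRef.mk (Pat.mk 0x1c0000000000000028000000000000000000000000 0x500000007000000070000001fc000000fe000001f700000038000000f00000007000000040 9 9) 0 0 (step_sound _ 165 [(rh22de5993038d04b0.shift 1 2), (rhe84c35e83a304151.shift 2 0), (rhe87be6ca2e581b4d.shift 2 2), (rhed0e049269683b8d.shift 0 4), (rhf7feb30212101096.shift 2 1)] (by decide +kernel))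
noncomputable def rh02978aa229b7dd6d : CRef := CRef.mk (Pat.mk 0x38000000000000004000000000 0xa0000000e0000000e0000001df000000fe000000ef0000006000000020 9 9) 0 0 (step_sound _ 102 [(rh56a24c72f1c55520.shift 2 3), (rh943c9a14b5422bad.shift 0 2), (rhe87be6ca2e581b4d.shift 3 0)] (by decide +kernel))
noncomputable def rhc03a2b50de6ada44 : CRef := CRef.mk (Pat.mk 0x38000000000000004000000000 0xa0000000e0000000e0000000ef0000007e000000ef0000006000000060 9 8) 0 0 (step_sound _ 102 [(rh22de5993038d04b0.shift 2 0), (rh943c9a14b5422bad.shift 0 2), (rhe87be6ca2e581b4d.shift 3 0)] (by decide +kernel))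
noncomputable def rhf9d7fdd3574cf503 : CRef := CRef.mk (Pat.mk 0x2000000070000000000000004 0x100000001c0000001c0000000c0000007f0000003f0000003c00000004 9 7) 0 0 (step_sound _ 67 [(rh38791ac5737ed75e.shift 0 2), (rh75c6fff53e4cbd6e.shift 0 1), (rhb6f72982232a8164.shift 0 2), rhd1d822f7ef5b1050] (by decide +kernel))
noncomputable def rhfb630a9910c2b812 : CRef := CRef.mk (Pat.mk 0x80000000c00000000000000140000000000000000 0x140000001c0000001c000000380000007f0000007e0000001c0000007800000038 9 7) 0 0 (step_sound _ 99 [(rh47dece01c1595e79.shift 3 0), rh4ef16ce6e68696a8, (rh5974029d68103ee7.shift 0 2), (rh9fb9dc683e09b5f3.shift 2 2)] (by decide +kernel))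
noncomputable def rh091eb79b39659a60 : CRef := CRef.mk (Pat.mk 0x180000000800000028000000000000000000000000 0x100000001000000018000000ff000001ff00000038000000300000001000000010 9 9) 0 0 (step_sound _ 196 [rh1b76276f217ac5bb, (rh69755ef358ebfd54.shift 3 3), (rhbfb5770941270498.shift 3 3)] (by decide +kernel))
noncomputable def rh1a3dbcdce035de4a : CRef := CRef.mk (Pat.mk 0x2000000020000000200000003000000000 0x2000000020000003f7000001fe000003ce 9 10) 0 0 (step_sound _ 38 [rh073b5d8dca271bdb, (rh55afc6a59410cf00.shift 5 0)] (by decide +kernel))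
noncomputable def rh8d5a093b815655d8 : CRef := CRef.mk (Pat.mk 0x700000000800000050000000000000000000000000 0xf000000038000000770000003e0000003f00000028 9 8) 0 0 (step_sound _ 132 [(rh18965a982d73c794.shift 3 4), rh66d42483be47dcf1] (by decide +kernel))
noncomputable def rhfe0708495464dbab : CRef := CRef.mk (Pat.mk 0x7800000008000000000000006000000040 0xe0000007c000000080000000f0000007e000000e7 9 8) 0 0 (step_sound _ 162 [(rh3f8766e6ecb455ce.shift 2 4), rhdc640ecac38f286a] (by decide +kernel))
noncomputable def rh585f7513960984aa : CRef := CRef.mk (Pat.mk 0x1e000000100000000a0000000000000000 0x1f00000018000000ee0000007c000000fc 9 8) 0 0 (step_sound _ 99 [(rhb739f4f82bb681b4.shift 0 3), (rhf4f2cd73e73cbe3f.shift 1 0)] (by decide +kernel))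
noncomputable def rh132cb3774cdf6de8 : CRef := CRef.mk (Pat.mk 0xe0000000000000010000000000000000000000000 0x2800000038000001fc000000fe000000fb00000018000000380000003800000028 9 9) 0 0 (step_sound _ 164 [(rh11810e92c8e46c1f.shift 1 0), (rh139c71ebfc6675d8.shift 1 4), (rh33d3f1ba39b8bd00.shift 1 0), rh43c5cbb4915750e2] (by decide +kernel))
noncomputable def rheee6a25c0893118f : CRef := CRef.mk (Pat.mk 0x38000000200000002000000000 0xc0000000f0000003e0000003f0000006e0000000c 9 7) 0 0 (step_sound _ 98 [(rh0de499e0455c9c14.shift 0 2), (rh1975a4f1936e255e.shift 1 0), (rh775ca1963e850b80.shift 0 2), (rhd1d05263fabc0227.shift 0 2)] (by decide +kernel))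
noncomputable def rh5909ad334199027e : CRef := CRef.mk (Pat.mk 0x60000000c0000000a000000000000000000000000 0x20000001f0000003e0000003e0000003e0000000e000000040000000400000004 9 6) 0 0 (step_sound _ 194 [(rh2145e1d24b96a57e.shift 2 3), rhd017e5d05bc63a95] (by decide +kernel))
noncomputable def rhf3a50288021ba7a5 : CRef := CRef.mk (Pat.mk 0x300000002000000040000000000000000000000000 0xe0000000e0000007f7000003fe000003ef00000040000000e0000000e0000000a0 9 11) 0 0 (step_sound _ 163 [(rh3918eeb6c53434d8.shift 0 4), (rh650b6c88aa340ec5.shift 3 0), (rh675f0335dbced7dd.shift 0 4)] (by decide +kernel))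
noncomputable def rh6a928864526328c2 : CRef := CRef.mk (Pat.mk 0x300000000000000050000000000000000000000000 0x20000000380000003800000078000000f00000003c0000007c000000770000007e0000007f00000068 9 8) 0 0 (step_sound _ 132 [(rh215e11e099257d75.shift 4 2), rh66d42483be47dcf1, (rhd19d31b13e48b44b.shift 0 1), (rhfa2c1fa607b1b044.shift 2 0)] (by decide +kernel))
noncomputable def rh8b3123f3aa99ac30 : CRef := CRef.mk (Pat.mk 0xc000000040000001400000000 0x80000000e0000000e0000001e0000003c0000003f0000000f0000001c00000018 9 6) 0 0 (step_sound _ 130 [rh0386a6bf77289b72, (rh20e56a1196e70fcc.shift 1 0), (rh6141f9a78e6afc9e.shift 1 1), rh7687fb18a17ebb5a] (by decide +kernel))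
noncomputable def rhd0a36ce0036b4cd7 : CRef := CRef.mk (Pat.mk 0x80000000c0000000400000014000000000000000000000000 0x74000000fc0000007c000000ff0000001c000000180000000800000008 9 8) 0 0 (step_sound _ 99 [(rh046c5eb18e55a239.shift 2 0), (rh6c2288d31b639b93.shift 0 2), (rhbd63311746eb940c.shift 0 2), (rhbf9b44d674263f0f.shift 1 0)] (by decide +kernel))
noncomputable def rh8afaed1a3ccb9dc6 : CRef := CRef.mk (Pat.mk 0x300000000000000050000000000000000000000000 0x2000000020000003e0000001fc000003fe000000770000007e0000003f00000028 9 10) 0 0 (step_sound _ 132 [(rh12b6ddcb95fbed41.shift 1 2), rh66d42483be47dcf1, (rhd19d31b13e48b44b.shift 0 1)] (by decide +kernel))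
noncomputable def rh02419bc004784cc1 : CRef := CRef.mk (Pat.mk 0x80000000800000008 0x140000001c0000001c000000fc0000007f000000ff0000001c00000018 9 8) 0 0 (step_sound _ 99 [rh20ccc7280544702b, (rh6d09739f568e9449.shift 2 0), (rh7cb421097af52dd8.shift 2 0), (rhc85cc95794737cf7.shift 2 0), (rhd697ba55f7532e3e.shift 2 0)] (by decide +kernel))
noncomputable def rha9c10c78bdcd1727 : CRef := CRef.mk (Pat.mk 0xf00000000000000000000000600000002 0x700000003f00000038000000100000003e00000077 9 7) 0 0 (step_sound _ 100 [(rh96851dee118c1ba3.shift 0 3), rhf6855f624a209376] (by decide +kernel))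
noncomputable def rh314a595113154e7b : CRef := CRef.mk (Pat.mk 0x1a000000020000000a00000006000000000000000000000000 0x100000001a0000001a0000000a0000001f0000001b0000001f00000014 9 5) 0 0 (step_sound _ 64 [rh0aea1383914453af, (rh79877ebd3ef475dd.shift 0 2)] (by decide +kernel))
noncomputable def rhfc5525e782ece1a0 : CRef := CRef.mk (Pat.mk 0x1000000010000000100000001000000000000000000000000000000000 0x100000003f000000fe000000ff00000018000000380000003800000028 9 8) 0 0 (step_sound _ 100 [rh08f7cf7635d16c3f, (rh4d6fdf669d27004c.shift 1 0), (rh7928877f9bf74a91.shift 3 2), (rh8d8bfe45b7d5275a.shift 3 0)] (by decide +kernel))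
noncomputable def rha7c2ea00567839ec : CRef := CRef.mk (Pat.mk 0x1000000010000000100000001000000000000000000000000000000000 0x100000003f0000007e000000ff00000030000000380000003800000008 9 8) 0 0 (step_sound _ 100 [rh08f7cf7635d16c3f, (rh8e3b1d976c2c4cbf.shift 3 0), (rhd29a1fb688eae70f.shift 4 2)] (by decide +kernel))
noncomputable def rh6898776eae8b744a : CRef := CRef.mk (Pat.mk 0xa0000000a0000000a00000006000000000000000000000000 0x100000001a0000001a0000000a0000001f0000001b0000001f00000014 9 5) 0 0 (step_sound _ 64 [rh18ddf198229dcb35, (rh79877ebd3ef475dd.shift 0 2)] (by decide +kernel))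
noncomputable def rh85bff42fe287d66e : CRef := CRef.mk (Pat.mk 0x20000000000000005000000010000000500000000000000000000000000000000 0xa0000000e0000000e0000000d0000000d000000770000003f0000007e0000000e0000000a 9 7) 0 0 (step_sound _ 162 [(rh07ff884a7eb6c0ed.shift 1 4), (rh2004a6318a3c1582.shift 0 2), (rh63c2419efac8f554.shift 0 2), rh680a174d171f178d] (by decide +kernel))
noncomputable def rh1916aa416d0e972e : CRef := CRef.mk (Pat.mk 0x70000000000000004000000000 0x2000000020000001f7000000fe000001ce0000004000000040 9 9) 0 0 (step_sound _ 99 [(rh00c1a02c588da1b0.shift 3 0), (rh11486e158f07d072.shift 0 2), (rh3fc3a7fb6866dcd4.shift 3 2), (rhaeac014a58998cf3.shift 0 2), rheaea716f222a54b6] (by decide +kernel))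
noncomputable def rh7e601e72ec44c1d6 : CRef := CRef.mk (Pat.mk 0x6000000000000000a000000020000000800000000 0x340000003c000000ff0000007e0000007a0000001a0000001a0000000800000008 9 8) 0 0 (step_sound _ 194 [(rh04253f50b6dd0619.shift 1 2), rh3521467c6938cb29] (by decide +kernel))
noncomputable def rhc9631a87621cfe63 : CRef := CRef.mk (Pat.mk 0x40000000000000003000000000000000000000000000000000 0x4000000040000003ce000001fe000003ff000001e0000001e000000140 9 10) 0 0 (step_sound _ 134 [(rh1f97002fc1ea2c82.shift 3 1), (rh4e0b704cfdcfcdf9.shift 3 0), (rhab398f6350eec362.shift 1 3), (rhba3453355d44391b.shift 1 1), (rhe795f256841c39ce.shift 1 3), (rhf4068f5c0235a19e.shift 0 1)] (by decide +kernel))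
noncomputable def rhdda58b3e3d1675fc : CRef := CRef.mk (Pat.mk 0x1e0000000800000000000000000000000000000000 0x30000001e0000003f00000007000000070000000700000001 9 6) 0 0 (step_sound _ 132 [rhb4840319d1e02ec9, (rhe25b0a99195a5d59.shift 1 4)] (by decide +kernel))
noncomputable def rh76f8c896ff136f98 : CRef := CRef.mk (Pat.mk 0x80000001c0000000000000004 0x1e0000003f0000003f0000001f0000007c0000000400000004 9 7) 0 0 (step_sound _ 98 [(rh5c5a2014709044d0.shift 0 2), rhbe017b2a4686d290] (by decide +kernel))
noncomputable def rh9eb27f90d7e19687 : CRef := CRef.mk (Pat.mk 0x2000000020000000a0000000a000000060000000100000000 0x3d0000001f0000007a0000001f0000000a0000001e0000000b00000001 9 7) 0 0 (step_sound _ 33 [(rh217e99b1ba8c2002.shift 0 1), rh932754581e0f4330] (by decide +kernel))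
noncomputable def rhfb6c68ae9a5edd0d : CRef := CRef.mk (Pat.mk 0x8000000020000000a0000000a00000000 0x7d0000003f0000007f0000000a0000000e0000000e00000004 9 7) 0 0 (step_sound _ 129 [rh5abfc4c9d959be03, (rh76deffd6924ffca5.shift 0 1), (rha9a823f1b3d79c28.shift 0 1), (rhbe2e2705e2f938ba.shift 0 1), rhd16fa635aa96ef56] (by decide +kernel))
noncomputable def rh4eefc641c5187074 : CRef := CRef.mk (Pat.mk 0x80000000a0000000a0000000a00000000000000000000000000000000 0x80000007a0000003f0000000e00000007000000070000000700000004 9 7) 0 0 (step_sound _ 97 [rh15796d2d34ac7730, (rh204bb769a7e9b2e5.shift 0 1), (rh6eff4158bb400f47.shift 0 1), (rhef50d508512821da.shift 1 2)] (by decide +kernel))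
noncomputable def rh8f1607b908ab9e6b : CRef := CRef.mk (Pat.mk 0x4000000040000000400000000 0xa0000007e0000007f0000007e0000001c0000000c00000008 9 7) 0 0 (step_sound _ 130 [(rh5abfc4c9d959be03.shift 1 0), rh6de2f887e560e3a9, (rhc85cc95794737cf7.shift 1 1), (rhced6d86d2069808b.shift 2 0)] (by decide +kernel))
noncomputable def rhb50a76a39a8fb986 : CRef := CRef.mk (Pat.mk 0x4000000050000000500000005000000000000000000000000000000000 0x40000003d0000000f8000000770000003e0000003f0000003800000020 9 10) 0 0 (step_sound _ 100 [(rh15796d2d34ac7730.shift 3 0), (rh333ab359bc9d6b4c.shift 0 2), (rh4956eacac5527de8.shift 3 1), (rh8cdd36b03d57a2f6.shift 3 1), (rhef50d508512821da.shift 4 2)] (by decide +kernel))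
noncomputable def rh36b282e82a09fce5 : CRef := CRef.mk (Pat.mk 0xa000000020000000a0000000a000000040000000000000000 0x3d0000001f000000320000001a0000000a000000070000000700000001 9 6) 0 0 (step_sound _ 65 [rh0327eb2dfdcc5fa0, (rh55afc6a59410cf00.shift 1 1)] (by decide +kernel))
noncomputable def rh6ab7bf4be0542dc5 : CRef := CRef.mk (Pat.mk 0xe00000000000000000000000800000008 0x200000007800000078000000ff0000007e000000f8000000300000001800000008 9 8) 0 0 (step_sound _ 132 [(rh0fd246131828dcf9.shift 1 2), (rh1b365923bf53c7fe.shift 1 0), (rh3fc3a7fb6866dcd4.shift 1 3), (rh45f730bcf36fcf64.shift 0 3), (rhb18e6c78a554867d.shift 0 4), (rhe401600d466b97cd.shift 0 3)] (by decide +kernel))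
noncomputable def rh89b82199254f0082 : CRef := CRef.mk (Pat.mk 0x1e0000000000000000 0x280000003800000038000000fc0000003f0000001e0000003800000018 9 8) 0 0 (step_sound _ 36 [rh996885f3bb245fd1, (rhe25b0a99195a5d59.shift 1 1)] (by decide +kernel))
noncomputable def rh839aea38fed32398 : CRef := CRef.mk (Pat.mk 0x80000000a0000000a0000000000000000000000000000000000000000 0x10000000780000001f0000000e0000007c000000180000001c0000001c00000014 9 7) 0 0 (step_sound _ 228 [(rh0b786d94a31538a6.shift 0 6), (rh3820f35d5e705bec.shift 3 2), rh74f16307d472c1bb] (by decide +kernel))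
noncomputable def rh175d921f0f393839 : CRef := CRef.mk (Pat.mk 0x1e0000000400000000000000000000000000000000 0x300000001e0000003f00000038000000380000003800000020 9 6) 0 0 (step_sound _ 129 [(rhabdcd9af70d70cf3.shift 1 0), (rheb0810cc63b001d8.shift 0 4)] (by decide +kernel))
noncomputable def rh690b80cc40be6c3c : CRef := CRef.mk (Pat.mk 0x2000000020000000000000001800000000000000000000000000000000 0x40000000600000006000000020000001e7000000fe000001ff000000e0000000e0000000a0 9 9) 0 0 (step_sound _ 133 [(rh4e0b704cfdcfcdf9.shift 2 0), (rh5effb2bb22dd3661.shift 4 3), (rh60b3ba3485c5f1a3.shift 1 3), (rh900144b0f9adb2af.shift 0 3), (rhe795f256841c39ce.shift 0 3)] (by decide +kernel))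
noncomputable def rhc286e09ed42d29f0 : CRef := CRef.mk (Pat.mk 0x2000000020000000200000000000000000000000000000000000000000 0x3000000070000000ff000000fe0000007f000000780000007000000050 9 8) 0 0 (step_sound _ 133 [(rh17345e286309aa1a.shift 0 2), (rh43000f16a4e76173.shift 4 1), (rh7a62c4b2780c02e6.shift 4 0), (rh8953110b5cb026f8.shift 4 0), (rh8cdd36b03d57a2f6.shift 4 2)] (by decide +kernel))
noncomputable def rh8a3ab46205ae8109 : CRef := CRef.mk (Pat.mk 0x10000000100000001000000010 0x1ef000001fe000003f70000001000000010 9 10) 0 0 (step_sound _ 101 [(rh2f68792b6b779e96.shift 4 0), rh65712efb7eb55ce6] (by decide +kernel))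
noncomputable def rha3f396aa78ea768d : CRef := CRef.mk (Pat.mk 0x100000001000000050000000000000000000000000 0x200000003000000030000000770000003e0000003f00000028 9 7) 0 0 (step_sound _ 68 [(rh165a86214c6ca369.shift 0 1), (rhc16750d25dcb9f19.shift 4 0), (rhc57310a6e13fde96.shift 0 1), (rhcab3157f7bdcba3e.shift 3 0)] (by decide +kernel))
noncomputable def rh4b906adbca148bfb : CRef := CRef.mk (Pat.mk 0x100000001000000010000000500000000000000000 0x8000000180000001800000010000000770000003e0000002f 9 7) 0 0 (step_sound _ 163 [(rh50fbb5868c909700.shift 3 2), rh5d695e256c425c87] (by decide +kernel))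
noncomputable def rh3f7cbe01a7c77e67 : CRef := CRef.mk (Pat.mk 0x800000008000000080000000800000000000000000000000000000000 0x100000007c0000001f00000018000000180000000c0000001c0000001c00000010 9 7) 0 0 (step_sound _ 228 [(rh2f68792b6b779e96.shift 3 4), rh6408d10e8de6ef66] (by decide +kernel))
noncomputable def rh971cc36808473422 : CRef := CRef.mk (Pat.mk 0x40000000400000014000000000000000000000000 0x3a0000003f0000003f0000001c0000000c0000000c00000008 9 6) 0 0 (step_sound _ 66 [(rh32e32f03ae89b559.shift 1 1), (rh5ad9898cc32ef511.shift 1 0), (rh6c59ce14113da07f.shift 2 0), (rh9d8e1e13fcc5df9a.shift 0 1)] (by decide +kernel))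
noncomputable def rhdce4d1b60cbd1315 : CRef := CRef.mk (Pat.mk 0x800000008000000280000000000000000 0x140000001c0000001c0000001c0000001f0000007e000000380000000800000008 9 7) 0 0 (step_sound _ 163 [(rh1374383510406736.shift 2 2), (rh1741680720c097b4.shift 2 2), (rh32e32f03ae89b559.shift 2 1), (rha6a1a25c0c5e7d58.shift 2 0), rhb8804ff200ed1fc0, (rhdc64ca37ff5f0440.shift 2 0)] (by decide +kernel))
noncomputable def rh662936398521f124 : CRef := CRef.mk (Pat.mk 0x10000000100000005000000000000000000000000000000000 0x80000003e000000f8000000770000003e0000003f0000003000000020 9 8) 0 0 (step_sound _ 100 [(rh23bebe0e285dcedc.shift 0 2), (rh5ad9898cc32ef511.shift 3 1), (rh700f008627649a77.shift 3 0), (rhb01c8921475706a1.shift 1 2), (rhd92f1551f0fdfa3f.shift 0 2)] (by decide +kernel))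
noncomputable def rhd9ab7ae31bc0d353 : CRef := CRef.mk (Pat.mk 0x100000001000000050000000000000000000000000 0x80000001800000018000000770000003e0000003f00000028 9 7) 0 0 (step_sound _ 68 [(rh23bebe0e285dcedc.shift 0 1), (rh46baee19951a66e7.shift 3 0), (rhc4526fc8abf298b6.shift 3 0), (rhd92f1551f0fdfa3f.shift 0 1)] (by decide +kernel))
noncomputable def rhbcdf1b753f9eba28 : CRef := CRef.mk (Pat.mk 0x400000004000000040000001400000000 0x1c0000007c0000003e0000000f0000001c00000018 9 7) 0 0 (step_sound _ 35 [(rh55afc6a59410cf00.shift 2 0), rhd3f003f44d655a8f] (by decide +kernel))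
noncomputable def rh654532559c4e3662 : CRef := CRef.mk (Pat.mk 0x40000000400000014000000000000000000000000 0x3a0000003e0000003f0000001c0000000e0000000e0000000a 9 6) 0 0 (step_sound _ 66 [(rh042be189e1ddf4b7.shift 0 1), (rh6c59ce14113da07f.shift 2 0), (rh6eff4158bb400f47.shift 1 0), (rhc4526fc8abf298b6.shift 1 0)] (by decide +kernel))
noncomputable def rhfe33ee40825e2468 : CRef := CRef.mk (Pat.mk 0x3800000010000000500000001000000000 0x3e00000074000000760000003e0000002f 9 7) 0 0 (step_sound _ 37 [(rh55afc6a59410cf00.shift 4 0), rh83498cac11f44a2f] (by decide +kernel))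
noncomputable def rhb3c0bcd00f33ef79 : CRef := CRef.mk (Pat.mk 0x3800000010000000500000001000000000 0x3e0000001e000000770000003e0000002e 9 7) 0 0 (step_sound _ 37 [rh24b77d00ba10c5f5, (rh55afc6a59410cf00.shift 4 0)] (by decide +kernel))
noncomputable def rh5a323c8afe011494 : CRef := CRef.mk (Pat.mk 0x1e000000000000000000000000 0x28000000380000003800000038000000380000001e0000003b0000001800000008 9 6) 0 0 (step_sound _ 68 [rh40b663c4adca74e9, (rhe25b0a99195a5d59.shift 1 2)] (by decide +kernel))
noncomputable def rh6494d2218c61f414 : CRef := CRef.mk (Pat.mk 0x1e0000000000000000000000000000000000000000 0x18000000180000003b0000001e0000003800000018000000380000003800000020 9 6) 0 0 (step_sound _ 132 [rh261e430d561e59e1, (rhe25b0a99195a5d59.shift 1 4)] (by decide +kernel))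
noncomputable def rhb407b8deba0f2e35 : CRef := CRef.mk (Pat.mk 0x1e0000000000000000000000000000000000000000 0x5000000070000000700000007000000030000001e0000000700000007000000070000000700000004 9 5) 0 0 (step_sound _ 129 [(rheb0810cc63b001d8.shift 0 4), rheed44908b9ba57f4] (by decide +kernel))
noncomputable def rhd5f9a0a424c6560f : CRef := CRef.mk (Pat.mk 0x100000001c00000018000000100000000800000000 0x20000000f00000001c0000007f000000770000001e00000014 9 8) 0 0 (step_sound _ 101 [rh5501593da1e94ca4, (rhf48373e13d2bc128.shift 2 3)] (by decide +kernel))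
noncomputable def rhe19d603631964c3c : CRef := CRef.mk (Pat.mk 0xe00000008000000080000000000000000 0x140000001c0000001c000000180000000e0000007f0000003f0000003700000012 9 7) 0 0 (step_sound _ 163 [(rh193da7fc9e1674f1.shift 2 1), (rhced6d86d2069808b.shift 3 1), rhf36903c41873b9b5] (by decide +kernel))
noncomputable def rh9f997e7ca6a2f73c : CRef := CRef.mk (Pat.mk 0x1800000010000000100000000000000000 0x80000001800000010000000ff000000fe000001ef 9 9) 0 0 (step_sound _ 36 [(rh50fbb5868c909700.shift 3 1), rh97f48aba5a09a1f7] (by decide +kernel))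
noncomputable def rh4aca2306f4bc1fb1 : CRef := CRef.mk (Pat.mk 0x100000001c0000001000000000 0x28000000380000003f000000fe000000ff000000f80000001c0000001800000008 9 8) 0 0 (step_sound _ 132 [(rh03dfdf12d5937476.shift 3 0), (rh32431e66bbf434a4.shift 3 1), (rh3c4fc19947a5c873.shift 1 0), (rh976a48eb1c80a12f.shift 3 1), (rh9ecdf74367673727.shift 0 2)] (by decide +kernel))
noncomputable def rh364b101ee937e6c3 : CRef := CRef.mk (Pat.mk 0x1c00000018000000100000000000000000 0x10000000100000001c0000007f000000770000001e0000001c 9 7) 0 0 (step_sound _ 98 [(rh743e5764167214aa.shift 0 2), (rhd90de94ff75f85bd.shift 1 0), (rhf56e6bc5d2f7fe77.shift 0 2)] (by decide +kernel))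
noncomputable def rheac31fb234f12e8b : CRef := CRef.mk (Pat.mk 0xe000000000000000800000000000000000000000000000000 0x140000001c0000001c0000003c0000000e0000003e0000000f0000003e0000001e0000001e00000014 9 6) 0 0 (step_sound _ 163 [(rha514f8dba0ea8950.shift 0 1), (rhb1a251d9bff81766.shift 2 3), (rhc46b61bcbcf6c641.shift 2 0), (rhf8ffff819bbdc349.shift 0 1)] (by decide +kernel))
noncomputable def rhe8c05e670a1ba354 : CRef := CRef.mk (Pat.mk 0x100000001c000000100000001000000000000000000000000000000000 0x100000001c0000007f0000007f000000360000003e0000003800000028 9 7) 0 0 (step_sound _ 100 [(rh33af94cc9b490f5a.shift 0 2), (rha613ffd40b6c9d24.shift 3 1), (rhc05d451ce3dd5e48.shift 3 0), (rhd29a1fb688eae70f.shift 4 2)] (by decide +kernel))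
noncomputable def rh94a06ce0ffcca136 : CRef := CRef.mk (Pat.mk 0x1c000000100000001000000000000000000000000000000000 0x10000000100000001c0000007f000000f70000003c000000380000003800000028 9 8) 0 0 (step_sound _ 100 [(rh3ca4c10fdf355329.shift 2 2), (rh8cdd36b03d57a2f6.shift 3 1), (rha613ffd40b6c9d24.shift 3 1), (rhc05d451ce3dd5e48.shift 3 0), (rhe27ed025ccf2ba9d.shift 0 2)] (by decide +kernel))
noncomputable def rh5b00b7576ab0ca1f : CRef := CRef.mk (Pat.mk 0x140000001000000010000000000000000000000000 0x280000003800000038000000100000001400000034000000ff000000fe0000002f00000008 9 8) 0 0 (step_sound _ 67 [(rh0e6924d680f6455d.shift 3 0), (rh5bb6ce7868d5b14a.shift 0 1), (rh86aa94d7c0c1e10d.shift 2 1), (rheb93e41844259d93.shift 3 2)] (by decide +kernel))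
noncomputable def rhb0856ce6e2198223 : CRef := CRef.mk (Pat.mk 0xe00000008000000080000000800000000 0xe0000003f0000007f0000001f0000000f 9 7) 0 0 (step_sound _ 98 [(rh7b1f1fb55310c477.shift 2 0), rhfbf72a87f9e2c85a] (by decide +kernel))
noncomputable def rh91235edb051f038e : CRef := CRef.mk (Pat.mk 0x180000000000000030000000200000000000000000 0x1000000018000003df000001fe000003ef0000002c00000020 9 10) 0 0 (step_sound _ 132 [(rh2145e1d24b96a57e.shift 4 2), rhbef9e572f83326c3] (by decide +kernel))
noncomputable def rh32fcc7c28a4afa4a : CRef := CRef.mk (Pat.mk 0xc0000000e000000000000000000000000 0x3c0000007e0000007f0000003c00000038 9 7) 0 0 (step_sound _ 132 [(rh18965a982d73c794.shift 1 3), rhca6aef56f6afdabf] (by decide +kernel))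
noncomputable def rhdbca931a5c7a10e6 : CRef := CRef.mk (Pat.mk 0x80000000e000000000000000000000000 0x10000000f80000007e000000ff000000f800000038 9 8) 0 0 (step_sound _ 100 [(rh06db8ceda6269a47.shift 0 2), (rh205dc383ce3b31ea.shift 0 2), (rh3b00e9e9432b8f40.shift 0 2), (rh3fc3a7fb6866dcd4.shift 1 2), (rha866c51301bf0130.shift 1 2), (rhda60b340019fd220.shift 1 0)] (by decide +kernel))
noncomputable def rh3c4fc70a20600f15 : CRef := CRef.mk (Pat.mk 0xc0000001800000000000000000000000000000000 0x20000000200000007c0000007e0000007f000000700000007000000030 9 7) 0 0 (step_sound _ 133 [rh70f9a93b28fa8e45, (rhf48373e13d2bc128.shift 2 4)] (by decide +kernel))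
noncomputable def rhba7913251f9756ba : CRef := CRef.mk (Pat.mk 0x280000000000000030000000100000000000000000 0x2000000028000001ef000000ff0000005e000000f800000050 9 9) 0 0 (step_sound _ 133 [rh14b958b7e2fb9e59, (rh5c5e593799055d58.shift 4 2)] (by decide +kernel))
noncomputable def rhba24dec837f045d3 : CRef := CRef.mk (Pat.mk 0x80000000800000008000000000000000000000000 0x40000000c0000000c000001ff000000ff000001fc00000014 9 9) 0 0 (step_sound _ 67 [(rh8cdd36b03d57a2f6.shift 2 0), (rh8ff3dde5b1c639e0.shift 2 0), (rhc4526fc8abf298b6.shift 2 0), (rhf7e1109fd03a53ae.shift 0 1)] (by decide +kernel))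
noncomputable def rha78d3b26888ffad8 : CRef := CRef.mk (Pat.mk 0x2000000030000000200000006000000000000000000000000000000000 0x40000001e000000030000003bf000001fe0000039e0000001c0000001c00000014 9 10) 0 0 (step_sound _ 132 [rh32f70c8ecac77609, (rh932754581e0f4330.shift 4 3)] (by decide +kernel))
noncomputable def rh0de0d9e7eec83236 : CRef := CRef.mk (Pat.mk 0x38000000000000003000000000000000000000000000000000 0x10000000100000001000000038000001ff000000fe000001df000000ee000000ee000000aa 9 9) 0 0 (step_sound _ 131 [(rh0d1496a2afc0a0f6.shift 0 3), (rh0d502a3e41b57cf2.shift 0 3), rh39d82f98251f0a7f, (rh69d17144503de65e.shift 2 0), (rhb0780e45bc59853d.shift 0 3), (rhbd22eca8adcb895f.shift 2 3)] (by decide +kernel))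
noncomputable def rhcbd021497221bf65 : CRef := CRef.mk (Pat.mk 0x200000003800000020 0x50000000700000007000000070000003ff000001fe000001f70000003800000020 9 10) 0 0 (step_sound _ 101 [(rh1741680720c097b4.shift 4 0), rh261dc28fc4d94b96, (rh42ab489a1be3958e.shift 4 0), (rh69f0587a21bb077f.shift 4 0), (rh8f3669233d13093b.shift 2 0), (rhcf675a75acbab413.shift 4 0)] (by decide +kernel))
noncomputable def rhafc7c29c56b35801 : CRef := CRef.mk (Pat.mk 0x200000002000000030 0x500000007f000000fe000001ff0000003000000030 9 9) 0 0 (step_sound _ 101 [rh4ec0eda6650dae32, (rh9a369cb82ea472da.shift 4 0), (rhe62cab2ff5ad6fe2.shift 4 0)] (by decide +kernel))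
noncomputable def rh44d5c8273d6e6e84 : CRef := CRef.mk (Pat.mk 0x20000000200000003000000000 0x5f000000fe000001ff000000200000003000000010 9 9) 0 0 (step_sound _ 133 [(rh4ec0eda6650dae32.shift 0 1), (rh932754581e0f4330.shift 4 0)] (by decide +kernel))
noncomputable def rh82da4291c2a90bb1 : CRef := CRef.mk (Pat.mk 0x7000000000000001e00000000 0x40000000700000007000000070000001e00000007000000030000001e00000034 9 6) 0 0 (step_sound _ 65 [(rh3244c3cc8379b070.shift 0 1), rhecdcf4151e8aaf6f] (by decide +kernel))
noncomputable def rh64a43c5fdaaa5b6a : CRef := CRef.mk (Pat.mk 0x200000003000000020000001e00000000 0x28000000380000003c0000001e000000130000003a0000001e00000008 9 6) 0 0 (step_sound _ 130 [(rh2f68792b6b779e96.shift 1 1), rhec3939e5a6c9378e] (by decide +kernel))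
noncomputable def rh3adb66774aea85eb : CRef := CRef.mk (Pat.mk 0xf00000000 0x1c7000000ff000001fe 9 9) 0 0 (step_sound _ 36 [rh4ad5fc38f1b69f65, rh81c785e867525268, rhe401600d466b97cd] (by decide +kernel))
noncomputable def rhf4763e3956dc3913 : CRef := CRef.mk (Pat.mk 0xf00000000000000000000000000000000 0x100000001c0000001c0000001c0000000f0000001c0000001c0000001c00000014 9 5) 0 0 (step_sound _ 99 [rhd92d70cec27cfadf, (rhe25b0a99195a5d59.shift 0 3)] (by decide +kernel))
noncomputable def rhf3a9064f15d701f7 : CRef := CRef.mk (Pat.mk 0x4000000000000003c0000000c000000000000000000000000 0x4000000240000003e0000007c000000380000001f0000001c 9 7) 0 0 (step_sound _ 101 [rhc0c7dc1511bc783b, (rhe25b0a99195a5d59.shift 2 3)] (by decide +kernel))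
noncomputable def rhc0e9feef636ff611 : CRef := CRef.mk (Pat.mk 0xe000000000000000000000000 0x18000000780000003e0000007f0000003800000038 9 7) 0 0 (step_sound _ 100 [(rh06db8ceda6269a47.shift 0 2), rh13e6857df8ac8e27, (rh3b00e9e9432b8f40.shift 0 2), (rh3fc3a7fb6866dcd4.shift 1 2)] (by decide +kernel))
noncomputable def rha8ffdd741da4eeb1 : CRef := CRef.mk (Pat.mk 0x2000000000000001e0000000200000000000000000000000000000000 0x2000000330000001e0000003e0000003c000000380000003800000020 9 6) 0 0 (step_sound _ 130 [(rhb1085e0e51093b6e.shift 0 3), (rhc0630e0d24a3fe7c.shift 1 0)] (by decide +kernel))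
noncomputable def rhc7b9f4a31a30c80b : CRef := CRef.mk (Pat.mk 0x8000000000000003800000000000000000000000000000000 0x8000001cf000001ff000003bf0000001e0000000e0000000e 9 10) 0 0 (step_sound _ 130 [(rh592c7139d2c44767.shift 0 3), (rh69db5ac7be882508.shift 0 2), (rh9055668b1291285e.shift 1 3), (rha3708673ce6a5ec7.shift 1 0), rhf5c7c9ed80ddac23] (by decide +kernel))
noncomputable def rh86a1705888b81ef9 : CRef := CRef.mk (Pat.mk 0x1e00000010000000000000000000000000 0x80000000c0000000c0000001f0000001e0000001f0000001e0000000c 9 5) 0 0 (step_sound _ 99 [rh00e722fc07b7126b, (rhb739f4f82bb681b4.shift 0 3)] (by decide +kernel))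
noncomputable def rh58fe62328a08cfc9 : CRef := CRef.mk (Pat.mk 0xf0000000000000000000000000000000000000000 0x140000001c0000001c000000180000000f0000001c0000001c0000001c0000001c00000004 9 5) 0 0 (step_sound _ 131 [rh8ea0c17d4ec8bf59, (rhe25b0a99195a5d59.shift 0 4)] (by decide +kernel))
noncomputable def rhc07ac98f7a7dc75f : CRef := CRef.mk (Pat.mk 0x100000001e000000120000001000000000000000000000000000000000 0x280000003800000038000000140000001e0000001e000000320000003f0000003b0000003900000028 9 6) 0 0 (step_sound _ 133 [rh19939c445ca29054, (rh55afc6a59410cf00.shift 4 3)] (by decide +kernel))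
noncomputable def rhbab07c5e1942c563 : CRef := CRef.mk (Pat.mk 0x100000001e00000012000000000000000000000000 0x280000003c0000003c0000001c0000001e0000001e0000001f0000000200000002 9 6) 0 0 (step_sound _ 196 [(rh03dfdf12d5937476.shift 3 2), (rhc85cc95794737cf7.shift 3 3), rhd0dc6c72874f161c] (by decide +kernel))
noncomputable def rh6e83f90ed53d4e3b : CRef := CRef.mk (Pat.mk 0x8000000080000000f000000090000000000000000 0xf70000007e000000ee0000000f0000000f0000000500000001 9 8) 0 0 (step_sound _ 66 [(rh932754581e0f4330.shift 2 1), rhcb68e47ea34f99bf] (by decide +kernel))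
noncomputable def rh6802be5813006fd7 : CRef := CRef.mk (Pat.mk 0x1c00000010000000100000000000000000 0x3000000034000000340000001c0000007f0000007f0000001e0000001e 9 7) 0 0 (step_sound _ 99 [rh65473e0ff92aafde, (rh985294ffbed587a6.shift 3 0), rhf0e6be63c2dd8af6] (by decide +kernel))
noncomputable def rh6342e0c28aee927c : CRef := CRef.mk (Pat.mk 0x2000000028000000200000002000000000 0x400000006800000028000001ff000001fe0000005f 9 9) 0 0 (step_sound _ 36 [(rh932754581e0f4330.shift 4 0), rhd8995245121fc4d7] (by decide +kernel))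
noncomputable def rh91f1fa2aa9b3d59c : CRef := CRef.mk (Pat.mk 0x100000001000000010000000000000000000000000 0x2000000030000000300000001000000030000000ff000000ff0000002f00000008 9 8) 0 0 (step_sound _ 67 [(rh0e6924d680f6455d.shift 3 0), (rh86aa94d7c0c1e10d.shift 2 1), (rhc23ec26ef2c84235.shift 3 2), (rhd3cfa2e52fa8a995.shift 0 1)] (by decide +kernel))
noncomputable def rh29acd19c91e50426 : CRef := CRef.mk (Pat.mk 0xe000000080000000800000000000000000000000000000000 0x20000000e0000000e0000007f0000007e0000001f0000001c00000014 9 7) 0 0 (step_sound _ 99 [(rh1f3a6ba70a310ab1.shift 2 1), (rh39a5d150552cfe93.shift 0 2), (rh8cdd36b03d57a2f6.shift 2 1), (rha613ffd40b6c9d24.shift 2 1), (rhc05d451ce3dd5e48.shift 2 0)] (by decide +kernel))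
noncomputable def rh2e2f8d34d59363e7 : CRef := CRef.mk (Pat.mk 0x3c0000002200000020000000300000000000000000 0x30000003e00000023000000270000007f0000006500000040 9 7) 0 0 (step_sound _ 161 [(rheb0810cc63b001d8.shift 0 4), rhf62b3c8a44b016a2] (by decide +kernel))
noncomputable def rh3282674b309c979d : CRef := CRef.mk (Pat.mk 0xe0000000800000008000000000000000000000000 0x140000001c0000001c0000000a0000000f0000007a0000001f000000060000000400000004 9 7) 0 0 (step_sound _ 132 [rh596617e216d1ddc4, (rhb739f4f82bb681b4.shift 0 4)] (by decide +kernel))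
noncomputable def rhbc487417e062b67d : CRef := CRef.mk (Pat.mk 0x1c000000100000001000000000 0x340000001e000000370000003e0000002f 9 6) 0 0 (step_sound _ 97 [rhaba73f40b3c0aab8, (rhe25b0a99195a5d59.shift 1 2)] (by decide +kernel))
noncomputable def rh6b56a7cdab9f0280 : CRef := CRef.mk (Pat.mk 0x1c00000010000000100000001000000000 0x1e00000034000001de000000fe000001ef 9 9) 0 0 (step_sound _ 101 [rhb0009cdad6dfc78a, (rhb739f4f82bb681b4.shift 1 3)] (by decide +kernel))
noncomputable def rhde6449dc5e3693c2 : CRef := CRef.mk (Pat.mk 0xe00000008000000080000000800000000000000000000000000000000 0xf000000780000001f0000007c000000180000001c0000000c00000004 9 7) 0 0 (step_sound _ 196 [rh5bad644e5957f142, (rhb739f4f82bb681b4.shift 0 6)] (by decide +kernel))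
noncomputable def rh9d7b6939df559c5d : CRef := CRef.mk (Pat.mk 0x20000007a0000000000000000000000000000000000000000 0x100000003000000c30000007f0000000300000007000000070000000700000005 9 8) 0 0 (step_sound _ 129 [(rh01e48cd9f335aa73.shift 0 4), (rh5c8c873042790be0.shift 0 1), rha634674162a20ae2, (rhb87c81b4d8d5df91.shift 0 1)] (by decide +kernel))
noncomputable def rh74a6cf3eab3a39f3 : CRef := CRef.mk (Pat.mk 0x10000000100000001000000000 0x8000000380000003f0000003e0000003f0000001c0000001800000008 9 6) 0 0 (step_sound _ 132 [(rh1741680720c097b4.shift 3 1), (rh3b734c5288922837.shift 3 0), (rh771d065bdc85bf2d.shift 3 0), (rhe01cfd8f0577defd.shift 3 1), rhe2de2da7254b6a91] (by decide +kernel))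
noncomputable def rh84e6ffcef4228e0e : CRef := CRef.mk (Pat.mk 0x300000004200000058000000400000004000000000 0x8000000080000001f000000fe000000570000005800000058000000f8000000a8 9 8) 0 0 (step_sound _ 132 [(rh281c6819542c66e6.shift 3 0), rh45d32bf0927cc6fa, (rhb977d68015c68995.shift 1 2), rhe0f0114d0706525d, (rhe600b60e755ae96c.shift 0 2)] (by decide +kernel))
noncomputable def rh04ff1769ac03b0cb : CRef := CRef.mk (Pat.mk 0xe00000008000000080000000000000000000000000000000000000000 0x40000000f0000007800000018000000180000001c0000001c0000001c00000014 9 7) 0 0 (step_sound _ 196 [(rhb739f4f82bb681b4.shift 0 6), (rhfe2d5f0e8ff15324.shift 2 0)] (by decide +kernel))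
noncomputable def rh115906f0ab6ad407 : CRef := CRef.mk (Pat.mk 0x40000001c00000004000000040000000000000000 0x10000000140000001c0000007f0000007f0000007c0000003c 9 7) 0 0 (step_sound _ 99 [(rh4053c12da95c0aa0.shift 2 0), rh6526f46ca429022f, rhe0449c9bc04d836d, rhe30531dc8bcf824f] (by decide +kernel))
noncomputable def rh63b704733a0c6b24 : CRef := CRef.mk (Pat.mk 0xe00000008000000080000000000000000000000000000000000000000 0x40000000f000000780000001c0000000c0000000c0000001c0000001c00000014 9 7) 0 0 (step_sound _ 131 [rh15ffc8334253bb1f, (rh50fbb5868c909700.shift 2 4)] (by decide +kernel))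
noncomputable def rh76046416c65b4f7b : CRef := CRef.mk (Pat.mk 0xe00000008000000080000000000000000000000000 0x40000000600000006e000000fe000007bf000003f80000077c0000007000000050 9 11) 0 0 (step_sound _ 133 [(rh061ef40e81580364.shift 4 2), (rh1e0abf7eaaf03f4f.shift 2 0), (rh2f2c2d377998bf67.shift 2 2), (rh56e03f4688a41d68.shift 0 4), (rhd307e07c07add9f4.shift 4 0)] (by decide +kernel))
noncomputable def rh44e87b08b7a4d286 : CRef := CRef.mk (Pat.mk 0x180000001c000000100000000000000000 0x1c0000001f000000170000003e0000003f 9 6) 0 0 (step_sound _ 36 [(rh7b1f1fb55310c477.shift 3 0), rhf3624d497048ea18] (by decide +kernel))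
noncomputable def rh61a568097c81f82a : CRef := CRef.mk (Pat.mk 0xe0000000d00000008000000000000000000000000 0x4000000060000002e0000006f0000007e000000760000001600000010 9 7) 0 0 (step_sound _ 194 [(rh2145e1d24b96a57e.shift 2 3), rh4fdd3625796851ed] (by decide +kernel))
noncomputable def rheab2e1620c070c5e : CRef := CRef.mk (Pat.mk 0x1e0000001800000000000000000000000000000000 0x8000000080000001e0000001f000000ff0000003f0000003b00000028 9 8) 0 0 (step_sound _ 129 [rh89e054f6ce081e29, (rheb0810cc63b001d8.shift 0 4)] (by decide +kernel))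
noncomputable def rh2b5bc960ecada80b : CRef := CRef.mk (Pat.mk 0x1c000000180000000000000000000000000000000000000000 0xc0000000c0000000c0000001c0000001c0000001f0000001f0000001c0000001c00000014 9 5) 0 0 (step_sound _ 227 [(rh3e595262c1b737ad.shift 3 4), (rhb3e5613249985042.shift 2 2), rhd79838f177684966] (by decide +kernel))
noncomputable def rh4aa1b813bdb198c6 : CRef := CRef.mk (Pat.mk 0x1c00000018000000000000000000000000 0xc0000000c0000000c0000001f0000001b0000001f0000001e0000000c 9 5) 0 0 (step_sound _ 129 [rh423befb80ca11fae, (rhb739f4f82bb681b4.shift 0 3)] (by decide +kernel))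
noncomputable def rh6c67b71c56180308 : CRef := CRef.mk (Pat.mk 0x1c00000018000000000000000000000000 0xc0000001f0000001f000000f30000003e0000001a 9 8) 0 0 (step_sound _ 129 [(rhb739f4f82bb681b4.shift 0 3), rhfdd402d256ef4c2f] (by decide +kernel))
noncomputable def rhf56b56a7b068d0d3 : CRef := CRef.mk (Pat.mk 0xc0000000d000000040000000400000000 0xc0000000f000000ff0000007e000000fa 9 8) 0 0 (step_sound _ 67 [(rh1309f2db2b3567e6.shift 1 0), rh6eea962ac0fe17b9, rhf26139e0ddf2f31b] (by decide +kernel))
noncomputable def rh2589220a6e0f6ec8 : CRef := CRef.mk (Pat.mk 0x1c000000180000000000000000000000000000000000000000 0xc0000000c0000000c0000001c0000001f0000001f0000001f0000001c0000001c00000014 9 5) 0 0 (step_sound _ 227 [(rh3e595262c1b737ad.shift 3 4), (rhac1605b19ddc76ee.shift 0 4), rhd79838f177684966] (by decide +kernel))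
noncomputable def rh7d5803255c6dddb7 : CRef := CRef.mk (Pat.mk 0x1c00000038000000000000000000000000 0xc0000000c0000001c0000003f0000007f0000007a0000002a 9 7) 0 0 (step_sound _ 98 [(rh0b65c1bc69af3667.shift 1 0), rh8f7039354bfc4ec2, (rhe153806bfe3acc65.shift 0 2)] (by decide +kernel))
noncomputable def rhf5ea3d4abfc2ef74 : CRef := CRef.mk (Pat.mk 0xe0000001c00000000000000000000000000000000 0x60000000e0000001c000000fc0000007f000000ff00000020 9 8) 0 0 (step_sound _ 67 [rh7858b6e504f96d54, (rhdaabc64ce0e73b8d.shift 0 1), (rhdd1b84382d19bcbb.shift 2 1)] (by decide +kernel))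
noncomputable def rhf84e7988c48b12f8 : CRef := CRef.mk (Pat.mk 0xe0000000c00000000000000000000000000000000 0x4000000060000000e0000003c0000001f0000007e0000001c00000014 9 7) 0 0 (step_sound _ 132 [rh866c43416f9b9231, (rhf48373e13d2bc128.shift 1 4)] (by decide +kernel))
noncomputable def rh53accf02d6881fd3 : CRef := CRef.mk (Pat.mk 0x1c00000038000000000000000000000000 0x1c0000003f000000770000003e0000003e 9 7) 0 0 (step_sound _ 98 [(rh1377246c8c242c5d.shift 1 0), (rhcc2be1f880c5ea3e.shift 0 2), (rhe153806bfe3acc65.shift 0 2)] (by decide +kernel))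
noncomputable def rh39cf8f5cf7454cde : CRef := CRef.mk (Pat.mk 0x1c00000018000000000000000000000000 0x40000001c0000007f0000007f0000000e0000000e 9 7) 0 0 (step_sound _ 101 [rhdc7c98cd5cfac196, (rhf48373e13d2bc128.shift 2 3)] (by decide +kernel))
noncomputable def rh817309205487a270 : CRef := CRef.mk (Pat.mk 0x100000001c000000100000001800000000 0x20000000f40000001c000003de000001fe000003e7 9 10) 0 0 (step_sound _ 37 [(rh55afc6a59410cf00.shift 4 0), rha8ef0ff8f158dde2] (by decide +kernel))
noncomputable def rh9c2c94a8857d67c1 : CRef := CRef.mk (Pat.mk 0x1c00000010000000100000000000000000 0xc0000001c000000780000003e0000001f0000001c 9 7) 0 0 (step_sound _ 36 [(rh50fbb5868c909700.shift 3 1), rhbc4e103f331ad4dd] (by decide +kernel))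
noncomputable def rh89e96bf78695e5a3 : CRef := CRef.mk (Pat.mk 0xe00000008000000080000000000000000 0x1000000018000000180000000e0000007f0000003f0000003700000012 9 7) 0 0 (step_sound _ 163 [(rh20966da26a1c2ae8.shift 2 1), (rhced6d86d2069808b.shift 3 1), rhf36903c41873b9b5] (by decide +kernel))
noncomputable def rhf7e01237a9c69f95 : CRef := CRef.mk (Pat.mk 0x1c00000010000000100000001000000000 0x40000001c0000001c000000fe000000ff0000002f 9 8) 0 0 (step_sound _ 37 [(rh55afc6a59410cf00.shift 4 0), rhacc258dc5c092de0] (by decide +kernel))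
noncomputable def rh1a75096b7c3a3cb2 : CRef := CRef.mk (Pat.mk 0x1c000000000000001000000000000000000000000000000000 0x3800000038000000780000001c0000007f000000f70000003c000000380000003800000028 9 8) 0 0 (step_sound _ 164 [rh29c7f09abebff0dd, (rh56259dd1390eee46.shift 3 1), (rh82064b552a8316fd.shift 2 3), (rhf9a6286f1d5377a2.shift 3 3)] (by decide +kernel))
noncomputable def rhf2ba1acd08924baa : CRef := CRef.mk (Pat.mk 0x380000002000000020000000000000000000000000 0x10000000180000001800000038000001ff000001fe000001df0000005c00000014 9 9) 0 0 (step_sound _ 99 [(rh2557b4f3b8b02ada.shift 1 1), (rh274992fcaf6ea5dd.shift 1 1), (rh285f0764c5685928.shift 1 2), (rh3cac53e4439d9432.shift 2 1), (rh60d5674e44e5ed2c.shift 2 0), (rha1c11260a0c18bfc.shift 0 2), rhc8fe9ba1451963e7, (rhf3c63b3b5206b8b1.shift 2 1)] (by decide +kernel))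
noncomputable def rhf693d8a006a811bf : CRef := CRef.mk (Pat.mk 0x38000000000000003800000000 0x140000001c0000001c0000000c0000001f00000078000000380000001f0000007c00000010 9 7) 0 0 (step_sound _ 67 [rha8512d508a67e59b, (rha9fbfd4bb8cf890b.shift 0 1), (rhbd3d56d68aaa590e.shift 0 1)] (by decide +kernel))
noncomputable def rh226dfa1171403a44 : CRef := CRef.mk (Pat.mk 0x80000000f000000000000000000000000 0x800000008000001ec000000ff000001fe0000000400000004 9 9) 0 0 (step_sound _ 66 [(rh8f93fc243832fa7d.shift 0 2), (rha08a45e24af680cb.shift 0 2), (rhcf80391c5046a495.shift 2 0), (rhf9366b6a121593ef.shift 2 0)] (by decide +kernel))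
noncomputable def rhe5413886cbd5b0d9 : CRef := CRef.mk (Pat.mk 0x3800000000000000700000000000000000 0x100000001800000018000000380000001f000000ff000001ee00000008 9 9) 0 0 (step_sound _ 67 [(rh185f35b8bd8ec37f.shift 1 1), (rh76f56089f5291246.shift 0 1), (rhc4658766f200b447.shift 2 0), (rhe401600d466b97cd.shift 2 1)] (by decide +kernel))
noncomputable def rh677ed436af43e43b : CRef := CRef.mk (Pat.mk 0xe0000000000000000000000000000000000000000 0x2000000070000003e0000007f00000007000000070000000700000004 9 7) 0 0 (step_sound _ 164 [(rh06db8ceda6269a47.shift 0 4), rh33bd60e2d49f5a27, (rhafa5a7051d37b143.shift 0 2), (rhe401600d466b97cd.shift 0 4)] (by decide +kernel))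
noncomputable def rh03989166a49e3279 : CRef := CRef.mk (Pat.mk 0x2000000000000000c00000006000000000000000000000000 0x2000000330000003f0000003e0000003c0000001800000018 9 6) 0 0 (step_sound _ 132 [(rh18965a982d73c794.shift 1 3), rh60380fb368c50095] (by decide +kernel))
noncomputable def rh2c67d8db4cee0050 : CRef := CRef.mk (Pat.mk 0x80000000e000000000000000000000000 0x780000007e000000ff0000003c00000038 9 8) 0 0 (step_sound _ 100 [rh312f246eee46ebe0, (rh3b00e9e9432b8f40.shift 0 2), (rh42d32bf970c9c157.shift 0 2), (rha93a5dd541ab8209.shift 1 2), (rhe6287d96d1a4a02a.shift 1 2)] (by decide +kernel))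
noncomputable def rh7b9e4221f34f3f8e : CRef := CRef.mk (Pat.mk 0x2000000080000000e000000000000000000000000 0x7b0000003e0000007e0000000e000000060000000400000004 9 7) 0 0 (step_sound _ 66 [(rh0588d2c7f2cab5e9.shift 1 0), (rh1f6c49886d748c9d.shift 0 2), (rh28afc5b167f84184.shift 1 0), (rhd79d2ecf89709c31.shift 1 0), (rhf9366b6a121593ef.shift 2 0)] (by decide +kernel))
noncomputable def rh33002d29a435046a : CRef := CRef.mk (Pat.mk 0x7000000010 0x1c0000003c000000ff0000007e0000001e 9 8) 0 0 (step_sound _ 35 [(rh4c622fddc53a5f99.shift 1 1), (rh7370b1aef9478fb1.shift 2 0), (rh775ca1963e850b80.shift 1 0), (rh9e97bba44c1b13e4.shift 1 0), rhaeac014a58998cf3] (by decide +kernel))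
noncomputable def rhd3b410e354afedd0 : CRef := CRef.mk (Pat.mk 0x1000000040000000700000000000000000 0x80000000e0000000e0000000ef000000fe000003f7000000700000003c00000028 9 10) 0 0 (step_sound _ 103 [(rh1eee7122191a30c3.shift 3 1), rh2586d7bed1ad0d84, (rh80f90a60d87caa0d.shift 4 2)] (by decide +kernel))
noncomputable def rh6b545b6ef4704d9f : CRef := CRef.mk (Pat.mk 0x2000000080000000e000000000000000000000000 0x100000001c0000001c0000007e0000001f0000007c0000000e000000060000000400000004 9 7) 0 0 (step_sound _ 132 [(rh1eee7122191a30c3.shift 0 2), rh726ead662404e56b, (rh80f90a60d87caa0d.shift 1 3)] (by decide +kernel))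
noncomputable def rh4d0a33d493bd4ab6 : CRef := CRef.mk (Pat.mk 0x1a0000001e 0x3e0000003e000000370000001e0000003e 9 6) 0 0 (step_sound _ 34 [rh88f1069cb237f708, (rhf48373e13d2bc128.shift 1 0)] (by decide +kernel))
noncomputable def rh7e6c625d32790a6d : CRef := CRef.mk (Pat.mk 0xa000000080000000e00000000000000000000000000000000000000000 0x50000000700000007f000001fe000007af000000e00000006000000070000000700000007000000040 9 11) 0 0 (step_sound _ 230 [(rh2ad16b965e9d69db.shift 0 6), (rha09abd6e963616ae.shift 4 0), (rhc243fc7af1536e6c.shift 4 5)] (by decide +kernel))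
noncomputable def rh7e75b96614d0a576 : CRef := CRef.mk (Pat.mk 0xc0000000c0000000000000004 0x1f0000001f0000007b0000001f0000000c0000000400000004 9 7) 0 0 (step_sound _ 131 [(rh55f6d01c20c1cddb.shift 0 2), (rh9e3edb185cc347de.shift 2 0)] (by decide +kernel))
noncomputable def rh8d5f02be317e83e7 : CRef := CRef.mk (Pat.mk 0x18000000180000000000000010 0x3c0000007c0000006f0000007c000000180000001000000010 9 7) 0 0 (step_sound _ 131 [(rh62b60545e4f8c584.shift 0 2), (rh9e07f76261b05888.shift 3 0)] (by decide +kernel))
noncomputable def rhf37a43b834be6024 : CRef := CRef.mk (Pat.mk 0x10000000400000007000000000000000000000000000000000 0x28000000380000003f0000003e00000077000000700000003e000000380000003800000028 9 7) 0 0 (step_sound _ 164 [(rh0fa4a62bba50784f.shift 3 3), (rh397edc71c439baa1.shift 3 0), (rh70e33bfdf511e144.shift 4 1), (rhd3f8932cb9a4e53c.shift 0 2), (rhfb9fb48a5e63ed80.shift 3 3)] (by decide +kernel))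
noncomputable def rheeb404af256b29ed : CRef := CRef.mk (Pat.mk 0x100000001c00000010000000000000000000000000 0x14000000140000001c0000007f0000007f0000002a0000002a 9 7) 0 0 (step_sound _ 99 [(rh1bcac5affc534ecf.shift 0 2), (rh1e309b005ffa1b36.shift 3 1), (rh281c6819542c66e6.shift 3 0), rhc5a5a2069e61bda6] (by decide +kernel))
noncomputable def rh87fe0fbee15231c3 : CRef := CRef.mk (Pat.mk 0x40000000300000001c0000001000000000 0x20000000380000003f0000003e00000077000000300000001c0000007800000028 9 7) 0 0 (step_sound _ 132 [(rh68a777751bfeafdf.shift 3 1), (rhb379f99078aafa2d.shift 2 0), (rhd4fce4f58f6374a0.shift 3 1), (rhf0e16192053cae6a.shift 0 1)] (by decide +kernel))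
noncomputable def rh73942b5b32e86a86 : CRef := CRef.mk (Pat.mk 0x400000007000000014000000100000000000000000 0x500000007400000034000001fe000000fe000001ef 9 9) 0 0 (step_sound _ 37 [(rh24011d6715496e65.shift 4 1), rh270647afd5b5c1fd] (by decide +kernel))
noncomputable def rh85eade325de943c1 : CRef := CRef.mk (Pat.mk 0x38000000000000000000000008 0x1c0000001c0000001f000003be000001fc000001cc0000000800000008 9 10) 0 0 (step_sound _ 102 [rh7880d85762223a39, (rh886e4067945ad57b.shift 1 0), (rhe401600d466b97cd.shift 2 2), (rhec5e78200fa69d0c.shift 2 0)] (by decide +kernel))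
noncomputable def rh7a25592782e88fe5 : CRef := CRef.mk (Pat.mk 0x3800000000 0x80000000e0000000e0000001e0000007f0000003e0000000f 9 7) 0 0 (step_sound _ 34 [(rh2c2857be09221fa2.shift 1 0), (rh4c622fddc53a5f99.shift 0 1), rh592c7139d2c44767, rh9e97bba44c1b13e4] (by decide +kernel))
noncomputable def rhfb716cc484d0d1aa : CRef := CRef.mk (Pat.mk 0x1c000000000000000000000004 0x40000000e0000000e0000001fc000000fe000001e70000004400000004 9 9) 0 0 (step_sound _ 101 [(rh0fd246131828dcf9.shift 2 1), (rh6012c66676d1308a.shift 1 0), (rh9e97bba44c1b13e4.shift 0 2), (rha93a5dd541ab8209.shift 2 2), (rhb143c7a3e93df405.shift 2 2)] (by decide +kernel))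
noncomputable def rh294f437b75b561d4 : CRef := CRef.mk (Pat.mk 0x38000000000000000000000008 0x9c000001dc000001df000003fc000001f8000003cc0000008800000008 9 10) 0 0 (step_sound _ 102 [(rh0fd246131828dcf9.shift 3 1), (rh6012c66676d1308a.shift 2 0), rh7880d85762223a39, (rha93a5dd541ab8209.shift 3 2), (rhb18e6c78a554867d.shift 2 3), (rhec5e78200fa69d0c.shift 2 0)] (by decide +kernel))
noncomputable def rhc1074da32b222e98 : CRef := CRef.mk (Pat.mk 0x300000001200000012000000100000000000000000 0x5000000070000000f0000001f0000003b00000013000000130000003f0000000f00000005 9 6) 0 0 (step_sound _ 195 [rha937f8d425970aac, (rhffd04209dc8ea796.shift 3 2)] (by decide +kernel))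
noncomputable def rh06d4356bb66d4b2e : CRef := CRef.mk (Pat.mk 0x800000009000000090000000d00000000000000000 0x8000000980000009800000090000001ff0000013e0000002f 9 9) 0 0 (step_sound _ 72 [rh3dac4abfd688f463, (rh55afc6a59410cf00.shift 7 1)] (by decide +kernel))
noncomputable def rh62395aebb6e654b0 : CRef := CRef.mk (Pat.mk 0x8000000080000000800000000000000000000000000000000 0x40000000c0000000c0000003f0000003f0000001f0000001c00000014 9 6) 0 0 (step_sound _ 99 [(rh47992774edf9829f.shift 2 0), (rh8cdd36b03d57a2f6.shift 2 1), (rh8ff3dde5b1c639e0.shift 2 1), (rhc4526fc8abf298b6.shift 2 1), (rhc8c8ca90955b904b.shift 0 2)] (by decide +kernel))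
noncomputable def rh8a7814ed1858e1f9 : CRef := CRef.mk (Pat.mk 0x1000000090000000c0000000000000000000000000 0x80000003800000038000000380000001800000018000000dc000001ff0000003e0000003f00000028 9 9) 0 0 (step_sound _ 100 [(rh3dac4abfd688f463.shift 0 1), (rh540f437d7ed50685.shift 3 1), (rh7d91dec27a2fec16.shift 2 2), (rha073318917eadebc.shift 2 2), (rhe95a2e51b0ee5fdb.shift 3 0), (rhede225ed38d90938.shift 3 0)] (by decide +kernel))
noncomputable def rhbd7ac2e2e21eac71 : CRef := CRef.mk (Pat.mk 0x400000022000000020000001a000000120000000100000000 0x40000001e0000007b0000001b0000001a0000001a0000000f00000005 9 7) 0 0 (step_sound _ 33 [rh3aceeb9848294860, rh932754581e0f4330] (by decide +kernel))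
noncomputable def rhc18c831a9e0ab112 : CRef := CRef.mk (Pat.mk 0x20000000020000001a00000012000000000000000000000000 0x40000001f0000007f0000001b0000001b00000012000000070000000700000005 9 7) 0 0 (step_sound _ 65 [(rh6e2b005ff3c88caa.shift 0 2), rh8cdd36b03d57a2f6, rh8ff3dde5b1c639e0, rhc4526fc8abf298b6] (by decide +kernel))
noncomputable def rhf16357032d7d14b7 : CRef := CRef.mk (Pat.mk 0x2000000002000000220000001a000000120000000000000000 0x3d0000001f0000003a0000001a0000001b0000000f00000005 9 6) 0 0 (step_sound _ 32 [rh2cb1a5859571c059, (rh79877ebd3ef475dd.shift 0 1)] (by decide +kernel))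
noncomputable def rh3c8207611faa18c4 : CRef := CRef.mk (Pat.mk 0x20000000020000001a0000001200000001 0x1000000070000001f0000007e0000001a0000001a0000001300000001 9 7) 0 0 (step_sound _ 129 [(rh019bbf4e10c92149.shift 0 1), rh79877ebd3ef475dd] (by decide +kernel))
noncomputable def rh576667a0fe1af1f2 : CRef := CRef.mk (Pat.mk 0x2000000020000001200000002000000000 0x100000003000000030000001bf000000fe0000005e 9 9) 0 0 (step_sound _ 36 [rh66d68e1b48fd06fa, (rh932754581e0f4330.shift 4 0)] (by decide +kernel))
noncomputable def rhbaa0b7eadbf990b0 : CRef := CRef.mk (Pat.mk 0x8000000200000003200000012000000020000000000000000 0x1000000070000003f0000003f000000230000003300000013000000030000000300000001 9 6) 0 0 (step_sound _ 229 [rh8aa509b8367791f1, (rhee230b994cc8b773.shift 4 3)] (by decide +kernel))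
noncomputable def rh7eaef58a902411ae : CRef := CRef.mk (Pat.mk 0x8000000000000000a000000120000001200000000 0x100000007000000070000000f0000000b0000000b0000001b0000001f00000005 9 5) 0 0 (step_sound _ 67 [(rh6f1cbe15c631ee70.shift 3 1), rhc1eb7c765f88eeb4] (by decide +kernel))
noncomputable def rh3fcc71b5c700255f : CRef := CRef.mk (Pat.mk 0x2000000020000000200000000000000000000000000000000 0x10000000700000007000000070000000300000003000000030000000300000003000000070000000700000007 9 3) 0 0 (step_sound _ 97 [(rh0363733e431156c8.shift 0 1), rh47992774edf9829f, (rh771d065bdc85bf2d.shift 0 2), (rhc4526fc8abf298b6.shift 0 1), rhdb18d9da0cc94d72] (by decide +kernel))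
noncomputable def rh2d5c9aaef6207afe : CRef := CRef.mk (Pat.mk 0x7000000010 0x1c0000003c000000ff0000007e0000001f 9 8) 0 0 (step_sound _ 35 [rh15b856e33c69f807, (rh4c622fddc53a5f99.shift 1 1), (rh775ca1963e850b80.shift 1 0), (rh9e97bba44c1b13e4.shift 1 0), (rheee6015668ddef99.shift 2 0)] (by decide +kernel))
noncomputable def rh87fc64625fdb6f38 : CRef := CRef.mk (Pat.mk 0x30000000240000002000000000 0x1000000070000001f00000007c0000003000000030000000360000007e0000005f 9 9) 0 0 (step_sound _ 133 [(rh1726a00b0a8befd0.shift 4 0), (rh1d5410a14414e7d3.shift 2 1), rh2d2d036056a48433, (rh2fd3c82e8124b6af.shift 4 0), (rha7bb430bc20854cc.shift 4 1)] (by decide +kernel))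
noncomputable def rhbc84f03f4fdb8804 : CRef := CRef.mk (Pat.mk 0x70000000000000000000000000 0x180000001e0000007c000000fe0000001f0000001c 9 8) 0 0 (step_sound _ 99 [(rh0d378fd9e8917c5a.shift 1 2), (rh185f35b8bd8ec37f.shift 1 2), (rh775ca1963e850b80.shift 1 2), rhc4ae21f60a70ce38] (by decide +kernel))
noncomputable def rh7be3485bfcef884e : CRef := CRef.mk (Pat.mk 0x38000000000000000000000000 0x500000007000000070000000700000003e000000770000003000000010 9 7) 0 0 (step_sound _ 98 [(rh185f35b8bd8ec37f.shift 0 2), (rh3ec7b1d0b03b3028.shift 1 0), (rh9e97bba44c1b13e4.shift 0 2), (rhd439bfd913dd0dd2.shift 1 1)] (by decide +kernel))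
noncomputable def rh126c504fa7003926 : CRef := CRef.mk (Pat.mk 0x700000000000000000000000000000000000000000 0x6000000060000000e70000007e000000e7000000e0000000e0000000e0000000a0 9 8) 0 0 (step_sound _ 163 [(rh15b856e33c69f807.shift 0 4), (rhb8620f1503af0376.shift 3 0), (rhbb13f9e1d387f64a.shift 0 4)] (by decide +kernel))
noncomputable def rhd69e7ed8ed9ab244 : CRef := CRef.mk (Pat.mk 0x1e00000000000000000000000000000000 0x3000000030000000380000001e0000003f000000380000003800000018 9 6) 0 0 (step_sound _ 164 [rh0aaff76dd8790323, (rh33e738c4ed385b9f.shift 1 4)] (by decide +kernel))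
noncomputable def rhbcb0df43dd5050ab : CRef := CRef.mk (Pat.mk 0xe0000000a000000000 0x7800000078000001fe000000fe000000bf00000080 9 9) 0 0 (step_sound _ 68 [(rh04e2f6df131e4749.shift 0 1), (rh15b856e33c69f807.shift 1 1), (rh2b40d254177f8dd3.shift 3 0), (rh775ca1963e850b80.shift 2 1), (rhe15c56d4137cf69b.shift 0 1), (rhff8d7321d3ecd888.shift 3 1)] (by decide +kernel))
noncomputable def rhc6fb026027c14cc6 : CRef := CRef.mk (Pat.mk 0x3c00000022000000000000003800000000 0x640000003e00000023000000630000003e00000077 9 7) 0 0 (step_sound _ 69 [(rh932754581e0f4330.shift 4 0), rh98f33d63be3590fc] (by decide +kernel))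
noncomputable def rh72a3777a5685ab9e : CRef := CRef.mk (Pat.mk 0x1e00000018000000000000000000000000 0x3e0000001f0000003f0000000f00000007 9 6) 0 0 (step_sound _ 97 [rh1cb08dfdea594a4c, (rheb0810cc63b001d8.shift 0 3)] (by decide +kernel))
noncomputable def rhe5b3a5c23d43c89c : CRef := CRef.mk (Pat.mk 0x40000000e0000000a00000000000000000 0x1000000010000000ff000000fe000000a7000000a0000000a0 9 8) 0 0 (step_sound _ 37 [(rh71222050f2c63a3a.shift 5 0), rhfc9dd66c322241be] (by decide +kernel))
noncomputable def rh23b1c2a192034dd9 : CRef := CRef.mk (Pat.mk 0x100000001c0000001400000000000000000000000000000000 0x8000000380000003800000038000000180000001f000000140000003c0000003c0000003800000028 9 6) 0 0 (step_sound _ 100 [(rh0a6888916bcef86b.shift 3 0), (rh581d8032ca75627d.shift 0 2), (rh8a9298f2a4f03702.shift 0 2), (rh8cdd36b03d57a2f6.shift 3 1)] (by decide +kernel))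
noncomputable def rh47a3e17081f11fda : CRef := CRef.mk (Pat.mk 0x20000001e00000014000000000000000800000000 0x720000003e00000014000000f40000007e000000ff 9 8) 0 0 (step_sound _ 165 [rh259ee2e7b51c1b63, (rh428265de8cd3cd2d.shift 1 4)] (by decide +kernel))
noncomputable def rh86e4635f71e0311f : CRef := CRef.mk (Pat.mk 0x20000000000000001000000010000000000000000000000000000000000000000000000000 0x200000003000000038000000ff000000ff000000ff0000003f000000380000003800000028 9 8) 0 0 (step_sound _ 164 [rh6326ce91c1ffd1d0, (rh6330463fb5067672.shift 2 0), (rh7c1981faeaf0940f.shift 0 4), (rha91a00b542328b7c.shift 4 4), (rhb0f7a2f757f4e5d2.shift 3 3)] (by decide +kernel))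
noncomputable def rhbb57abe2ba0af9f3 : CRef := CRef.mk (Pat.mk 0x1000000010000000100000000000000000000000000000000000000000 0x3000000038000000ff000000fe0000003f000000380000003800000028 9 8) 0 0 (step_sound _ 132 [(rh5f1c7693341f5f3e.shift 3 0), (rh61cedbc46ecc4102.shift 0 3), (rh8cdd36b03d57a2f6.shift 3 2), (rh90a315350f5b6a97.shift 3 1), (rhc13e880241b5adb7.shift 3 0)] (by decide +kernel))
noncomputable def rh031602b4b6ced2bf : CRef := CRef.mk (Pat.mk 0x1000000010000000100000000000000000000000000000000000000000 0x1800000038000000ff000000fe0000003f000000380000003000000020 9 8) 0 0 (step_sound _ 132 [(rh43000f16a4e76173.shift 3 1), (rh61cedbc46ecc4102.shift 0 3), (rh7a62c4b2780c02e6.shift 3 0), (rh8cdd36b03d57a2f6.shift 3 2), (rhecb5030495b54322.shift 3 0)] (by decide +kernel))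
noncomputable def rh0a8fdf80fa3c69b9 : CRef := CRef.mk (Pat.mk 0x14000000140000000000000000 0x280000002a000001ff000000fc000001d60000003c0000003c 9 9) 0 0 (step_sound _ 99 [(rh09e3b3c49517183d.shift 1 2), (rh480231ab31e80384.shift 1 1), rh76d4e9baa312c343, (rhd8b43b15431aaa50.shift 1 0), (rheebae8db1e5275f8.shift 1 0)] (by decide +kernel))
noncomputable def rh71b0e788a42d8d15 : CRef := CRef.mk (Pat.mk 0x1e0000000a 0x5000000070000003f0000001f0000003b0000001e0000000e 9 6) 0 0 (step_sound _ 132 [rhe7e70883527e9292, rheb95cef64944fa0d, (rhfca48bdea898f94b.shift 1 0)] (by decide +kernel))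
noncomputable def rh5e225c3f3f84ea87 : CRef := CRef.mk (Pat.mk 0x200000001c000000080 0x37f000001fe000000cf 9 10) 0 0 (step_sound _ 37 [(rh428265de8cd3cd2d.shift 5 1), rha1f0678f77f4164b] (by decide +kernel))
noncomputable def rheca099133ce59417 : CRef := CRef.mk (Pat.mk 0x30000000a00000008000000000000000000000000 0x100000001c0000001c0000001c0000001f0000001e000000080000001c0000001c00000014 9 5) 0 0 (step_sound _ 132 [(rh5419adcd928dba20.shift 0 4), rhaf3c665ed29491e3] (by decide +kernel))
noncomputable def rh9fb1a73623107807 : CRef := CRef.mk (Pat.mk 0x20000000a0000000a000000000000000000000000 0x4000000140000007e0000007e0000007f0000000a0000001e0000001c00000014 9 7) 0 0 (step_sound _ 194 [(rh3de47907cb7b8669.shift 0 2), (rh5890386c1f942fa1.shift 1 3), rh60997b376d57f48e] (by decide +kernel))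
noncomputable def rha89778b790db0670 : CRef := CRef.mk (Pat.mk 0xe000000040000000400000000000000000 0x9800000098000001df000000fe0000007f0000005c0000001c00000014 9 9) 0 0 (step_sound _ 132 [(rh49606a42a30c7ac4.shift 4 2), rh4a0330821bc45ec1, (rh775ca1963e850b80.shift 2 3), (rheaad777ed634577b.shift 1 3)] (by decide +kernel))
noncomputable def rh6dfd0ef4b898c1ed : CRef := CRef.mk (Pat.mk 0x6000000140000000000000000000000000 0x18000000180000001f000000fe000001ff0000001c0000001c00000014 9 9) 0 0 (step_sound _ 132 [(rh3918eeb6c53434d8.shift 1 3), rh4a0330821bc45ec1, (rhe28dc3223a412fc9.shift 4 3)] (by decide +kernel))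
noncomputable def rh6cac1eaffb94bdd0 : CRef := CRef.mk (Pat.mk 0xa0000000a000000020000000000000000000000000 0x4000000040000000c0000000e0000000e0000000a0000001ef000001fe000001ff00000010 9 9) 0 0 (step_sound _ 69 [(rh16f92f1c149db50f.shift 5 2), (rhbd2413bb4cc1fe3b.shift 4 0), (rhe0c2c7aba54ff101.shift 0 1)] (by decide +kernel))
noncomputable def rhb140435063fee806 : CRef := CRef.mk (Pat.mk 0xa0000000a000000020000000200000000 0xa0000000a000000eb0000007e000000fe00000004 9 8) 0 0 (step_sound _ 34 [(rh55afc6a59410cf00.shift 1 0), (rhc7e4b96fa8bb79e7.shift 0 1)] (by decide +kernel))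
noncomputable def rh24986085bdb80dc9 : CRef := CRef.mk (Pat.mk 0xa0000000a000000020000000000000000000000000 0x10000000b0000000b0000001ef000001fe000001ff00000050 9 9) 0 0 (step_sound _ 69 [(rh46baee19951a66e7.shift 4 0), (rhc4526fc8abf298b6.shift 4 0), (rhe0c2c7aba54ff101.shift 0 1)] (by decide +kernel))
noncomputable def rhdf79aa30227e6ca7 : CRef := CRef.mk (Pat.mk 0x8000000280000002800000008000000000000000000000000 0x70000001fe0000003e0000002f00000078000000f00000007000000050 9 9) 0 0 (step_sound _ 101 [(rh080f49c381efaed3.shift 3 0), (rh535066a1cadc021b.shift 0 2), (rh5843dfbf97376d3a.shift 2 0), (rh72381dc21f268830.shift 1 2), (rh76607fc4896d543e.shift 2 2), (rh8e2540e27041d465.shift 2 1)] (by decide +kernel))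
noncomputable def rh58efda3e13f9b908 : CRef := CRef.mk (Pat.mk 0x100000001000000010000000000000000000000000 0x180000001800000018000000770000003e0000003f00000028 9 7) 0 0 (step_sound _ 68 [(rh3a40cfe198d8ea4a.shift 0 1), (rh46baee19951a66e7.shift 3 0), (rhc4526fc8abf298b6.shift 3 0)] (by decide +kernel))
noncomputable def rh17340301d3befb66 : CRef := CRef.mk (Pat.mk 0x38000000000000001000000010 0x140000001c0000001c0000001c000000080000003c0000001f0000001c00000010 9 6) 0 0 (step_sound _ 131 [(rh2613c889e411427e.shift 3 0), rha7c7e95928c8200d] (by decide +kernel))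
noncomputable def rh74f15fb4638586db : CRef := CRef.mk (Pat.mk 0x70000000000000002000000020 0x1c0000001c000000ff0000007e0000001f0000003800000020 9 8) 0 0 (step_sound _ 99 [(rh31daaeef1d7d74c9.shift 0 2), (rh4c622fddc53a5f99.shift 1 3), (rh7654d7b92c96fe12.shift 1 2), (rh775ca1963e850b80.shift 1 2), (rhd160c09cc9af68b4.shift 2 0)] (by decide +kernel))
noncomputable def rhb8f9c4b925cd799d : CRef := CRef.mk (Pat.mk 0x800000010000000140000001400000010000000000000000000000000 0x80000001e0000001600000016000000160000003c0000002f0000000e0000000a 9 6) 0 0 (step_sound _ 259 [rh1bd50022e29be571, (rhcfdf45280693d3da.shift 3 4)] (by decide +kernel))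
noncomputable def rhf602b71397e9b727 : CRef := CRef.mk (Pat.mk 0x10000000080000000a0000000a0000000800000000 0x140000001f0000000b0000000b0000000b0000001e00000017 9 5) 0 0 (step_sound _ 163 [(rh2f68792b6b779e96.shift 3 2), rhd2a3f908cf5307ef] (by decide +kernel))
noncomputable def rh44d819a529f1e8a0 : CRef := CRef.mk (Pat.mk 0x80000000a0000000a0000000800000000 0x10000000190000001f0000000b0000000b0000001e00000017 9 5) 0 0 (step_sound _ 164 [rh20c042d77d4eafac, (rhbaefcd01e0a8bca3.shift 3 1)] (by decide +kernel))
noncomputable def rhbaef15c91a9a949d : CRef := CRef.mk (Pat.mk 0xa0000000a0000000a00000000 0x4000000ee000000fe000001fb0000000a00000002 9 9) 0 0 (step_sound _ 130 [rh5096814befefbae0, (rh8b14df1b185c100a.shift 1 1)] (by decide +kernel))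
noncomputable def rh0c251fd4871ada6e : CRef := CRef.mk (Pat.mk 0xa0000000a000000020000000000000000000000000 0x4000000060000001f0000000bc000001ef000001fe000001ff00000050 9 9) 0 0 (step_sound _ 69 [(rh57b469c1bf70b264.shift 2 2), (rh6eff4158bb400f47.shift 4 0), (rhbd2413bb4cc1fe3b.shift 4 0), (rhe0c2c7aba54ff101.shift 0 1)] (by decide +kernel))
noncomputable def rh399298fd978f1bcc : CRef := CRef.mk (Pat.mk 0x800000008000000280000000800000008 0xc0000000c0000001c00000398000001fc0000038f00000008 9 10) 0 0 (step_sound _ 162 [rha9f3f19b4d3ce621, (rhffd04209dc8ea796.shift 2 1)] (by decide +kernel))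
noncomputable def rh5e673d31bee54663 : CRef := CRef.mk (Pat.mk 0x20000001a0000000a00000002000000060000000100000000 0x40000001f00000017000000130000001a0000000a0000000a0000001e0000000300000001 9 5) 0 0 (step_sound _ 33 [(rh0be5a34564d3c645.shift 0 1), rh932754581e0f4330] (by decide +kernel))
noncomputable def rh99502ed2ad7a1259 : CRef := CRef.mk (Pat.mk 0x28000000280000000000000000 0x5400000056000000fe0000007e0000002f0000002800000028 9 8) 0 0 (step_sound _ 100 [(rh2820ca9a6c4f41b4.shift 0 2), (rh33ec534cf876afd1.shift 1 0), (rhaa71fc4afe731bba.shift 1 1), (rhd8b43b15431aaa50.shift 2 0)] (by decide +kernel))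
noncomputable def rh641775949594cdb0 : CRef := CRef.mk (Pat.mk 0x3000000020000000a000000030000000000000000000000000 0xe0000003e0000003e000000ff0000003e0000000f0000000800000008 9 8) 0 0 (step_sound _ 99 [rh568568240d95d343, (rhadf09b710084340a.shift 1 2), (rhb12ffaec36122c99.shift 0 2), (rhf4585caa3b13e38a.shift 2 3)] (by decide +kernel))
noncomputable def rha6749e11165663c7 : CRef := CRef.mk (Pat.mk 0x30000000000000001000000014000000140000001000000000 0x1cf000000fe000001f70000001600000016000000160000003c0000002c 9 9) 0 0 (step_sound _ 195 [(rh7b8a3f2a217d2093.shift 2 3), rh9565e2f5f5465f8e, (rh990f63a9b2e2f427.shift 3 2), (rhaee7df9897f948a1.shift 0 2)] (by decide +kernel))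
noncomputable def rh0a105c425b12a1ba : CRef := CRef.mk (Pat.mk 0x70000000000000002000000020000000280000003000000000 0x1ef000000fe000001cf00000020000000200000002c0000007800000040 9 9) 0 0 (step_sound _ 38 [(rh1f668177f4bbeefe.shift 0 1), (rh55afc6a59410cf00.shift 5 0)] (by decide +kernel))
noncomputable def rhf17eae8af7e96b40 : CRef := CRef.mk (Pat.mk 0xe0000000000000000 0x38000000380000007f0000003e0000007800000018 9 7) 0 0 (step_sound _ 68 [(rh3fc3a7fb6866dcd4.shift 1 1), (rhb18e6c78a554867d.shift 0 2), rhc39de04245f652fc, (rhe401600d466b97cd.shift 0 1)] (by decide +kernel))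
noncomputable def rh08f1c2ec58eb3c64 : CRef := CRef.mk (Pat.mk 0xe0000000000000000 0x3000000038000000380000007f0000007e000000f800000010 9 8) 0 0 (step_sound _ 68 [rh2d9968f7bfa119ba, (rh3fc3a7fb6866dcd4.shift 1 1), (rh533df5c46f4783d4.shift 1 1), (rhb18e6c78a554867d.shift 0 2), (rhe401600d466b97cd.shift 0 1)] (by decide +kernel))
noncomputable def rhec19641fba9f1e5a : CRef := CRef.mk (Pat.mk 0x20000000280000000c00000000 0x140000001c0000001c0000038f000003fc000007ef0000000c00000004 9 11) 0 0 (step_sound _ 99 [(rh038de9f6952c0fd9.shift 2 0), (rh7cf87eb4148196f7.shift 0 1), (rh976a48eb1c80a12f.shift 2 0), rha31ee65078464e98, rhe7b89f55913433cd] (by decide +kernel))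
noncomputable def rhf6ba6a468fba9a5a : CRef := CRef.mk (Pat.mk 0xc000000050000000000000000 0x500000007000000070000001f0000000fe000001ff0000003000000030 9 9) 0 0 (step_sound _ 100 [(rh352b7f91eba0c81f.shift 1 2), (rh67e5914ef7f4941c.shift 0 2), (rhb0ef2e53cc9ebd3d.shift 2 0), (rhbb229bad87965364.shift 0 2)] (by decide +kernel))
noncomputable def rh56509aeaa47fa8b0 : CRef := CRef.mk (Pat.mk 0x10000000100000005000000010000000000000000000000000 0x300000003000000018000000df000000ff0000000f0000000400000004 9 8) 0 0 (step_sound _ 99 [rh73ef9029486d9ebb, (rh932754581e0f4330.shift 3 2)] (by decide +kernel))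
noncomputable def rh35a060eb829f8f0e : CRef := CRef.mk (Pat.mk 0x80000002800000028000000000000000000000000 0x4000000044000000ff0000007c0000002e000000780000006c0000004c00000044 9 8) 0 0 (step_sound _ 67 [rha299bf8984363a29, (rhc4526fc8abf298b6.shift 2 0), (rhe1bcd80b5c7d4f4c.shift 1 1), (rheaae47637ecd3188.shift 2 0)] (by decide +kernel))
noncomputable def rha10bc693ecf8e890 : CRef := CRef.mk (Pat.mk 0xc00000008000000280000002800000008000000000000000000000000 0x3f00000078000000280000007c000001f8000000600000004000000040 9 9) 0 0 (step_sound _ 196 [rh2479b600d52864de, (rh2f68792b6b779e96.shift 3 3)] (by decide +kernel))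
noncomputable def rh960ee4811140405f : CRef := CRef.mk (Pat.mk 0x180000003800000000 0xa0000000e0000000e000000060000007e0000003f0000000f 9 7) 0 0 (step_sound _ 66 [(rhb739f4f82bb681b4.shift 1 1), rhc64a9559282249b8] (by decide +kernel))
noncomputable def rh2c25c289fa3fbf12 : CRef := CRef.mk (Pat.mk 0x80000002800000028000000000000000000000000 0x4000000040000000f40000007c0000002f0000007c0000006f0000004c00000040 9 8) 0 0 (step_sound _ 67 [(rh92ed3525f919a568.shift 0 1), (rhc8fd50c44a2112a0.shift 0 1), (rhe1bcd80b5c7d4f4c.shift 1 1), (rheaae47637ecd3188.shift 2 0)] (by decide +kernel))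
noncomputable def rh42012008c81ce08f : CRef := CRef.mk (Pat.mk 0x800000008000000280000002c000000000000000000000000 0x50000003f0000007f0000002f0000007e000000e30000004000000040 9 8) 0 0 (step_sound _ 194 [(rh50fbb5868c909700.shift 2 3), rhfdef26e44483acf2] (by decide +kernel))
noncomputable def rhce9bf345ac50ae86 : CRef := CRef.mk (Pat.mk 0x500000004000000040000000400000000 0x60000000680000007f0000007c000000740000001400000004 9 7) 0 0 (step_sound _ 131 [(rh2f68792b6b779e96.shift 2 1), rhad02f4055655e295] (by decide +kernel))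
noncomputable def rh3e7288b83fe20306 : CRef := CRef.mk (Pat.mk 0xc00000008000000080000002c00000028000000000000000000000000 0x10000000780000004f000000780000007c0000002c00000078000000600000004000000040 9 7) 0 0 (step_sound _ 259 [rh73f3d377bdc17932, (rh79877ebd3ef475dd.shift 2 4)] (by decide +kernel))
noncomputable def rhac2c6b1b39e7ea97 : CRef := CRef.mk (Pat.mk 0x100000001800000018 0x1600000016000000ff000000ff0000001e 9 8) 0 0 (step_sound _ 100 [(rh5c5e593799055d58.shift 3 0), rh79b9bf4a66eff567] (by decide +kernel))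
noncomputable def rh74bc750c9ad9ed87 : CRef := CRef.mk (Pat.mk 0x2000000030000000300000000000000000 0x3c0000003c000001ee000000ff0000003e0000000f0000000c 9 9) 0 0 (step_sound _ 67 [(rh4f9d753263020791.shift 1 0), (rh6bc0c8939a9a008f.shift 1 0), (rhab2ad169e49f9c5e.shift 1 2), (rhb12ffaec36122c99.shift 0 1)] (by decide +kernel))
noncomputable def rh2e4f1061f88c71f8 : CRef := CRef.mk (Pat.mk 0x20000000b0000000a0000000000000000000000000 0x1000000010e0000018e000001ff000000be000001ef0000018c0000010000000100 9 9) 0 0 (step_sound _ 131 [(rh281e9a87c20e4a66.shift 0 2), (rhcf86d050071af9b3.shift 2 3), (rhf66e65c20391069b.shift 3 0)] (by decide +kernel))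
noncomputable def rh90b8a06ab1b39b1f : CRef := CRef.mk (Pat.mk 0x100000003400000030000000a00000000000000000 0xa0000000e0000000f0000001e000000360000003e000001ee0000000e0000000a 9 9) 0 0 (step_sound _ 70 [rhf1e3b24975f9e705, (rhf48373e13d2bc128.shift 4 2)] (by decide +kernel))
noncomputable def rh26794863da0883be : CRef := CRef.mk (Pat.mk 0x800000010000000100000001800000030 0x1c0000001e000000770000007f0000001e00000030 9 7) 0 0 (step_sound _ 34 [(rh575122883a8a7381.shift 0 1), (rhb739f4f82bb681b4.shift 1 0)] (by decide +kernel))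
noncomputable def rhe9729a394e2406ba : CRef := CRef.mk (Pat.mk 0x80000002800000028000000000000000000000000 0x4000000040000000f8000000780000002e0000007c0000006f0000004400000044 9 8) 0 0 (step_sound _ 66 [(rh045fdf00b94dada8.shift 0 1), (rh0f250c3faaf51672.shift 2 0), (rh500fb1836ab2ed66.shift 1 2), (rh544d3caba1e1e2bb.shift 2 0)] (by decide +kernel))
noncomputable def rh423d6d7253d9fa5c : CRef := CRef.mk (Pat.mk 0x2000000020000000a0000000a00000000000000000000000000000000 0x1000000130000001f0000001f0000000a0000000f0000001d0000001c0000001400000014 9 5) 0 0 (step_sound _ 256 [rh33bce5f048c750a8, (rhffd04209dc8ea796.shift 0 4)] (by decide +kernel))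
noncomputable def rhf489ee14e90850d6 : CRef := CRef.mk (Pat.mk 0xe0000002800000020000000200000000000000000 0x40000003e0000003fe000007ef00000020000000300000003000000010 9 11) 0 0 (step_sound _ 165 [(rh1c34848042744132.shift 2 1), (rh367118e0bf0473e0.shift 4 0), (rh411c59e4c32629a3.shift 0 1), (rhb0aabc08a537e739.shift 2 2)] (by decide +kernel))
noncomputable def rh7e61343ba649ce05 : CRef := CRef.mk (Pat.mk 0x20000000a0000000a0000000800000000 0xf0000000fe000001ff0000000b0000000800000008 9 9) 0 0 (step_sound _ 132 [(rh647c73487fcf3f67.shift 0 1), rh86bf295edf98b8a4, (rh9021aafc213c840e.shift 0 1), rh9c8943d9f76f5c55] (by decide +kernel))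
noncomputable def rh3d4987890bcaefd8 : CRef := CRef.mk (Pat.mk 0x20000000a000000080000003e00000000 0x1b0000001e0000000b00000038000000fe000000e3 9 8) 0 0 (step_sound _ 68 [(rh33e738c4ed385b9f.shift 1 1), rhcf284e0fb448e50d] (by decide +kernel))
noncomputable def rh6e4cc3934242499b : CRef := CRef.mk (Pat.mk 0x20000000a0000000a0000000a00000000000000000000000000000000 0x10000000180000001e0000000b0000001b0000001a0000003f0000001f0000001700000005 9 6) 0 0 (step_sound _ 97 [rh2bbf60134305dc90, (rh6222ee8af6037dff.shift 0 2), (rh6be151c8a20c06ef.shift 0 1), (rh6eff4158bb400f47.shift 0 1), (rhb701499b59feaa8d.shift 0 1), rhc6ef1fead54bfbe8] (by decide +kernel))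
noncomputable def rhd871cdb9fe1c1959 : CRef := CRef.mk (Pat.mk 0xa0000000a00000002000000040000000000000000 0x8000000080000000b0000001f0000001a0000001f0000001700000001 9 5) 0 0 (step_sound _ 65 [rh1fff88f83a1750b7, (rh55afc6a59410cf00.shift 1 1)] (by decide +kernel))
noncomputable def rh19672fd93d7abac7 : CRef := CRef.mk (Pat.mk 0x20000000f0000000000000000000000000 0xa0000000e0000000e0000003f000000fe0000000f0000000c00000008 9 8) 0 0 (step_sound _ 99 [(rh0c928d324d409faa.shift 1 2), (rh1f9701c4cf497514.shift 0 2), rh6a7f0c52f102bbac, (rh775ca1963e850b80.shift 1 2), (rhd5eb272e07a4e288.shift 2 3)] (by decide +kernel))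
noncomputable def rhea5e1fff21103425 : CRef := CRef.mk (Pat.mk 0x20000000a0000000a000000000000000000000000 0xa0000000a000000eb0000007e000000fe0000001400000014 9 8) 0 0 (step_sound _ 98 [rh53a9eca71b4a4b8f, (rh70e33bfdf511e144.shift 1 0), rh7319239261bcf46f] (by decide +kernel))
noncomputable def rh71123fe5dbd5a694 : CRef := CRef.mk (Pat.mk 0x400000007000000010000000000000000000000000 0x18000000180000007f0000007e0000001f0000000c0000000c0000000c 9 7) 0 0 (step_sound _ 131 [(rh21d582c147e7e118.shift 1 3), (rh4592e78c73a42485.shift 2 0), (rh551591afa7e9bd9a.shift 0 3), (rh7fb660bc21ce4329.shift 1 4)] (by decide +kernel))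
noncomputable def rhc1178822fceeba93 : CRef := CRef.mk (Pat.mk 0x7800000028000000200000002000000000 0xe0000007c000000280000006f0000003e00000017 9 7) 0 0 (step_sound _ 162 [(rh3f8766e6ecb455ce.shift 2 4), rhbadcfac9041644b4] (by decide +kernel))
noncomputable def rhd63f27c9f495911e : CRef := CRef.mk (Pat.mk 0x300000000400000004000000000000000200000000 0x20000000e0000000e0000000e000000070000003e0000000600000006000000060000000200000002 9 6) 0 0 (step_sound _ 162 [(rh24c6b7df9b0ea359.shift 1 1), (rh2a3f83f36967c785.shift 1 0), (rhb553e5cb94120f6a.shift 1 1), (rhd193573677d8a2ed.shift 1 2), (rhfd5dd1735ba35f37.shift 0 2)] (by decide +kernel))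
noncomputable def rh4118652576a4c9f8 : CRef := CRef.mk (Pat.mk 0xe0000000a000000080000000800000008000000000 0x3000000030000001be000000fe000000bf000000b8000000f8000001b800000100 9 9) 0 0 (step_sound _ 164 [(rhbdb462b350c48652.shift 3 0), (rhd5889c99d29bf7d6.shift 3 2), (rhea5dc028f2d9003f.shift 0 4)] (by decide +kernel))
noncomputable def rhfe7fe68ed4b22aac : CRef := CRef.mk (Pat.mk 0x1e00000014000000100000001000000000 0x600000006000000360000001e00000017000000370000003f00000007 9 6) 0 0 (step_sound _ 97 [rhc051073932639182, (rheb0810cc63b001d8.shift 0 3)] (by decide +kernel))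
noncomputable def rhd890e4315e855f62 : CRef := CRef.mk (Pat.mk 0x20000000200000002000000000000000000000000000000000000000000000000 0x100000007000000070000000700000003000000030000000300000003000000030000000700000007000000070000000700000001 9 3) 0 0 (step_sound _ 161 [(rh6aa5625770489e83.shift 0 3), (rh771d065bdc85bf2d.shift 0 4), (rha1f87386ec8b9004.shift 0 3), rhb19cf16d0bbd36d2, (rhc850b49d039efae1.shift 0 2)] (by decide +kernel))
noncomputable def rh7eb749f43a213449 : CRef := CRef.mk (Pat.mk 0x140000001400000004000000000000000000000000000000000000000000000000 0x2000000060000001e0000003700000006000000060000000e0000000e0000000e0000000e00000002 9 6) 0 0 (step_sound _ 162 [(rh6aa5625770489e83.shift 1 3), (rh771d065bdc85bf2d.shift 1 4), (rhaaa009f732ae62a1.shift 0 4), (rhb19cf16d0bbd36d2.shift 1 0), (rhc850b49d039efae1.shift 1 2)] (by decide +kernel))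
noncomputable def rh6b9d9ddc46c6d293 : CRef := CRef.mk (Pat.mk 0x40000001400000004000000000000000000000000000000000000000000000000 0x600000006000000070000001e00000007000000060000000e0000000e0000000e0000000e00000002 9 5) 0 0 (step_sound _ 162 [(rh6aa5625770489e83.shift 1 3), (rh771d065bdc85bf2d.shift 1 4), (rha3bd360065b44ea3.shift 0 4), (rhb19cf16d0bbd36d2.shift 1 0), (rhc850b49d039efae1.shift 1 2)] (by decide +kernel))
noncomputable def rh03ae9f42c545fa07 : CRef := CRef.mk (Pat.mk 0x1800000018000000100000001800000000 0x170000001f0000001b0000001f0000001f00000004 9 5) 0 0 (step_sound _ 67 [(rh5c5e593799055d58.shift 3 1), rh8bd9b647bba87e13] (by decide +kernel))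
noncomputable def rhfe2f8c7c5b229ed2 : CRef := CRef.mk (Pat.mk 0x1800000018000000100000001000000000 0x140000001c0000001e0000001f0000001f0000000f 9 5) 0 0 (step_sound _ 35 [(rh932754581e0f4330.shift 3 0), rhed3b0c4c8e42d710] (by decide +kernel))
noncomputable def rhf408533858aa5c5a : CRef := CRef.mk (Pat.mk 0x8000000280000002800000000000000000000000000000000 0x4000000044000000ff0000007c0000002c000000780000006c0000005c0000005c00000014 9 8) 0 0 (step_sound _ 99 [(rh3c3f9ee7df44e231.shift 2 1), (rh47992774edf9829f.shift 2 0), (rha299bf8984363a29.shift 0 1), (rheaae47637ecd3188.shift 2 1)] (by decide +kernel))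
noncomputable def rh89045a9c060bca53 : CRef := CRef.mk (Pat.mk 0x800000028000000280000000000000000000000000000000000000000 0x4000000040000000f00000007c0000002f0000007c0000006f0000005c0000005c0000001c00000004 9 8) 0 0 (step_sound _ 131 [(rh255353f4b2345ec5.shift 2 0), (rhbc5bda5a56022781.shift 0 1), (rhc8fd50c44a2112a0.shift 0 3), (rheaae47637ecd3188.shift 2 2)] (by decide +kernel))
noncomputable def rha540927a1cc9349a : CRef := CRef.mk (Pat.mk 0x2000000020000000a0000000a000000120000000000000000000000000000000000000000 0x700000003e0000007f0000000a0000003a0000003a0000003800000010000000180000001800000008 9 7) 0 0 (step_sound _ 290 [rhba75e719405cbd37, (rhbaefcd01e0a8bca3.shift 1 5)] (by decide +kernel))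
noncomputable def rh81218345ebb6e9de : CRef := CRef.mk (Pat.mk 0x2000000020000000a0000000a0000001100000000 0x700000003e0000007f0000000a0000001e0000001300000001 9 7) 0 0 (step_sound _ 33 [rh932754581e0f4330, (rhfbc45077e654582a.shift 0 1)] (by decide +kernel))
noncomputable def rhb6369e4a04ed7f96 : CRef := CRef.mk (Pat.mk 0x2000000020000000a0000000a000000130000000000000000 0x700000003e0000007f0000000a0000001e000000130000001000000010 9 7) 0 0 (step_sound _ 100 [rh6b1c275b9a050651, (rhb2a0b9ccfb5cecd5.shift 0 2)] (by decide +kernel))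
noncomputable def rh6feaf5c2e7458fa4 : CRef := CRef.mk (Pat.mk 0x2000000020000000a0000001a000000300000000000000000 0x700000003e0000007f0000000a0000001a000000f30000001f00000015 9 8) 0 0 (step_sound _ 36 [(rh7b1f1fb55310c477.shift 3 0), rhd8b83c90fc12a81a] (by decide +kernel))
noncomputable def rh698018db68c59b67 : CRef := CRef.mk (Pat.mk 0x60000001e000000000000000000000000 0xe0000001e0000003b0000001f0000003f 9 6) 0 0 (step_sound _ 65 [rh4389fb86fb15076a, (rheb0810cc63b001d8.shift 0 2)] (by decide +kernel))
noncomputable def rh889ae7912b23410c : CRef := CRef.mk (Pat.mk 0x2000000020000001a000000720000000000000000 0xc2000000c2000000fa0000007b000000ef00000025 9 8) 0 0 (step_sound _ 32 [(rh79877ebd3ef475dd.shift 0 1), rhc6d2599da87b0b99] (by decide +kernel))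
noncomputable def rhc8c154d3435159c0 : CRef := CRef.mk (Pat.mk 0x40000000400000005000000040000000000000000 0x400000064000000640000007f0000007c0000007800000010 9 7) 0 0 (step_sound _ 67 [(rh55afc6a59410cf00.shift 2 1), rh653c327ac0a2093a] (by decide +kernel))
noncomputable def rh24e9c1c8c56c16c2 : CRef := CRef.mk (Pat.mk 0x10000000180000005000000050000000000000000000000000 0x1000000013000000530000007f0000005f000000ff000000c40000008000000080 9 8) 0 0 (step_sound _ 131 [(rh503dd4575245365b.shift 3 3), rh6b37e68b76acbd5a, (rh8c25cb665ab79ec0.shift 1 3)] (by decide +kernel))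
noncomputable def rh6dfc0fa9ca4e4cd2 : CRef := CRef.mk (Pat.mk 0x3000000030000000b8000000a0000000000000000000000000 0xa0000000e0000000e00000007000000be000000ff000000b8000001e0000001800000010000000100 9 9) 0 0 (step_sound _ 195 [(rh22ffac98b8cabdd0.shift 3 0), (rh3918eeb6c53434d8.shift 0 5), (rhfa98e4db559b6d63.shift 1 4)] (by decide +kernel))
noncomputable def rhd4a2bc2ea1230495 : CRef := CRef.mk (Pat.mk 0x800000010000000100000005000000050000000000000000000000000 0x800000098000003f4000000f70000005f000000ff000000d30000008300000080 9 10) 0 0 (step_sound _ 131 [(rh2e56d16230636d71.shift 0 1), (rh8c25cb665ab79ec0.shift 1 3), (rhbdd4e349c1dde679.shift 3 3), (rhd2b1fa8be9bbd212.shift 3 0)] (by decide +kernel))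
noncomputable def rh02c20ba4563c4e9b : CRef := CRef.mk (Pat.mk 0x80000002c0000002800000000000000000000000000000000 0x100000007c0000002f00000078000000280000001c0000001c00000014 9 7) 0 0 (step_sound _ 132 [rh9bcfc2eac03b4f27, (rhf48373e13d2bc128.shift 2 4)] (by decide +kernel))
noncomputable def rhc4d7821f25b3c7ad : CRef := CRef.mk (Pat.mk 0x80000000c00000028000000000000000000000000 0x40000000c0000000f0000007b0000001f0000001e00000014 9 7) 0 0 (step_sound _ 100 [rh8011d369fe5fa33d, (rhf48373e13d2bc128.shift 2 3)] (by decide +kernel))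
noncomputable def rhe209853fe64cdce0 : CRef := CRef.mk (Pat.mk 0x2000000030000000200000002000000000 0x1000000030000000300000003e0000007e0000005f 9 7) 0 0 (step_sound _ 132 [(rh50fbb5868c909700.shift 4 1), rh84296c011116bd58] (by decide +kernel))
noncomputable def rh7d0983e4ae6bf1e9 : CRef := CRef.mk (Pat.mk 0x400000004000000040000000800000000 0x7a0000003e00000077000000040000000c0000000c 9 7) 0 0 (step_sound _ 34 [(rh55afc6a59410cf00.shift 2 0), rh632207cf66104cb2] (by decide +kernel))
noncomputable def rh437709403a318eb1 : CRef := CRef.mk (Pat.mk 0x4000000040000000400000004000000040 0x7e7000003fe000007ff0000004000000040 9 11) 0 0 (step_sound _ 101 [(rh50fbb5868c909700.shift 5 0), rhcc7bbbe1e143df66] (by decide +kernel))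
noncomputable def rh825b8ab1ed182b05 : CRef := CRef.mk (Pat.mk 0x20000000200000002000000020000000000000000000000000000000000000000 0x30000000300000007000000070000000600000007000000070000000700000005 9 3) 0 0 (step_sound _ 129 [(rh47992774edf9829f.shift 0 1), rh4dda2589854e6479, (rhd29a1fb688eae70f.shift 1 3), (rhe84e00c98653ad0c.shift 0 1)] (by decide +kernel))
noncomputable def rh7d334f82edc5a357 : CRef := CRef.mk (Pat.mk 0x1000000018000000180000000000000000 0xc0000000f0000001f0000001f0000001e0000000c0000000c 9 5) 0 0 (step_sound _ 35 [(rh71222050f2c63a3a.shift 3 0), rhf57854ce7945c3ec] (by decide +kernel))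
noncomputable def rh9d230cfc70d13e39 : CRef := CRef.mk (Pat.mk 0x10000000100000001000000000000000000000000000000000 0x40000000c0000003f0000003f0000001f0000001800000038000000380000003800000028 9 6) 0 0 (step_sound _ 100 [(rh3682506ad92a92ce.shift 0 2), (rh47992774edf9829f.shift 3 0), (rh565a0c22519f57e9.shift 3 2), (rh6eff4158bb400f47.shift 3 1)] (by decide +kernel))
noncomputable def rh6301cf14d7f0efc7 : CRef := CRef.mk (Pat.mk 0x10000000100000005000000000000000000000000000000000 0x40000000c0000003f0000003f0000001f000000f800000030000000380000003800000028 9 8) 0 0 (step_sound _ 100 [(rh098c9ae918f31a59.shift 1 2), (rh3682506ad92a92ce.shift 0 2), (rh47992774edf9829f.shift 3 0), (rh7eb4a07d72ad7934.shift 3 2)] (by decide +kernel))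
noncomputable def rh47286b634e864e2d : CRef := CRef.mk (Pat.mk 0x100000001000000050000000000000000000000000 0x10000000100000071f000003fe000007ef0000002000000020 9 11) 0 0 (step_sound _ 101 [(rh1064b6e54f4078e6.shift 0 2), (rh7319239261bcf46f.shift 3 0), (rha9fbfd4bb8cf890b.shift 1 3)] (by decide +kernel))
noncomputable def rh1845c9ca2e4010f7 : CRef := CRef.mk (Pat.mk 0x2000000020000000200000003000000000 0x1000000030000000300000007f000001fe0000004f 9 9) 0 0 (step_sound _ 38 [(rh55afc6a59410cf00.shift 5 0), rhafbe8c089139cfe3] (by decide +kernel))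
noncomputable def rh80ebefe1c51febd1 : CRef := CRef.mk (Pat.mk 0x200000002800000020000000400000000000000000 0x770000003e00000027000000700000007000000010 9 7) 0 0 (step_sound _ 69 [rh1d29fa65dade6cbd, (rh55afc6a59410cf00.shift 5 1)] (by decide +kernel))
noncomputable def rhadbd135657bb7f78 : CRef := CRef.mk (Pat.mk 0x280000002800000020000000600000000000000000 0x40000003f0000037c00000328000007f8000003e80000078000000080 9 11) 0 0 (step_sound _ 102 [(rh2145e1d24b96a57e.shift 5 2), rh98dd16571ef4f021] (by decide +kernel))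
noncomputable def rh39f5bd8f2d7b6f19 : CRef := CRef.mk (Pat.mk 0x1400000014000000100000001000000000 0x2f0000003e000000140000003e000000f400000020 9 8) 0 0 (step_sound _ 37 [(rh45dbe7a67071c8fc.shift 0 1), (rh55afc6a59410cf00.shift 4 0)] (by decide +kernel))
noncomputable def rh034afa28124329a2 : CRef := CRef.mk (Pat.mk 0x28000000280000002000000060 0x40000003f0000007c000000280000007c000001f8 9 9) 0 0 (step_sound _ 133 [rh89a9ea7b3ec640f1, (rhd3458b32566d63f7.shift 5 0)] (by decide +kernel))
noncomputable def rh3460e3bd3e58bc78 : CRef := CRef.mk (Pat.mk 0x280000002800000020000000200000000000000000 0x40000001f0000007c000000280000007c000001ff0000003c00000010 9 9) 0 0 (step_sound _ 99 [rh964b80b1fb5de76f, (rhda2fb1cb5de1ff1c.shift 2 1), (rhf7497dc7ba4b5c28.shift 0 2)] (by decide +kernel))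
noncomputable def rhdd35256da8c83364 : CRef := CRef.mk (Pat.mk 0x80000002800000020000000000000000000000000 0x40000001f80000007c0000002f0000007e0000007e0000007400000054 9 9) 0 0 (step_sound _ 165 [rh1cfa8e038e2f7eb2, (rh2b829fc43539fe53.shift 2 0), (rh568b8cdc1b2d82cd.shift 0 1), (rh70c796c1040c85c7.shift 0 2), rh801ec95a9cb1ea0d, rh8c8962ce3245870a, (rh93864499bc1325c2.shift 1 0), (rhb88db06419790517.shift 0 1), rhdbf2116d4bcf3026] (by decide +kernel))
noncomputable def rh22c733cdbbe2e25a : CRef := CRef.mk (Pat.mk 0x38000000000000000000000000 0xc0000000f0000003e0000007f0000000e0000000e 9 7) 0 0 (step_sound _ 98 [(rh0d378fd9e8917c5a.shift 0 2), (rh185f35b8bd8ec37f.shift 0 2), (rh552a6936c04b14b8.shift 1 0), (rh775ca1963e850b80.shift 0 2)] (by decide +kernel))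
noncomputable def rh6037b2a7b664cf96 : CRef := CRef.mk (Pat.mk 0x380000000000000000 0xe0000000e0000007f0000003e0000000f0000000c 9 7) 0 0 (step_sound _ 66 [(rh4c622fddc53a5f99.shift 0 2), (rh775ca1963e850b80.shift 0 1), (rh7db7945beb4d3953.shift 1 0), (rh9e97bba44c1b13e4.shift 0 1)] (by decide +kernel))
noncomputable def rh8ca15ac0a42977a4 : CRef := CRef.mk (Pat.mk 0xe000000080000000800000000000000000 0x35e000001fe000000bf000001f8000007bc00000138 9 11) 0 0 (step_sound _ 69 [(rh054c24ed64bf4bf0.shift 2 0), (rh05dae7526eb63b92.shift 3 0), rh08bad8e17a315636, (rhc4b38bd1b2cdf635.shift 4 0)] (by decide +kernel))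
noncomputable def rh4cc2f4cac6fb4cc3 : CRef := CRef.mk (Pat.mk 0x400000000000000040000000e000000000000000000000000000000000 0x60000000780000003c0000007f000000fe0000003f000000380000003800000028 9 8) 0 0 (step_sound _ 132 [(rh19863bb6b03fa27c.shift 0 2), (rh39044c6164022eb3.shift 0 3), (rh5b2ce1e5aa4a4edd.shift 1 3), (rh775ca1963e850b80.shift 2 3), (rhb6ac2332bcb2fd3b.shift 3 0)] (by decide +kernel))
noncomputable def rh7f642198d05ed3e0 : CRef := CRef.mk (Pat.mk 0x60000001700000004000000000000000000000000 0x280000003e0000003a0000003e000000170000003e000000380000003800000028 9 6) 0 0 (step_sound _ 225 [(rh6f1cbe15c631ee70.shift 1 3), rhabbbfd4810ce4949] (by decide +kernel))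
noncomputable def rh4e1e8e5e8bfbccfa : CRef := CRef.mk (Pat.mk 0x80000000c00000008000000020000000000000000 0x40000001c0000001c0000001c0000000c0000000c000000080000001f0000001c00000010 9 5) 0 0 (step_sound _ 195 [rh3ac1d28ba571105f, (rh42ab489a1be3958e.shift 2 3), rh961a47501476152d, (rhc85cc95794737cf7.shift 2 3), rhd20ac6516de2ef00] (by decide +kernel))
noncomputable def rhc9b953370b0fd62a : CRef := CRef.mk (Pat.mk 0x70000001400000004000000000 0x21000000230000007bf000003ff000001770000016000000100 9 11) 0 0 (step_sound _ 99 [(rh290a9fb7ead95533.shift 2 1), (rh2d8db8ae5a897a2b.shift 0 2), (rh36eba2a3de447758.shift 0 2), (rh959850bff64c8374.shift 2 0)] (by decide +kernel))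
noncomputable def rh7a21fd7bc487a90b : CRef := CRef.mk (Pat.mk 0x8000000000000001c0000005800000010000000000000000000000000 0xa0000000f8000000e0000000fc0000005f000000f8000000e0000000e0000000a0 9 8) 0 0 (step_sound _ 130 [(rh4dc133ee0ba1420a.shift 0 4), (rhabbbfd4810ce4949.shift 2 0), (rhcf86d050071af9b3.shift 1 3), (rhf56e6bc5d2f7fe77.shift 0 3)] (by decide +kernel))
noncomputable def rha8eceb9a9ff333fb : CRef := CRef.mk (Pat.mk 0x1e0000000c00000008 0x1000000170000001f000000370000001e0000000f00000008 9 6) 0 0 (step_sound _ 33 [rhdce3d6b87e60b48e, (rheb0810cc63b001d8.shift 0 1)] (by decide +kernel))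
noncomputable def rh698b470612b9741b : CRef := CRef.mk (Pat.mk 0x1e0000000800000008000000000 0x50000000500000007f000001fe000000f7000000a000000020 9 9) 0 0 (step_sound _ 69 [rh4aada9479f250edb, (rheb0810cc63b001d8.shift 4 2)] (by decide +kernel))
noncomputable def rh844214a7d645d440 : CRef := CRef.mk (Pat.mk 0x3800000020000000000000000000000000 0xc0000000c0000000f0000003e0000003f0000000e0000000e00000006 9 6) 0 0 (step_sound _ 130 [(rhd1d05263fabc0227.shift 0 3), (rhd28f7b358a124c7e.shift 1 0), (rhdceeca65bdd8095a.shift 0 3)] (by decide +kernel))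
noncomputable def rhda5b0be0b599c8fd : CRef := CRef.mk (Pat.mk 0x3c00000058000000100000000000000000 0xc0000000ff00000058000000f8000000f0000000b0 9 8) 0 0 (step_sound _ 36 [rh6b5c5f6d28c1df7c, (rh7b1f1fb55310c477.shift 3 0)] (by decide +kernel))
noncomputable def rh143ea9a065a4adfe : CRef := CRef.mk (Pat.mk 0x18000000280000000800000000 0x1000000010000003f0000001f8000003af0000007c00000028 9 10) 0 0 (step_sound _ 132 [(rh71222050f2c63a3a.shift 3 0), rhc70700ceea55a332] (by decide +kernel))
noncomputable def rh13c8cb677084001a : CRef := CRef.mk (Pat.mk 0x3800000000000000000000000000000000 0xc0000000c000001de000000fc0000000f0000000e0000000e00000006 9 9) 0 0 (step_sound _ 98 [(rh3cc5c7fb74c49f61.shift 0 3), (rh73f5f7cdf41b5bc9.shift 1 2), (rhc277914c2ed71bf6.shift 1 3), (rhc2f5cb19e51fa5d5.shift 2 3), (rhd4a736842dec618f.shift 1 0)] (by decide +kernel))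
noncomputable def rh1e390c6b54499abb : CRef := CRef.mk (Pat.mk 0x18000000180000001a000000500000000000000000 0x15000000170000003f0000001f0000001b000000f70000000700000005 9 8) 0 0 (step_sound _ 228 [rh12061920b041db2a, (rhee230b994cc8b773.shift 3 3)] (by decide +kernel))
noncomputable def rhaa4ef98d5f141e7e : CRef := CRef.mk (Pat.mk 0x180000001a00000000 0x10000000700000007000000070000001f0000001f00000003 9 5) 0 0 (step_sound _ 34 [rh38fe41199d46bd27, (rh53b3c253cb0c65f4.shift 0 1)] (by decide +kernel))
noncomputable def rhc731dd3350f5a32e : CRef := CRef.mk (Pat.mk 0x10000000100000001000000018 0xef000000ff0000003f0000001800000018 9 8) 0 0 (step_sound _ 99 [rh2579e45badb532ba, (rh50fbb5868c909700.shift 3 0)] (by decide +kernel))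
noncomputable def rhcf3c6f77d02941ec : CRef := CRef.mk (Pat.mk 0x300000002000000030000000a00000000000000000 0xa0000000e0000004e0000007e0000003f0000003e000001ef0000002e0000000a 9 9) 0 0 (step_sound _ 98 [(rh36cf33ca80b33456.shift 2 2), (rh568888e51aa47d8f.shift 1 0), (rhff8326e31a7c12c8.shift 0 2)] (by decide +kernel))
noncomputable def rh262883f10717b1a2 : CRef := CRef.mk (Pat.mk 0x500000001a00000018000000180000000000000000 0x500000007000000f70000001b0000001f0000003f0000001700000015 9 8) 0 0 (step_sound _ 4 [(rh9e07f76261b05888.shift 3 0), rhccd3da8ad89ccecc] (by decide +kernel))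
noncomputable def rhc658a46ce4a6acfc : CRef := CRef.mk (Pat.mk 0x1a0000001800000000000000000000000000000000 0x30000001f0000001f00000007000000070000000700000001 9 5) 0 0 (step_sound _ 162 [(rhb739f4f82bb681b4.shift 0 4), rhdd5421d82ea8dda4] (by decide +kernel))
noncomputable def rha0aea814e7f51fb2 : CRef := CRef.mk (Pat.mk 0x1800000010000000100000001000000000 0x18000000180000003f000000ff000000ef 9 8) 0 0 (step_sound _ 35 [rh502024dceb64c54f, (rh932754581e0f4330.shift 3 0)] (by decide +kernel))
noncomputable def rh141e98b3b8560617 : CRef := CRef.mk (Pat.mk 0xa0000000300000002000000030000000000000000000000000 0xa0000002e000001ef0000003e0000003f0000007e0000004e0000000e0000000a 9 9) 0 0 (step_sound _ 162 [(rh2b75b59b91c70173.shift 0 4), (rh7d44b6060fe480d4.shift 2 5), (rhd2535ba1c3cca78a.shift 1 0)] (by decide +kernel))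
noncomputable def rhe87a141a3ddc0293 : CRef := CRef.mk (Pat.mk 0x480000000c0000004000000000000000000000000000000000 0x100000001800000018000000780000000f0000007c0000001c0000001c0000001c00000004 9 7) 0 0 (step_sound _ 196 [(rh361cc68994bd8a63.shift 2 5), rh664bab8444a1d212] (by decide +kernel))
noncomputable def rh98d8286ef8959523 : CRef := CRef.mk (Pat.mk 0x38000000200000003800000000 0x1c0000003c0000001f0000001c00000038000000380000003800000010 9 6) 0 0 (step_sound _ 131 [(rh1d3d5ccf5bd9eaf1.shift 2 0), (rh843dd54217a611e0.shift 0 1), (rh935da622f8ebc962.shift 3 0), (rhd81dc717682956d1.shift 3 0)] (by decide +kernel))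
noncomputable def rh38399f28867ff0a3 : CRef := CRef.mk (Pat.mk 0x40000000400000007000000000000000000000000000000000 0x40000001c0000007c0000007f0000007e0000000f0000001c0000001c00000014 9 7) 0 0 (step_sound _ 131 [(rh1cf7204b4a3ab876.shift 2 0), (rh21d582c147e7e118.shift 1 3), (rh592c7139d2c44767.shift 1 3), (rh5e601430b8bc2e39.shift 0 3), (rh7fb660bc21ce4329.shift 1 4)] (by decide +kernel))
noncomputable def rhe631278183080db2 : CRef := CRef.mk (Pat.mk 0x200000002000000030 0x500000007f0000007e000000ff0000003800000030 9 8) 0 0 (step_sound _ 101 [(rh1741680720c097b4.shift 4 0), rh38c8fde7d4ea4394, (rh9a369cb82ea472da.shift 4 0), (rhe62cab2ff5ad6fe2.shift 4 0)] (by decide +kernel))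
noncomputable def rh5dec8d68b5194427 : CRef := CRef.mk (Pat.mk 0x100000003000000018 0x28000000380000003f0000003e000000770000003e0000001e 9 7) 0 0 (step_sound _ 1 [(rh24ae073cf30720c4.shift 1 0), rhb0844fa5cc84ae8b] (by decide +kernel))
noncomputable def rh5820e26ee479d796 : CRef := CRef.mk (Pat.mk 0xb00000009a000000c000000000000000000000000000000000 0x40000000c0000002f000000bf000000db000000d800000078000000780000007800000020 9 8) 0 0 (step_sound _ 102 [rh65dc60f498c199b3, (rhf9af042da61fc652.shift 6 1)] (by decide +kernel))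
noncomputable def rh0c64dc0f4698397c : CRef := CRef.mk (Pat.mk 0x60000001600000006000000000000000000000000 0x280000003f0000003b0000003e000000160000003e0000003b0000003b00000028 9 6) 0 0 (step_sound _ 164 [rh5f3acdbdeac0cab2, (rh8ebc15871c473b31.shift 0 3), rhb8408edd4fb55b0c] (by decide +kernel))
noncomputable def rhb78a9c4a3a7ccce0 : CRef := CRef.mk (Pat.mk 0x60000001600000006000000000000000000000000 0x280000003f0000003b0000003e000000160000003f000000380000003800000028 9 6) 0 0 (step_sound _ 164 [rh1e0c585f9b29c5f4, (rh367c4143e5a63119.shift 1 2), (rh8ebc15871c473b31.shift 0 3)] (by decide +kernel))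
noncomputable def rh52650bdf03a7e73a : CRef := CRef.mk (Pat.mk 0x120000005300000058000000000000000000000000 0xa0000000e8000000ec000000fe0000005b000000fe000000cc0000008c00000080 9 8) 0 0 (step_sound _ 163 [rh864d0f7e0b70fcf1, (rhb2a0b9ccfb5cecd5.shift 0 4)] (by decide +kernel))
noncomputable def rh66c9db40a3d5ed92 : CRef := CRef.mk (Pat.mk 0x60000001400000014000000000000000000000000 0x200000003a0000003e0000007b0000003e0000001600000034000000380000003800000028 9 7) 0 0 (step_sound _ 164 [(rh00e164d6cde6a508.shift 0 2), (rh3a602b9f5da63875.shift 1 0), (rh7448f9cefc0787ad.shift 3 0), (rhb2057938e92e7d47.shift 1 2), rhb22f0287a51d5e52, (rhbdce13b1f10ed42c.shift 1 0)] (by decide +kernel))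
noncomputable def rh7e73d3fa32e00ba8 : CRef := CRef.mk (Pat.mk 0x120000005b0000005000000000 0xa0000000e8000000ec000000fe0000005b000000f000000020 9 8) 0 0 (step_sound _ 99 [(rh2e1974493f032c80.shift 2 0), (rhb2a0b9ccfb5cecd5.shift 0 2)] (by decide +kernel))
noncomputable def rhbc5c2f309f23c253 : CRef := CRef.mk (Pat.mk 0x120000001e0000000000000000000000000000000000000000 0x5000000070000000700000007000000070000001e0000001e0000000300000007000000070000000700000005 9 5) 0 0 (step_sound _ 129 [rh7dd0fcc09b49d7bb, (rheb0810cc63b001d8.shift 0 4)] (by decide +kernel))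
noncomputable def rhce9f296714da2daa : CRef := CRef.mk (Pat.mk 0x6000000030000000000000000000000000 0x500000007f000000fe000000fe0000007c00000030000000300000003000000030 9 8) 0 0 (step_sound _ 165 [(rh68a777751bfeafdf.shift 4 2), (rh696e4b2d4403ab50.shift 2 0), (rh7a7e08304268422e.shift 4 2), (rh976a48eb1c80a12f.shift 4 2), (rhdbb1046ae8740e38.shift 0 3)] (by decide +kernel))
noncomputable def rh2e01302aaf2a1dd3 : CRef := CRef.mk (Pat.mk 0x480000000c0000004000000000000000000000000000000000 0x140000001c0000001e0000000f0000007e0000000f0000007c0000003c0000001c0000001c00000010 9 7) 0 0 (step_sound _ 196 [(rh361cc68994bd8a63.shift 2 5), rh9ca81fc7eafca0fb] (by decide +kernel))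
noncomputable def rh1fd13ed54ec1245f : CRef := CRef.mk (Pat.mk 0x400000000c00000048000000000000000000000000 0x40000001c0000001c0000001c0000007c0000000f00000078000000180000001800000010 9 7) 0 0 (step_sound _ 100 [rh2832baeff091a0bc, (rh2fe78cc5ca4405d8.shift 2 3)] (by decide +kernel))
noncomputable def rh213fa62c06bc935c : CRef := CRef.mk (Pat.mk 0x38000000200000003800000000000000000000000000000000 0x100000003800000038000000380000001c0000001f0000003c0000001c 9 6) 0 0 (step_sound _ 99 [(rh769c4338c227ba0a.shift 2 1), (rh7d7eaefe27cdd7b0.shift 3 3), (rhb7baffa3acbb3123.shift 3 2), rhec64a586f25bb7f2] (by decide +kernel))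
noncomputable def rh6b7e24136e2509ce : CRef := CRef.mk (Pat.mk 0x7000000040000000400000000000000000 0x140000001c0000001c0000000f0000007e0000007f0000007c0000001c00000004 9 7) 0 0 (step_sound _ 131 [(rh0de499e0455c9c14.shift 1 3), (rh159d2c9ab420c97c.shift 2 0), (rh36eba2a3de447758.shift 0 3), (rh775ca1963e850b80.shift 1 3), (rhd1d05263fabc0227.shift 1 3)] (by decide +kernel))
noncomputable def rh83692b69a36621d2 : CRef := CRef.mk (Pat.mk 0x300000002000000020000000000000000000000000 0x3000000038000000ff0000007e0000007f00000050 9 8) 0 0 (step_sound _ 69 [(rh6eff4158bb400f47.shift 4 0), (rh96b735175f692bff.shift 0 1), (rha613ffd40b6c9d24.shift 4 0), (rhe4441baab75a6f73.shift 4 0)] (by decide +kernel))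
noncomputable def rh171d3ccfd1c4d123 : CRef := CRef.mk (Pat.mk 0x18000000300000001000000000000000000000000000000000 0x1e0000003e000000770000003e0000003f0000003800000028 9 7) 0 0 (step_sound _ 193 [rh1f2fb4b4d66a9d38, (rhab22b5b56e7b3243.shift 1 5)] (by decide +kernel))
noncomputable def rh2a15bad9dd190b02 : CRef := CRef.mk (Pat.mk 0xc00000009a000000b0000000000000000000000000 0x20000000780000007800000078000000d8000000db000000bf0000002f0000000c00000004 9 8) 0 0 (step_sound _ 198 [rh1bdf217f2f5c8138, (rhe072fffdd2fccf38.shift 6 3)] (by decide +kernel))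
noncomputable def rh57b9c88e37466b8b : CRef := CRef.mk (Pat.mk 0x60000001600000006000000000000000000000000 0x280000003b0000003b0000003e000000160000003e0000003b0000003f00000028 9 6) 0 0 (step_sound _ 100 [(rh03153d0859b1137f.shift 0 2), (rh5610213daa1b6928.shift 0 1), rhe0487d4c002a15f7] (by decide +kernel))
noncomputable def rh119413da59a818ff : CRef := CRef.mk (Pat.mk 0x60000001600000006000000000000000000000000 0x2800000038000000380000003f000000160000003e0000003b0000003f00000028 9 6) 0 0 (step_sound _ 100 [rh013e7e31299d95f9, (rh4a3ba4a889b0aa0d.shift 1 1), (rh5610213daa1b6928.shift 0 1)] (by decide +kernel))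
noncomputable def rh253476109c64ddf8 : CRef := CRef.mk (Pat.mk 0x580000005300000012000000000000000000000000 0x800000008c000000cc000000fe0000005b000000fe000000ec000000e8000000a0 9 8) 0 0 (step_sound _ 99 [rh4c3671d8fdb5d6e7, (rh5419adcd928dba20.shift 0 3)] (by decide +kernel))
noncomputable def rh37e5e75fbd82561b : CRef := CRef.mk (Pat.mk 0x14000000140000000600000000000000000000000000000000 0x28000000380000003800000034000000160000003e0000007b0000003e0000003a00000020 9 7) 0 0 (step_sound _ 132 [(rh3db5f7178a0e5bc6.shift 1 2), (rh5021f0ed06b32c6c.shift 1 1), (rh61ee5ba52d1904f1.shift 3 2), (rh6411fc036c85f6dc.shift 0 1), rh8709a8d5cbb13fd6, (rhe540f3fdb3162fca.shift 1 0)] (by decide +kernel))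
noncomputable def rhdc059bbfc35a17a0 : CRef := CRef.mk (Pat.mk 0x500000005b00000012000000000000000000000000 0x20000000f00000005b000000fe000000ec000000e8000000a0 9 8) 0 0 (step_sound _ 99 [(rh5419adcd928dba20.shift 0 3), (rh5e5c883489c18f65.shift 2 0)] (by decide +kernel))
noncomputable def rh9eac783c4eec200d : CRef := CRef.mk (Pat.mk 0x1e000000120000000000000000000000000000000000000000 0x5000000070000000700000007000000030000001e0000001e0000000700000007000000070000000700000005 9 5) 0 0 (step_sound _ 225 [(rh3244c3cc8379b070.shift 0 6), rh867717c91c782956] (by decide +kernel))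
noncomputable def rh251c0f0c87da70db : CRef := CRef.mk (Pat.mk 0x300000006000000000000000000000000000000000 0x300000003000000030000000300000007c000000fe000000fe0000007f00000050 9 8) 0 0 (step_sound _ 101 [(rh01483ff9cba2f6ac.shift 4 0), (rh524dd40e00a932b0.shift 2 1), (rh56259dd1390eee46.shift 4 0), rhca2a506d6f2037fc, (rhd1779d7de7f8215b.shift 4 0)] (by decide +kernel))
noncomputable def rh2136ac97d617f4a2 : CRef := CRef.mk (Pat.mk 0x400000000c0000004800000000000000000000000000000000 0x100000001c0000001c0000003c0000007c0000000f0000007e0000000f0000001e0000001c00000014 9 7) 0 0 (step_sound _ 132 [(rh2fe78cc5ca4405d8.shift 2 4), rhf9625a8f6cfa87d9] (by decide +kernel))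
noncomputable def rh56031d3be2fe7669 : CRef := CRef.mk (Pat.mk 0x10000000500000005800000042000000000000000000000000 0xa0000000e0000000f800000050000000780000006f000000f8000000e800000080 9 8) 0 0 (step_sound _ 198 [(rh20966da26a1c2ae8.shift 5 2), (rh2c718f29f451ad95.shift 3 3), (rh771d065bdc85bf2d.shift 5 2), rh9097ff079cc91439] (by decide +kernel))
noncomputable def rhc19d30c3a9a04a01 : CRef := CRef.mk (Pat.mk 0x50000000530000005200000002000000000000000000000000 0x280000006c000000f80000005b000000de000000ef000000fc000000e800000080 9 8) 0 0 (step_sound _ 131 [(rh5419adcd928dba20.shift 0 4), rhc97d122e381eb1e2] (by decide +kernel))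
noncomputable def rhaf4918c203c0bc09 : CRef := CRef.mk (Pat.mk 0x50000000530000005200000000000000000000000000000000 0x80000000e0000000f80000005b0000005e00000068000000f8000000e800000080 9 8) 0 0 (step_sound _ 131 [(rh5419adcd928dba20.shift 0 4), (rhd1b713fac0441705.shift 3 0)] (by decide +kernel))
noncomputable def rh4ff759c4086950aa : CRef := CRef.mk (Pat.mk 0x500000005300000052000000000000000000000000 0x80000003c0000000f80000005b000000de000000e8000000f800000028 9 10) 0 0 (step_sound _ 198 [(rh0363d47a46978688.shift 3 3), rh4c7ecf213f21fb53] (by decide +kernel))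
noncomputable def rhe72c52b2249ebb1c : CRef := CRef.mk (Pat.mk 0x5000000053000000520000000200000000 0x20000000e0000000e8000000e8000003ec000003fc0000005b0000005e0000000f0000000c 9 10) 0 0 (step_sound _ 166 [(rh0363d47a46978688.shift 3 2), (rh1741680720c097b4.shift 5 2), (rh2ace414d8183e76e.shift 2 2), rhc8375744fa84e1b9] (by decide +kernel))
noncomputable def rh89c60b1ada5d1951 : CRef := CRef.mk (Pat.mk 0x4000000140000001e00000000000000000000000000000000 0x2800000038000000380000003e000000140000001e0000003b0000003e0000003a00000020 9 6) 0 0 (step_sound _ 100 [rh88a545f133649fdc, (rhe25b0a99195a5d59.shift 1 3)] (by decide +kernel))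
noncomputable def rh7f28b2545cbf0018 : CRef := CRef.mk (Pat.mk 0x380000002000000020 0xa0000000e0000001e0000001f0000001f0000003e0000003f00000024 9 6) 0 0 (step_sound _ 66 [(rh0de499e0455c9c14.shift 0 1), (rh592c7139d2c44767.shift 0 1), rhce5bcebd56b0adeb, (rhd1d05263fabc0227.shift 0 1)] (by decide +kernel))
noncomputable def rhd01362c5da025252 : CRef := CRef.mk (Pat.mk 0x10000000120000001a00000002000000020000000000000000000000000000000000000000 0x100000001a0000001a0000000f0000000b0000000f00000007000000070000000700000005 9 5) 0 0 (step_sound _ 195 [rh30305d136c4e797b, (rhf9af042da61fc652.shift 3 4)] (by decide +kernel))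
noncomputable def rh3b6b208594539e59 : CRef := CRef.mk (Pat.mk 0x20000001a00000000000000000000000000000000000000000000000000000000 0x10000000100000003000000030000001f00000007000000070000000700000007000000070000000700000005 9 5) 0 0 (step_sound _ 193 [(rh01e48cd9f335aa73.shift 0 6), rh20283759a95f39c9, (rh5c8c873042790be0.shift 0 3), (rhe8a9e0e6037b7c6e.shift 0 5)] (by decide +kernel))
noncomputable def rh9d687e2f15c78b67 : CRef := CRef.mk (Pat.mk 0x20000001a00000000000000000000000000000000000000000000000000000000 0x50000000700000007000000030000001f00000007000000070000000700000007000000070000000700000005 9 5) 0 0 (step_sound _ 193 [(rh01e48cd9f335aa73.shift 0 6), rh20283759a95f39c9, (rh7a3105e5f8daf74a.shift 0 4), (rhe8a9e0e6037b7c6e.shift 0 5)] (by decide +kernel))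
noncomputable def rhe7dcdc473b9dc3b8 : CRef := CRef.mk (Pat.mk 0x80000006800000000000000000000000000000000000000000000000000000000 0x100000001c0000001c0000001c000000180000007c0000001f0000003c0000001c0000001c0000001c0000001c00000014 9 7) 0 0 (step_sound _ 195 [(rh0298b1720d80075f.shift 2 3), (rh1139d6bf4d5e5990.shift 2 0), (rh5c8c873042790be0.shift 2 3), (rh7a3105e5f8daf74a.shift 2 4), (rh965eaf349fbb9573.shift 2 4), (rhc200196990728314.shift 0 3), (rhec5c45900e0e4fe3.shift 2 5)] (by decide +kernel))
noncomputable def rh8dd0ce43d96e5fed : CRef := CRef.mk (Pat.mk 0x20000000200000002000000000 0x50000000700000007e000000fe0000007f000000300000003000000010 9 8) 0 0 (step_sound _ 133 [(rh1741680720c097b4.shift 4 1), (rh193da7fc9e1674f1.shift 4 0), (rh20966da26a1c2ae8.shift 4 0), rh3cdfc95b8a6c8f07, (rh771d065bdc85bf2d.shift 4 0)] (by decide +kernel))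
noncomputable def rh10f9afa30d0552cb : CRef := CRef.mk (Pat.mk 0x80000006800000000000000000000000000000000000000000000000000000000 0x140000003c0000007c0000001f0000007c0000001c0000001c0000001c0000001c00000014 9 7) 0 0 (step_sound _ 195 [(rh01e48cd9f335aa73.shift 2 6), (rhb87c81b4d8d5df91.shift 2 3), (rhb9a02b14ad2280dd.shift 2 3), rhd2824b026a0ea136] (by decide +kernel))
noncomputable def rhce0192ecc6945315 : CRef := CRef.mk (Pat.mk 0x80000006800000000000000000000000000000000000000000000000000000000 0x140000001c0000001c0000001c000000180000007c0000001f0000007c0000001c0000001c0000001c0000001c00000014 9 7) 0 0 (step_sound _ 195 [(rh079ae9ddbbf0d88b.shift 2 4), (rh4b1460bf4627e9b3.shift 2 4), (rh75f553ebfb1a0a2a.shift 2 0), (rhb047b58c6647e019.shift 2 3), rhd2824b026a0ea136, (rhec5c45900e0e4fe3.shift 2 5)] (by decide +kernel))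
noncomputable def rh17094cdda5667e1e : CRef := CRef.mk (Pat.mk 0x100000001000000010000000000000000000000000 0x800000018000000180000007e0000007e0000003f00000028 9 7) 0 0 (step_sound _ 68 [(rh6eff4158bb400f47.shift 3 0), (rh8ff3dde5b1c639e0.shift 3 0), (rhc4526fc8abf298b6.shift 3 0), (rhcc3d89bc571f34f7.shift 0 1)] (by decide +kernel))
noncomputable def rhc8f539a77ddbcae9 : CRef := CRef.mk (Pat.mk 0x800000008000000680000000800000000 0x170000003f0000003f0000006c0000001c00000014 9 7) 0 0 (step_sound _ 130 [(rh50fbb5868c909700.shift 2 1), rhbd422f78fde663fb] (by decide +kernel))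
noncomputable def rh852e1b80fac33018 : CRef := CRef.mk (Pat.mk 0x100000005300000052000000020000000000000000 0x110000005b0000005e0000006b0000007e0000007c 9 7) 0 0 (step_sound _ 99 [(rh5419adcd928dba20.shift 0 3), rhd2aeb162551083e7] (by decide +kernel))
noncomputable def rh45ab23f1ba0f00e1 : CRef := CRef.mk (Pat.mk 0x10000000130000005200000000000000000000000000000000 0x110000001b0000007e0000000f0000000f0000000f00000005 9 7) 0 0 (step_sound _ 131 [(rh5419adcd928dba20.shift 0 4), rh5bf21aa5f1a04c87] (by decide +kernel))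
noncomputable def rh180115af8c5a2dd9 : CRef := CRef.mk (Pat.mk 0x218000002d0000002000000000000000000000000000000000000000000 0x1c0000003c0000000f00000218000007d800001f18000007d000000700000007000000070000000500 9 13) 0 0 (step_sound _ 137 [(rh8cdd36b03d57a2f6.shift 8 2), (rha3a5b6818f489b0e.shift 0 3), (rhab368c85ddd97094.shift 6 1), (rhe39d8df881a686a0.shift 6 3), (rhfb57a5aeef790bbe.shift 6 0)] (by decide +kernel))
noncomputable def rh9044579a921e2f6a : CRef := CRef.mk (Pat.mk 0x1000000110000000300000001000000000 0x2f000000fe000001de000000340000001e00000008 9 9) 0 0 (step_sound _ 35 [(rh932754581e0f4330.shift 3 0), (rhd70fdbdd3c7facf2.shift 0 1)] (by decide +kernel))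
noncomputable def rhc02d852f5797995b : CRef := CRef.mk (Pat.mk 0x140000001400000016000000000000000000000000 0x2a0000003a000000fb0000001f00000016000000360000003a0000003e0000000a 9 8) 0 0 (step_sound _ 196 [(rh1741680720c097b4.shift 3 3), (rh8ff3dde5b1c639e0.shift 3 1), (rhb034511df68c2fcf.shift 1 3), (rhc6d870872cf7a4df.shift 1 0), (rhe24d232492d0a6ae.shift 0 2)] (by decide +kernel))
noncomputable def rh5ab2b369f8ed4068 : CRef := CRef.mk (Pat.mk 0xa0000000a0000000b00000000000000000000000000000000 0x10000000180000001a0000000b0000001b0000001d0000001f0000001d00000010 9 5) 0 0 (step_sound _ 99 [rh1a687c16a49d3c24, (rh41b634482c33837b.shift 0 1), (rh4a38b3b3b5efb383.shift 2 1), (rhced6d86d2069808b.shift 3 2)] (by decide +kernel))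
noncomputable def rh6f0a164fd07ed42f : CRef := CRef.mk (Pat.mk 0x10000000180000010000000000 0x280000003c0000003e000000ff000000ff000000fe000001ce00000008 9 9) 0 0 (step_sound _ 101 [(rh0bb882ba86b2372d.shift 1 2), (rh1c470a944acb319b.shift 1 0), (rh574fdbf07bdd18b9.shift 1 2), (rh63b4356b753a8e7c.shift 0 1)] (by decide +kernel))
noncomputable def rh83d0e9b5375b65a9 : CRef := CRef.mk (Pat.mk 0x10000000180000010000000000 0x280000003c0000003c000000ff000000ff000000fe000001ce00000004 9 9) 0 0 (step_sound _ 101 [(rh0bb882ba86b2372d.shift 1 2), (rh574fdbf07bdd18b9.shift 1 2), (rh63b4356b753a8e7c.shift 0 1), (rh93cfe605a6cfcbb7.shift 1 0)] (by decide +kernel))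
noncomputable def rh8c7b14d7723dacc4 : CRef := CRef.mk (Pat.mk 0x2000000038000000000000007000000240 0x28000000280000002f0000007c0000001e00000074000003d0 9 10) 0 0 (step_sound _ 68 [(rh71222050f2c63a3a.shift 4 0), rhafd364ec7e69465b] (by decide +kernel))
noncomputable def rh2194d5aed4651c9d : CRef := CRef.mk (Pat.mk 0x400000006000000400000000c000000480 0x30000003ff000003fe0000071f000000f800000798 9 11) 0 0 (step_sound _ 8 [(rh2fe78cc5ca4405d8.shift 6 0), rhbd5247e30ba47ccf] (by decide +kernel))
noncomputable def rh5fc0f045c856198c : CRef := CRef.mk (Pat.mk 0x2000000220000000600000024000000000 0x5e000001fe000003bf0000007c000003fc0000001c 9 10) 0 0 (step_sound _ 37 [(rh0dbd3b11c4ccf994.shift 2 0), (rh49dc6ff8ea18768c.shift 2 0), (rhd0c84b89b0b69dae.shift 0 1)] (by decide +kernel))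
noncomputable def rh50f5746c855e5dd3 : CRef := CRef.mk (Pat.mk 0x280000020800000068000000c0000000000000000000000000 0x1cc000001f80000039c0000006f000000fc000001dc0000001c0000001c 9 10) 0 0 (step_sound _ 196 [(rh00a864f2ef4b31d8.shift 2 5), (rh4c31972280a3e7ef.shift 2 0), rhf6c8d0449fbe3691] (by decide +kernel))
noncomputable def rh36dad60d83bd79ff : CRef := CRef.mk (Pat.mk 0xa000000820000001a0000003000000000000000000000000000000000 0x2000000720000007f000000e70000001b0000003f00000077000000070000000700000005 9 8) 0 0 (step_sound _ 129 [(rha893ef807ce322b1.shift 0 3), (rhd0b5e121ccd1e6a2.shift 0 3), (rhd630af2e39ca770f.shift 0 3), rhdaeccdbc26f7f25e, (rhe520c97f67e4a7f2.shift 0 1)] (by decide +kernel))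
noncomputable def rhdd277f1d3be75ee5 : CRef := CRef.mk (Pat.mk 0x1c00000034000000000000000000000000 0x1c0000003f000000770000003e0000003e 9 7) 0 0 (step_sound _ 99 [(rh1377246c8c242c5d.shift 1 0), (rhcc2be1f880c5ea3e.shift 0 2), (rhe153806bfe3acc65.shift 0 2)] (by decide +kernel))
noncomputable def rh84704b884b5d4bbc : CRef := CRef.mk (Pat.mk 0x20000000200000002000000000 0x500000007e000000fe0000007f000000300000003000000010 9 8) 0 0 (step_sound _ 133 [(rh20966da26a1c2ae8.shift 4 0), (rh771d065bdc85bf2d.shift 4 0), rh8c175e8c35ce1ec9, (rhc85cc95794737cf7.shift 4 1)] (by decide +kernel))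
noncomputable def rhdd94c6fbbc655c99 : CRef := CRef.mk (Pat.mk 0x14000000000000003400000060000000000000000000000000 0x20000000e0000000e0000003e0000003700000006000000360000007e000000ee0000000e0000000a 9 8) 0 0 (step_sound _ 162 [(rh3b6da4ffa73d5ee4.shift 1 1), (rh61225f19dbdc612e.shift 1 0), (rha55649fe7258229b.shift 1 0), (rhec2bb14d2e449cf3.shift 0 3), (rhefe6e5e7209ee476.shift 1 2), (rhf67d12c2dccaf5d2.shift 1 2)] (by decide +kernel))
noncomputable def rh4a966d1376555245 : CRef := CRef.mk (Pat.mk 0x38000000000000000000000000 0xa0000000e0000000e0000007f0000003e0000000f0000000c0000000c 9 7) 0 0 (step_sound _ 98 [(rh4c622fddc53a5f99.shift 0 3), (rh592c7139d2c44767.shift 0 2), (rh9e97bba44c1b13e4.shift 0 2), (rhd75013dc52fe4dbe.shift 1 0)] (by decide +kernel))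
noncomputable def rhb0f4e20aaf0af4c9 : CRef := CRef.mk (Pat.mk 0x1e0000000000000000 0x400000007000000070000000f0000003f0000001e0000000700000004 9 6) 0 0 (step_sound _ 97 [(rh3244c3cc8379b070.shift 0 2), rhca5a3450947b29b5] (by decide +kernel))
noncomputable def rh3c929a276fab5616 : CRef := CRef.mk (Pat.mk 0x7000000000000000c000000180 0x1ce000001fe0000003f000000f0000001a0 9 9) 0 0 (step_sound _ 37 [rh4e46b76d18650bf6, (rhb739f4f82bb681b4.shift 4 0)] (by decide +kernel))
noncomputable def rh5afaa066b10cf5de : CRef := CRef.mk (Pat.mk 0x280000020000000060000000c000000000 0x4000001ff000001fe0000038f00000078000000fc0000001c 9 10) 0 0 (step_sound _ 67 [rh3a21753ce8e9e620, (rhab22b5b56e7b3243.shift 3 1)] (by decide +kernel))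
noncomputable def rhb4fe0617d4021d44 : CRef := CRef.mk (Pat.mk 0x2000000200000000200000006000000000 0x5e000001fe000003bf000000200000006000000040 9 10) 0 0 (step_sound _ 101 [(rh55afc6a59410cf00.shift 5 0), (rhd0c84b89b0b69dae.shift 0 1)] (by decide +kernel))
noncomputable def rhb85412c3674fda72 : CRef := CRef.mk (Pat.mk 0x2000000200000000200000003000000000 0x5e000001fe000003bf000000200000003000000010 9 10) 0 0 (step_sound _ 101 [(rh932754581e0f4330.shift 4 0), (rhd0c84b89b0b69dae.shift 0 1)] (by decide +kernel))
noncomputable def rh02c8900a4bb2aee3 : CRef := CRef.mk (Pat.mk 0x1000000100000000380000003800000000 0xef000000fe000001df000000380000003e00000006 9 9) 0 0 (step_sound _ 131 [(rhb0453f21e70803bf.shift 1 0), (rhb8a199cf31a866f3.shift 0 1), (rhdb2909ac5c854515.shift 3 1), (rhf4640fe56c5e5a5b.shift 1 0)] (by decide +kernel))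
noncomputable def rh0ccae6f8ac2fa539 : CRef := CRef.mk (Pat.mk 0x800000000000000180000001000000000 0xc0000000c0000000e0000001f0000001f00000017 9 5) 0 0 (step_sound _ 99 [rh1276910a2c206cfd, (rh2145e1d24b96a57e.shift 3 1)] (by decide +kernel))
noncomputable def rh632f603f79ac3553 : CRef := CRef.mk (Pat.mk 0x2000000020000000600000002 0x50000000700000007000000060000000700000007000000070000000600000002 9 3) 0 0 (step_sound _ 130 [(rhbaefcd01e0a8bca3.shift 1 0), rhe759b6a7f2166f7e] (by decide +kernel))
noncomputable def rhfa3776b8b12972d6 : CRef := CRef.mk (Pat.mk 0x100000001000000070000000d0000000000000000000000000 0xe8000000fc0000003f00000070000000f0000001a00000008000000080 9 9) 0 0 (step_sound _ 101 [rh24fdfc38e02f2ad4, (rh55afc6a59410cf00.shift 4 2)] (by decide +kernel))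
noncomputable def rhbfa40473e9914112 : CRef := CRef.mk (Pat.mk 0x800000000000000380000006000000000000000000000000000000000 0x140000001c0000001c000000180000007c0000001f000000380000007f0000001c0000001c0000001c00000014 9 7) 0 0 (step_sound _ 195 [(rh046c5eb18e55a239.shift 3 2), (rh70e33bfdf511e144.shift 3 2), rh9ee07d9e6562d233, (rhf6ca3c18e3f5ead9.shift 3 4), rhfbefa303347a40ab] (by decide +kernel))
noncomputable def rh6d94e1fa7d25aaa3 : CRef := CRef.mk (Pat.mk 0x80000000800000038000000200000000000000000 0x1c000000ff000000ff0000001f00000038000000280000000800000008 9 8) 0 0 (step_sound _ 132 [(rh28152048bc8b598f.shift 0 2), (rh4f89f797aa397115.shift 3 2), (rh70e1ae7d5bbbbf54.shift 1 0), (rhbd3f7aaa5b31687a.shift 0 1), (rhd2080ece698416bd.shift 0 1)] (by decide +kernel))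
noncomputable def rh99db9166e2744bad : CRef := CRef.mk (Pat.mk 0x400000000000000180000003000000000000000000000000000000000 0xa0000000e0000000e0000000c0000000c0000001e0000003f0000000e0000000e0000000e0000000a 9 6) 0 0 (step_sound _ 162 [rh0b9139bcbc059e8b, (rhb739f4f82bb681b4.shift 1 4)] (by decide +kernel))
noncomputable def rh2d55b6f5f9909d1b : CRef := CRef.mk (Pat.mk 0x3000000200000000680000004000000000 0x80000000c000001ef000001fe000003af0000006c0000007c0000001c 9 10) 0 0 (step_sound _ 165 [rh810ed33b9c57137c, (rhff0f29cb645b05f7.shift 5 1)] (by decide +kernel))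
noncomputable def rh5d29b8698bc5603a : CRef := CRef.mk (Pat.mk 0x18000001000000003400000060000000000000000000000000 0x2000000ef000000fe000001d7000000360000007e0000001e0000000800000008 9 9) 0 0 (step_sound _ 100 [(rh06594b93ba6a6bda.shift 0 3), (rh5a1050b7247bea0e.shift 1 0), (rhc659621193c2a0fe.shift 1 2), (rhcc5ab90388f799eb.shift 0 2)] (by decide +kernel))
noncomputable def rh40a62fb43984b0d6 : CRef := CRef.mk (Pat.mk 0x6000000400000000100000000000000000 0x80000003c0000003c000003ff000003fe0000071f000000180000001800000008 9 11) 0 0 (step_sound _ 132 [(rh0072194a60901f33.shift 1 2), (rh44b32d1fade952d3.shift 1 0), (rh74cc4263e5191d83.shift 1 3), (rh8b7ec1b2b48007ba.shift 2 3), (rh938751a9eac52fdd.shift 3 1), (rha385b7e569ce0aff.shift 0 1), (rhd427cfd0dc02f81c.shift 1 2)] (by decide +kernel))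
noncomputable def rh1dad4622b44b500b : CRef := CRef.mk (Pat.mk 0x2000000020000000600000000000000000000000000000000 0x50000000700000007000000070000000700000003000000070000000600000003000000070000000700000005 9 3) 0 0 (step_sound _ 225 [rh5b30dba9957872e4, (rh5bd4bc0c2c48140c.shift 0 4), (rh73f605273a09a9d0.shift 1 4), (rh7b36464026668db6.shift 0 3), (rhba97f7f4ade5e136.shift 0 4)] (by decide +kernel))
noncomputable def rh155e15ebc05dcabe : CRef := CRef.mk (Pat.mk 0x800000008000000380000000000000000000000000000000000000000 0x140000001c0000001c0000001c0000000c0000001c0000001f000000380000000c0000000c0000001c0000001c00000014 9 6) 0 0 (step_sound _ 131 [(rh97c29639673a5412.shift 2 4), (rhc4526fc8abf298b6.shift 2 2), (rhcba2557ba2a81cae.shift 2 0), (rhd716e2ab31203e19.shift 0 3)] (by decide +kernel))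
noncomputable def rh170ec49f9f5a07f5 : CRef := CRef.mk (Pat.mk 0x1000000010000000700000001000000000 0x2f000000fe0000003e000000740000001e00000008 9 8) 0 0 (step_sound _ 98 [(rh075211c3608a5a57.shift 1 2), (rh4e95ff6e5f5780a1.shift 2 1), rhb5ddd0b817a70aca] (by decide +kernel))
noncomputable def rhcdad6ad63f3d333d : CRef := CRef.mk (Pat.mk 0x180000000c00000000 0xe0000000f0000007f0000007e0000007c00000004 9 7) 0 0 (step_sound _ 69 [(rh18965a982d73c794.shift 2 1), rhb51026332be4f3ca] (by decide +kernel))
noncomputable def rh64ba6e7e541da84c : CRef := CRef.mk (Pat.mk 0x700000000000000000 0x100000001c0000001e0000003e000000ff0000007e0000001f00000004 9 8) 0 0 (step_sound _ 67 [rh3d40c39e665f4252, (rh592c7139d2c44767.shift 1 1), (rh61325f73ebf98108.shift 1 2), (rh614614d4afb09d1b.shift 2 1), (rh9e97bba44c1b13e4.shift 1 1)] (by decide +kernel))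
noncomputable def rh47c5f47df814b7f9 : CRef := CRef.mk (Pat.mk 0x6000000420000000c00000000000000000 0x3000000030000003be000003fe0000077f000000c00000004000000040 9 11) 0 0 (step_sound _ 102 [(rh2ea805e6ad9a2539.shift 3 0), (rh3cb04db3dd2b6a55.shift 5 0), (rhbc286b80ee9664de.shift 0 2)] (by decide +kernel))
noncomputable def rhd9b623ab05c3e9e7 : CRef := CRef.mk (Pat.mk 0x600000042000000040000000000000000000000000 0x3000000030000003be000003fe0000073f00000060000000600000006000000040 9 11) 0 0 (step_sound _ 167 [rh83a10de96baa52fb, (rhcd92c9961d7f9922.shift 3 4), (rhcf4316681f1a3ab1.shift 4 4)] (by decide +kernel))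
noncomputable def rh0e2ea0b633287d00 : CRef := CRef.mk (Pat.mk 0x30000002000000006000000040 0x4000001ef000001fe000003bf0000006800000068 9 10) 0 0 (step_sound _ 69 [(rh2145e1d24b96a57e.shift 5 0), rh6f6f1e21e018fde9] (by decide +kernel))
noncomputable def rh7afde92a36ebdf7f : CRef := CRef.mk (Pat.mk 0x6000000440000000c000000000 0x80000003800000038000003bf000003ff0000077f000000d000000010 9 11) 0 0 (step_sound _ 100 [(rh01c24e918bd12a7d.shift 3 1), rh037c64109c72a7f4, (rh3867295c14ae187b.shift 1 2), (rh52880b774d2ce572.shift 1 0), (rhf4fc63ae4deed1fa.shift 0 2)] (by decide +kernel))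
noncomputable def rh015be9f830d3e6a6 : CRef := CRef.mk (Pat.mk 0x380000000000000000 0xe0000000e0000007f0000003e0000000f0000000c 9 7) 0 0 (step_sound _ 66 [(rh4c622fddc53a5f99.shift 0 2), (rh592c7139d2c44767.shift 0 1), (rh7db7945beb4d3953.shift 1 0), (rh9e97bba44c1b13e4.shift 0 1)] (by decide +kernel))
noncomputable def rh7823967849a352dd : CRef := CRef.mk (Pat.mk 0xe00000080 0x400000007000000070000000f0000007f0000007e000000e7 9 8) 0 0 (step_sound _ 36 [(rh0f1f75917d11acd2.shift 1 0), rh4189d026c588653f, rh614614d4afb09d1b] (by decide +kernel))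
noncomputable def rhad9967df9efa1b91 : CRef := CRef.mk (Pat.mk 0x1000000018000000080000000000000000 0xc0000000c000000ee000000ff0000001f0000000f0000000c0000000c 9 8) 0 0 (step_sound _ 35 [(rh71222050f2c63a3a.shift 3 0), rh8584abe4937ed0be] (by decide +kernel))
noncomputable def rh668f8121f5786575 : CRef := CRef.mk (Pat.mk 0x1000000008000000700000004000000000000000000000000000000000 0xc0000000c000000ef000000ff0000003f000000700000007000000030000000380000003800000028 9 8) 0 0 (step_sound _ 196 [(rh102693511df8148b.shift 3 0), (rh5c2a4b5f6d90b7cd.shift 0 3), (rhc02b3aee7ab87ee1.shift 1 5), (rhc55f41ccd8b45a01.shift 2 3)] (by decide +kernel))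
noncomputable def rhb3781d57753246af : CRef := CRef.mk (Pat.mk 0x800000004000000300000006000000000000000000000000000000000 0x740000007c0000001f0000003c000000780000001c0000001c0000001c00000014 9 7) 0 0 (step_sound _ 163 [rh512606f6fc503a73, (rhb739f4f82bb681b4.shift 2 4)] (by decide +kernel))
noncomputable def rh20bebbc4b580893d : CRef := CRef.mk (Pat.mk 0x8000000040000003000000060000000000000000000000000 0x100000001a0000001f0000003e0000007e000000de000000fe0000007a 9 8) 0 0 (step_sound _ 100 [(rh1ba100fa74da1424.shift 1 0), (rh60a05b51c90bcdc0.shift 0 1), (rh653c2f629cf21262.shift 1 0), (rh71318739ecbc3ffb.shift 1 0), (rhb35d3c4db5432292.shift 1 0), (rhe891d25979c9ca08.shift 1 0)] (by decide +kernel))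
noncomputable def rh0e6ce4471099e5f6 : CRef := CRef.mk (Pat.mk 0x2000000018000000d00000008000000000 0x100000001c000000df000000ff0000005f000000dc0000009c0000001c 9 8) 0 0 (step_sound _ 131 [rh77ba2537ea5e0761, (rh7e1098702e50f2b0.shift 3 0), rhc196ef9a5d08f86a, (rhc2c7bae8f445c890.shift 3 0), (rhc38f566cab2818e5.shift 3 0)] (by decide +kernel))
noncomputable def rh139779e570dced32 : CRef := CRef.mk (Pat.mk 0x4000000030000001800000000000000000 0x40000001c0000001c0000001c0000007f000000fe0000019f0000001800000018 9 9) 0 0 (step_sound _ 102 [rh0ea3ea440c153f37, (rhd6e447e81774439e.shift 4 2)] (by decide +kernel))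
noncomputable def rh7efb8452582d0b28 : CRef := CRef.mk (Pat.mk 0x200000001800000010000000000000000000000000 0x8000000080000001c000000ff0000003e00000018000000380000003800000028 9 8) 0 0 (step_sound _ 164 [(rh0bb882ba86b2372d.shift 1 4), (rh2a04b5ad328c549a.shift 1 0), (rh67c0c01cfdea501c.shift 0 1), (rh69012675dfdb1a5b.shift 1 4)] (by decide +kernel))
noncomputable def rh1816782a5f15bd4c : CRef := CRef.mk (Pat.mk 0x4000000020000001a000000300000000000000000000000000000000000000000 0x1000000030000000f0000000e0000001b0000003f0000000f00000007000000070000000700000005 9 6) 0 0 (step_sound _ 161 [(rh3361ff6d52333ad4.shift 0 2), (rh5a5d3607c6105e7b.shift 0 3), (rh7b3443d2b62c19d2.shift 1 3), (rh841bfdd31e40da95.shift 0 2), rh847bf291850cc9bf, (rh984bfc6de6c2c524.shift 0 2)] (by decide +kernel))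
noncomputable def rhe4d29ea3095d0b88 : CRef := CRef.mk (Pat.mk 0x20000000100000001000000090000000000000000000000000 0x800000018000000780000001e0000001f000000ff0000001f0000000400000004 9 8) 0 0 (step_sound _ 196 [(rh771d065bdc85bf2d.shift 3 2), (rh9aab2e37f490e5ca.shift 1 2), rhc7c397f01ba039ac] (by decide +kernel))
noncomputable def rh461be3c9208b29b4 : CRef := CRef.mk (Pat.mk 0x4000000020000001a0000001200000000 0x400000006000000070000000300000007000000070000001b0000001f00000005 9 5) 0 0 (step_sound _ 34 [(rh7e2297059c77b3a4.shift 0 1), rh92f899eeb48e16c4, rha8de8032a0ea52d8, rhe380c42df720a63d] (by decide +kernel))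
noncomputable def rh30226732175edb26 : CRef := CRef.mk (Pat.mk 0x80000010000000038000000000000000000000000 0x140000001c0000007e000000fe000001cf000000380000001e0000001c00000010 9 9) 0 0 (step_sound _ 131 [(rh14e0829dc73b6804.shift 2 2), (rh663d4a76f19708dd.shift 0 1), (rh70e33bfdf511e144.shift 3 0), (rhe5c99c8a0a047532.shift 1 2)] (by decide +kernel))
noncomputable def rh719a6453141b1b61 : CRef := CRef.mk (Pat.mk 0x1c00000018000000000000000000000000 0x1c0000007e0000000f0000001c0000001e0000007c0000001c0000000c 9 7) 0 0 (step_sound _ 163 [(rh3e595262c1b737ad.shift 3 2), (rh57c2f33d7db628c6.shift 0 2), (rh9607ace265ad3036.shift 1 2), rha79c4945eba3fd96] (by decide +kernel))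
noncomputable def rh38146517a2dfdba0 : CRef := CRef.mk (Pat.mk 0x8800000098000000d8000000100000000000000000 0x40000008f000000df000000df0000007b0000004a00000048 9 8) 0 0 (step_sound _ 67 [(rhbf01dc6925d5c323.shift 0 1), (rhc4713ca36c943a51.shift 3 0), (rhdf997f77704b6375.shift 2 0)] (by decide +kernel))
noncomputable def rh6df361b1a908bc3e : CRef := CRef.mk (Pat.mk 0x1800000038000000000000000000000000 0x600000006000000060000001e0000003f0000007f0000000c0000000c 9 7) 0 0 (step_sound _ 130 [rh3ddcedc385338aa9, (rhb739f4f82bb681b4.shift 1 3)] (by decide +kernel))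
noncomputable def rhafecf3165f6f3745 : CRef := CRef.mk (Pat.mk 0x80000001800000018000000000000000000000000 0x40000000c0000001c0000001e0000007f0000001f0000000c 9 7) 0 0 (step_sound _ 68 [rh14c666cb37f3f3cc, (rh7b1f1fb55310c477.shift 3 1)] (by decide +kernel))
noncomputable def rh15dc36deb5997012 : CRef := CRef.mk (Pat.mk 0x1800000098000000000000000000000000 0x1c0000007c0000000e0000001f000000ff0000000f0000000400000004 9 8) 0 0 (step_sound _ 163 [(rh05607e02b2ff73f6.shift 0 2), rh0f35f4a725d7a12a, (rh5310c859a73a8d65.shift 0 2), (rhe2578de7dd7c1f79.shift 1 2)] (by decide +kernel))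
noncomputable def rh2d6f3dc42ca048c9 : CRef := CRef.mk (Pat.mk 0x1800000038000000100000000000000000 0xe0000000f0000001e0000003e0000007c0000006c00000020 9 7) 0 0 (step_sound _ 130 [(rhb739f4f82bb681b4.shift 1 3), rhceae4dfa56b77c97] (by decide +kernel))
noncomputable def rhda806c3ce0d1aa81 : CRef := CRef.mk (Pat.mk 0x1800000098000000100000000000000000 0x4000000040000001e000000ff0000007f0000006800000020 9 8) 0 0 (step_sound _ 101 [(rh2fe78cc5ca4405d8.shift 3 3), rhb4fceb9fafd3560d] (by decide +kernel))
noncomputable def rh296d9894f5ab38d6 : CRef := CRef.mk (Pat.mk 0x80000001800000098000000100000000000000000 0x40000000f0000001f000000df0000007f000000ef00000008 9 8) 0 0 (step_sound _ 67 [(rh51485200710abf14.shift 0 1), (rhbf01dc6925d5c323.shift 0 1), (rhdf997f77704b6375.shift 2 0), (rheee68c4e0e628a59.shift 0 1)] (by decide +kernel))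
noncomputable def rha23119798702f62f : CRef := CRef.mk (Pat.mk 0x8800000098000000d8000000000000000000000000 0x40000008c000000df000000df000000780000005c0000004c 9 8) 0 0 (step_sound _ 68 [(rh7b1f1fb55310c477.shift 3 1), rhadec02863b4b3a9c] (by decide +kernel))
noncomputable def rhe140dbcb7e2278fc : CRef := CRef.mk (Pat.mk 0x80000001800000098000000000000000000000000 0x800000018000000df0000007f000000fc0000001c 9 8) 0 0 (step_sound _ 67 [(rh4053c12da95c0aa0.shift 3 0), (rh46530d756bdf8511.shift 2 0), (rha298beecb8c016e1.shift 0 1)] (by decide +kernel))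
noncomputable def rh227452084ca0c62d : CRef := CRef.mk (Pat.mk 0x800000088000000180000001800000000 0x140000007e000000ef0000001f0000001f00000004 9 8) 0 0 (step_sound _ 34 [(rh932754581e0f4330.shift 2 0), (rhe7ba383ec7c8367c.shift 0 1)] (by decide +kernel))
noncomputable def rh6bdbc1cbcf6cfe17 : CRef := CRef.mk (Pat.mk 0x40000000c0000004c000000000000000000000000 0x2000000060000000f0000007f0000003e0000003e00000016 9 7) 0 0 (step_sound _ 100 [(rh2fe78cc5ca4405d8.shift 2 3), rh8eef53dd7c907163] (by decide +kernel))
end Crest.Agent.S0047.Helper85.Cert
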